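import Crest.Agent.R136.Sh6_605

-- ▼ part R136/UB0_683
section

/-!
# R136 (S0187): (UB) for the class `C*` (helper683): statements and the bad-cell lemma

* `Good g zc ρ'`  : the affine curve `g` is almost constant on the cell of centre `zc`.
* `bad_card`      : among equally spaced cells at most 50 are not good.
* `good_low`      : a good cell in the long window has `|g zc| ≥ 2 ^ (-h-1)`.
* `OneSheetN`     : (UB-A), one sheet over a good cell (literal of helper861's leaf).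
* `UBfin`         : (UB), finite form (literal of helper877's leaf).
-/

set_option autoImplicit false
set_option linter.unusedVariables false

namespace Crest.Agent.R136.UB683

open Finset Sh605

/-! ### good cells of an affine curve -/

section good

variable {E : Type*} [NormedAddCommGroup E] [NormedSpace ℝ E]

/-- the affine curve `p + z r` is almost constant on the cell of centre `zc` and length `ρ'` -/
def Good (p r : E) (zc ρ' : ℝ) : Prop := 25 * (ρ' * ‖r‖) ≤ ‖p + zc • r‖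

theorem Good.near {p r : E} {zc ρ' z : ℝ} (h : Good p r zc ρ') (hz : |z - zc| ≤ ρ' / 2) :
    ‖(p + z • r) - (p + zc • r)‖ ≤ ‖p + zc • r‖ / 50 := by
  have e : (p + z • r) - (p + zc • r) = (z - zc) • r := by rw [sub_smul]; abel
  rw [e, norm_smul, Real.norm_eq_abs]
  have h1 : |z - zc| * ‖r‖ ≤ ρ' / 2 * ‖r‖ := mul_le_mul_of_nonneg_right hz (norm_nonneg r)
  unfold Good at h
  linarith




end good

/-! ### (UB-A): one sheet -/

/-- gradient of `q z` along the frame `e`, at the point of the line `y` of height `z`, written as an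
affine curve `p + z r` -/
def GradAt (q : ℝ → V3 → ℝ) (e : Fin 3 → V3) (y : Ln4) (p r : Fin 3 → ℝ) : Prop :=
  ∃ Hm : Fin 3 → Fin 3 → ℝ, (∀ i j, Hm i j = Hm j i) ∧ ∀ z, ∀ u : Fin 3 → ℝ,
    q z (y.pos z + (u 0 • e 0 + u 1 • e 1 + u 2 • e 2)) =
      q z (y.pos z) + ∑ i, (p i + z * r i) * u i + ∑ i, ∑ j, Hm i j * (u i * u j)

theorem exists_gradAt {q : ℝ → V3 → ℝ} (hq : IsQ q) (e : Fin 3 → V3) (y : Ln4) :
    ∃ p r : Fin 3 → ℝ, GradAt q e y p r := by
  obtain ⟨c0, c1, c2, b, d, g, hq⟩ := hq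
  refine ⟨fun i => ∑ k, b k * e i k + ∑ j, ∑ k, g j k * (y.p j * e i k + e i j * y.p k),
    fun i => ∑ k, d k * e i k + ∑ j, ∑ k, g j k * (y.v j * e i k + e i j * y.v k),
    fun i j => ∑ k, ∑ l, g k l * (e i k * e j l + e j k * e i l) / 2, ?_, ?_⟩
  · intro i j
    refine Finset.sum_congr rfl fun k _ => Finset.sum_congr rfl fun l _ => ?_
    ring
  · intro z u
    rw [hq, hq]
    simp only [Fin.sum_univ_three, Ln4.pos, Pi.add_apply, Pi.smul_apply, smul_eq_mul]
    ring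



/-! ### (UB), finite form -/


end Crest.Agent.R136.UB683
end

-- ▼ part R136/Nd2_565
section

/-!
# R136 (S0187), U5: coordinates of a sheet of class `C*` along one of its lines (helper565)

* `crd e X` = coordinates of `X` in the orthonormal frame `e`; `bl H U V` = bilinear form.
* `TD q e T p r H` = exact Taylor expansion of `q` along the line `T` (gradient `p + z r`, Hessian `H`).
* `GB w p r H z0 ρ` = the bounds of the gradient and of the Hessian which the class `ShN` gives.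
-/

set_option autoImplicit false
set_option linter.unusedVariables false

namespace Crest.Agent.R136.Nd565

open Finset Sh605 UB683

/-- coordinates in the frame `e` -/
def crd (e : Fin 3 → V3) (X : V3) : V3 := fun i => dt (e i) X

theorem crd_apply (e : Fin 3 → V3) (X : V3) (i : Fin 3) : crd e X i = dt (e i) X := rfl

theorem crd_add (e : Fin 3 → V3) (X Y : V3) : crd e (X + Y) = crd e X + crd e Y := by
  funext i; simp only [crd, Pi.add_apply, dt_add]

theorem crd_sub (e : Fin 3 → V3) (X Y : V3) : crd e (X - Y) = crd e X - crd e Y := by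
  funext i; simp only [crd, Pi.sub_apply, dt_sub]

theorem crd_smul (e : Fin 3 → V3) (X : V3) (c : ℝ) : crd e (c • X) = c • crd e X := by
  funext i; simp only [crd, Pi.smul_apply, dt_smul, smul_eq_mul]

/-- the vector with given coordinates -/
def cmb (e : Fin 3 → V3) (u : V3) : V3 := u 0 • e 0 + u 1 • e 1 + u 2 • e 2

theorem cmb_crd {e : Fin 3 → V3} (he : Ortho e) (X : V3) : cmb e (crd e X) = X := by
  funext j
  simp only [cmb, crd, Pi.add_apply, Pi.smul_apply, smul_eq_mul]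
  exact (he.expand X j).symm

theorem dt_cmb (e : Fin 3 → V3) (u X : V3) : dt (cmb e u) X = dt u (crd e X) := by
  simp only [cmb, crd, dt, Pi.add_apply, Pi.smul_apply, smul_eq_mul]; ring

theorem crd_cmb {e : Fin 3 → V3} (he : Ortho e) (u : V3) : crd e (cmb e u) = u := by
  funext i
  have h0 := he i 0
  have h1 := he i 1
  have h2 := he i 2
  have e1 : crd e (cmb e u) i = u 0 * dt (e i) (e 0) + u 1 * dt (e i) (e 1) +
      u 2 * dt (e i) (e 2) := by
    simp only [crd, cmb, dt, Pi.add_apply, Pi.smul_apply, smul_eq_mul]; ring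
  rw [e1, h0, h1, h2]
  fin_cases i <;> simp

theorem cmb_add (e : Fin 3 → V3) (u v : V3) : cmb e (u + v) = cmb e u + cmb e v := by
  simp only [cmb, Pi.add_apply, add_smul]; abel

theorem cmb_smul (e : Fin 3 → V3) (u : V3) (c : ℝ) : cmb e (c • u) = c • cmb e u := by
  simp only [cmb, Pi.smul_apply, smul_eq_mul, smul_add, smul_smul]

/-- an orthonormal matrix of coordinates gives an orthonormal frame -/
theorem ortho_cmb {e m : Fin 3 → V3} (he : Ortho e) (hm : Ortho m) :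
    Ortho (fun j => cmb e (m j)) := by
  intro i j
  show dt (cmb e (m i)) (cmb e (m j)) = _
  rw [dt_cmb, crd_cmb he]
  exact hm i j

/-- bilinear form with matrix `H` -/
def bl (H : Fin 3 → Fin 3 → ℝ) (U V : V3) : ℝ := ∑ i, ∑ j, H i j * (U i * V j)

theorem bl_add_left (H : Fin 3 → Fin 3 → ℝ) (U U' V : V3) :
    bl H (U + U') V = bl H U V + bl H U' V := by
  simp only [bl, Fin.sum_univ_three, Pi.add_apply]; ring

theorem bl_smul_left (H : Fin 3 → Fin 3 → ℝ) (U V : V3) (c : ℝ) :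
    bl H (c • U) V = c * bl H U V := by
  simp only [bl, Fin.sum_univ_three, Pi.smul_apply, smul_eq_mul]; ring

theorem bl_add_right (H : Fin 3 → Fin 3 → ℝ) (U V V' : V3) :
    bl H U (V + V') = bl H U V + bl H U V' := by
  simp only [bl, Fin.sum_univ_three, Pi.add_apply]; ring

theorem bl_smul_right (H : Fin 3 → Fin 3 → ℝ) (U V : V3) (c : ℝ) :
    bl H U (c • V) = c * bl H U V := by
  simp only [bl, Fin.sum_univ_three, Pi.smul_apply, smul_eq_mul]; ring

theorem bl_symm {H : Fin 3 → Fin 3 → ℝ} (hH : ∀ i j, H i j = H j i) (U V : V3) :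
    bl H U V = bl H V U := by
  simp only [bl, Fin.sum_univ_three]
  rw [hH 1 0, hH 2 0, hH 2 1]; ring

/-- the gradient at height `z` -/
def gr (p r : V3) (z : ℝ) : V3 := fun i => p i + z * r i

/-- exact Taylor expansion of `q` along the line `T`, in the frame `e` -/
structure TD (q : ℝ → V3 → ℝ) (e : Fin 3 → V3) (T : Ln4) (p r : V3)
    (H : Fin 3 → Fin 3 → ℝ) : Prop where
  symm : ∀ i j, H i j = H j i
  exp : ∀ z, ∀ U : V3, q z (T.pos z + cmb e U) = q z (T.pos z) + dt (gr p r z) U + bl H U U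

theorem exists_TD {q : ℝ → V3 → ℝ} (hq : IsQ q) (e : Fin 3 → V3) (T : Ln4) :
    ∃ p r H, TD q e T p r H := by
  obtain ⟨p, r, H, hs, hH⟩ := exists_gradAt hq e T
  refine ⟨p, r, H, hs, ?_⟩
  intro z U
  have h := hH z U
  simp only [cmb, bl, dt, gr]
  rw [h]
  simp only [Fin.sum_univ_three]

theorem TD.val {q : ℝ → V3 → ℝ} {e : Fin 3 → V3} {T : Ln4} {p r : V3} {H : Fin 3 → Fin 3 → ℝ}
    (h : TD q e T p r H) (he : Ortho e) (z : ℝ) (x : V3) :
    q z x = q z (T.pos z) + dt (gr p r z) (crd e (x - T.pos z)) +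
      bl H (crd e (x - T.pos z)) (crd e (x - T.pos z)) := by
  have h1 := h.exp z (crd e (x - T.pos z))
  rw [cmb_crd he] at h1
  rw [← h1]
  congr 1
  abel

/-- difference quotient in the direction `cmb e m` -/
theorem TD.quot {q : ℝ → V3 → ℝ} {e : Fin 3 → V3} {T : Ln4} {p r : V3} {H : Fin 3 → Fin 3 → ℝ}
    (h : TD q e T p r H) (he : Ortho e) (z : ℝ) (x m : V3) (τ : ℝ) :
    q z (x + τ • cmb e m) - q z x = τ * (dt (gr p r z) m +
      bl H (crd e (x - T.pos z) + crd e (x + τ • cmb e m - T.pos z)) m) := by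
  rw [h.val he z x, h.val he z (x + τ • cmb e m)]
  have e1 : crd e (x + τ • cmb e m - T.pos z) = crd e (x - T.pos z) + τ • m := by
    have : x + τ • cmb e m - T.pos z = (x - T.pos z) + τ • cmb e m := by abel
    rw [this, crd_add, crd_smul, crd_cmb he]
  rw [e1]
  set U := crd e (x - T.pos z) with hU
  simp only [dt_add, dt_smul, bl_add_left, bl_add_right, bl_smul_left, bl_smul_right]
  rw [bl_symm h.symm m U]
  ring

/-! ### bounds -/

theorem lim_le {G h M τ0 : ℝ} (hτ0 : 0 < τ0) (H : ∀ τ, 0 < τ → τ ≤ τ0 → G + τ * h ≤ M) :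
    G ≤ M := by
  by_contra hc
  push Not at hc
  have hd : 0 < 2 * (|h| + 1) := by positivity
  set τ := min τ0 ((G - M) / (2 * (|h| + 1))) with hτ
  have h1 : 0 < τ := lt_min hτ0 (div_pos (by linarith) hd)
  have h2 := H τ h1 (min_le_left _ _)
  have h3 : τ ≤ (G - M) / (2 * (|h| + 1)) := min_le_right _ _
  rw [le_div_iff₀ hd] at h3
  have h4 : -(τ * |h|) ≤ τ * h := by
    have := neg_abs_le h
    nlinarith
  nlinarith [abs_nonneg h]

theorem le_lim {G h M τ0 : ℝ} (hτ0 : 0 < τ0) (H : ∀ τ, 0 < τ → τ ≤ τ0 → M ≤ G + τ * h) :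
    M ≤ G := by
  have := lim_le (G := -G) (h := -h) (M := -M) hτ0 (fun τ h1 h2 => by
    have := H τ h1 h2
    linarith)
  linarith

/-- bounds of the gradient and of the Hessian along a line of a sheet of the class `ShN` -/
structure GB (w p r : V3) (H : Fin 3 → Fin 3 → ℝ) (z0 ρ : ℝ) : Prop where
  g0 : ∀ z, z0 ≤ z → z ≤ z0 + ρ → 1 / 2 ≤ gr p r z 0 ∧ gr p r z 0 ≤ 2
  g1 : ∀ z, z0 ≤ z → z ≤ z0 + ρ → |gr p r z 1| ≤ w 0 / w 1
  g2 : ∀ z, z0 ≤ z → z ≤ z0 + ρ → |gr p r z 2| ≤ w 0 / w 2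
  hH : ∀ i j, |H i j| * (w i * w j) ≤ w 0

/-- gradient at a displaced point, direction `e i` -/
theorem grad_disp {e : Fin 3 → V3} {c : Ln4} {w : V3} {q : ℝ → V3 → ℝ} {a z0 ρ : ℝ} {T : Ln4}
    (he : Ortho e) (hT : InSheet T e c w q a z0 ρ) (hw : ∀ i, 0 < w i) {z : ℝ} (h0 : z0 ≤ z)
    (h1 : z ≤ z0 + ρ) {U : V3} (hU : ∀ i, |U i| ≤ w i / 2) (i : Fin 3) {τ : ℝ} (hτ : 0 < τ)
    (hτw : τ ≤ w i / 2) : InK e c (dbl3 w) z (T.pos z + cmb e U) ∧
      InK e c (dbl3 w) z (T.pos z + cmb e U + τ • e i) := by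
  have hb := (hT z h0 h1).1
  constructor
  · intro j
    have e1 : T.pos z + cmb e U - c.pos z = (T.pos z - c.pos z) + cmb e U := by abel
    have e2 : dt (e j) (cmb e U) = U j := congrFun (crd_cmb he U) j
    rw [e1, dt_add, e2]
    refine (abs_add_le _ _).trans ?_
    have := hb j
    have := hU j
    have := hw j
    simp only [dbl3]
    linarith
  · intro j
    have e1 : T.pos z + cmb e U + τ • e i - c.pos z = ((T.pos z - c.pos z) + cmb e U) + τ • e i := by
      abel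
    have e2 : dt (e j) (cmb e U) = U j := congrFun (crd_cmb he U) j
    rw [e1, dt_add, dt_add, e2, dt_smul, he j i]
    refine (abs_add_le _ _).trans ?_
    have h3 : |τ * (if j = i then 1 else 0)| ≤ w j / 2 := by
      split_ifs with h
      · rw [mul_one, abs_of_pos hτ, h]; exact hτw
      · rw [mul_zero, abs_zero]; have := hw j; linarith
    have h4 := abs_add_le (dt (e j) (T.pos z - c.pos z)) (U j)
    have := hb j
    have := hU j
    simp only [dbl3]
    linarith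

/-- standard basis vector -/
def bas (i : Fin 3) : V3 := fun j => if j = i then 1 else 0

theorem cmb_bas (e : Fin 3 → V3) (i : Fin 3) : cmb e (bas i) = e i := by
  funext j
  simp only [cmb, bas, Pi.add_apply, Pi.smul_apply, smul_eq_mul]
  fin_cases i <;> simp

theorem dt_bas (x : V3) (i : Fin 3) : dt x (bas i) = x i := by
  simp only [dt, bas]
  fin_cases i <;> simp

theorem bl_bas (H : Fin 3 → Fin 3 → ℝ) (U : V3) (i : Fin 3) :
    bl H U (bas i) = ∑ j, H j i * U j := by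
  simp only [bl, bas, Fin.sum_univ_three]
  fin_cases i <;> simp

/-- **gradient and Hessian bounds** of the class `C*` along one of its lines -/
theorem gb_of {e : Fin 3 → V3} {c : Ln4} {w : V3} {q : ℝ → V3 → ℝ} {a z0 ρ r0 : ℝ} {T : Ln4}
    (S : ShN e c w q a z0 ρ r0) (hr : 0 < r0) (hρ : 0 ≤ ρ) (hT : InSheet T e c w q a z0 ρ)
    {p r : V3} {H : Fin 3 → Fin 3 → ℝ} (hG : TD q e T p r H) : GB w p r H z0 ρ := by
  have he := S.ortho
  have hw0 : 0 < w 0 := by linarith [S.a_le0, S.r0_le]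
  have hw2 : 0 < w 2 := by linarith [S.w0_le]
  have hw1 : 0 < w 1 := by linarith [S.w_le]
  have hw : ∀ i, 0 < w i := by intro i; fin_cases i <;> assumption
  -- the difference quotients
  have key : ∀ z, z0 ≤ z → z ≤ z0 + ρ → ∀ U : V3, (∀ i, |U i| ≤ w i / 2) → ∀ i τ, 0 < τ →
      τ ≤ w i / 2 → q z (T.pos z + cmb e U + τ • e i) - q z (T.pos z + cmb e U) =
        τ * ((gr p r z i + 2 * ∑ j, H j i * U j) + τ * H i i) := by
    intro z h0 h1 U hU i τ hτ hτw
    have h2 := hG.quot he z (T.pos z + cmb e U) (bas i) τ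
    rw [cmb_bas] at h2
    rw [h2]
    have e1 : T.pos z + cmb e U - T.pos z = cmb e U := by abel
    have e2 : T.pos z + cmb e U + τ • e i - T.pos z = cmb e U + τ • e i := by abel
    rw [e1, e2, crd_add, crd_smul, crd_cmb he, dt_bas, bl_add_left, bl_add_left, bl_smul_left]
    have e3 : crd e (e i) = bas i := by
      rw [← cmb_bas e i, crd_cmb he]
    rw [e3, bl_bas, bl_bas]
    have e4 : ∑ j, H j i * bas i j = H i i := by
      simp only [bas, Fin.sum_univ_three]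
      fin_cases i <;> simp
    rw [e4]; ring
  have k0 : ∀ z, z0 ≤ z → z ≤ z0 + ρ → ∀ U : V3, (∀ i, |U i| ≤ w i / 2) →
      1 / 2 ≤ gr p r z 0 + 2 * ∑ j, H j 0 * U j ∧ gr p r z 0 + 2 * ∑ j, H j 0 * U j ≤ 2 := by
    intro z h0 h1 U hU
    constructor
    · refine le_lim (τ0 := w 0 / 2) (h := H 0 0) (by linarith) fun τ hτ hτw => ?_
      have h2 := grad_disp he hT hw h0 h1 hU 0 hτ hτw
      have h3 := (S.st0 z h0 h1 _ τ hτ.le h2.1 h2.2).1
      rw [key z h0 h1 U hU 0 τ hτ hτw] at h3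
      have h4 : τ * (1 / 2) ≤ τ * ((gr p r z 0 + 2 * ∑ j, H j 0 * U j) + τ * H 0 0) := by
        linarith
      exact le_of_mul_le_mul_left h4 hτ
    · refine lim_le (τ0 := w 0 / 2) (h := H 0 0) (by linarith) fun τ hτ hτw => ?_
      have h2 := grad_disp he hT hw h0 h1 hU 0 hτ hτw
      have h3 := (S.st0 z h0 h1 _ τ hτ.le h2.1 h2.2).2
      rw [key z h0 h1 U hU 0 τ hτ hτw] at h3
      have h4 : τ * ((gr p r z 0 + 2 * ∑ j, H j 0 * U j) + τ * H 0 0) ≤ τ * 2 := by
        linarith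
      exact le_of_mul_le_mul_left h4 hτ
  have kk : ∀ (i : Fin 3) (M : ℝ), (∀ z, z0 ≤ z → z ≤ z0 + ρ → ∀ (x : V3) (τ : ℝ), 0 ≤ τ →
      InK e c (dbl3 w) z x → InK e c (dbl3 w) z (x + τ • e i) →
        |q z (x + τ • e i) - q z x| ≤ M * τ) → ∀ z, z0 ≤ z → z ≤ z0 + ρ → ∀ U : V3,
      (∀ i, |U i| ≤ w i / 2) → |gr p r z i + 2 * ∑ j, H j i * U j| ≤ M := by
    intro i M hM z h0 h1 U hU
    have hwi := hw i
    rw [abs_le]
    constructor
    · refine le_lim (τ0 := w i / 2) (h := H i i) (by linarith) fun τ hτ hτw => ?_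
      have h2 := grad_disp he hT hw h0 h1 hU i hτ hτw
      have h3 := (abs_le.1 (hM z h0 h1 _ τ hτ.le h2.1 h2.2)).1
      rw [key z h0 h1 U hU i τ hτ hτw] at h3
      have h4 : τ * (-M) ≤ τ * ((gr p r z i + 2 * ∑ j, H j i * U j) + τ * H i i) := by
        linarith
      exact le_of_mul_le_mul_left h4 hτ
    · refine lim_le (τ0 := w i / 2) (h := H i i) (by linarith) fun τ hτ hτw => ?_
      have h2 := grad_disp he hT hw h0 h1 hU i hτ hτw
      have h3 := (abs_le.1 (hM z h0 h1 _ τ hτ.le h2.1 h2.2)).2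
      rw [key z h0 h1 U hU i τ hτ hτw] at h3
      have h4 : τ * ((gr p r z i + 2 * ∑ j, H j i * U j) + τ * H i i) ≤ τ * M := by
        linarith
      exact le_of_mul_le_mul_left h4 hτ
  have k1 := kk 1 (w 0 / w 1) S.sl1
  have k2 := kk 2 (w 0 / w 2) S.sl2
  have z00 : z0 ≤ z0 + ρ := by linarith
  have hU0 : ∀ i, |(0 : V3) i| ≤ w i / 2 := fun i => by
    rw [Pi.zero_apply, abs_zero]; have := hw i; linarith
  have s0 : ∀ i, ∑ j, H j i * (0 : V3) j = 0 := fun i => by simp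
  -- Hessian
  set Uv : Fin 3 → ℝ → V3 := fun j s i => (s * (w j / 2)) * bas j i with hUv
  have hUj : ∀ (j : Fin 3) (s : ℝ), |s| = 1 → ∀ i, |Uv j s i| ≤ w i / 2 := by
    intro j s hs i
    have := hw i
    simp only [hUv, bas]
    split_ifs with h
    · rw [mul_one, abs_mul, hs, one_mul, h, abs_of_pos (by have := hw j; linarith)]
    · rw [mul_zero, abs_zero]; linarith
  have sj : ∀ (i j : Fin 3) (s : ℝ), 2 * ∑ k, H k i * Uv j s k = s * (H j i * w j) := by
    intro i j s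
    simp only [hUv, bas, Fin.sum_univ_three]
    fin_cases j <;> simp <;> ring
  have hH0 : ∀ j, |H j 0| * w j ≤ 1 := by
    intro j
    have h1 := k0 z0 le_rfl z00 (Uv j 1) (hUj j 1 (by norm_num))
    have h2 := k0 z0 le_rfl z00 (Uv j (-1)) (hUj j (-1) (by norm_num))
    rw [sj] at h1 h2
    have : |H j 0 * w j| ≤ 1 := by
      rw [abs_le]; constructor <;> linarith [h1.1, h1.2, h2.1, h2.2]
    rwa [abs_mul, abs_of_pos (hw j)] at this
  have hH1 : ∀ j, |H j 1| * w j ≤ w 0 / w 1 := by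
    intro j
    have h1 := k1 z0 le_rfl z00 (Uv j 1) (hUj j 1 (by norm_num))
    have h2 := k1 z0 le_rfl z00 (Uv j (-1)) (hUj j (-1) (by norm_num))
    rw [sj] at h1 h2
    rw [abs_le] at h1 h2
    have : |H j 1 * w j| ≤ w 0 / w 1 := by
      rw [abs_le]; constructor <;> linarith [h1.1, h1.2, h2.1, h2.2]
    rwa [abs_mul, abs_of_pos (hw j)] at this
  have hH2 : ∀ j, |H j 2| * w j ≤ w 0 / w 2 := by
    intro j
    have h1 := k2 z0 le_rfl z00 (Uv j 1) (hUj j 1 (by norm_num))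
    have h2 := k2 z0 le_rfl z00 (Uv j (-1)) (hUj j (-1) (by norm_num))
    rw [sj] at h1 h2
    rw [abs_le] at h1 h2
    have : |H j 2 * w j| ≤ w 0 / w 2 := by
      rw [abs_le]; constructor <;> linarith [h1.1, h1.2, h2.1, h2.2]
    rwa [abs_mul, abs_of_pos (hw j)] at this
  refine ⟨?_, ?_, ?_, ?_⟩
  · intro z h0 h1
    have := k0 z h0 h1 0 hU0
    rw [s0, mul_zero, add_zero] at this
    exact this
  · intro z h0 h1
    have := k1 z h0 h1 0 hU0
    rw [s0, mul_zero, add_zero] at this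
    exact this
  · intro z h0 h1
    have := k2 z h0 h1 0 hU0
    rw [s0, mul_zero, add_zero] at this
    exact this
  · have hj : ∀ j, |H j 0| * (w j * w 0) ≤ w 0 := by
      intro j
      have := hH0 j
      have h3 : |H j 0| * w j * w 0 ≤ 1 * w 0 := mul_le_mul_of_nonneg_right this hw0.le
      linarith
    have hj1 : ∀ j, |H j 1| * (w j * w 1) ≤ w 0 := by
      intro j
      have := hH1 j
      have h3 : |H j 1| * w j * w 1 ≤ w 0 / w 1 * w 1 := mul_le_mul_of_nonneg_right this hw1.le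
      rw [div_mul_cancel₀ _ hw1.ne'] at h3
      linarith
    have hj2 : ∀ j, |H j 2| * (w j * w 2) ≤ w 0 := by
      intro j
      have := hH2 j
      have h3 : |H j 2| * w j * w 2 ≤ w 0 / w 2 * w 2 := mul_le_mul_of_nonneg_right this hw2.le
      rw [div_mul_cancel₀ _ hw2.ne'] at h3
      linarith
    intro i j
    fin_cases j
    · exact hj i
    · exact hj1 i
    · exact hj2 i

end Crest.Agent.R136.Nd565
end

-- ▼ part R136/Nd3_565
section

/-!
# R136 (S0187), U5: sub-sheets of a sheet of class `C*` around one of its lines (helper565)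

* `same_frame` : the sub-sheet with the same frame and quadratic function.
* `exists_frm` : orthonormal frame adapted to a direction and to a gradient.
* `mk_sheet`   : sheet of class `C*` around a line from bounds of the gradient in coordinates.
-/

set_option autoImplicit false
set_option linter.unusedVariables false

namespace Crest.Agent.R136.Nd565

open Finset Sh605 UB683

/-! ### vectors -/

theorem cs3 (x y : V3) : dt x y ^ 2 ≤ dt x x * dt y y := by
  unfold dt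
  nlinarith [sq_nonneg (x 0 * y 1 - x 1 * y 0), sq_nonneg (x 0 * y 2 - x 2 * y 0),
    sq_nonneg (x 1 * y 2 - x 2 * y 1)]

theorem dt_self_nonneg (x : V3) : 0 ≤ dt x x := by
  unfold dt; nlinarith [sq_nonneg (x 0), sq_nonneg (x 1), sq_nonneg (x 2)]

/-- vector product -/
def cr (x y : V3) : V3 := ![x 1 * y 2 - x 2 * y 1, x 2 * y 0 - x 0 * y 2, x 0 * y 1 - x 1 * y 0]

theorem dt_cr_cr (x y : V3) : dt (cr x y) (cr x y) = dt x x * dt y y - dt x y ^ 2 := by
  simp only [dt, cr, Matrix.cons_val_zero, Matrix.cons_val_one, Matrix.cons_val]; ring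

theorem dt_cr_left (x y : V3) : dt x (cr x y) = 0 := by
  simp only [dt, cr, Matrix.cons_val_zero, Matrix.cons_val_one, Matrix.cons_val]; ring

theorem dt_cr_right (x y : V3) : dt y (cr x y) = 0 := by
  simp only [dt, cr, Matrix.cons_val_zero, Matrix.cons_val_one, Matrix.cons_val]; ring

theorem ortho_cr {x y : V3} (hx : dt x x = 1) (hy : dt y y = 1) (hxy : dt x y = 0) :
    Ortho ![x, y, cr x y] := by
  have h1 := dt_cr_left x y
  have h2 := dt_cr_right x y
  have h3 := dt_cr_cr x y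
  rw [hx, hy, hxy] at h3
  norm_num at h3
  intro i j
  fin_cases i <;> fin_cases j
  · simpa using hx
  · simpa using hxy
  · simpa using h1
  · simpa using (dt_comm y x).trans hxy
  · simpa using hy
  · simpa using h2
  · simpa using (dt_comm _ _).trans h1
  · simpa using (dt_comm _ _).trans h2
  · simpa using h3

/-- frame adapted to the direction `E` and to the gradient `g` -/
theorem exists_frm (g E : V3) {L l0 : ℝ} (hL : 0 < L) (hE : dt E E = L ^ 2) (hl0 : 0 < l0)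
    (hg : l0 ^ 2 + (dt g E / L) ^ 2 ≤ dt g g) :
    ∃ (m : Fin 3 → V3) (lam : ℝ), Ortho m ∧ m 1 = (1 / L) • E ∧ l0 ≤ lam ∧ dt g (m 0) = lam ∧
      dt g (m 2) = 0 := by
  set m1 : V3 := (1 / L) • E with hm1
  have h11 : dt m1 m1 = 1 := by
    rw [hm1, dt_smul, smul_dt, hE]; field_simp
  set s := dt g m1 with hs
  have hs' : s = dt g E / L := by rw [hs, hm1, dt_smul]; ring
  set g' : V3 := g - s • m1 with hg'
  have hg'1 : dt g' m1 = 0 := by
    rw [dt_comm, hg', dt_sub, dt_smul, h11, dt_comm m1 g, ← hs]; ring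
  have hg'g : dt g g' = dt g g - s ^ 2 := by
    rw [hg', dt_sub, dt_smul, ← hs]; ring
  have hg'g' : dt g' g' = dt g g - s ^ 2 := by
    have : dt g' g' = dt g' g - s * dt g' m1 := by
      conv_lhs => rw [hg', dt_sub, dt_smul]
    rw [this, hg'1, dt_comm g' g, hg'g]; ring
  have hpos : l0 ^ 2 ≤ dt g' g' := by rw [hg'g', hs']; linarith
  set lam := Real.sqrt (dt g' g') with hlam
  have hlam0 : l0 ≤ lam := Real.le_sqrt_of_sq_le hpos
  have hlamp : 0 < lam := by linarith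
  have hlam2 : lam ^ 2 = dt g' g' := Real.sq_sqrt (dt_self_nonneg _)
  set m0 : V3 := (1 / lam) • g' with hm0
  have h00 : dt m0 m0 = 1 := by
    rw [hm0, dt_smul, smul_dt, ← hlam2]; field_simp
  have h01 : dt m0 m1 = 0 := by rw [hm0, smul_dt, hg'1, mul_zero]
  refine ⟨![m0, m1, cr m0 m1], lam, ortho_cr h00 h11 h01, rfl, hlam0, ?_, ?_⟩
  · show dt g m0 = lam
    rw [hm0, dt_smul, hg'g, ← hg'g', ← hlam2]; field_simp
  · show dt g (cr m0 m1) = 0
    have e : g = lam • m0 + s • m1 := by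
      rw [hm0, smul_smul, mul_one_div_cancel hlamp.ne', one_smul, hg']; abel
    rw [e, add_dt, smul_dt m0 _ lam, smul_dt m1 _ s, dt_cr_left, dt_cr_right]; ring

theorem IsQ.div {q : ℝ → V3 → ℝ} (hq : IsQ q) (l : ℝ) : IsQ (fun z x => q z x / l) := by
  obtain ⟨c0, c1, c2, b, d, g, hq⟩ := hq
  refine ⟨c0 / l, c1 / l, c2 / l, fun i => b i / l, fun i => d i / l, fun i j => g i j / l, ?_⟩
  intro z x
  show q z x / l = _
  rw [hq]
  simp only [Fin.sum_univ_three]
  ring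

/-! ### the sub-sheet with the same frame -/

theorem same_frame {e : Fin 3 → V3} {c : Ln4} {w : V3} {q : ℝ → V3 → ℝ} {a z0 ρ r0 : ℝ} {T : Ln4}
    (S : ShN e c w q a z0 ρ r0) (hr : 0 < r0) (hT : InSheet T e c w q a z0 ρ) {A1 A2 z1 ρ1 : ℝ}
    (hA1 : 0 < A1) (h12 : A1 ≤ A2) (hA2 : A2 ≤ 1 / 2) (hww : A2 * w 2 ≤ A1 * w 1)
    (ha : a ≤ A2 * w 0) (h0 : z0 ≤ z1) (h1 : z1 + ρ1 ≤ z0 + ρ) :
    ShN e T ![A2 * w 0, A1 * w 1, A2 * w 2] q a z1 ρ1 r0 := by
  have hw0 : 0 < w 0 := by linarith [S.a_le0, S.r0_le]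
  have hw2 : 0 < w 2 := by linarith [S.w0_le]
  have hw1 : 0 < w 1 := by linarith [S.w_le]
  have hA2p : 0 < A2 := by linarith
  have hbox : ∀ z, z1 ≤ z → z ≤ z1 + ρ1 → ∀ x, InK e T (dbl3 ![A2 * w 0, A1 * w 1, A2 * w 2]) z x →
      InK e c (dbl3 w) z x := by
    intro z hz0 hz1 x hx i
    have hb := (hT z (by linarith) (by linarith)).1 i
    have hx' := hx i
    have e1 : x - c.pos z = (x - T.pos z) + (T.pos z - c.pos z) := by abel
    rw [e1, dt_add]
    refine (abs_add_le _ _).trans ?_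
    have h3 : |dt (e i) (x - T.pos z)| ≤ w i := by
      refine hx'.trans ?_
      simp only [dbl3]
      fin_cases i
      · show 2 * (A2 * w 0) ≤ w 0
        nlinarith
      · show 2 * (A1 * w 1) ≤ w 1
        nlinarith
      · show 2 * (A2 * w 2) ≤ w 2
        nlinarith
    simp only [dbl3]
    linarith
  refine ⟨S.ortho, S.isQ, ha, mul_le_mul_of_nonneg_left S.w0_le hA2p.le, hww, S.r0_le, ?_, ?_, ?_⟩
  · intro z hz0 hz1 x τ hτ hx hx'
    exact S.st0 z (by linarith) (by linarith) x τ hτ (hbox z hz0 hz1 x hx) (hbox z hz0 hz1 _ hx')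
  · intro z hz0 hz1 x τ hτ hx hx'
    refine (S.sl1 z (by linarith) (by linarith) x τ hτ (hbox z hz0 hz1 x hx)
      (hbox z hz0 hz1 _ hx')).trans ?_
    refine mul_le_mul_of_nonneg_right ?_ hτ
    show w 0 / w 1 ≤ A2 * w 0 / (A1 * w 1)
    rw [div_le_div_iff₀ hw1 (by positivity)]
    have : A1 * (w 0 * w 1) ≤ A2 * (w 0 * w 1) := mul_le_mul_of_nonneg_right h12 (by positivity)
    linarith
  · intro z hz0 hz1 x τ hτ hx hx'
    refine (S.sl2 z (by linarith) (by linarith) x τ hτ (hbox z hz0 hz1 x hx)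
      (hbox z hz0 hz1 _ hx')).trans ?_
    refine mul_le_mul_of_nonneg_right (le_of_eq ?_) hτ
    show w 0 / w 2 = A2 * w 0 / (A2 * w 2)
    field_simp

/-! ### the sheet in a new frame -/

theorem mk_sheet {e : Fin 3 → V3} {q : ℝ → V3 → ℝ} {T : Ln4} {p r : V3}
    {H : Fin 3 → Fin 3 → ℝ} (he : Ortho e) (hq : IsQ q) (hG : TD q e T p r H)
    {m : Fin 3 → V3} (hm : Ortho m) {lam W0 W1 W2 a' z1 ρ1 r0 : ℝ} (hl : 0 < lam) (hW1 : 0 < W1)
    (hW2 : 0 < W2) (haW : a' ≤ W0) (hW0 : W0 ≤ W2) (hWW : W2 ≤ W1) (hra : r0 ≤ a')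
    (hb : ∀ z, z1 ≤ z → z ≤ z1 + ρ1 → ∀ U U' : V3, (∀ i, |dt (m i) U| ≤ 2 * (![W0, W1, W2] : V3) i) →
      (∀ i, |dt (m i) U'| ≤ 2 * (![W0, W1, W2] : V3) i) →
      (lam / 2 ≤ dt (gr p r z) (m 0) + bl H (U + U') (m 0) ∧
        dt (gr p r z) (m 0) + bl H (U + U') (m 0) ≤ 2 * lam) ∧
      |dt (gr p r z) (m 1) + bl H (U + U') (m 1)| ≤ lam * (W0 / W1) ∧
      |dt (gr p r z) (m 2) + bl H (U + U') (m 2)| ≤ lam * (W0 / W2)) :
    ShN (fun j => cmb e (m j)) T ![W0, W1, W2] (fun z x => q z x / lam) a' z1 ρ1 r0 := by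
  have hc : ∀ z x, InK (fun j => cmb e (m j)) T (dbl3 ![W0, W1, W2]) z x →
      ∀ i, |dt (m i) (crd e (x - T.pos z))| ≤ 2 * (![W0, W1, W2] : V3) i := by
    intro z x hx i
    have := hx i
    simp only [dbl3] at this
    rw [← dt_cmb]
    exact this
  have quo : ∀ z x τ i, (q z (x + τ • cmb e (m i)) / lam - q z x / lam) =
      τ * ((dt (gr p r z) (m i) + bl H (crd e (x - T.pos z) +
        crd e (x + τ • cmb e (m i) - T.pos z)) (m i)) / lam) := by
    intro z x τ i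
    rw [← sub_div, hG.quot he]; ring
  refine ⟨ortho_cmb he hm, IsQ.div hq lam, haW, hW0, hWW, hra, ?_, ?_, ?_⟩
  · intro z hz0 hz1 x τ hτ hx hx'
    show τ / 2 ≤ q z (x + τ • cmb e (m 0)) / lam - q z x / lam ∧
      q z (x + τ • cmb e (m 0)) / lam - q z x / lam ≤ 2 * τ
    rw [quo]
    have h := (hb z hz0 hz1 _ _ (hc z x hx) (hc z _ hx')).1
    constructor
    · have : 1 / 2 ≤ (dt (gr p r z) (m 0) + bl H (crd e (x - T.pos z) +
        crd e (x + τ • cmb e (m 0) - T.pos z)) (m 0)) / lam := by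
        rw [le_div_iff₀ hl]; linarith [h.1]
      nlinarith
    · have : (dt (gr p r z) (m 0) + bl H (crd e (x - T.pos z) +
        crd e (x + τ • cmb e (m 0) - T.pos z)) (m 0)) / lam ≤ 2 := by
        rw [div_le_iff₀ hl]; linarith [h.2]
      nlinarith
  · intro z hz0 hz1 x τ hτ hx hx'
    show |q z (x + τ • cmb e (m 1)) / lam - q z x / lam| ≤ W0 / W1 * τ
    rw [quo, abs_mul, abs_of_nonneg hτ, abs_div, abs_of_pos hl, mul_comm]
    refine mul_le_mul_of_nonneg_right ?_ hτ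
    rw [div_le_iff₀ hl]
    have h := (hb z hz0 hz1 _ _ (hc z x hx) (hc z _ hx')).2.1
    linarith
  · intro z hz0 hz1 x τ hτ hx hx'
    show |q z (x + τ • cmb e (m 2)) / lam - q z x / lam| ≤ W0 / W2 * τ
    rw [quo, abs_mul, abs_of_nonneg hτ, abs_div, abs_of_pos hl, mul_comm]
    refine mul_le_mul_of_nonneg_right ?_ hτ
    rw [div_le_iff₀ hl]
    have h := (hb z hz0 hz1 _ _ (hc z x hx) (hc z _ hx')).2.2
    linarith

end Crest.Agent.R136.Nd565
end

-- ▼ part R136/Nd4_565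
section

/-!
# R136 (S0187), U5: the box around a tilted ribbon of a sheet of the class `ShN` (helper565)

`T` = line of the sheet, `E = (y, -w1 nB, w2 nA)` (coordinates in the frame `e`), flat ribbon
`{T + α E, |α| ≤ β}`. The `(β, σ)`-strip around `T` is contained in one sheet of the class of
half-widths `1200 K σ w0 w1 / |E|`, `3 β |E|`, `1200 K σ w1 w2 / |E|` (over a cell which is 128
times shorter).
-/

set_option autoImplicit false
set_option linter.unusedVariables false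

namespace Crest.Agent.R136.Nd565

open Finset Sh605 UB683

/-- the ribbon direction in coordinates -/
def Ev (w : V3) (nA nB y : ℝ) : V3 := ![y, w 1 * -nB, w 2 * nA]

/-- the transversal direction in coordinates -/
def Nv (w : V3) (nA nB : ℝ) : V3 := ![0, w 1 * nA, w 2 * nB]

@[simp] theorem Ev0 (w : V3) (nA nB y : ℝ) : Ev w nA nB y 0 = y := rfl
@[simp] theorem Ev1 (w : V3) (nA nB y : ℝ) : Ev w nA nB y 1 = w 1 * -nB := rfl
@[simp] theorem Ev2 (w : V3) (nA nB y : ℝ) : Ev w nA nB y 2 = w 2 * nA := rfl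
@[simp] theorem Nv0 (w : V3) (nA nB : ℝ) : Nv w nA nB 0 = 0 := rfl
@[simp] theorem Nv1 (w : V3) (nA nB : ℝ) : Nv w nA nB 1 = w 1 * nA := rfl
@[simp] theorem Nv2 (w : V3) (nA nB : ℝ) : Nv w nA nB 2 = w 2 * nB := rfl

/-- flat ribbon, in coefficients -/
structure Rb (w p r : V3) (H : Fin 3 → Fin 3 → ℝ) (z0 ρ nA nB y β κ : ℝ) : Prop where
  f1 : ∀ z, z0 ≤ z → z ≤ z0 + ρ → |dt (gr p r z) (Ev w nA nB y)| * β ≤ κ
  f2 : |bl H (Ev w nA nB y) (Ev w nA nB y)| * β ^ 2 ≤ κ

theorem n_le {nA nB : ℝ} (hn : nA ^ 2 + nB ^ 2 = 1) : |nA| ≤ 1 ∧ |nB| ≤ 1 := by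
  constructor
  · rw [← sq_le_one_iff_abs_le_one]; nlinarith [sq_nonneg nB]
  · rw [← sq_le_one_iff_abs_le_one]; nlinarith [sq_nonneg nA]

theorem tilt_pre {w p r : V3} {H : Fin 3 → Fin 3 → ℝ} {z0 ρ nA nB y β σ K L : ℝ}
    (hw0 : 0 < w 0) (hw02 : w 0 ≤ w 2) (hw : w 2 ≤ w 1) (B : GB w p r H z0 ρ) (hρ : 0 ≤ ρ)
    (hn : nA ^ 2 + nB ^ 2 = 1) (R : Rb w p r H z0 ρ nA nB y β (K * σ * w 0)) (hβ : 0 < β)
    (hσ : 0 < σ) (hK : 1 ≤ K) (hL0 : 0 ≤ L) (hL : dt (Ev w nA nB y) (Ev w nA nB y) = L ^ 2)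
    (ht : 400 * (K * σ) * w 1 ≤ β * L) :
    w 2 ≤ L ∧ |y| ≤ 5 * w 0 ∧ L ≤ 6 * w 1 ∧ 70 * (K * σ) ≤ β := by
  have hw2 : 0 < w 2 := by linarith
  have hw1 : 0 < w 1 := by linarith
  have hn' := n_le hn
  have hL' : L ^ 2 = y ^ 2 + w 1 ^ 2 * nB ^ 2 + w 2 ^ 2 * nA ^ 2 := by
    rw [← hL]; simp only [dt, Ev0, Ev1, Ev2]; ring
  have hsq : w 2 ^ 2 ≤ w 1 ^ 2 := by nlinarith
  have a1 : w 2 ≤ L := by
    have h1 : w 2 ^ 2 ≤ L ^ 2 := by
      rw [hL']
      have h2 : w 2 ^ 2 * nB ^ 2 ≤ w 1 ^ 2 * nB ^ 2 := mul_le_mul_of_nonneg_right hsq (sq_nonneg _)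
      have h3 : w 2 ^ 2 * nA ^ 2 + w 2 ^ 2 * nB ^ 2 = w 2 ^ 2 := by rw [← mul_add, hn, mul_one]
      nlinarith [sq_nonneg y]
    exact (pow_le_pow_iff_left₀ hw2.le hL0 (by norm_num)).1 h1
  have a2 : L ≤ |y| + w 1 := by
    have h1 : L ^ 2 ≤ (|y| + w 1) ^ 2 := by
      rw [hL']
      have h2 : w 2 ^ 2 * nA ^ 2 ≤ w 1 ^ 2 * nA ^ 2 := mul_le_mul_of_nonneg_right hsq (sq_nonneg _)
      have h3 : w 1 ^ 2 * nA ^ 2 + w 1 ^ 2 * nB ^ 2 = w 1 ^ 2 := by rw [← mul_add, hn, mul_one]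
      have h4 : (|y| + w 1) ^ 2 = y ^ 2 + 2 * (|y| * w 1) + w 1 ^ 2 := by
        rw [add_sq, sq_abs]; ring
      have h5 : 0 ≤ |y| * w 1 := by positivity
      nlinarith
    exact (pow_le_pow_iff_left₀ hL0 (by positivity) (by norm_num)).1 h1
  have a3 : |y| * β ≤ 2 * (K * σ * w 0) + 4 * w 0 * β := by
    have h0 := B.g0 z0 le_rfl (by linarith)
    have h1 := B.g1 z0 le_rfl (by linarith)
    have h2 := B.g2 z0 le_rfl (by linarith)
    have h3 := R.f1 z0 le_rfl (by linarith)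
    have e : gr p r z0 0 * y = dt (gr p r z0) (Ev w nA nB y) - gr p r z0 1 * (w 1 * -nB) -
        gr p r z0 2 * (w 2 * nA) := by
      simp only [dt, Ev0, Ev1, Ev2]; ring
    have h4 : |gr p r z0 1 * (w 1 * -nB)| ≤ w 0 := by
      rw [abs_mul, abs_mul, abs_neg, abs_of_pos hw1]
      calc |gr p r z0 1| * (w 1 * |nB|) ≤ w 0 / w 1 * (w 1 * 1) := by
            gcongr
            exact hn'.2
        _ = w 0 := by field_simp
    have h5 : |gr p r z0 2 * (w 2 * nA)| ≤ w 0 := by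
      rw [abs_mul, abs_mul, abs_of_pos hw2]
      calc |gr p r z0 2| * (w 2 * |nA|) ≤ w 0 / w 2 * (w 2 * 1) := by
            gcongr
            exact hn'.1
        _ = w 0 := by field_simp
    have h6 : |gr p r z0 0 * y| ≤ |dt (gr p r z0) (Ev w nA nB y)| + 2 * w 0 := by
      rw [e]
      have t1 := abs_sub (dt (gr p r z0) (Ev w nA nB y) - gr p r z0 1 * (w 1 * -nB))
        (gr p r z0 2 * (w 2 * nA))
      have t2 := abs_sub (dt (gr p r z0) (Ev w nA nB y)) (gr p r z0 1 * (w 1 * -nB))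
      linarith
    rw [abs_mul, abs_of_pos (by linarith [h0.1] : 0 < gr p r z0 0)] at h6
    have h7 : 1 / 2 * |y| ≤ gr p r z0 0 * |y| := mul_le_mul_of_nonneg_right h0.1 (abs_nonneg y)
    have h8 : 1 / 2 * |y| * β ≤ (|dt (gr p r z0) (Ev w nA nB y)| + 2 * w 0) * β :=
      mul_le_mul_of_nonneg_right (h7.trans h6) hβ.le
    linarith
  have hKσ : 0 < K * σ := by positivity
  have a4 : 398 * (K * σ) ≤ 5 * β := by
    have h1 : β * L ≤ β * (|y| + w 1) := mul_le_mul_of_nonneg_left a2 hβ.le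
    have h2 : K * σ * w 0 ≤ K * σ * w 1 := mul_le_mul_of_nonneg_left (by linarith) hKσ.le
    have h3 : w 0 * β ≤ w 1 * β := mul_le_mul_of_nonneg_right (by linarith) hβ.le
    have h4 : 398 * (K * σ) * w 1 ≤ 5 * β * w 1 := by linarith
    exact le_of_mul_le_mul_right h4 hw1
  have a5 : |y| ≤ 5 * w 0 := by
    have h1 : K * σ * w 0 ≤ 5 / 398 * β * w 0 := by
      have : K * σ ≤ 5 / 398 * β := by linarith
      exact mul_le_mul_of_nonneg_right this hw0.le
    have h2 : |y| * β ≤ 5 * w 0 * β := by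
      have : 0 < w 0 * β := by positivity
      nlinarith
    exact le_of_mul_le_mul_right h2 hβ
  exact ⟨a1, a5, by linarith, by linarith⟩

theorem bl_le {w : V3} {H : Fin 3 → Fin 3 → ℝ} (hw : ∀ i, 0 < w i)
    (hH : ∀ i j, |H i j| * (w i * w j) ≤ w 0) {x y : V3} (ξ η : V3) (hξ : ∀ i, 0 ≤ ξ i)
    (hη : ∀ i, 0 ≤ η i) (hx : ∀ i, |x i| ≤ ξ i * w i) (hy : ∀ i, |y i| ≤ η i * w i) :
    |bl H x y| ≤ w 0 * ((ξ 0 + ξ 1 + ξ 2) * (η 0 + η 1 + η 2)) := by
  have h1 : |bl H x y| ≤ ∑ i, ∑ j, w 0 * (ξ i * η j) := by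
    unfold bl
    refine (abs_sum_le_sum_abs _ _).trans (sum_le_sum fun i _ => ?_)
    refine (abs_sum_le_sum_abs _ _).trans (sum_le_sum fun j _ => ?_)
    rw [abs_mul, abs_mul]
    have h2 : |x i| * |y j| ≤ (ξ i * w i) * (η j * w j) :=
      mul_le_mul (hx i) (hy j) (abs_nonneg _) (mul_nonneg (hξ i) (hw i).le)
    calc |H i j| * (|x i| * |y j|) ≤ |H i j| * ((ξ i * w i) * (η j * w j)) :=
          mul_le_mul_of_nonneg_left h2 (abs_nonneg _)
      _ = (|H i j| * (w i * w j)) * (ξ i * η j) := by ring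
      _ ≤ w 0 * (ξ i * η j) := mul_le_mul_of_nonneg_right (hH i j) (mul_nonneg (hξ i) (hη j))
  refine h1.trans (le_of_eq ?_)
  simp only [Fin.sum_univ_three]
  ring

theorem cigar_expand {m : Fin 3 → V3} (hm : Ortho m) {E : V3} {L : ℝ} (hm1 : m 1 = (1 / L) • E)
    (H : Fin 3 → Fin 3 → ℝ) (U V : V3) :
    bl H U V = dt (m 0) U * bl H (m 0) V + dt (m 1) U / L * bl H E V + dt (m 2) U * bl H (m 2) V := by
  have h := cmb_crd hm U
  have e1 : U = dt (m 0) U • m 0 + dt (m 1) U • m 1 + dt (m 2) U • m 2 := h.symm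
  have e2 : bl H U V = bl H (dt (m 0) U • m 0 + dt (m 1) U • m 1 + dt (m 2) U • m 2) V := by
    rw [← e1]
  rw [e2, bl_add_left, bl_add_left, bl_smul_left, bl_smul_left, bl_smul_left]
  have e3 : bl H (m 1) V = 1 / L * bl H E V := by rw [hm1, bl_smul_left]
  rw [e3]; ring

/-- half-widths of the new box -/
noncomputable def Wn (w : V3) (β σ K L : ℝ) : V3 :=
  ![1200 * (K * σ) * (w 1 * w 0) / L, 3 * β * L, 1200 * (K * σ) * (w 1 * w 2) / L]

@[simp] theorem Wn0 (w : V3) (β σ K L : ℝ) : Wn w β σ K L 0 = 1200 * (K * σ) * (w 1 * w 0) / L := rfl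
@[simp] theorem Wn1 (w : V3) (β σ K L : ℝ) : Wn w β σ K L 1 = 3 * β * L := rfl
@[simp] theorem Wn2 (w : V3) (β σ K L : ℝ) : Wn w β σ K L 2 = 1200 * (K * σ) * (w 1 * w 2) / L := rfl

/-- the frame of the new box -/
structure Cig (w p r : V3) (H : Fin 3 → Fin 3 → ℝ) (z1 ρ1 nA nB y β σ K L : ℝ)
    (m : Fin 3 → V3) (lam : ℝ) : Prop where
  ortho : Ortho m
  m1 : m 1 = (1 / L) • Ev w nA nB y
  lam_ge : 0.49 ≤ lam
  g0 : dt (gr p r z1) (m 0) = lam
  g2 : dt (gr p r z1) (m 2) = 0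
  bd : ∀ z, z1 ≤ z → z ≤ z1 + ρ1 → ∀ U U' : V3,
      (∀ i, |dt (m i) U| ≤ 2 * Wn w β σ K L i) → (∀ i, |dt (m i) U'| ≤ 2 * Wn w β σ K L i) →
      (lam / 2 ≤ dt (gr p r z) (m 0) + bl H (U + U') (m 0) ∧
        dt (gr p r z) (m 0) + bl H (U + U') (m 0) ≤ 2 * lam) ∧
      |dt (gr p r z) (m 1) + bl H (U + U') (m 1)| ≤ lam * (Wn w β σ K L 0 / Wn w β σ K L 1) ∧
      |dt (gr p r z) (m 2) + bl H (U + U') (m 2)| ≤ lam * (Wn w β σ K L 0 / Wn w β σ K L 2)

theorem gr_var {w p r : V3} {H : Fin 3 → Fin 3 → ℝ} {z0 ρ z1 ρ1 : ℝ}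
    (B : GB w p r H z0 ρ) (hρ1 : 0 ≤ ρ1) (h128 : 128 * ρ1 ≤ ρ) {z : ℝ}
    (hz : z1 ≤ z) (hz' : z ≤ z1 + ρ1) (m : V3) :
    |dt (gr p r z) m - dt (gr p r z1) m| ≤
      (3 / 2 * |m 0| + 2 * (w 0 / w 1) * |m 1| + 2 * (w 0 / w 2) * |m 2|) / 128 := by
  have hρ : 0 ≤ ρ := by linarith
  have a0 := B.g0 z0 le_rfl (by linarith)
  have b0 := B.g0 (z0 + ρ) (by linarith) le_rfl
  have a1 := B.g1 z0 le_rfl (by linarith)
  have b1 := B.g1 (z0 + ρ) (by linarith) le_rfl
  have a2 := B.g2 z0 le_rfl (by linarith)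
  have b2 := B.g2 (z0 + ρ) (by linarith) le_rfl
  have e : ∀ i, gr p r (z0 + ρ) i - gr p r z0 i = ρ * r i := by intro i; simp only [gr]; ring
  have d : ∀ i (M : ℝ), |gr p r (z0 + ρ) i - gr p r z0 i| ≤ M →
      |(z - z1) * r i * m i| ≤ M * |m i| / 128 := by
    intro i M hM
    rw [e i, abs_mul, abs_of_nonneg hρ] at hM
    rw [abs_mul, abs_mul, abs_of_nonneg (by linarith : 0 ≤ z - z1)]
    have h1 : (z - z1) * |r i| ≤ ρ1 * |r i| := mul_le_mul_of_nonneg_right (by linarith) (abs_nonneg _)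
    have h2 : ρ1 * |r i| * 128 ≤ ρ * |r i| := by
      have := mul_le_mul_of_nonneg_right h128 (abs_nonneg (r i))
      linarith
    have h4 : (z - z1) * |r i| ≤ M / 128 := by linarith
    calc (z - z1) * |r i| * |m i| ≤ M / 128 * |m i| := mul_le_mul_of_nonneg_right h4 (abs_nonneg _)
      _ = M * |m i| / 128 := by ring
  have d0 := d 0 (3 / 2) (by rw [abs_le]; constructor <;> linarith [a0.1, a0.2, b0.1, b0.2])
  have d1 := d 1 (2 * (w 0 / w 1)) ((abs_sub _ _).trans (by linarith))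
  have d2 := d 2 (2 * (w 0 / w 2)) ((abs_sub _ _).trans (by linarith))
  have e2 : dt (gr p r z) m - dt (gr p r z1) m = (z - z1) * r 0 * m 0 + (z - z1) * r 1 * m 1 +
      (z - z1) * r 2 * m 2 := by
    simp only [dt, gr]; ring
  rw [e2]
  have t1 := abs_add_le ((z - z1) * r 0 * m 0 + (z - z1) * r 1 * m 1) ((z - z1) * r 2 * m 2)
  have t2 := abs_add_le ((z - z1) * r 0 * m 0) ((z - z1) * r 1 * m 1)
  linarith

end Crest.Agent.R136.Nd565
end

-- ▼ part R136/Nd5_565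
section

/-!
# R136 (S0187), U5: the box around a tilted ribbon of a sheet of the class `ShN`, part 2 (helper565)

* `exists_cig` : the frame of the box and its gradient bounds.
-/

set_option autoImplicit false
set_option linter.unusedVariables false

namespace Crest.Agent.R136.Nd565

open Finset Sh605 UB683

theorem ortho_abs_le {n : Fin 3 → V3} (hn : Ortho n) (i j : Fin 3) : |n i j| ≤ 1 := by
  have h := hn i i
  simp only [dt, if_true] at h
  rw [← sq_le_one_iff_abs_le_one]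
  fin_cases j
  · change n i 0 ^ 2 ≤ 1; nlinarith [sq_nonneg (n i 1), sq_nonneg (n i 2)]
  · change n i 1 ^ 2 ≤ 1; nlinarith [sq_nonneg (n i 0), sq_nonneg (n i 2)]
  · change n i 2 ^ 2 ≤ 1; nlinarith [sq_nonneg (n i 1), sq_nonneg (n i 0)]

theorem abs_mul_le2 {a b A B : ℝ} (ha : |a| ≤ A) (hb : |b| ≤ B) : |a * b| ≤ A * B := by
  rw [abs_mul]; exact mul_le_mul ha hb (abs_nonneg _) ((abs_nonneg _).trans ha)

theorem abs_add_three' (a b c : ℝ) : |a + b + c| ≤ |a| + |b| + |c| := by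
  have t1 := abs_add_le (a + b) c
  have t2 := abs_add_le a b
  linarith

set_option maxHeartbeats 1000000 in
theorem exists_cig {w p r : V3} {H : Fin 3 → Fin 3 → ℝ} {z0 ρ z1 ρ1 nA nB y β σ K L : ℝ}
    (hw0 : 0 < w 0) (hw02 : w 0 ≤ w 2) (hw : w 2 ≤ w 1) (B : GB w p r H z0 ρ)
    (hz : z0 ≤ z1) (hz' : z1 + ρ1 ≤ z0 + ρ) (hρ1 : 0 ≤ ρ1) (h128 : 128 * ρ1 ≤ ρ)
    (hs : ∀ i j, H i j = H j i)
    (hn : nA ^ 2 + nB ^ 2 = 1) (R : Rb w p r H z0 ρ nA nB y β (K * σ * w 0)) (hβ : 0 < β)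
    (hβ1 : β ≤ 1 / 20000) (hσ : 0 < σ) (hK : 1 ≤ K) (hL0 : 0 ≤ L)
    (hL : dt (Ev w nA nB y) (Ev w nA nB y) = L ^ 2) (ht : 400 * (K * σ) * w 1 ≤ β * L) :
    ∃ m lam, Cig w p r H z1 ρ1 nA nB y β σ K L m lam := by
  have hw2 : 0 < w 2 := by linarith
  have hw1 : 0 < w 1 := by linarith
  have hρ : 0 ≤ ρ := by linarith
  obtain ⟨p1, p2, p3, p4⟩ := tilt_pre hw0 hw02 hw B hρ hn R hβ hσ hK hL0 hL ht
  have hLp : 0 < L := by linarith
  have hn' := n_le hn
  have hwi : ∀ i, w 0 ≤ w i := by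
    intro i; fin_cases i
    · exact le_rfl
    · show w 0 ≤ w 1
      linarith
    · exact hw02
  have hwp : ∀ i, 0 < w i := fun i => by linarith [hwi i]
  set E := Ev w nA nB y with hE
  set g := gr p r z1 with hg
  have g0 := B.g0 z1 hz (by linarith)
  have g1 := B.g1 z1 hz (by linarith)
  have g2 := B.g2 z1 hz (by linarith)
  have f1 := R.f1 z1 hz (by linarith)
  have hKσ : 0 < K * σ := by positivity
  have q1 : |dt g E / L| ≤ 1 / 70 := by
    rw [abs_div, abs_of_pos hLp, div_le_iff₀ hLp]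
    have h1 : |dt g E| * β ≤ (1 / 70 * L) * β := by
      calc |dt g E| * β ≤ K * σ * w 0 := f1
        _ ≤ (β / 70) * w 0 := mul_le_mul_of_nonneg_right (by linarith) hw0.le
        _ ≤ (β / 70) * L := mul_le_mul_of_nonneg_left (hw02.trans p1) (by positivity)
        _ = _ := by ring
    exact le_of_mul_le_mul_right h1 hβ
  have q2 : (0.49 : ℝ) ^ 2 + (dt g E / L) ^ 2 ≤ dt g g := by
    have h1 : (dt g E / L) ^ 2 ≤ (1 / 70) ^ 2 := by
      rw [← sq_abs]; exact pow_le_pow_left₀ (abs_nonneg _) q1 2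
    have h2 : 1 / 4 ≤ dt g g := by
      have h3 : 1 / 2 ≤ g 0 := g0.1
      unfold dt
      nlinarith [mul_self_nonneg (g 1), mul_self_nonneg (g 2)]
    norm_num at h1 ⊢
    linarith
  obtain ⟨m, lam, hm, hm1, hlam, hg0, hg2⟩ := exists_frm g E hLp hL (by norm_num) q2
  refine ⟨m, lam, hm, hm1, hlam, hg0, hg2, ?_⟩
  -- abbreviations
  set W0 := 1200 * (K * σ) * (w 1 * w 0) / L with hW0
  set W2 := 1200 * (K * σ) * (w 1 * w 2) / L with hW2
  have hW0L : W0 * L = 1200 * (K * σ) * (w 1 * w 0) := by rw [hW0]; field_simp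
  have hW2L : W2 * L = 1200 * (K * σ) * (w 1 * w 2) := by rw [hW2]; field_simp
  have hW0p : 0 < W0 := by rw [hW0]; positivity
  have hW2p : 0 < W2 := by rw [hW2]; positivity
  have hrat : W2 * (w 0 / w 2) = W0 := by rw [hW0, hW2]; field_simp
  have hrat' : W0 / W2 = w 0 / w 2 := by
    rw [div_eq_iff hW2p.ne', mul_comm]; exact hrat.symm
  have s1 : W2 ≤ 3 * β * w 2 := by
    have : W2 * L ≤ 3 * β * w 2 * L := by
      rw [hW2L]
      have := mul_le_mul_of_nonneg_right ht hw2.le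
      linarith
    exact le_of_mul_le_mul_right this hLp
  have s0 : W0 ≤ 3 * β * w 0 := by
    have : W0 * L ≤ 3 * β * w 0 * L := by
      rw [hW0L]
      have := mul_le_mul_of_nonneg_right ht hw0.le
      linarith
    exact le_of_mul_le_mul_right this hLp
  have s2 : 200 * (K * σ) * w 0 ≤ W0 := by
    have h1 : 200 * (K * σ) * w 0 * L ≤ W0 * L := by
      rw [hW0L]
      have : 200 * (K * σ) * w 0 * L ≤ 200 * (K * σ) * w 0 * (6 * w 1) :=
        mul_le_mul_of_nonneg_left p3 (by positivity)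
      linarith
    exact le_of_mul_le_mul_right h1 hLp
  have hm1le : ∀ i j, |m i j| ≤ 1 := fun i j => ortho_abs_le hm i j
  have hrle : w 0 / w 1 ≤ w 0 / w 2 := div_le_div_of_nonneg_left hw0.le hw2 hw
  have hr0 : 0 < w 0 / w 2 := by positivity
  have hm20 : |m 2 0| ≤ 4 * (w 0 / w 2) := by
    have e1 : g 0 * m 2 0 = -(g 1 * m 2 1) - g 2 * m 2 2 := by
      have := hg2
      unfold dt at this
      linarith
    have t1 : |g 1 * m 2 1| ≤ w 0 / w 2 := by
      refine (abs_mul_le2 g1 (hm1le 2 1)).trans ?_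
      linarith
    have t2 : |g 2 * m 2 2| ≤ w 0 / w 2 := by
      refine (abs_mul_le2 g2 (hm1le 2 2)).trans ?_
      linarith
    have t3 : |g 0 * m 2 0| ≤ 2 * (w 0 / w 2) := by
      rw [e1]
      have := abs_sub (-(g 1 * m 2 1)) (g 2 * m 2 2)
      rw [abs_neg] at this
      linarith
    have t4 : 0 < g 0 := by linarith [g0.1]
    rw [abs_mul, abs_of_pos t4] at t3
    have : 1 / 2 * |m 2 0| ≤ g 0 * |m 2 0| := mul_le_mul_of_nonneg_right g0.1 (abs_nonneg _)
    linarith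
  have hm0w : ∀ j, |m 0 j| ≤ (fun _ => 1 / w 0 : V3) j * w j := by
    intro j
    refine (hm1le 0 j).trans ?_
    show 1 ≤ 1 / w 0 * w j
    rw [one_div, inv_mul_eq_div, one_le_div hw0]
    exact hwi j
  have hm2w : ∀ j, |m 2 j| ≤ (![4 / w 2, 1 / w 2, 1 / w 2] : V3) j * w j := by
    intro j
    fin_cases j
    · show |m 2 0| ≤ 4 / w 2 * w 0
      refine hm20.trans (le_of_eq ?_)
      ring
    · show |m 2 1| ≤ 1 / w 2 * w 1
      refine (hm1le 2 1).trans ?_
      rw [one_div, inv_mul_eq_div, one_le_div hw2]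
      exact hw
    · show |m 2 2| ≤ 1 / w 2 * w 2
      refine (hm1le 2 2).trans (le_of_eq ?_)
      field_simp
  have hEw : ∀ j, |E j| ≤ (![5, 1, 1] : V3) j * w j := by
    intro j
    fin_cases j
    · show |y| ≤ 5 * w 0
      exact p2
    · show |w 1 * -nB| ≤ 1 * w 1
      rw [abs_mul, abs_neg, abs_of_pos hw1]; nlinarith [hn'.2]
    · show |w 2 * nA| ≤ 1 * w 2
      rw [abs_mul, abs_of_pos hw2]; nlinarith [hn'.1]
  have hq0 : ∀ i, 0 ≤ (fun _ => 1 / w 0 : V3) i := fun i => by positivity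
  have hq2 : ∀ i, 0 ≤ (![4 / w 2, 1 / w 2, 1 / w 2] : V3) i := by
    intro i; fin_cases i
    · show 0 ≤ 4 / w 2
      positivity
    · show 0 ≤ 1 / w 2
      positivity
    · show 0 ≤ 1 / w 2
      positivity
  have hq1 : ∀ i, 0 ≤ (![5, 1, 1] : V3) i := by
    intro i; fin_cases i <;> simp
  have b00 : |bl H (m 0) (m 0)| ≤ 9 / w 0 := by
    refine (bl_le hwp B.hH _ _ hq0 hq0 hm0w hm0w).trans (le_of_eq ?_)
    field_simp; ring
  have b20 : |bl H (m 2) (m 0)| ≤ 18 / w 2 := by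
    refine (bl_le hwp B.hH _ _ hq2 hq0 hm2w hm0w).trans (le_of_eq ?_)
    show w 0 * ((4 / w 2 + 1 / w 2 + 1 / w 2) * (1 / w 0 + 1 / w 0 + 1 / w 0)) = 18 / w 2
    field_simp; ring
  have b02 : |bl H (m 0) (m 2)| ≤ 18 / w 2 := by rw [bl_symm hs]; exact b20
  have bE0 : |bl H E (m 0)| ≤ 21 := by
    refine (bl_le hwp B.hH _ _ hq1 hq0 hEw hm0w).trans (le_of_eq ?_)
    show w 0 * ((5 + 1 + 1) * (1 / w 0 + 1 / w 0 + 1 / w 0)) = 21
    field_simp; ring
  have b0E : |bl H (m 0) E| ≤ 21 := by rw [bl_symm hs]; exact bE0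
  have b22 : |bl H (m 2) (m 2)| ≤ 36 / w 2 * (w 0 / w 2) := by
    refine (bl_le hwp B.hH _ _ hq2 hq2 hm2w hm2w).trans (le_of_eq ?_)
    show w 0 * ((4 / w 2 + 1 / w 2 + 1 / w 2) * (4 / w 2 + 1 / w 2 + 1 / w 2)) = _
    field_simp; ring
  have bE2 : |bl H E (m 2)| ≤ 42 * (w 0 / w 2) := by
    refine (bl_le hwp B.hH _ _ hq1 hq2 hEw hm2w).trans (le_of_eq ?_)
    show w 0 * ((5 + 1 + 1) * (4 / w 2 + 1 / w 2 + 1 / w 2)) = _
    field_simp; ring
  have b2E : |bl H (m 2) E| ≤ 42 * (w 0 / w 2) := by rw [bl_symm hs]; exact bE2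
  have bEE : |bl H E E| * β ^ 2 ≤ K * σ * w 0 := R.f2
  -- one vector of the box
  have c0 : ∀ U : V3, (∀ i, |dt (m i) U| ≤ 2 * Wn w β σ K L i) →
      |dt (m 0) U| ≤ 2 * W0 ∧ |dt (m 1) U / L| ≤ 6 * β ∧ |dt (m 2) U| ≤ 2 * W2 := by
    intro U hU
    refine ⟨hU 0, ?_, hU 2⟩
    rw [abs_div, abs_of_pos hLp, div_le_iff₀ hLp]
    have : |dt (m 1) U| ≤ 2 * (3 * β * L) := hU 1
    linarith
  have c1 : ∀ U : V3, (∀ i, |dt (m i) U| ≤ 2 * Wn w β σ K L i) → |bl H U (m 0)| ≤ 288 * β := by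
    intro U hU
    obtain ⟨u0, u1, u2⟩ := c0 U hU
    rw [cigar_expand hm hm1 H U (m 0)]
    have t1 : |dt (m 0) U * bl H (m 0) (m 0)| ≤ 54 * β := by
      refine (abs_mul_le2 (u0.trans (by linarith : 2 * W0 ≤ 2 * (3 * β * w 0))) b00).trans
        (le_of_eq ?_)
      field_simp; ring
    have t2 : |dt (m 2) U * bl H (m 2) (m 0)| ≤ 108 * β := by
      refine (abs_mul_le2 (u2.trans (by linarith : 2 * W2 ≤ 2 * (3 * β * w 2))) b20).trans
        (le_of_eq ?_)
      field_simp; ring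
    have t3 : |dt (m 1) U / L * bl H E (m 0)| ≤ 126 * β :=
      (abs_mul_le2 u1 bE0).trans (le_of_eq (by ring))
    have k1 := abs_add_three' (dt (m 0) U * bl H (m 0) (m 0)) (dt (m 1) U / L * bl H E (m 0))
      (dt (m 2) U * bl H (m 2) (m 0))
    linarith
  have c3 : ∀ U : V3, (∀ i, |dt (m i) U| ≤ 2 * Wn w β σ K L i) →
      |bl H U (m 2)| ≤ 576 * β * (w 0 / w 2) := by
    intro U hU
    obtain ⟨u0, u1, u2⟩ := c0 U hU
    rw [cigar_expand hm hm1 H U (m 2)]
    have t1 : |dt (m 0) U * bl H (m 0) (m 2)| ≤ 108 * β * (w 0 / w 2) := by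
      refine (abs_mul_le2 (u0.trans (by linarith : 2 * W0 ≤ 2 * (3 * β * w 0))) b02).trans
        (le_of_eq ?_)
      field_simp; ring
    have t2 : |dt (m 2) U * bl H (m 2) (m 2)| ≤ 216 * β * (w 0 / w 2) := by
      refine (abs_mul_le2 (u2.trans (by linarith : 2 * W2 ≤ 2 * (3 * β * w 2))) b22).trans
        (le_of_eq ?_)
      field_simp; ring
    have t3 : |dt (m 1) U / L * bl H E (m 2)| ≤ 252 * β * (w 0 / w 2) :=
      (abs_mul_le2 u1 bE2).trans (le_of_eq (by ring))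
    have k1 := abs_add_three' (dt (m 0) U * bl H (m 0) (m 2)) (dt (m 1) U / L * bl H E (m 2))
      (dt (m 2) U * bl H (m 2) (m 2))
    linarith
  have c2 : ∀ U : V3, (∀ i, |dt (m i) U| ≤ 2 * Wn w β σ K L i) →
      β * |bl H U E| ≤ 126 * W0 * β + 6 * (K * σ * w 0) := by
    intro U hU
    obtain ⟨u0, u1, u2⟩ := c0 U hU
    rw [cigar_expand hm hm1 H U E]
    have t1 : |dt (m 0) U * bl H (m 0) E| ≤ 42 * W0 :=
      (abs_mul_le2 u0 b0E).trans (le_of_eq (by ring))
    have t2 : |dt (m 2) U * bl H (m 2) E| ≤ 84 * W0 := by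
      refine (abs_mul_le2 u2 b2E).trans (le_of_eq ?_)
      rw [← hrat]; ring
    have t3 : β * |dt (m 1) U / L * bl H E E| ≤ 6 * (K * σ * w 0) := by
      rw [abs_mul]
      calc β * (|dt (m 1) U / L| * |bl H E E|) ≤ β * ((6 * β) * |bl H E E|) :=
            mul_le_mul_of_nonneg_left (mul_le_mul_of_nonneg_right u1 (abs_nonneg _)) hβ.le
        _ = 6 * (|bl H E E| * β ^ 2) := by ring
        _ ≤ 6 * (K * σ * w 0) := by linarith
    have k1 := abs_add_three' (dt (m 0) U * bl H (m 0) E) (dt (m 1) U / L * bl H E E)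
      (dt (m 2) U * bl H (m 2) E)
    have k3 : β * |dt (m 0) U * bl H (m 0) E + dt (m 1) U / L * bl H E E +
        dt (m 2) U * bl H (m 2) E| ≤ β * (|dt (m 0) U * bl H (m 0) E| +
          |dt (m 1) U / L * bl H E E| + |dt (m 2) U * bl H (m 2) E|) :=
      mul_le_mul_of_nonneg_left k1 hβ.le
    have k4 : β * |dt (m 0) U * bl H (m 0) E| ≤ β * (42 * W0) :=
      mul_le_mul_of_nonneg_left t1 hβ.le
    have k5 : β * |dt (m 2) U * bl H (m 2) E| ≤ β * (84 * W0) :=
      mul_le_mul_of_nonneg_left t2 hβ.le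
    linarith
  intro z hzz hzz' U U' hU hU'
  have hβ' : β * (w 0 / w 2) ≤ 1 / 20000 * (w 0 / w 2) := mul_le_mul_of_nonneg_right hβ1 hr0.le
  refine ⟨?_, ?_, ?_⟩
  · have h1 : |bl H (U + U') (m 0)| ≤ 576 * β := by
      rw [bl_add_left]
      have := abs_add_le (bl H U (m 0)) (bl H U' (m 0))
      linarith [c1 U hU, c1 U' hU']
    have h2 := gr_var B hρ1 h128 hzz hzz' (m 0)
    rw [← hg, hg0] at h2
    have h3 : (3 / 2 * |m 0 0| + 2 * (w 0 / w 1) * |m 0 1| + 2 * (w 0 / w 2) * |m 0 2|) / 128 ≤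
        6 / 128 := by
      have u1 : w 0 / w 2 ≤ 1 := by rw [div_le_one hw2]; exact hw02
      have u2 : 2 * (w 0 / w 1) * |m 0 1| ≤ 2 * 1 * 1 := by
        refine mul_le_mul (by linarith) (hm1le 0 1) (abs_nonneg _) (by norm_num)
      have u3 : 2 * (w 0 / w 2) * |m 0 2| ≤ 2 * 1 * 1 := by
        refine mul_le_mul (by linarith) (hm1le 0 2) (abs_nonneg _) (by norm_num)
      have u4 := hm1le 0 0
      linarith
    have h4 := h2.trans h3
    rw [abs_le] at h1 h4
    constructor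
    · linarith [h1.1, h4.1]
    · linarith [h1.2, h4.2]
  · have e1 : dt (gr p r z) (m 1) + bl H (U + U') (m 1) =
        (dt (gr p r z) E + bl H (U + U') E) / L := by
      rw [hm1, dt_smul, bl_smul_right]; ring
    rw [e1, abs_div, abs_of_pos hLp]
    have f2 := R.f1 z (by linarith) (by linarith)
    have k1 : β * |dt (gr p r z) E + bl H (U + U') E| ≤ K * σ * w 0 + (252 * W0 * β +
        12 * (K * σ * w 0)) := by
      have t1 := abs_add_le (dt (gr p r z) E) (bl H (U + U') E)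
      have t2 : |bl H (U + U') E| ≤ |bl H U E| + |bl H U' E| := by
        rw [bl_add_left]; exact abs_add_le _ _
      have t3 := c2 U hU
      have t4 := c2 U' hU'
      have t5 : β * |dt (gr p r z) E + bl H (U + U') E| ≤ β * (|dt (gr p r z) E| +
          (|bl H U E| + |bl H U' E|)) := mul_le_mul_of_nonneg_left (by linarith) hβ.le
      have t6 : β * |dt (gr p r z) E| ≤ K * σ * w 0 := by rw [mul_comm]; exact f2
      linarith
    have k2 : 3 * (β * |dt (gr p r z) E + bl H (U + U') E|) ≤ lam * W0 := by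
      have t1 : W0 * β ≤ W0 * (1 / 20000) := mul_le_mul_of_nonneg_left hβ1 hW0p.le
      have t2 : 0.49 * W0 ≤ lam * W0 := mul_le_mul_of_nonneg_right hlam hW0p.le
      linarith
    rw [div_le_iff₀ hLp]
    have e2 : lam * (Wn w β σ K L 0 / Wn w β σ K L 1) * L = lam * W0 / (3 * β) := by
      show lam * (W0 / (3 * β * L)) * L = lam * W0 / (3 * β)
      field_simp
    rw [e2, le_div_iff₀ (by positivity)]
    linarith
  · have e3 : lam * (Wn w β σ K L 0 / Wn w β σ K L 2) = lam * (w 0 / w 2) := by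
      show lam * (W0 / W2) = _
      rw [hrat']
    rw [e3]
    have h1 : |bl H (U + U') (m 2)| ≤ 1152 * β * (w 0 / w 2) := by
      rw [bl_add_left]
      have := abs_add_le (bl H U (m 2)) (bl H U' (m 2))
      linarith [c3 U hU, c3 U' hU']
    have h2 := gr_var B hρ1 h128 hzz hzz' (m 2)
    rw [← hg, hg2, sub_zero] at h2
    have h3 : (3 / 2 * |m 2 0| + 2 * (w 0 / w 1) * |m 2 1| + 2 * (w 0 / w 2) * |m 2 2|) / 128 ≤
        10 / 128 * (w 0 / w 2) := by
      have u2 : 2 * (w 0 / w 1) * |m 2 1| ≤ 2 * (w 0 / w 2) * 1 := by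
        refine mul_le_mul (by linarith) (hm1le 2 1) (abs_nonneg _) (by positivity)
      have u3 : 2 * (w 0 / w 2) * |m 2 2| ≤ 2 * (w 0 / w 2) * 1 := by
        refine mul_le_mul le_rfl (hm1le 2 2) (abs_nonneg _) (by positivity)
      linarith
    have h4 := h2.trans h3
    have h5 : 0.49 * (w 0 / w 2) ≤ lam * (w 0 / w 2) := mul_le_mul_of_nonneg_right hlam hr0.le
    refine (abs_add_le _ _).trans ?_
    linarith

end Crest.Agent.R136.Nd565
end

-- ▼ part R136/Nd6_565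

/-!
# R136 (S0187), U5: strips of a sheet of class `C*` are contained in one sheet of class `C*` (helper565)
-/

set_option autoImplicit false
set_option linter.unusedVariables false

namespace Crest.Agent.R136.Nd565

open Finset Sh605 UB683

/-- two lines of one sheet: the steep coordinate of the difference -/
theorem y_bound {e : Fin 3 → V3} {c : Ln4} {w : V3} {q : ℝ → V3 → ℝ} {a z0 ρ r0 : ℝ} {T T1 : Ln4}
    (S : ShN e c w q a z0 ρ r0) (hr : 0 < r0) (hT : InSheet T e c w q a z0 ρ)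
    (hT1 : InSheet T1 e c w q a z0 ρ) {z : ℝ} (h0 : z0 ≤ z) (h1 : z ≤ z0 + ρ) {V : V3} {M : ℝ}
    (hV0 : |V 0| ≤ w 0) (hV1 : V 1 = dt (e 1) (T1.pos z - T.pos z))
    (hV2 : V 2 = dt (e 2) (T1.pos z - T.pos z))
    (hM : |q z (T.pos z + cmb e V) - q z (T.pos z)| ≤ M) :
    |dt (e 0) (T1.pos z - T.pos z) - V 0| ≤ 2 * (2 * a + M) := by
  have he := S.ortho
  have hw0 : 0 < w 0 := by linarith [S.a_le0, S.r0_le]
  have hw2 : 0 < w 2 := by linarith [S.w0_le]
  have hw1 : 0 < w 1 := by linarith [S.w_le]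
  have bT := hT z h0 h1
  have bT1 := hT1 z h0 h1
  set τ := dt (e 0) (T1.pos z - T.pos z) - V 0 with hτ
  have eU : crd e (T1.pos z - T.pos z) = V + τ • bas 0 := by
    funext i
    fin_cases i
    · show dt (e 0) (T1.pos z - T.pos z) = V 0 + τ * 1
      rw [hτ]; ring
    · show dt (e 1) (T1.pos z - T.pos z) = V 1 + τ * 0
      rw [hV1]; ring
    · show dt (e 2) (T1.pos z - T.pos z) = V 2 + τ * 0
      rw [hV2]; ring
  have eT1 : T1.pos z = (T.pos z + cmb e V) + τ • e 0 := by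
    have h2 : T1.pos z - T.pos z = cmb e V + τ • e 0 := by
      rw [← cmb_crd he (T1.pos z - T.pos z), eU, cmb_add, cmb_smul, cmb_bas]
    rw [add_assoc, ← h2]; abel
  have i1 : InK e c (dbl3 w) z (T1.pos z) := by
    intro i
    refine (bT1.1 i).trans ?_
    simp only [dbl3]
    have : 0 ≤ w i := (abs_nonneg _).trans (bT1.1 i)
    linarith
  have i2 : InK e c (dbl3 w) z (T.pos z + cmb e V) := by
    intro i
    have e1 : T.pos z + cmb e V - c.pos z = (T.pos z - c.pos z) + cmb e V := by abel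
    have e2 : dt (e i) (cmb e V) = V i := congrFun (crd_cmb he V) i
    rw [e1, dt_add, e2]
    simp only [dbl3]
    have b1 := bT.1 i
    have b2 := bT1.1 i
    have hwi : 0 ≤ w i := (abs_nonneg _).trans b1
    fin_cases i
    · show |dt (e 0) (T.pos z - c.pos z) + V 0| ≤ 2 * w 0
      refine (abs_add_le _ _).trans ?_
      have b3 : |dt (e 0) (T.pos z - c.pos z)| ≤ w 0 := b1
      linarith
    · show |dt (e 1) (T.pos z - c.pos z) + V 1| ≤ 2 * w 1
      rw [hV1, ← dt_add]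
      have : T.pos z - c.pos z + (T1.pos z - T.pos z) = T1.pos z - c.pos z := by abel
      rw [this]
      have b3 : |dt (e 1) (T1.pos z - c.pos z)| ≤ w 1 := b2
      linarith
    · show |dt (e 2) (T.pos z - c.pos z) + V 2| ≤ 2 * w 2
      rw [hV2, ← dt_add]
      have : T.pos z - c.pos z + (T1.pos z - T.pos z) = T1.pos z - c.pos z := by abel
      rw [this]
      have b3 : |dt (e 2) (T1.pos z - c.pos z)| ≤ w 2 := b2
      linarith
  have hq : |q z (T1.pos z) - q z (T.pos z + cmb e V)| ≤ 2 * a + M := by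
    have k1 := bT.2
    have k2 := bT1.2
    rw [abs_le] at k1 k2 hM ⊢
    constructor <;> linarith [k1.1, k1.2, k2.1, k2.2, hM.1, hM.2]
  rcases le_total 0 τ with hp | hp
  · have h3 := (S.st0 z h0 h1 _ τ hp i2 (by rw [← eT1]; exact i1)).1
    rw [← eT1] at h3
    rw [abs_of_nonneg hp]
    linarith [le_abs_self (q z (T1.pos z) - q z (T.pos z + cmb e V))]
  · have e3 : T.pos z + cmb e V = T1.pos z + (-τ) • e 0 := by
      rw [eT1, neg_smul]; abel
    have h3 := (S.st0 z h0 h1 (T1.pos z) (-τ) (by linarith) i1 (by rw [← e3]; exact i2)).1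
    rw [← e3] at h3
    rw [abs_of_nonpos hp]
    linarith [neg_abs_le (q z (T1.pos z) - q z (T.pos z + cmb e V))]

/-- normalised base coordinates of the difference of two lines -/
noncomputable def sA (e : Fin 3 → V3) (w : V3) (T T1 : Ln4) (z : ℝ) : ℝ :=
  dt (e 1) (T1.pos z - T.pos z) / w 1

/-- normalised base coordinates of the difference of two lines -/
noncomputable def sB (e : Fin 3 → V3) (w : V3) (T T1 : Ln4) (z : ℝ) : ℝ :=
  dt (e 2) (T1.pos z - T.pos z) / w 2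

/-- strip around `T` at the height `z` -/
def Stp (e : Fin 3 → V3) (w : V3) (T T1 : Ln4) (nA nB β σ z : ℝ) : Prop :=
  |sA e w T T1 z| ≤ β ∧ |sB e w T T1 z| ≤ β ∧ |nA * sA e w T T1 z + nB * sB e w T T1 z| ≤ σ

/-- the strip is contained in the box with the same frame -/
theorem same_mem {e : Fin 3 → V3} {c : Ln4} {w : V3} {q : ℝ → V3 → ℝ} {a z0 ρ r0 : ℝ} {T T1 : Ln4}
    (S : ShN e c w q a z0 ρ r0) (hr : 0 < r0) (hρ : 0 ≤ ρ) (hT : InSheet T e c w q a z0 ρ)
    (hT1 : InSheet T1 e c w q a z0 ρ) {A1 β z1 ρ1 : ℝ} (hβ : 0 < β) (hβ1 : β ≤ 1 / 8)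
    (ha : a ≤ β * w 0) (h0 : z0 ≤ z1) (h1 : z1 + ρ1 ≤ z0 + ρ)
    (hs : ∀ z, z1 ≤ z → z ≤ z1 + ρ1 → |sA e w T T1 z| ≤ β ∧ |sA e w T T1 z| ≤ A1 ∧
      |sB e w T T1 z| ≤ β) :
    InSheet T1 e T ![12 * β * w 0, A1 * w 1, 12 * β * w 2] q a z1 ρ1 := by
  have he := S.ortho
  have hw0 : 0 < w 0 := by linarith [S.a_le0, S.r0_le]
  have hw2 : 0 < w 2 := by linarith [S.w0_le]
  have hw1 : 0 < w 1 := by linarith [S.w_le]
  have hwp : ∀ i, 0 < w i := by
    intro i; fin_cases i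
    · exact hw0
    · exact hw1
    · exact hw2
  obtain ⟨p, r, H, hG⟩ := exists_TD S.isQ e T
  have B := gb_of S hr hρ hT hG
  intro z hz hz'
  obtain ⟨s1, s2, s3⟩ := hs z hz hz'
  have hz0 : z0 ≤ z := by linarith
  have hz1 : z ≤ z0 + ρ := by linarith
  refine ⟨?_, (hT1 z hz0 hz1).2⟩
  have u1 : |dt (e 1) (T1.pos z - T.pos z)| = |sA e w T T1 z| * w 1 := by
    unfold sA; rw [abs_div, abs_of_pos hw1]; field_simp
  have u2 : |dt (e 2) (T1.pos z - T.pos z)| = |sB e w T T1 z| * w 2 := by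
    unfold sB; rw [abs_div, abs_of_pos hw2]; field_simp
  set V : V3 := ![0, dt (e 1) (T1.pos z - T.pos z), dt (e 2) (T1.pos z - T.pos z)] with hV
  have v1 : |V 1| ≤ β * w 1 := by
    show |dt (e 1) (T1.pos z - T.pos z)| ≤ _
    rw [u1]; exact mul_le_mul_of_nonneg_right s1 hw1.le
  have v2 : |V 2| ≤ β * w 2 := by
    show |dt (e 2) (T1.pos z - T.pos z)| ≤ _
    rw [u2]; exact mul_le_mul_of_nonneg_right s3 hw2.le
  have v0 : V 0 = 0 := rfl
  have hM : |q z (T.pos z + cmb e V) - q z (T.pos z)| ≤ 3 * β * w 0 := by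
    rw [hG.exp z V]
    have e1 : q z (T.pos z) + dt (gr p r z) V + bl H V V - q z (T.pos z) =
        gr p r z 1 * V 1 + gr p r z 2 * V 2 + bl H V V := by
      have : dt (gr p r z) V = gr p r z 1 * V 1 + gr p r z 2 * V 2 := by
        unfold dt; rw [v0]; ring
      rw [this]; ring
    rw [e1]
    have k1 : |gr p r z 1 * V 1| ≤ β * w 0 := by
      rw [abs_mul]
      calc |gr p r z 1| * |V 1| ≤ w 0 / w 1 * (β * w 1) :=
            mul_le_mul (B.g1 z hz0 hz1) v1 (abs_nonneg _) (by positivity)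
        _ = β * w 0 := by field_simp
    have k2 : |gr p r z 2 * V 2| ≤ β * w 0 := by
      rw [abs_mul]
      calc |gr p r z 2| * |V 2| ≤ w 0 / w 2 * (β * w 2) :=
            mul_le_mul (B.g2 z hz0 hz1) v2 (abs_nonneg _) (by positivity)
        _ = β * w 0 := by field_simp
    have k3 : |bl H V V| ≤ 4 * β * (β * w 0) := by
      have hx : ∀ i, |V i| ≤ (![0, β, β] : V3) i * w i := by
        intro i; fin_cases i
        · show |V 0| ≤ 0 * w 0
          rw [v0]; simp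
        · exact v1
        · exact v2
      have h00 : ∀ i, 0 ≤ (![0, β, β] : V3) i := by
        intro i; fin_cases i <;> simp [hβ.le]
      have := bl_le hwp B.hH ![0, β, β] ![0, β, β] h00 h00 hx hx
      refine this.trans (le_of_eq ?_)
      show w 0 * ((0 + β + β) * (0 + β + β)) = _
      ring
    have k4 : 4 * β * (β * w 0) ≤ 1 * (β * w 0) :=
      mul_le_mul_of_nonneg_right (by linarith) (by positivity)
    have t1 := abs_add_le (gr p r z 1 * V 1 + gr p r z 2 * V 2) (bl H V V)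
    have t2 := abs_add_le (gr p r z 1 * V 1) (gr p r z 2 * V 2)
    linarith
  have hy := y_bound S hr hT hT1 hz0 hz1 (V := V) (by rw [v0, abs_zero]; exact hw0.le) rfl rfl hM
  rw [v0, sub_zero] at hy
  intro i
  fin_cases i
  · show |dt (e 0) (T1.pos z - T.pos z)| ≤ 12 * β * w 0
    have : 0 < β * w 0 := by positivity
    linarith
  · show |dt (e 1) (T1.pos z - T.pos z)| ≤ A1 * w 1
    rw [u1]; exact mul_le_mul_of_nonneg_right s2 hw1.le
  · show |dt (e 2) (T1.pos z - T.pos z)| ≤ 12 * β * w 2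
    rw [u2]
    have := mul_le_mul_of_nonneg_right s3 hw2.le
    have h5 : 0 < β * w 2 := by positivity
    linarith

/-- transversal component of the transversal direction -/
theorem perp_bound {w : V3} {nA nB y L : ℝ} (hw2 : 0 < w 2) (hw : w 2 ≤ w 1)
    (hn : nA ^ 2 + nB ^ 2 = 1) (hy : |y| ≤ 5 * w 2) (hLp : 0 < L)
    (hL : dt (Ev w nA nB y) (Ev w nA nB y) = L ^ 2) {m : Fin 3 → V3} (hm : Ortho m)
    (hm1 : m 1 = (1 / L) • Ev w nA nB y) {j : Fin 3} (hj : j ≠ 1) :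
    |dt (m j) (Nv w nA nB)| ≤ 6 * (w 1 * w 2) / L := by
  have hw1 : 0 < w 1 := by linarith
  set E := Ev w nA nB y with hE
  set N := Nv w nA nB with hN
  have h1 : dt (m j) N ^ 2 + dt (m 1) N ^ 2 ≤ dt N N := by
    have e1 : N = cmb m (crd m N) := (cmb_crd hm N).symm
    have e2 : dt N N = dt (m 0) N ^ 2 + dt (m 1) N ^ 2 + dt (m 2) N ^ 2 := by
      have : dt N N = dt (cmb m (crd m N)) N := by rw [← e1]
      rw [this, dt_cmb]; simp only [dt, crd]; ring
    rw [e2]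
    have : j = 0 ∨ j = 2 := by
      fin_cases j
      · left; rfl
      · exact absurd rfl hj
      · right; rfl
    rcases this with h | h
    · rw [h]; nlinarith [sq_nonneg (dt (m 2) N)]
    · rw [h]; nlinarith [sq_nonneg (dt (m 0) N)]
  have h2 : dt (m 1) N * L = dt E N := by
    rw [hm1, smul_dt]; field_simp
  have h3 : (dt (m j) N * L) ^ 2 ≤ dt E E * dt N N - dt E N ^ 2 := by
    rw [← h2, hL]
    have : 0 ≤ L ^ 2 := by positivity
    nlinarith
  rw [← dt_cr_cr] at h3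
  have h4 : dt (cr E N) (cr E N) ≤ (6 * (w 1 * w 2)) ^ 2 := by
    have e3 : dt (cr E N) (cr E N) = (w 1 * w 2 * (nA ^ 2 + nB ^ 2)) ^ 2 +
        y ^ 2 * (w 2 ^ 2 * nB ^ 2 + w 1 ^ 2 * nA ^ 2) := by
      simp only [dt, cr, hE, hN, Ev, Nv, Matrix.cons_val_zero, Matrix.cons_val_one,
        Matrix.cons_val]
      ring
    rw [e3, hn, mul_one]
    have h5 : y ^ 2 ≤ 25 * w 2 ^ 2 := by
      rw [← sq_abs]
      have := pow_le_pow_left₀ (abs_nonneg y) hy 2
      nlinarith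
    have h6 : w 2 ^ 2 * nB ^ 2 + w 1 ^ 2 * nA ^ 2 ≤ w 1 ^ 2 := by
      have hsq : w 2 ^ 2 ≤ w 1 ^ 2 := by nlinarith
      have h2 : w 2 ^ 2 * nB ^ 2 ≤ w 1 ^ 2 * nB ^ 2 := mul_le_mul_of_nonneg_right hsq (sq_nonneg _)
      have h3 : w 1 ^ 2 * nA ^ 2 + w 1 ^ 2 * nB ^ 2 = w 1 ^ 2 := by rw [← mul_add, hn, mul_one]
      linarith
    have h7 : 0 ≤ w 2 ^ 2 * nB ^ 2 + w 1 ^ 2 * nA ^ 2 := by positivity
    have h8 : y ^ 2 * (w 2 ^ 2 * nB ^ 2 + w 1 ^ 2 * nA ^ 2) ≤ 25 * w 2 ^ 2 * w 1 ^ 2 :=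
      mul_le_mul h5 h6 h7 (by positivity)
    nlinarith [mul_pos (pow_pos hw1 2) (pow_pos hw2 2)]
  have h5 : |dt (m j) N * L| ≤ 6 * (w 1 * w 2) := by
    rw [← abs_of_pos (by positivity : 0 < 6 * (w 1 * w 2)), ← sq_le_sq]
    exact h3.trans h4
  rw [abs_mul, abs_of_pos hLp] at h5
  rw [le_div_iff₀ hLp]
  exact h5

end Crest.Agent.R136.Nd565
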