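import Crest.Agent.R136.Qd3_329
import Crest.Agent.R136.Gr1_356

-- ▼ part R136/Qd4_329
section

/-!
# R136: the bilinear rigidity, finite form (helper329), part 4

`grid_step2` (velocities) and `grid_quad`.
-/

set_option autoImplicit false

namespace Crest.Agent.R136.Qd329

open Finset

variable {α : Type*} {L : Finset α} {pc vc : α → ℕ} {a b c s β ζ Z Φ : α → ℝ} {κ M δ : ℝ}

/-- the triangle of three lines is degenerate -/
def crs (a b : α → ℝ) (l1 l2 l3 : α) : ℝ :=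
  (b l2 - b l1) * (a l3 - a l1) - (b l3 - b l1) * (a l2 - a l1)

/-- bad triples of position cells -/
def BadP (L : Finset α) (pc : α → ℕ) (a b : α → ℝ) (ω : ℝ) (p1 p2 p3 : ℕ) : Prop :=
  ∃ l1 ∈ L, ∃ l2 ∈ L, ∃ l3 ∈ L, pc l1 = p1 ∧ pc l2 = p2 ∧ pc l3 = p3 ∧ |crs a b l1 l2 l3| < ω

/-- two position cells are close in the coordinate `b` -/
def ClB (L : Finset α) (pc : α → ℕ) (b : α → ℝ) (q : ℝ) (p1 p2 : ℕ) : Prop :=
  ∃ l1 ∈ L, ∃ l2 ∈ L, pc l1 = p1 ∧ pc l2 = p2 ∧ |b l1 - b l2| < q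

theorem crs_close (G : Grid L pc vc a b c s β ζ Z Φ κ M δ) {l1 l2 l3 k1 k2 : α} (h1 : l1 ∈ L)
    (h2 : l2 ∈ L) (h3 : l3 ∈ L) (g1 : k1 ∈ L) (g2 : k2 ∈ L) (e1 : pc l1 = pc k1)
    (e2 : pc l2 = pc k2) : |crs a b l1 l2 l3 - crs a b k1 k2 l3| ≤ 16 * M * δ := by
  have hM := G.M1
  obtain ⟨a1, b1, -, -⟩ := G.pcl l1 h1 k1 g1 e1
  obtain ⟨a2, b2, -, -⟩ := G.pcl l2 h2 k2 g2 e2
  obtain ⟨ba1, bb1, -⟩ := G.bd l1 h1
  obtain ⟨ba2, bb2, -⟩ := G.bd l2 h2
  obtain ⟨ba3, bb3, -⟩ := G.bd l3 h3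
  obtain ⟨ca1, cb1, -⟩ := G.bd k1 g1
  obtain ⟨ca2, cb2, -⟩ := G.bd k2 g2
  have t1 : ∀ x y x' y' : ℝ, |x - x'| ≤ δ → |y - y'| ≤ δ → |(x - y) - (x' - y')| ≤ 2 * δ := by
    intro x y x' y' h h'
    have e : (x - y) - (x' - y') = (x - x') - (y - y') := by ring
    rw [e]
    have := abs_sub (x - x') (y - y')
    linarith
  have t2 : ∀ x y : ℝ, |x| ≤ M → |y| ≤ M → |x - y| ≤ 2 * M := by
    intro x y h h'
    have := abs_sub x y
    linarith
  have z : ∀ x : ℝ, |x - x| ≤ δ := by intro x; rw [sub_self, abs_zero]; exact G.δ0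
  have m1 := mul_close (t1 _ _ _ _ b2 b1) (t1 (a l3) _ (a l3) _ (z _) a1) (t2 _ _ bb2 bb1)
    (t2 _ _ ba3 ca1)
  have m2 := mul_close (t1 (b l3) _ (b l3) _ (z _) b1) (t1 _ _ _ _ a2 a1) (t2 _ _ bb3 bb1)
    (t2 _ _ ca2 ca1)
  unfold crs
  have e : (b l2 - b l1) * (a l3 - a l1) - (b l3 - b l1) * (a l2 - a l1) -
      ((b k2 - b k1) * (a l3 - a k1) - (b l3 - b k1) * (a k2 - a k1)) =
      ((b l2 - b l1) * (a l3 - a l1) - (b k2 - b k1) * (a l3 - a k1)) -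
      ((b l3 - b l1) * (a l2 - a l1) - (b l3 - b k1) * (a k2 - a k1)) := by ring
  rw [e]
  refine (abs_sub _ _).trans ?_
  linarith

open Classical in
theorem badP_card (G : Grid L pc vc a b c s β ζ Z Φ κ M δ) {P V : Finset ℕ} {W D r q η : ℝ}
    (C : GCnt L pc vc a b c P V W D r q η) (hq : 0 < q) (hδq : 2 * δ ≤ q)
    (hδω : 64 * M * δ ≤ q ^ 2) {E : ℝ} (hη : 2 * η ≤ E) :
    (((P ×ˢ P ×ˢ P).filter fun t => BadP L pc a b (q ^ 2 / 4) t.1 t.2.1 t.2.2).card : ℝ) ≤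
      E * (P.card : ℝ) ^ 3 := by
  have hM := G.M1
  have hδ := G.δ0
  have hP0 : (0 : ℝ) ≤ P.card := Nat.cast_nonneg _
  have h1 := bad_card P (ClB L pc b (q / 2)) (BadP L pc a b (q ^ 2 / 4)) (η := η) (η' := η) C.η0
    (fun p1 _ => by
      rcases (P.filter fun p2 => ClB L pc b (q / 2) p1 p2).eq_empty_or_nonempty with h | ⟨p0, h0⟩
      · rw [h, card_empty, Nat.cast_zero]
        exact mul_nonneg C.η0 hP0
      · obtain ⟨k, hk, -, -, hkp, -, -⟩ := (mem_filter.1 h0).2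
        refine C.hs 1 0 (b k) (Or.inl (by simp)) _ (filter_subset _ _) fun p hp => ?_
        obtain ⟨l1, hl1, l2, hl2, e1, e2, e3⟩ := (mem_filter.1 hp).2
        refine ⟨l2, hl2, e2, ?_⟩
        have h4 := (G.pcl l1 hl1 k hk (e1.trans hkp.symm)).2.1
        have e4 : 1 * b l2 + 0 * a l2 - b k = (b l1 - b k) - (b l1 - b l2) := by ring
        rw [e4]
        have := abs_sub (b l1 - b k) (b l1 - b l2)
        linarith)
    (fun p1 hp1 p2 hp2 hn => by
      rcases (P.filter fun p3 => BadP L pc a b (q ^ 2 / 4) p1 p2 p3).eq_empty_or_nonempty with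
        h | ⟨p0, h0⟩
      · rw [h, card_empty, Nat.cast_zero]
        exact mul_nonneg C.η0 hP0
      · obtain ⟨k1, hk1, k2, hk2, -, -, f1, f2, -, -⟩ := (mem_filter.1 h0).2
        have hfar : q / 2 ≤ |b k2 - b k1| := by
          by_contra hcon
          exact hn ⟨k1, hk1, k2, hk2, f1, f2, by rw [abs_sub_comm]; exact not_le.1 hcon⟩
        set Dd := max |b k2 - b k1| |a k2 - a k1| with hDd
        have hD1 : q / 2 ≤ Dd := hfar.trans (le_max_left _ _)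
        have hD0 : 0 < Dd := by linarith
        set n1 := -(a k2 - a k1) / Dd with hn1
        set n2 := (b k2 - b k1) / Dd with hn2
        have hn12 : |n1| = 1 ∨ |n2| = 1 := by
          rcases max_cases |b k2 - b k1| |a k2 - a k1| with ⟨h5, -⟩ | ⟨h5, -⟩
          · right
            rw [hn2, abs_div, abs_of_pos hD0, hDd, h5]
            exact div_self (by rw [← h5, ← hDd]; exact hD0.ne')
          · left
            rw [hn1, abs_div, abs_neg, abs_of_pos hD0, hDd, h5]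
            exact div_self (by rw [← h5, ← hDd]; exact hD0.ne')
        refine C.hs n1 n2 (n1 * b k1 + n2 * a k1) hn12 _ (filter_subset _ _) fun p hp => ?_
        obtain ⟨l1, hl1, l2, hl2, l3, hl3, e1, e2, e3, e4⟩ := (mem_filter.1 hp).2
        refine ⟨l3, hl3, e3, ?_⟩
        have h6 := crs_close G hl1 hl2 hl3 hk1 hk2 (e1.trans f1.symm) (e2.trans f2.symm)
        have h7 : |crs a b k1 k2 l3| ≤ q ^ 2 / 2 := by
          have e5 : crs a b k1 k2 l3 = crs a b l1 l2 l3 - (crs a b l1 l2 l3 - crs a b k1 k2 l3) := by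
            ring
          rw [e5]
          refine (abs_sub _ _).trans ?_
          linarith
        have e8 : n1 * b l3 + n2 * a l3 - (n1 * b k1 + n2 * a k1) = crs a b k1 k2 l3 / Dd := by
          rw [hn1, hn2]
          unfold crs
          field_simp
          ring
        rw [e8, abs_div, abs_of_pos hD0, div_le_iff₀ hD0]
        refine h7.trans ?_
        nlinarith)
  refine h1.trans ?_
  have : 0 ≤ (P.card : ℝ) ^ 3 := by positivity
  nlinarith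

set_option maxHeartbeats 800000 in
open Classical in
/-- **velocities** -/
theorem grid_step2 (G : Grid L pc vc a b c s β ζ Z Φ κ M δ) {P V : Finset ℕ} {W D r q η : ℝ}
    (C : GCnt L pc vc a b c P V W D r q η) (hq : 0 < q) (hδq : 2 * δ ≤ q)
    (hδω : 64 * M * δ ≤ q ^ 2) {L1 : Finset α} (hL1 : L1 ⊆ L) (hne : L1.Nonempty) {D1 : ℝ}
    (hD1 : 0 < D1) (dens : D1 * W * P.card * V.card ≤ L1.card) (hη : 2 * η ≤ D1 ^ 3 / 16)
    {l1 l2 m1 m2 e1 : ℝ} (he1 : 40 * δ ≤ e1)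
    (hrel : ∀ l ∈ L1, ∀ l' ∈ L1, |(s l - s l') - l1 * (b l - b l') - l2 * (a l - a l')| ≤ e1 ∧
        |(β l - β l') - m1 * (b l - b l') - m2 * (a l - a l')| ≤ e1) :
    ∃ L2 ⊆ L1, D1 ^ 3 / 32 * (L1.card : ℝ) ≤ L2.card ∧ ∀ l ∈ L2, ∀ l' ∈ L2,
        |(ζ l - ζ l') - l1 * (c l - c l') + κ * m1 * (c l ^ 2 - c l' ^ 2)| ≤
          160 * M ^ 3 * e1 / q ^ 2 ∧
        |(Z l - Z l') - l2 * (c l - c l') + κ * m2 * (c l ^ 2 - c l' ^ 2)| ≤
          160 * M ^ 3 * e1 / q ^ 2 := by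
  have hM := G.M1
  have hδ := G.δ0
  have he0 : 0 ≤ e1 := by linarith
  have hbad0 := badP_card G C hq hδq hδω hη
  have hdens' : D1 * W * V.card * P.card ≤ L1.card := by
    have e : D1 * W * V.card * P.card = D1 * W * P.card * V.card := by ring
    rw [e]; exact dens
  obtain ⟨p1, -, p2, -, p3, -, hgood, L2, hL2, hcard, hcomp⟩ :=
    triple_pigeon L1 vc pc V P (fun l hl => C.hv l (hL1 hl)) (fun l hl => C.hp l (hL1 hl)) C.W0 hD1
      (fun v p => by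
        refine le_trans ?_ (C.fib p v)
        refine Nat.cast_le.2 (card_le_card fun l hl => ?_)
        obtain ⟨x1, x2, x3⟩ := mem_filter.1 hl
        exact mem_filter.2 ⟨hL1 x1, x3, x2⟩) hne hdens' _ hbad0
  refine ⟨L2, hL2, hcard, ?_⟩
  have hL1c : (0 : ℝ) < L1.card := by exact_mod_cast hne.card_pos
  -- relation of one pair
  have rel : ∀ l ∈ L2, ∀ k ∈ L2, ∀ p p' ri rj : α, p ∈ L1 → p' ∈ L1 → ri ∈ L1 → rj ∈ L1 →
      vc p = vc l → vc p' = vc l → vc ri = vc k → vc rj = vc k → pc p = pc ri → pc p' = pc rj →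
      |(l1 * (c l - c k) - κ * m1 * (c l ^ 2 - c k ^ 2) - (ζ l - ζ k)) * (b ri - b rj) +
        (l2 * (c l - c k) - κ * m2 * (c l ^ 2 - c k ^ 2) - (Z l - Z k)) * (a ri - a rj)| ≤
        5 * M ^ 2 * e1 := by
    intro l hl k hk p p' ri rj hp hp' hri hrj e1' e2 e3 e4 e5 e6
    have hlL := hL1 (hL2 hl)
    have hkL := hL1 (hL2 hk)
    have hpL := hL1 hp
    have hp'L := hL1 hp'
    have hriL := hL1 hri
    have hrjL := hL1 hrj
    have g1 := G.vP' hpL hp'L hriL hrjL (e1'.trans e2.symm) e5 e6 hlL hlL e1'.symm e2.symm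
    have g2 := G.vP' hriL hrjL hriL hrjL (e3.trans e4.symm) rfl rfl hkL hkL e3.symm e4.symm
    have g3 := G.pP' hpL hriL hlL hkL e5 e1' e3 hriL hriL e5.symm rfl
    have g4 := G.pP' hp'L hrjL hlL hkL e6 e2 e4 hrjL hrjL e6.symm rfl
    obtain ⟨r1, r2⟩ := hrel ri hri rj hrj
    obtain ⟨-, -, bc, -⟩ := G.bd l hlL
    obtain ⟨-, -, bc', -⟩ := G.bd k hkL
    have hMδ : M * δ ≤ M ^ 2 * δ := by nlinarith [mul_nonneg hδ (by nlinarith : 0 ≤ M ^ 2 - M)]
    -- combined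
    have c1 : |(c l - c k) * (s ri - s rj) - κ * (c l ^ 2 - c k ^ 2) * (β ri - β rj) -
        ((ζ l - ζ k) * (b ri - b rj) + (Z l - Z k) * (a ri - a rj))| ≤ 40 * M ^ 2 * δ := by
      have e : (c l - c k) * (s ri - s rj) - κ * (c l ^ 2 - c k ^ 2) * (β ri - β rj) -
          ((ζ l - ζ k) * (b ri - b rj) + (Z l - Z k) * (a ri - a rj)) =
          (((Φ p - ζ l * b ri - Z l * a ri) - (Φ p' - ζ l * b rj - Z l * a rj)) -
          ((Φ ri - ζ k * b ri - Z k * a ri) - (Φ rj - ζ k * b rj - Z k * a rj))) -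
          (((Φ p - c l * s ri + κ * c l ^ 2 * β ri) - (Φ ri - c k * s ri + κ * c k ^ 2 * β ri)) -
          ((Φ p' - c l * s rj + κ * c l ^ 2 * β rj) - (Φ rj - c k * s rj + κ * c k ^ 2 * β rj))) := by
        ring
      rw [e]
      have k1 := abs_sub (((Φ p - ζ l * b ri - Z l * a ri) - (Φ p' - ζ l * b rj - Z l * a rj)) -
          ((Φ ri - ζ k * b ri - Z k * a ri) - (Φ rj - ζ k * b rj - Z k * a rj)))
          (((Φ p - c l * s ri + κ * c l ^ 2 * β ri) - (Φ ri - c k * s ri + κ * c k ^ 2 * β ri)) -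
          ((Φ p' - c l * s rj + κ * c l ^ 2 * β rj) - (Φ rj - c k * s rj + κ * c k ^ 2 * β rj)))
      have k2 := abs_sub ((Φ p - ζ l * b ri - Z l * a ri) - (Φ p' - ζ l * b rj - Z l * a rj))
          ((Φ ri - ζ k * b ri - Z k * a ri) - (Φ rj - ζ k * b rj - Z k * a rj))
      have k3 := abs_sub
        ((Φ p - c l * s ri + κ * c l ^ 2 * β ri) - (Φ ri - c k * s ri + κ * c k ^ 2 * β ri))
        ((Φ p' - c l * s rj + κ * c l ^ 2 * β rj) - (Φ rj - c k * s rj + κ * c k ^ 2 * β rj))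
      linarith
    have bΔ : |c l - c k| ≤ 2 * M := by have := abs_sub (c l) (c k); linarith
    have bΔ2 : |κ * (c l ^ 2 - c k ^ 2)| ≤ 2 * M ^ 2 := by
      have x1 : |c l ^ 2 - c k ^ 2| ≤ 2 * M ^ 2 := by
        have y1 : |c l ^ 2| ≤ M ^ 2 := by rw [abs_pow]; exact pow_le_pow_left₀ (abs_nonneg _) bc 2
        have y2 : |c k ^ 2| ≤ M ^ 2 := by rw [abs_pow]; exact pow_le_pow_left₀ (abs_nonneg _) bc' 2
        have := abs_sub (c l ^ 2) (c k ^ 2)
        linarith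
      rw [abs_mul]
      calc |κ| * |c l ^ 2 - c k ^ 2| ≤ 1 * (2 * M ^ 2) :=
            mul_le_mul G.κ1 x1 (abs_nonneg _) zero_le_one
        _ = _ := one_mul _
    have e : (l1 * (c l - c k) - κ * m1 * (c l ^ 2 - c k ^ 2) - (ζ l - ζ k)) * (b ri - b rj) +
        (l2 * (c l - c k) - κ * m2 * (c l ^ 2 - c k ^ 2) - (Z l - Z k)) * (a ri - a rj) =
        ((c l - c k) * (s ri - s rj) - κ * (c l ^ 2 - c k ^ 2) * (β ri - β rj) -
        ((ζ l - ζ k) * (b ri - b rj) + (Z l - Z k) * (a ri - a rj))) -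
        (c l - c k) * ((s ri - s rj) - l1 * (b ri - b rj) - l2 * (a ri - a rj)) +
        (κ * (c l ^ 2 - c k ^ 2)) * ((β ri - β rj) - m1 * (b ri - b rj) - m2 * (a ri - a rj)) := by
      ring
    rw [e]
    have q1 : |(c l - c k) * ((s ri - s rj) - l1 * (b ri - b rj) - l2 * (a ri - a rj))| ≤
        2 * M * e1 := by
      rw [abs_mul]; exact mul_le_mul bΔ r1 (abs_nonneg _) (by linarith)
    have q2 : |(κ * (c l ^ 2 - c k ^ 2)) *
        ((β ri - β rj) - m1 * (b ri - b rj) - m2 * (a ri - a rj))| ≤ 2 * M ^ 2 * e1 := by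
      rw [abs_mul]; exact mul_le_mul bΔ2 r2 (abs_nonneg _) (by positivity)
    refine (abs_add_le _ _).trans ?_
    have q3 := abs_sub ((c l - c k) * (s ri - s rj) - κ * (c l ^ 2 - c k ^ 2) * (β ri - β rj) -
        ((ζ l - ζ k) * (b ri - b rj) + (Z l - Z k) * (a ri - a rj)))
        ((c l - c k) * ((s ri - s rj) - l1 * (b ri - b rj) - l2 * (a ri - a rj)))
    have q4 : 40 * M ^ 2 * δ ≤ M ^ 2 * e1 := by nlinarith [sq_nonneg M]
    have q5 : M * e1 ≤ M ^ 2 * e1 := by nlinarith [mul_nonneg he0 (by nlinarith : 0 ≤ M ^ 2 - M)]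
    linarith
  intro l hl k hk
  obtain ⟨⟨t1, ht1, f1, g1⟩, ⟨t2, ht2, f2, g2⟩, ⟨t3, ht3, f3, g3⟩⟩ := hcomp l hl
  obtain ⟨⟨r1, hr1, x1, y1⟩, ⟨r2, hr2, x2, y2⟩, ⟨r3, hr3, x3, y3⟩⟩ := hcomp k hk
  have R2 := rel l hl k hk t2 t1 r2 r1 ht2 ht1 hr2 hr1 f2 f1 x2 x1 (g2.trans y2.symm)
    (g1.trans y1.symm)
  have R3 := rel l hl k hk t3 t1 r3 r1 ht3 ht1 hr3 hr1 f3 f1 x3 x1 (g3.trans y3.symm)
    (g1.trans y1.symm)
  have hω : q ^ 2 / 4 ≤ |(b r2 - b r1) * (a r3 - a r1) - (b r3 - b r1) * (a r2 - a r1)| := by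
    by_contra hcon
    exact hgood ⟨r1, hL1 hr1, r2, hL1 hr2, r3, hL1 hr3, y1, y2, y3, not_le.1 hcon⟩
  obtain ⟨b1, b1', -⟩ := G.bd r1 (hL1 hr1)
  obtain ⟨b2, b2', -⟩ := G.bd r2 (hL1 hr2)
  obtain ⟨b3, b3', -⟩ := G.bd r3 (hL1 hr3)
  have t2' : ∀ x y : ℝ, |x| ≤ M → |y| ≤ M → |x - y| ≤ 2 * M := by
    intro x y h h'
    have := abs_sub x y
    linarith
  obtain ⟨k1, k2⟩ := solve2 (by positivity : 0 < q ^ 2 / 4) (by linarith : 0 ≤ M)
    (by positivity : 0 ≤ 5 * M ^ 2 * e1) hω (t2' _ _ b2 b1) (t2' _ _ b2' b1') (t2' _ _ b3 b1)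
    (t2' _ _ b3' b1') R2 R3
  have e5 : 4 * M * (5 * M ^ 2 * e1) / (q ^ 2 / 4) = 80 * M ^ 3 * e1 / q ^ 2 := by
    field_simp; ring
  rw [e5] at k1 k2
  have h80 : 80 * M ^ 3 * e1 / q ^ 2 ≤ 160 * M ^ 3 * e1 / q ^ 2 := by
    refine div_le_div_of_nonneg_right ?_ (by positivity)
    have : 0 ≤ M ^ 3 * e1 := by positivity
    nlinarith
  constructor
  · refine le_trans (le_of_eq ?_) (k1.trans h80)
    rw [← abs_neg]
    congr 1; ring
  · refine le_trans (le_of_eq ?_) (k2.trans h80)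
    rw [← abs_neg]
    congr 1; ring

/-- **positions and velocities** -/
theorem grid_quad (G : Grid L pc vc a b c s β ζ Z Φ κ M δ) {P V : Finset ℕ} {W D r q η : ℝ}
    (C : GCnt L pc vc a b c P V W D r q η) (hL : L.Nonempty) (hD : 0 < D)
    (dens : D * W * P.card * V.card ≤ L.card) (hr : 0 < r) (hr1 : r ≤ 1) (hδr : δ ≤ r)
    {κ0 : ℝ} (hκ0 : 0 < κ0) (hκ01 : κ0 ≤ 1) (hκ : κ0 ≤ |κ|) (hη : 3 * η ≤ D ^ 3 / 16)
    (hq : 0 < q) (hδq : 2 * δ ≤ q) (hδω : 64 * M * δ ≤ q ^ 2)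
    (hη2 : 2 * η ≤ (D ^ 4 / 32) ^ 3 / 16) :
    ∃ l1 l2 m1 m2 : ℝ, |l1| ≤ 10 * M ^ 2 / (κ0 * r ^ 2) ∧ |l2| ≤ 10 * M ^ 2 / (κ0 * r ^ 2) ∧
      |m1| ≤ 4 * M / (κ0 * r ^ 2) ∧ |m2| ≤ 4 * M / (κ0 * r ^ 2) ∧
      ∃ L2 ⊆ L, (D ^ 4 / 32) ^ 3 / 32 * (D ^ 3 / 32) * (L.card : ℝ) ≤ L2.card ∧
      ∀ l ∈ L2, ∀ l' ∈ L2,
        |(s l - s l') - l1 * (b l - b l') - l2 * (a l - a l')| ≤ 400 * M ^ 3 * δ / (κ0 * r ^ 2) ∧
        |(β l - β l') - m1 * (b l - b l') - m2 * (a l - a l')| ≤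
          400 * M ^ 3 * δ / (κ0 * r ^ 2) ∧
        |(ζ l - ζ l') - l1 * (c l - c l') + κ * m1 * (c l ^ 2 - c l' ^ 2)| ≤
          160 * M ^ 3 * (400 * M ^ 3 * δ / (κ0 * r ^ 2)) / q ^ 2 ∧
        |(Z l - Z l') - l2 * (c l - c l') + κ * m2 * (c l ^ 2 - c l' ^ 2)| ≤
          160 * M ^ 3 * (400 * M ^ 3 * δ / (κ0 * r ^ 2)) / q ^ 2 := by
  have hM := G.M1
  have hδ := G.δ0
  obtain ⟨l1, l2, m1, m2, hl1, hl2, hm1, hm2, L1, hL1, hc1, hrel⟩ :=
    grid_step1 G C hL hD dens hr hr1 hδr hκ0 hκ01 hκ hη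
  have hL0 : (0 : ℝ) < L.card := by exact_mod_cast hL.card_pos
  have hne : L1.Nonempty := by
    rw [← card_pos]
    have : (0 : ℝ) < L1.card := lt_of_lt_of_le (by positivity) hc1
    exact_mod_cast this
  have dens1 : D ^ 4 / 32 * W * P.card * V.card ≤ L1.card := by
    refine le_trans ?_ hc1
    have e : D ^ 4 / 32 * W * P.card * V.card = D ^ 3 / 32 * (D * W * P.card * V.card) := by ring
    rw [e]
    exact mul_le_mul_of_nonneg_left dens (by positivity)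
  have he1 : 40 * δ ≤ 400 * M ^ 3 * δ / (κ0 * r ^ 2) := by
    rw [le_div_iff₀ (by positivity)]
    have h1 : κ0 * r ^ 2 ≤ 1 := by
      have : r ^ 2 ≤ 1 := by nlinarith
      nlinarith
    have h2 : 1 ≤ M ^ 3 := one_le_pow₀ hM
    calc 40 * δ * (κ0 * r ^ 2) ≤ 40 * δ * 1 := mul_le_mul_of_nonneg_left h1 (by positivity)
      _ ≤ 400 * M ^ 3 * δ := by nlinarith
  obtain ⟨L2, hL2, hc2, hrel2⟩ := grid_step2 G C hq hδq hδω hL1 hne (by positivity) dens1 hη2 he1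
    hrel
  refine ⟨l1, l2, m1, m2, hl1, hl2, hm1, hm2, L2, hL2.trans hL1, ?_, ?_⟩
  · refine le_trans ?_ hc2
    rw [mul_assoc]
    exact mul_le_mul_of_nonneg_left hc1 (by positivity)
  · intro l hl l' hl'
    obtain ⟨k1, k2⟩ := hrel l (hL2 hl) l' (hL2 hl')
    obtain ⟨k3, k4⟩ := hrel2 l hl l' hl'
    exact ⟨k1, k2, k3, k4⟩

end Crest.Agent.R136.Qd329
end

-- ▼ part R136/Qd5_329

/-!
# R136: the bilinear rigidity (helper329), part 5: nets and popular cells of an `RUnif`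
-/

set_option autoImplicit false

open Filter Topology

namespace Crest.Agent.R136.Qd329

open Finset
open Crest.Agent.R138.Ex926 (Base U)
open Crest.Agent.R136.Gf356

/-- most popular value -/
theorem pop1 {α : Type*} (S : Finset α) (f : α → ℕ) {N : ℝ}
    (hN : ((S.image f).card : ℝ) ≤ N) :
    ∃ v, (S.card : ℝ) ≤ N * ((S.filter fun t => f t = v).card : ℝ) := by
  classical
  rcases S.eq_empty_or_nonempty with rfl | hS
  · exact ⟨0, by simp⟩
  obtain ⟨v, -, hv⟩ := exists_max_image (S.image f)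
    (fun v => (S.filter fun t => f t = v).card) (hS.image f)
  refine ⟨v, ?_⟩
  have h1 : S.card = ∑ u ∈ S.image f, (S.filter fun t => f t = u).card :=
    card_eq_sum_card_fiberwise fun t ht => mem_coe.2 (mem_image_of_mem f (mem_coe.1 ht))
  have h2 : (S.card : ℝ) ≤ (S.image f).card * ((S.filter fun t => f t = v).card : ℝ) := by
    have h3 : ∑ u ∈ S.image f, (S.filter fun t => f t = u).card ≤
        ∑ _u ∈ S.image f, (S.filter fun t => f t = v).card := sum_le_sum hv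
    rw [sum_const, smul_eq_mul, ← h1] at h3
    exact_mod_cast h3
  exact h2.trans (mul_le_mul_of_nonneg_right hN (Nat.cast_nonneg _))

/-- popular values in all fibres -/
theorem pop2 {α : Type*} (S : Finset α) (lab : α → ℕ) (f : ℕ → α → ℕ) {N : ℝ}
    (hN : ∀ e, (((S.filter fun t => lab t = e).image (f e)).card : ℝ) ≤ N) :
    ∃ v : ℕ → ℕ, (S.card : ℝ) ≤
      N * ((S.filter fun t => f (lab t) t = v (lab t)).card : ℝ) := by
  classical
  have h := fun e => pop1 (S.filter fun t => lab t = e) (f e) (hN e)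
  choose v hv using h
  refine ⟨v, ?_⟩
  have h1 : S.card = ∑ u ∈ S.image lab, (S.filter fun t => lab t = u).card :=
    card_eq_sum_card_fiberwise fun t ht => mem_coe.2 (mem_image_of_mem lab (mem_coe.1 ht))
  have h2 : (S.filter fun t => f (lab t) t = v (lab t)).card =
      ∑ u ∈ S.image lab, ((S.filter fun t => f (lab t) t = v (lab t)).filter
        fun t => lab t = u).card :=
    card_eq_sum_card_fiberwise fun t ht => by
      have := (mem_filter.1 (mem_coe.1 ht)).1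
      exact mem_coe.2 (mem_image_of_mem lab this)
  rw [h1, h2]
  push_cast
  rw [mul_sum]
  refine sum_le_sum fun u _ => (hv u).trans (le_of_eq ?_)
  congr 2
  congr 1
  ext t
  simp only [mem_filter]
  constructor
  · rintro ⟨⟨a1, a2⟩, a3⟩
    exact ⟨⟨a1, by rw [a2]; exact a3⟩, a2⟩
  · rintro ⟨⟨a1, a2⟩, a3⟩
    exact ⟨⟨a1, a3⟩, by rw [a3] at a2; exact a2⟩

/-- fibrewise count -/
theorem card_le_img {β : Type*} [DecidableEq β] (S : Finset ℕ) (f : ℕ → β) {N W : ℝ}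
    (hN : ((S.image f).card : ℝ) ≤ N) (hW0 : 0 ≤ W)
    (hW : ∀ v ∈ S.image f, ((S.filter fun t => f t = v).card : ℝ) ≤ W) :
    (S.card : ℝ) ≤ N * W := by
  have h1 : S.card = ∑ u ∈ S.image f, (S.filter fun t => f t = u).card :=
    card_eq_sum_card_fiberwise fun t ht => mem_coe.2 (mem_image_of_mem f (mem_coe.1 ht))
  rw [h1]
  push_cast
  calc ∑ u ∈ S.image f, ((S.filter fun t => f t = u).card : ℝ) ≤ ∑ _u ∈ S.image f, W :=
        sum_le_sum hW
    _ = (S.image f).card * W := by rw [sum_const, nsmul_eq_mul]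
    _ ≤ _ := mul_le_mul_of_nonneg_right hN hW0

section

variable {κ : Type} {B : Base} {G : ℕ → RCfg κ} {Leg : Set (κ → ℝ)} {ν : (κ → ℝ) → ℝ} {D : ℝ}

/-- **nets with disjoint small boxes** -/
theorem voronoi (H : RUnif B G Leg ν D) (r : κ → ℝ) (hr : r ∈ Leg) {ε : ℝ} (hε : 0 < ε) :
    ∀ᶠ n in (U : Filter ℕ), ∀ k, ∃ lab : ℕ → ℕ,
      (∀ t ∈ (G n).slice k, lab t ∈ (G n).slice k ∧ (G n).loose r (D ^ 3 * ε) k (lab t) t) ∧
      (∀ t ∈ (G n).slice k, ∀ t' ∈ (G n).slice k, lab t = lab t' →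
        (G n).loose r (D ^ 5 * ε) k t t') ∧
      ∀ A ⊆ ((G n).slice k).image lab, (A.card : ℝ) * B.d n ^ (-ν r + ε) ≤
        (((A.biUnion fun e => (G n).box r ε e k)).card : ℝ) := by
  classical
  have hD := H.D1
  have hD0 : 0 < D := by linarith
  filter_upwards [H.symm r hr ε hε, H.symm r hr (D ^ 2 * ε) (by positivity),
    H.symm r hr (D ^ 3 * ε) (by positivity), H.tri r hr (D * ε) (by positivity),
    H.tri r hr (D ^ 4 * ε) (by positivity), H.low r hr ε hε] with n s1 s2 s3 t1 t4 hlow k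
  have hpow : ∀ t : ℝ, 0 < B.d n ^ t := fun t => rpos B n t
  obtain ⟨E, hET, hE1, hE2⟩ := exists_indep ((G n).slice k)
    (fun e t => (G n).loose r (D ^ 2 * ε) k e t)
  have hI : ∀ t ∈ (G n).slice k, (t, k) ∈ (G n).I := fun t ht => H.memSlice.1 ht
  have hlab : ∀ t ∈ (G n).slice k, ∃ e ∈ E, (G n).loose r (D ^ 3 * ε) k e t := by
    intro t ht
    by_cases htE : t ∈ E
    · exact ⟨t, htE, H.loose_self _ _ (hI t ht)⟩
    · obtain ⟨e, he, h | h⟩ := hE2 t ht htE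
      · refine ⟨e, he, H.loose_mono (fun _ => le_rfl) ?_ h⟩
        have : D ^ 2 ≤ D ^ 3 := pow_le_pow_right₀ hD (by norm_num)
        exact mul_le_mul_of_nonneg_right this hε.le
      · refine ⟨e, he, ?_⟩
        have := s2 k t e (hI t ht) (hI e (hET he)) h
        have e1 : D * (D ^ 2 * ε) = D ^ 3 * ε := by ring
        rwa [e1] at this
  choose! lab hlab1 hlab2 using hlab
  refine ⟨lab, fun t ht => ⟨hET (hlab1 t ht), hlab2 t ht⟩, ?_, ?_⟩
  · intro t ht t' ht' heq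
    have a1 := hlab2 t ht
    have a2 := hlab2 t' ht'
    rw [← heq] at a2
    have hIe := hI _ (hET (hlab1 t ht))
    have a3 := s3 k _ t hIe (hI t ht) a1
    have e1 : D * (D ^ 3 * ε) = D ^ 4 * ε := by ring
    rw [e1] at a3
    have a4 : (G n).loose r (D ^ 4 * ε) k (lab t) t' := H.loose_mono (fun _ => le_rfl) (by
      have : D ^ 3 ≤ D ^ 4 := pow_le_pow_right₀ hD (by norm_num)
      exact mul_le_mul_of_nonneg_right this hε.le) a2
    have a5 := t4 k t (lab t) t' (hI t ht) hIe (hI t' ht') a3 a4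
    have e2 : D * (D ^ 4 * ε) = D ^ 5 * ε := by ring
    rwa [e2] at a5
  · intro A hA
    have hAE : A ⊆ E := by
      intro e he
      obtain ⟨t, ht, rfl⟩ := mem_image.1 (hA he)
      exact hlab1 t ht
    have hdisj : ∀ e ∈ A, ∀ e' ∈ A, e ≠ e' →
        Disjoint ((G n).box r ε e k) ((G n).box r ε e' k) := by
      intro e he e' he' hne
      rw [disjoint_left]
      intro l hl hl'
      obtain ⟨l1, l2⟩ := RCfg.mem_box.1 hl
      obtain ⟨m1, m2⟩ := RCfg.mem_box.1 hl'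
      have hIl := H.memSlice.1 l1
      have b2 := s1 k e' l (hI e' (hET (hAE he'))) hIl m2
      have b3 : (G n).loose r (D * ε) k e l := H.loose_mono (fun _ => le_rfl) (by nlinarith) l2
      have b4 := t1 k e l e' (hI e (hET (hAE he))) hIl (hI e' (hET (hAE he'))) b3 b2
      have e1 : D * (D * ε) = D ^ 2 * ε := by ring
      rw [e1] at b4
      exact hE1 e (hAE he) e' (hAE he') hne b4
    rw [card_biUnion hdisj]
    calc (A.card : ℝ) * B.d n ^ (-ν r + ε) = ∑ e ∈ A, B.d n ^ (-ν r + ε) := by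
          rw [sum_const, nsmul_eq_mul]
      _ ≤ ∑ e ∈ A, (((G n).box r ε e k).card : ℝ) :=
          sum_le_sum fun e he => hlow e k (hI e (hET (hAE he)))
      _ = _ := by push_cast; rfl

/-- **popular subcells** -/
theorem popular (H : RUnif B G Leg ν D) (r r' : κ → ℝ) (hr : r ∈ Leg) (hr' : r' ∈ Leg)
    (hrr : ∀ j, r j ≤ r' j) {ε : ℝ} (hε : 0 < ε) :
    ∀ᶠ n in (U : Filter ℕ), ∀ k, ∀ T ⊆ (G n).slice k, ∀ lab : ℕ → ℕ,
      (∀ t ∈ T, ∀ t' ∈ T, lab t = lab t' → (G n).loose r ε k t t') →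
      ∃ T' ⊆ T, B.d n ^ ((ν r - ν r') + (D ^ 2 + 1) * ε) * (T.card : ℝ) ≤ T'.card ∧
        ∀ t ∈ T', ∀ t' ∈ T', lab t = lab t' → (G n).loose r' (D ^ 5 * ε) k t t' := by
  classical
  filter_upwards [H.exists_lab_loose r r' hr hr' hrr hε] with n h1 k T hT lab hlab
  have h2 : ∀ e, ∃ lab' : ℕ → ℕ, (∀ t ∈ T.filter fun t => lab t = e,
      ∀ t' ∈ T.filter fun t => lab t = e, lab' t = lab' t' →
        (G n).loose r' (D ^ 5 * ε) k t t') ∧
      (((T.filter fun t => lab t = e).image lab').card : ℝ) ≤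
        B.d n ^ (-(ν r - ν r') - (D ^ 2 + 1) * ε) := by
    intro e
    refine h1 k _ ((filter_subset _ _).trans hT) ?_
    intro i hi i' hi'
    obtain ⟨a1, a2⟩ := mem_filter.1 hi
    obtain ⟨b1, b2⟩ := mem_filter.1 hi'
    exact hlab i a1 i' b1 (a2.trans b2.symm)
  choose f hf1 hf2 using h2
  obtain ⟨v, hv⟩ := pop2 T lab f hf2
  refine ⟨T.filter fun t => f (lab t) t = v (lab t), filter_subset _ _, ?_, ?_⟩
  · have hpos := rpos B n ((ν r - ν r') + (D ^ 2 + 1) * ε)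
    have h3 := mul_le_mul_of_nonneg_left hv hpos.le
    refine h3.trans (le_of_eq ?_)
    rw [← mul_assoc, ← rpow_add']
    have : ν r - ν r' + (D ^ 2 + 1) * ε + (-(ν r - ν r') - (D ^ 2 + 1) * ε) = 0 := by ring
    rw [this, Real.rpow_zero, one_mul]
  · intro t ht t' ht' he
    obtain ⟨a1, a2⟩ := mem_filter.1 ht
    obtain ⟨b1, b2⟩ := mem_filter.1 ht'
    refine hf1 (lab t) t (mem_filter.2 ⟨a1, rfl⟩) t' (mem_filter.2 ⟨b1, he.symm⟩) ?_
    rw [a2, he, b2]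

/-- **nets, with counts** -/
theorem net_facts (H : RUnif B G Leg ν D) (p0 r : κ → ℝ) (h0 : p0 ∈ Leg) (hr : r ∈ Leg)
    (hall : ∀ ε : ℝ, 0 < ε → ∀ᶠ n in (U : Filter ℕ), ∀ k l l', (l, k) ∈ (G n).I →
      (l', k) ∈ (G n).I → (G n).loose p0 ε k l l') {ε : ℝ} (hε : 0 < ε) :
    ∀ᶠ n in (U : Filter ℕ), ∀ k, ((G n).slice k).Nonempty → ∃ lab : ℕ → ℕ,
      (∀ t ∈ (G n).slice k, lab t ∈ (G n).slice k ∧ (G n).loose r (D ^ 3 * ε) k (lab t) t) ∧
      (∀ t ∈ (G n).slice k, ∀ t' ∈ (G n).slice k, lab t = lab t' →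
        (G n).loose r (D ^ 5 * ε) k t t') ∧
      (∀ A ⊆ ((G n).slice k).image lab, (A.card : ℝ) * B.d n ^ (-ν r + ε) ≤
        (((A.biUnion fun e => (G n).box r ε e k)).card : ℝ)) ∧
      ((((G n).slice k).image lab).card : ℝ) ≤ B.d n ^ (ν r - ε) * ((G n).slice k).card ∧
      B.d n ^ (-ν p0 + ν r + (D ^ 6 + 1) * ε) ≤ ((((G n).slice k).image lab).card : ℝ) := by
  classical
  have hD := H.D1
  have hD0 : 0 < D := by linarith
  filter_upwards [voronoi H r hr hε, hall ε hε, H.low p0 h0 ε hε,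
    H.up r hr (D ^ 5 * ε) (by positivity)] with n h1 h2 h3 h4 k hne
  obtain ⟨lab, a1, a2, a3⟩ := h1 k
  have hpos : ∀ t : ℝ, 0 < B.d n ^ t := fun t => rpos B n t
  refine ⟨lab, a1, a2, a3, ?_, ?_⟩
  · have b1 := a3 _ (Subset.refl _)
    have b2 : (((((G n).slice k).image lab).biUnion fun e => (G n).box r ε e k).card : ℝ) ≤
        ((G n).slice k).card := by
      refine Nat.cast_le.2 (card_le_card fun l hl => ?_)
      obtain ⟨e, -, he⟩ := mem_biUnion.1 hl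
      exact (RCfg.mem_box.1 he).1
    have b3 := b1.trans b2
    have e1 : B.d n ^ (ν r - ε) * B.d n ^ (-ν r + ε) = 1 := by
      rw [← rpow_add']
      have : ν r - ε + (-ν r + ε) = 0 := by ring
      rw [this, Real.rpow_zero]
    calc ((((G n).slice k).image lab).card : ℝ) =
        B.d n ^ (ν r - ε) * (((((G n).slice k).image lab).card : ℝ) * B.d n ^ (-ν r + ε)) := by
          rw [mul_left_comm, e1, mul_one]
      _ ≤ _ := mul_le_mul_of_nonneg_left b3 (hpos _).le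
  · obtain ⟨l0, hl0⟩ := hne
    have hl0I := H.memSlice.1 hl0
    have b1 : B.d n ^ (-ν p0 + ε) ≤ (((G n).slice k).card : ℝ) := by
      refine (h3 l0 k hl0I).trans (Nat.cast_le.2 (card_le_card fun l hl => ?_))
      exact (RCfg.mem_box.1 hl).1
    have b2 := card_le_img ((G n).slice k) lab (le_refl _) (hpos (-ν r - D * (D ^ 5 * ε))).le
      fun v hv => by
        obtain ⟨t0, ht0, hv0⟩ := mem_image.1 hv
        refine le_trans (Nat.cast_le.2 (card_le_card ?_)) (h4 t0 k (H.memSlice.1 ht0))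
        intro l hl
        obtain ⟨c1, c2⟩ := mem_filter.1 hl
        exact RCfg.mem_box.2 ⟨c1, a2 t0 ht0 l c1 (hv0.trans c2.symm)⟩
    have b3 := b1.trans b2
    have e1 : B.d n ^ (-ν r - D * (D ^ 5 * ε)) * B.d n ^ (ν r + D ^ 6 * ε) = 1 := by
      rw [← rpow_add']
      have : -ν r - D * (D ^ 5 * ε) + (ν r + D ^ 6 * ε) = 0 := by ring
      rw [this, Real.rpow_zero]
    calc B.d n ^ (-ν p0 + ν r + (D ^ 6 + 1) * ε) =
        B.d n ^ (-ν p0 + ε) * B.d n ^ (ν r + D ^ 6 * ε) := by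
          rw [← rpow_add']; congr 1; ring
      _ ≤ ((((G n).slice k).image lab).card : ℝ) * B.d n ^ (-ν r - D * (D ^ 5 * ε)) *
          B.d n ^ (ν r + D ^ 6 * ε) := mul_le_mul_of_nonneg_right b3 (hpos _).le
      _ = _ := by rw [mul_assoc, e1, mul_one]

end

/-! ### strips -/

/-- number of integer parts -/
theorem int_img (S : Finset ℕ) (g : ℕ → ℝ) {w x0 x1 : ℝ} (hw : 0 < w) (h01 : x0 ≤ x1)
    (h : ∀ l ∈ S, x0 ≤ g l ∧ g l ≤ x1) :
    ((S.image fun l => ⌊g l / w⌋).card : ℝ) ≤ (x1 - x0) / w + 2 := by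
  have h1 : (S.image fun l => ⌊g l / w⌋) ⊆ Icc ⌊x0 / w⌋ ⌊x1 / w⌋ := by
    intro z hz
    obtain ⟨l, hl, rfl⟩ := mem_image.1 hz
    obtain ⟨a1, a2⟩ := h l hl
    exact mem_Icc.2 ⟨Int.floor_le_floor (div_le_div_of_nonneg_right a1 hw.le),
      Int.floor_le_floor (div_le_div_of_nonneg_right a2 hw.le)⟩
  have h2 := card_le_card h1
  rw [Int.card_Icc] at h2
  have h3 : ⌊x0 / w⌋ ≤ ⌊x1 / w⌋ := Int.floor_le_floor (div_le_div_of_nonneg_right h01 hw.le)
  have h4 : (((⌊x1 / w⌋ + 1 - ⌊x0 / w⌋).toNat : ℕ) : ℝ) = (⌊x1 / w⌋ : ℝ) + 1 - ⌊x0 / w⌋ := by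
    have : (((⌊x1 / w⌋ + 1 - ⌊x0 / w⌋).toNat : ℤ) : ℝ) =
        ((⌊x1 / w⌋ + 1 - ⌊x0 / w⌋ : ℤ) : ℝ) := by
      rw [Int.toNat_of_nonneg (by omega)]
    push_cast at this
    exact_mod_cast this
  have h5 := Int.floor_le (x1 / w)
  have h6 := Int.lt_floor_add_one (x0 / w)
  calc ((S.image fun l => ⌊g l / w⌋).card : ℝ) ≤ (((⌊x1 / w⌋ + 1 - ⌊x0 / w⌋).toNat : ℕ) : ℝ) :=
        Nat.cast_le.2 h2
    _ = (⌊x1 / w⌋ : ℝ) + 1 - ⌊x0 / w⌋ := h4
    _ ≤ x1 / w - x0 / w + 2 := by linarith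
    _ = _ := by ring

theorem floor_close {x y w : ℝ} (hw : 0 < w) (h : ⌊x / w⌋ = ⌊y / w⌋) : |x - y| ≤ w := by
  have h1 := Int.abs_sub_lt_one_of_floor_eq_floor h
  have h2 : x / w - y / w = (x - y) / w := by ring
  rw [h2, abs_div, abs_of_pos hw, div_lt_one hw] at h1
  exact h1.le

/-- **lines in a strip**, slope at most one -/
theorem strip_core (T : Finset ℕ) (a b : ℕ → ℝ) {M w q Wc : ℝ} (hM : 1 ≤ M) (hw : 0 < w)
    (hwq : w ≤ q) (hq : q ≤ 1) (ha : ∀ l ∈ T, |a l| ≤ M) (hW : 0 ≤ Wc)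
    (hcell : ∀ l0 ∈ T, ((T.filter fun l => |a l - a l0| ≤ w ∧ |b l - b l0| ≤ w).card : ℝ) ≤ Wc)
    {n t : ℝ} (hn : |n| ≤ 1) (hs : ∀ l ∈ T, |b l + n * a l - t| ≤ q) :
    (T.card : ℝ) ≤ 24 * M * q / w ^ 2 * Wc := by
  classical
  have hq0 : 0 < q := lt_of_lt_of_le hw hwq
  have h1 : ((T.image fun l => ⌊a l / w⌋).card : ℝ) ≤ 4 * M / w := by
    refine (int_img T a (x0 := -M) (x1 := M) hw (by linarith) fun l hl =>
      abs_le.1 (ha l hl)).trans ?_
    rw [div_add' _ _ _ hw.ne', div_le_div_iff_of_pos_right hw]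
    linarith
  have h2 : ∀ v ∈ T.image fun l => ⌊a l / w⌋,
      ((T.filter fun l => ⌊a l / w⌋ = v).card : ℝ) ≤ 6 * q / w * Wc := by
    intro v hv
    obtain ⟨l0, hl0, hv0⟩ := mem_image.1 hv
    have hcl : ∀ l ∈ T.filter fun l => ⌊a l / w⌋ = v, |a l - a l0| ≤ w := fun l hl =>
      floor_close hw ((mem_filter.1 hl).2.trans hv0.symm)
    have h3 : (((T.filter fun l => ⌊a l / w⌋ = v).image fun l => ⌊b l / w⌋).card : ℝ) ≤
        (t - n * a l0 + q + w - (t - n * a l0 - q - w)) / w + 2 := by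
      refine int_img _ b hw (by linarith) fun l hl => ?_
      have k1 := hcl l hl
      have k2 := hs l (mem_filter.1 hl).1
      have k3 : |n * (a l - a l0)| ≤ w := by
        rw [abs_mul]
        calc |n| * |a l - a l0| ≤ 1 * w := mul_le_mul hn k1 (abs_nonneg _) zero_le_one
          _ = w := one_mul _
      have k4 := abs_le.1 k3
      have k5 := abs_le.1 k2
      constructor <;> nlinarith [k4.1, k4.2, k5.1, k5.2]
    have h4 : (t - n * a l0 + q + w - (t - n * a l0 - q - w)) / w + 2 ≤ 6 * q / w := by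
      rw [div_add' _ _ _ hw.ne', div_le_div_iff_of_pos_right hw]
      linarith
    refine card_le_img _ (fun l => ⌊b l / w⌋) (h3.trans h4) hW ?_
    intro v' hv'
    obtain ⟨l1, hl1, hv1⟩ := mem_image.1 hv'
    obtain ⟨e1, e2⟩ := mem_filter.1 hl1
    refine le_trans (Nat.cast_le.2 (card_le_card ?_)) (hcell l1 e1)
    intro l hl
    obtain ⟨f1, f2⟩ := mem_filter.1 hl
    obtain ⟨g1, g2⟩ := mem_filter.1 f1
    exact mem_filter.2 ⟨g1, floor_close hw (g2.trans e2.symm), floor_close hw (f2.trans hv1.symm)⟩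
  have h5 := card_le_img T (fun l => ⌊a l / w⌋) h1 (by positivity) h2
  refine h5.trans (le_of_eq ?_)
  field_simp
  ring

/-- **lines in a strip** -/
theorem strip_lines (T : Finset ℕ) (a b : ℕ → ℝ) {M w q Wc : ℝ} (hM : 1 ≤ M) (hw : 0 < w)
    (hwq : w ≤ q) (hq : q ≤ 1) (ha : ∀ l ∈ T, |a l| ≤ M) (hb : ∀ l ∈ T, |b l| ≤ M) (hW : 0 ≤ Wc)
    (hcell : ∀ l0 ∈ T, ((T.filter fun l => |a l - a l0| ≤ w ∧ |b l - b l0| ≤ w).card : ℝ) ≤ Wc)
    {n1 n2 t : ℝ} (hn : 1 ≤ |n1| ∨ 1 ≤ |n2|) (hs : ∀ l ∈ T, |n1 * b l + n2 * a l - t| ≤ q) :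
    (T.card : ℝ) ≤ 24 * M * q / w ^ 2 * Wc := by
  have hq0 : 0 < q := lt_of_lt_of_le hw hwq
  rcases le_total |n2| |n1| with h | h
  · have h1 : 1 ≤ |n1| := by rcases hn with h' | h' <;> linarith
    have h10 : n1 ≠ 0 := by
      intro h0; rw [h0, abs_zero] at h1; linarith
    refine strip_core T a b hM hw hwq hq ha hW hcell (n := n2 / n1) (t := t / n1) ?_ fun l hl => ?_
    · rw [abs_div]; exact (div_le_one (by linarith)).2 h
    · have e : b l + n2 / n1 * a l - t / n1 = (n1 * b l + n2 * a l - t) / n1 := by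
        field_simp
      rw [e, abs_div, div_le_iff₀ (by linarith)]
      refine (hs l hl).trans ?_
      nlinarith
  · have h1 : 1 ≤ |n2| := by rcases hn with h' | h' <;> linarith
    have h10 : n2 ≠ 0 := by
      intro h0; rw [h0, abs_zero] at h1; linarith
    refine strip_core T b a hM hw hwq hq hb hW ?_ (n := n1 / n2) (t := t / n2) ?_ fun l hl => ?_
    · intro l0 hl0
      refine le_trans (le_of_eq ?_) (hcell l0 hl0)
      congr 2
      ext l
      simp only [and_comm]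
    · rw [abs_div]; exact (div_le_one (by linarith)).2 h
    · have e : a l + n1 / n2 * b l - t / n2 = (n1 * b l + n2 * a l - t) / n2 := by
        field_simp
        ring
      rw [e, abs_div, div_le_iff₀ (by linarith)]
      refine (hs l hl).trans ?_
      nlinarith

end Crest.Agent.R136.Qd329
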