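import Mathlib
import Crest.Agent.R136.Qd5_329

-- ▼ part R136/Lin1_560
section

/-!
# R136, thin branch, `lin` (helper560), part 1: walks of lines and heights, finite pigeonhole

A walk is a list of steps `(line, height)`, newest step first.  `Y w` = the lines offered after the
walk `w`, `H y` = the heights of the line `y`.
-/

set_option autoImplicit false
set_option linter.unusedSectionVars false

namespace Crest.Agent.R136.Lin560

open Finset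

section walks

variable (H : ℕ → Finset ℕ) (Y : List (ℕ × ℕ) → Finset ℕ)

/-- walks with `m` steps -/
def walks : ℕ → Finset (List (ℕ × ℕ))
  | 0 => {[]}
  | m + 1 => (walks m).biUnion fun w => (Y w).biUnion fun y => (H y).image fun k => (y, k) :: w

theorem mem_walks_succ {m : ℕ} {w : List (ℕ × ℕ)} : w ∈ walks H Y (m + 1) ↔
    ∃ w0 ∈ walks H Y m, ∃ y ∈ Y w0, ∃ k ∈ H y, w = (y, k) :: w0 := by
  simp only [walks, mem_biUnion, mem_image]
  constructor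
  · rintro ⟨w0, h0, y, hy, k, hk, rfl⟩; exact ⟨w0, h0, y, hy, k, hk, rfl⟩
  · rintro ⟨w0, h0, y, hy, k, hk, rfl⟩; exact ⟨w0, h0, y, hy, k, hk, rfl⟩


theorem mem_walks_zero {w : List (ℕ × ℕ)} : w ∈ walks H Y 0 ↔ w = [] := by simp [walks]


/-- **number of walks** -/
theorem walks_card {a b : ℝ} (ha : 0 ≤ a) (hb : 0 ≤ b) (m : ℕ)
    (hY : ∀ j < m, ∀ w ∈ walks H Y j, a ≤ ((Y w).card : ℝ))
    (hH : ∀ j < m, ∀ w ∈ walks H Y j, ∀ y ∈ Y w, b ≤ ((H y).card : ℝ)) :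
    (a * b) ^ m ≤ ((walks H Y m).card : ℝ) := by
  induction m with
  | zero => simp [walks]
  | succ m ih =>
    have ih' := ih (fun j hj => hY j (by omega)) (fun j hj => hH j (by omega))
    have h1 : (walks H Y (m + 1)).card =
        ∑ w ∈ walks H Y m, ((Y w).biUnion fun y => (H y).image fun k => (y, k) :: w).card := by
      rw [walks, card_biUnion]
      intro w _ w' _ hne
      refine disjoint_left.2 ?_
      intro v hv hv'
      simp only [mem_biUnion, mem_image] at hv hv'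
      obtain ⟨y, -, k, -, rfl⟩ := hv
      obtain ⟨y', -, k', -, he⟩ := hv'
      exact hne (List.cons.inj he).2.symm
    have h2 : ∀ w ∈ walks H Y m, a * b ≤
        ((((Y w).biUnion fun y => (H y).image fun k => (y, k) :: w).card : ℕ) : ℝ) := by
      intro w hw
      have h3 : ((Y w).biUnion fun y => (H y).image fun k => (y, k) :: w).card =
          ∑ y ∈ Y w, (H y).card := by
        rw [card_biUnion]
        · refine sum_congr rfl fun y _ => card_image_of_injective _ fun k k' he => ?_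
          exact (Prod.mk.inj (List.cons.inj he).1).2
        · intro y _ y' _ hne
          refine disjoint_left.2 ?_
          intro v hv hv'
          simp only [mem_image] at hv hv'
          obtain ⟨k, -, rfl⟩ := hv
          obtain ⟨k', -, he⟩ := hv'
          exact hne (Prod.mk.inj (List.cons.inj he).1).1.symm
      rw [h3]
      push_cast
      calc a * b ≤ (Y w).card * b := mul_le_mul_of_nonneg_right (hY m (by omega) w hw) hb
        _ = ∑ _y ∈ Y w, b := by rw [sum_const, nsmul_eq_mul]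
        _ ≤ _ := sum_le_sum fun y hy => hH m (by omega) w hw y hy
    rw [h1]
    push_cast
    calc (a * b) ^ (m + 1) = (a * b) ^ m * (a * b) := pow_succ _ _
      _ ≤ (walks H Y m).card * (a * b) :=
        mul_le_mul_of_nonneg_right ih' (mul_nonneg ha hb)
      _ = ∑ _w ∈ walks H Y m, a * b := by rw [sum_const, nsmul_eq_mul]
      _ ≤ _ := sum_le_sum h2

variable {β : Type*} [DecidableEq β] (lab : ℕ → β)

/-- types of a walk -/
def tys (w : List (ℕ × ℕ)) : List β := w.map fun s => lab s.1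

/-- heights of a walk -/
def hgs (w : List (ℕ × ℕ)) : List ℕ := w.map fun s => s.2

/-- a walk is determined by its types and its heights -/
theorem walk_inj {m : ℕ} (hinj : ∀ j < m, ∀ w ∈ walks H Y j, ∀ y ∈ Y w, ∀ y' ∈ Y w,
    lab y = lab y' → y = y') {w w' : List (ℕ × ℕ)} (hw : w ∈ walks H Y m)
    (hw' : w' ∈ walks H Y m) (h1 : tys lab w = tys lab w') (h2 : hgs w = hgs w') : w = w' := by
  induction m generalizing w w' with
  | zero => rw [(mem_walks_zero H Y).1 hw, (mem_walks_zero H Y).1 hw']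
  | succ m ih =>
    obtain ⟨v, hv, y, hy, k, hk, rfl⟩ := (mem_walks_succ H Y).1 hw
    obtain ⟨v', hv', y', hy', k', hk', rfl⟩ := (mem_walks_succ H Y).1 hw'
    obtain ⟨e1, e2⟩ := List.cons.inj h1
    obtain ⟨e3, e4⟩ := List.cons.inj h2
    obtain rfl := ih (fun j hj => hinj j (by omega)) hv hv' e2 e4
    have e5 := hinj m (by omega) v hv y hy y' hy' e1
    simp only at e3
    rw [e5, e3]

theorem tys_image_card {T : Finset β} {NT : ℝ} (hNT : (T.card : ℝ) ≤ NT) {m : ℕ}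
    (hT : ∀ j < m, ∀ w ∈ walks H Y j, ∀ y ∈ Y w, lab y ∈ T) :
    ((((walks H Y m).image (tys lab)).card : ℕ) : ℝ) ≤ NT ^ m := by
  have hNT0 : 0 ≤ NT := (Nat.cast_nonneg _).trans hNT
  induction m with
  | zero => simp [walks]
  | succ m ih =>
    have ih' := ih (fun j hj => hT j (by omega))
    have h1 : (walks H Y (m + 1)).image (tys lab) ⊆
        (T ×ˢ (walks H Y m).image (tys lab)).image fun p => p.1 :: p.2 := by
      intro t ht
      obtain ⟨w, hw, rfl⟩ := mem_image.1 ht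
      obtain ⟨v, hv, y, hy, k, hk, rfl⟩ := (mem_walks_succ H Y).1 hw
      refine mem_image.2 ⟨(lab y, tys lab v), mem_product.2 ⟨hT m (by omega) v hv y hy,
        mem_image_of_mem _ hv⟩, rfl⟩
    have h2 := (card_le_card h1).trans card_image_le
    rw [card_product] at h2
    calc ((((walks H Y (m + 1)).image (tys lab)).card : ℕ) : ℝ) ≤
        ((T.card * ((walks H Y m).image (tys lab)).card : ℕ) : ℝ) := Nat.cast_le.2 h2
      _ = (T.card : ℝ) * (((walks H Y m).image (tys lab)).card : ℝ) := by push_cast; rfl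
      _ ≤ NT * NT ^ m := mul_le_mul hNT ih' (Nat.cast_nonneg _) hNT0
      _ = _ := by rw [pow_succ]; ring

end walks

/-- most popular value -/
theorem popv {α β : Type*} [DecidableEq β] (S : Finset α) (f : α → β) {N : ℝ}
    (hN : ((S.image f).card : ℝ) ≤ N) (hS : S.Nonempty) :
    ∃ v ∈ S.image f, (S.card : ℝ) ≤ N * ((S.filter fun t => f t = v).card : ℝ) := by
  classical
  obtain ⟨v, hv0, hv⟩ := exists_max_image (S.image f)
    (fun v => (S.filter fun t => f t = v).card) (hS.image f)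
  refine ⟨v, hv0, ?_⟩
  have h1 : S.card = ∑ u ∈ S.image f, (S.filter fun t => f t = u).card :=
    card_eq_sum_card_fiberwise fun t ht => mem_coe.2 (mem_image_of_mem f (mem_coe.1 ht))
  have h2 : (S.card : ℝ) ≤ (S.image f).card * ((S.filter fun t => f t = v).card : ℝ) := by
    have h3 : ∑ u ∈ S.image f, (S.filter fun t => f t = u).card ≤
        ∑ _u ∈ S.image f, (S.filter fun t => f t = v).card := sum_le_sum hv
    rw [sum_const, smul_eq_mul, ← h1] at h3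
    exact_mod_cast h3
  exact h2.trans (mul_le_mul_of_nonneg_right hN (Nat.cast_nonneg _))

/-- last step of a walk -/
def hd (w : List (ℕ × ℕ)) : ℕ × ℕ := w.headI

/-- **popular key**: types, last height, last cell -/
theorem walk_pop (H : ℕ → Finset ℕ) (Y : List (ℕ × ℕ) → Finset ℕ) {β : Type*} [DecidableEq β]
    (lab : ℕ → β) {T : Finset β} {NT : ℝ} (hNT : (T.card : ℝ) ≤ NT) {m : ℕ}
    (hT : ∀ j < m + 1, ∀ w ∈ walks H Y j, ∀ y ∈ Y w, lab y ∈ T)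
    {Z : Finset ℕ} (hZ : ∀ y, H y ⊆ Z) (cell : ℕ → ℕ → ℕ) {NC : ℝ} (hNC0 : 0 ≤ NC)
    (hNC : ∀ k ∈ Z, ∀ S : Finset ℕ, (∀ y ∈ S, k ∈ H y) → (((S.image (cell k)).card : ℕ) : ℝ) ≤ NC)
    (hne : (walks H Y (m + 1)).Nonempty) :
    ∃ w0 ∈ walks H Y (m + 1), ((walks H Y (m + 1)).card : ℝ) ≤
      NT ^ (m + 1) * (Z.card * NC) * (((walks H Y (m + 1)).filter fun w =>
        tys lab w = tys lab w0 ∧ (hd w).2 = (hd w0).2 ∧
        cell (hd w).2 (hd w).1 = cell (hd w0).2 (hd w0).1).card : ℝ) := by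
  classical
  have hNT0 : 0 ≤ NT := (Nat.cast_nonneg _).trans hNT
  obtain ⟨t, ht, h1⟩ := popv (walks H Y (m + 1)) (tys lab)
    (tys_image_card H Y lab hNT hT) hne
  obtain ⟨w1, hw1, hw1t⟩ := mem_image.1 ht
  set S1 := (walks H Y (m + 1)).filter fun w => tys lab w = t with hS1
  have hS1ne : S1.Nonempty := ⟨w1, mem_filter.2 ⟨hw1, hw1t⟩⟩
  have him : ((S1.image fun w => (hd w).2).card : ℝ) ≤ (Z.card : ℝ) := by
    refine Nat.cast_le.2 (card_le_card fun k hk => ?_)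
    obtain ⟨w, hw, rfl⟩ := mem_image.1 hk
    obtain ⟨v, hv, y, hy, k', hk', rfl⟩ := (mem_walks_succ H Y).1 (mem_filter.1 hw).1
    exact hZ y hk'
  obtain ⟨k, hk, h2⟩ := popv S1 (fun w => (hd w).2) him hS1ne
  obtain ⟨w2, hw2, hw2k⟩ := mem_image.1 hk
  set S2 := S1.filter fun w => (hd w).2 = k with hS2
  have hS2ne : S2.Nonempty := ⟨w2, mem_filter.2 ⟨hw2, hw2k⟩⟩
  have him2 : ((S2.image fun w => cell k (hd w).1).card : ℝ) ≤ NC := by
    have e : (S2.image fun w => cell k (hd w).1) =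
        ((S2.image fun w => (hd w).1).image (cell k)) := by
      rw [image_image]; rfl
    rw [e]
    have hkH : ∀ y ∈ S2.image fun w => (hd w).1, k ∈ H y := by
      intro y hy
      obtain ⟨w, hw, rfl⟩ := mem_image.1 hy
      obtain ⟨h3, h4⟩ := mem_filter.1 hw
      obtain ⟨v, hv, y, hy, k', hk', rfl⟩ := (mem_walks_succ H Y).1 (mem_filter.1 h3).1
      have h5 : k' = k := h4
      rw [← h5]; exact hk'
    have hkZ : k ∈ Z := by
      obtain ⟨w, hw⟩ := hS2ne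
      exact hZ _ (hkH _ (mem_image_of_mem _ hw))
    exact hNC k hkZ _ hkH
  obtain ⟨u, hu, h3⟩ := popv S2 (fun w => cell k (hd w).1) him2 hS2ne
  obtain ⟨w0, hw0, hw0u⟩ := mem_image.1 hu
  have hw0k : (hd w0).2 = k := (mem_filter.1 hw0).2
  have hw0t : tys lab w0 = t := (mem_filter.1 (mem_filter.1 hw0).1).2
  refine ⟨w0, (mem_filter.1 (mem_filter.1 hw0).1).1, ?_⟩
  have e1 : (S2.filter fun w => cell k (hd w).1 = u) ⊆ ((walks H Y (m + 1)).filter fun w =>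
        tys lab w = tys lab w0 ∧ (hd w).2 = (hd w0).2 ∧
        cell (hd w).2 (hd w).1 = cell (hd w0).2 (hd w0).1) := by
    intro w hw
    obtain ⟨a1, a2⟩ := mem_filter.1 hw
    obtain ⟨a3, a4⟩ := mem_filter.1 a1
    obtain ⟨a5, a6⟩ := mem_filter.1 a3
    have a2' : cell k (hd w).1 = u := a2
    have hw0u' : cell k (hd w0).1 = u := hw0u
    refine mem_filter.2 ⟨a5, a6.trans hw0t.symm, a4.trans hw0k.symm, ?_⟩
    rw [a4, hw0k, a2', hw0u']
  have h4 : ((S2.filter fun w => cell k (hd w).1 = u).card : ℝ) ≤ _ :=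
    Nat.cast_le.2 (card_le_card e1)
  have hZ0 : (0:ℝ) ≤ Z.card := Nat.cast_nonneg _
  calc ((walks H Y (m + 1)).card : ℝ) ≤ NT ^ (m + 1) * S1.card := h1
    _ ≤ NT ^ (m + 1) * (Z.card * S2.card) := mul_le_mul_of_nonneg_left h2 (by positivity)
    _ ≤ NT ^ (m + 1) * (Z.card * (NC * (S2.filter fun w => cell k (hd w).1 = u).card)) :=
        mul_le_mul_of_nonneg_left (mul_le_mul_of_nonneg_left h3 hZ0) (by positivity)
    _ = NT ^ (m + 1) * (Z.card * NC) * (S2.filter fun w => cell k (hd w).1 = u).card := by ring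
    _ ≤ _ := mul_le_mul_of_nonneg_left h4 (by positivity)

end Crest.Agent.R136.Lin560
private theorem rz_21a12dea9a : type_of% @_root_.Crest.Agent.R136.Lin560.walks.eq_def := @_root_.Crest.Agent.R136.Lin560.walks.eq_def -- L22
private theorem rz_ec8e42e602 : type_of% @_root_.Crest.Agent.R136.Lin560.walks.eq_1 := @_root_.Crest.Agent.R136.Lin560.walks.eq_1 -- L22
end

-- ▼ part R136/Lin2_560
section

/-!
# R136, thin branch, `lin` (helper560), part 2: rigidity of velocities, finite form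

`Flow` : lines which move with constant velocity in `ℝ^d`.  `core2`, `core3` : many walks whose
velocity differences are independent need many cells.  `alt2`, `alt3` : the alternative.
-/

set_option autoImplicit false
set_option linter.unusedSectionVars false
set_option linter.unusedVariables false

namespace Crest.Agent.R136.Lin560

open Finset

/-- moving lines -/
structure Flow (d : ℕ) {β : Type*} (H : ℕ → Finset ℕ) (Z : Finset ℕ) (φ : ℕ → ℝ)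
    (vel : ℕ → Fin d → ℝ) (pos : ℕ → ℕ → Fin d → ℝ) (near : ℕ → ℕ → ℕ → Prop) (lab : ℕ → β)
    (cell : ℕ → ℕ → ℕ) (η M : ℝ) : Prop where
  hZ : ∀ y, H y ⊆ Z
  η0 : 0 < η
  M1 : 1 ≤ M
  evo : ∀ y, ∀ k ∈ H y, ∀ k' ∈ H y, ∀ i,
    |pos k' y i - pos k y i - (φ k' - φ k) * vel y i| ≤ η
  nr : ∀ k y l, near k y l → k ∈ H y → k ∈ H l → ∀ i, |pos k l i - pos k y i| ≤ η
  cl : ∀ k y l, k ∈ H y → k ∈ H l → cell k y = cell k l → ∀ i, |pos k l i - pos k y i| ≤ η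
  lb : ∀ y l, (H y).Nonempty → (H l).Nonempty → lab y = lab l → ∀ i, |vel y i - vel l i| ≤ η
  vM : ∀ y, (H y).Nonempty → ∀ i, |vel y i| ≤ M
  φM : ∀ k ∈ Z, |φ k| ≤ M

/-- last state -/
def st (y0 k0 : ℕ) : List (ℕ × ℕ) → ℕ × ℕ
  | [] => (y0, k0)
  | s :: _ => s

/-- displacement of a walk -/
def dsp {d : ℕ} (φ : ℕ → ℝ) (vel : ℕ → Fin d → ℝ) (y0 k0 : ℕ) : List (ℕ × ℕ) → Fin d → ℝ
  | [] => fun _ => 0
  | (y, k) :: w => fun i => dsp φ vel y0 k0 w i + (φ k - φ (st y0 k0 w).2) * vel y i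

variable {d : ℕ} {β : Type*} [DecidableEq β] {H : ℕ → Finset ℕ} {Z : Finset ℕ} {φ : ℕ → ℝ}
  {vel : ℕ → Fin d → ℝ} {pos : ℕ → ℕ → Fin d → ℝ} {near : ℕ → ℕ → ℕ → Prop} {lab : ℕ → β}
  {cell : ℕ → ℕ → ℕ} {η M : ℝ} {Y : List (ℕ × ℕ) → Finset ℕ} {y0 k0 : ℕ}

/-- every step starts at the last point -/
def Steps (near : ℕ → ℕ → ℕ → Prop) (H : ℕ → Finset ℕ) (Y : List (ℕ × ℕ) → Finset ℕ)
    (y0 k0 m : ℕ) : Prop :=
  ∀ j < m, ∀ w ∈ walks H Y j, ∀ y ∈ Y w,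
    near (st y0 k0 w).2 (st y0 k0 w).1 y ∧ (st y0 k0 w).2 ∈ H y

theorem st_mem {m : ℕ} (h0 : k0 ∈ H y0) {w : List (ℕ × ℕ)} (hw : w ∈ walks H Y m) :
    (st y0 k0 w).2 ∈ H (st y0 k0 w).1 := by
  cases m with
  | zero => rw [(mem_walks_zero H Y).1 hw]; exact h0
  | succ m =>
    obtain ⟨v, hv, y, hy, k, hk, rfl⟩ := (mem_walks_succ H Y).1 hw
    exact hk

/-- the endpoint of a walk -/
theorem Flow.endpt (F : Flow d H Z φ vel pos near lab cell η M) (h0 : k0 ∈ H y0) {m : ℕ}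
    (hs : Steps near H Y y0 k0 m) {w : List (ℕ × ℕ)} (hw : w ∈ walks H Y m) (i : Fin d) :
    |pos (st y0 k0 w).2 (st y0 k0 w).1 i - pos k0 y0 i - dsp φ vel y0 k0 w i| ≤ 2 * m * η := by
  induction m generalizing w with
  | zero =>
    rw [(mem_walks_zero H Y).1 hw]
    simp [st, dsp]
  | succ m ih =>
    obtain ⟨v, hv, y, hy, k, hk, rfl⟩ := (mem_walks_succ H Y).1 hw
    have h1 := ih (fun j hj => hs j (by omega)) hv
    obtain ⟨h2, h3⟩ := hs m (by omega) v hv y hy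
    have h4 := F.evo y _ h3 k hk i
    have h5 := F.nr _ _ _ h2 (st_mem h0 hv) h3 i
    have e : pos (st y0 k0 ((y, k) :: v)).2 (st y0 k0 ((y, k) :: v)).1 i - pos k0 y0 i -
        dsp φ vel y0 k0 ((y, k) :: v) i =
        (pos k y i - pos (st y0 k0 v).2 y i - (φ k - φ (st y0 k0 v).2) * vel y i) +
        (pos (st y0 k0 v).2 y i - pos (st y0 k0 v).2 (st y0 k0 v).1 i) +
        (pos (st y0 k0 v).2 (st y0 k0 v).1 i - pos k0 y0 i - dsp φ vel y0 k0 v i) := by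
      simp only [st, dsp]; ring
    rw [e]
    have h6 := abs_add_le ((pos k y i - pos (st y0 k0 v).2 y i -
      (φ k - φ (st y0 k0 v).2) * vel y i) + (pos (st y0 k0 v).2 y i -
      pos (st y0 k0 v).2 (st y0 k0 v).1 i))
      (pos (st y0 k0 v).2 (st y0 k0 v).1 i - pos k0 y0 i - dsp φ vel y0 k0 v i)
    have h7 := abs_add_le (pos k y i - pos (st y0 k0 v).2 y i -
      (φ k - φ (st y0 k0 v).2) * vel y i) (pos (st y0 k0 v).2 y i -
      pos (st y0 k0 v).2 (st y0 k0 v).1 i)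
    push_cast
    linarith

/-- two walks with the same key -/
theorem Flow.pair (F : Flow d H Z φ vel pos near lab cell η M) (h0 : k0 ∈ H y0) {m : ℕ}
    (hs : Steps near H Y y0 k0 m) {w w' : List (ℕ × ℕ)} (hw : w ∈ walks H Y m)
    (hw' : w' ∈ walks H Y m) (h1 : (st y0 k0 w).2 = (st y0 k0 w').2)
    (h2 : cell (st y0 k0 w).2 (st y0 k0 w).1 = cell (st y0 k0 w').2 (st y0 k0 w').1)
    (i : Fin d) : |dsp φ vel y0 k0 w i - dsp φ vel y0 k0 w' i| ≤ (4 * m + 1) * η := by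
  have a1 := F.endpt h0 hs hw i
  have a2 := F.endpt h0 hs hw' i
  have m1 := st_mem (y0 := y0) (k0 := k0) h0 hw
  have m2 := st_mem (y0 := y0) (k0 := k0) h0 hw'
  rw [h1] at m1 h2 a1
  have a3 := F.cl _ _ _ m1 m2 h2 i
  rw [abs_le] at a1 a2 a3 ⊢
  constructor <;> nlinarith [a1.1, a1.2, a2.1, a2.2, a3.1, a3.2]

theorem mul_near {a b c e M : ℝ} (ha : |a| ≤ M) (hb : |b| ≤ M) (h : |c| ≤ e) (hM : 0 ≤ M) :
    |(a - b) * c| ≤ 2 * M * e := by
  rw [abs_mul]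
  have h1 : |a - b| ≤ 2 * M := (abs_sub _ _).trans (by linarith)
  exact mul_le_mul h1 h (abs_nonneg _) (by positivity)

/-! ### dimension two -/

/-- determinant -/
def det2 (a b : Fin 2 → ℝ) : ℝ := a 0 * b 1 - a 1 * b 0

theorem cramer2 {a b : Fin 2 → ℝ} {s t E K θ : ℝ} (h : ∀ i, |s * a i + t * b i| ≤ E)
    (ha : ∀ i, |a i| ≤ K) (hb : ∀ i, |b i| ≤ K) (hθ : 0 < θ) (hd : θ ≤ |det2 a b|) :
    |s| ≤ 2 * K * E / θ ∧ |t| ≤ 2 * K * E / θ := by
  have hK : 0 ≤ K := (abs_nonneg _).trans (ha 0)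
  have hE : 0 ≤ E := (abs_nonneg _).trans (h 0)
  have e1 : s * det2 a b = (s * a 0 + t * b 0) * b 1 - (s * a 1 + t * b 1) * b 0 := by
    unfold det2; ring
  have e2 : t * det2 a b = (s * a 1 + t * b 1) * a 0 - (s * a 0 + t * b 0) * a 1 := by
    unfold det2; ring
  have p : ∀ {x y : ℝ}, |x| ≤ E → |y| ≤ K → |x * y| ≤ K * E := fun hx hy => by
    rw [abs_mul, mul_comm K E]
    exact mul_le_mul hx hy (abs_nonneg _) hE
  constructor
  · rw [le_div_iff₀ hθ]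
    have h1 : |s * det2 a b| ≤ 2 * K * E := by
      rw [e1]
      refine (abs_sub _ _).trans ?_
      have := p (h 0) (hb 1)
      have := p (h 1) (hb 0)
      linarith
    rw [abs_mul] at h1
    exact (mul_le_mul_of_nonneg_left hd (abs_nonneg _)).trans h1
  · rw [le_div_iff₀ hθ]
    have h1 : |t * det2 a b| ≤ 2 * K * E := by
      rw [e2]
      refine (abs_sub _ _).trans ?_
      have := p (h 1) (ha 0)
      have := p (h 0) (ha 1)
      linarith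
    rw [abs_mul] at h1
    exact (mul_le_mul_of_nonneg_left hd (abs_nonneg _)).trans h1

/-- **three lines in the plane** -/
theorem core2 {vel : ℕ → Fin 2 → ℝ} {pos : ℕ → ℕ → Fin 2 → ℝ}
    (F : Flow 2 H Z φ vel pos near lab cell η M) (h0 : k0 ∈ H y0)
    (hs : Steps near H Y y0 k0 3)
    (hinj : ∀ j < 3, ∀ w ∈ walks H Y j, ∀ y ∈ Y w, ∀ y' ∈ Y w, lab y = lab y' → y = y')
    {T : Finset β} {NT : ℝ} (hNT : (T.card : ℝ) ≤ NT)
    (hT : ∀ j < 3, ∀ w ∈ walks H Y j, ∀ y ∈ Y w, lab y ∈ T) {NC : ℝ} (hNC0 : 0 ≤ NC)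
    (hNC : ∀ k ∈ Z, ∀ S : Finset ℕ, (∀ y ∈ S, k ∈ H y) → (((S.image (cell k)).card : ℕ) : ℝ) ≤ NC)
    {θ : ℝ} (hθ : 0 < θ) (hdet : ∀ y1 k1 y2 k2, [(y2, k2), (y1, k1)] ∈ walks H Y 2 →
      ∀ y3 ∈ Y [(y2, k2), (y1, k1)],
      θ ≤ |det2 (fun i => vel y1 i - vel y2 i) (fun i => vel y2 i - vel y3 i)|)
    {a b : ℝ} (ha : 0 ≤ a) (hb : 0 ≤ b)
    (hY : ∀ j < 3, ∀ w ∈ walks H Y j, a ≤ ((Y w).card : ℝ))
    (hH : ∀ j < 3, ∀ w ∈ walks H Y j, ∀ y ∈ Y w, b ≤ ((H y).card : ℝ))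
    {N : ℝ} (hN0 : 0 ≤ N) (hN : ∀ k ∈ Z,
      ((Z.filter fun k' => |φ k' - φ k| ≤ 76 * M ^ 2 * η / θ).card : ℝ) ≤ N) :
    (a * b) ^ 3 ≤ NT ^ 3 * (Z.card * NC) * N ^ 2 := by
  classical
  have hM := F.M1
  have hη := F.η0
  have hNT0 : 0 ≤ NT := (Nat.cast_nonneg _).trans hNT
  have h1 := walks_card H Y ha hb 3 hY hH
  rcases (walks H Y 3).eq_empty_or_nonempty with he | hne
  · rw [he] at h1
    simp only [card_empty, Nat.cast_zero] at h1
    exact h1.trans (by positivity)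
  obtain ⟨w0, hw0, h2⟩ := walk_pop H Y lab hNT (m := 2) hT F.hZ cell hNC0 hNC hne
  refine h1.trans (h2.trans (mul_le_mul_of_nonneg_left ?_ (by positivity)))
  have ex : ∀ w ∈ walks H Y 3, ∃ y3 k3 y2 k2 y1 k1, w = [(y3, k3), (y2, k2), (y1, k1)] ∧
      k3 ∈ H y3 ∧ k2 ∈ H y2 ∧ k1 ∈ H y1 ∧ y3 ∈ Y [(y2, k2), (y1, k1)] ∧
      [(y2, k2), (y1, k1)] ∈ walks H Y 2 := by
    intro w hw
    obtain ⟨v, hv, y3, hy3, k3, hk3, rfl⟩ := (mem_walks_succ H Y).1 hw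
    obtain ⟨v, hv', y2, hy2, k2, hk2, rfl⟩ := (mem_walks_succ H Y).1 hv
    obtain ⟨v, hv'', y1, hy1, k1, hk1, rfl⟩ := (mem_walks_succ H Y).1 hv'
    have hv0 := (mem_walks_zero H Y).1 hv''
    subst hv0
    exact ⟨y3, k3, y2, k2, y1, k1, rfl, hk3, hk2, hk1, hy3, hv⟩
  obtain ⟨y3, k3, y2, k2, y1, k1, rfl, hk3, hk2, hk1, hy3, hv⟩ := ex w0 hw0
  have hθ' := hdet _ _ _ _ hv y3 hy3
  set S := (walks H Y 3).filter fun w => tys lab w = tys lab [(y3, k3), (y2, k2), (y1, k1)] ∧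
        (hd w).2 = (hd [(y3, k3), (y2, k2), (y1, k1)]).2 ∧
        cell (hd w).2 (hd w).1 = cell (hd [(y3, k3), (y2, k2), (y1, k1)]).2
          (hd [(y3, k3), (y2, k2), (y1, k1)]).1 with hS
  set R := 76 * M ^ 2 * η / θ with hR
  have key : ∀ w ∈ S, ∃ a1 a2, hgs w = [k3, a2, a1] ∧
      a1 ∈ Z.filter (fun k' => |φ k' - φ k1| ≤ R) ∧ a2 ∈ Z.filter (fun k' => |φ k' - φ k2| ≤ R) := by
    intro w hw
    obtain ⟨hw1, ht, hh, hc⟩ := mem_filter.1 hw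
    obtain ⟨z3, l3, z2, l2, z1, l1, rfl, hl3, hl2, hl1, hz3, hv'⟩ := ex w hw1
    simp only [tys, List.map_cons, List.map_nil, List.cons.injEq, and_true] at ht
    obtain ⟨t3, t2, t1⟩ := ht
    have hh' : l3 = k3 := hh
    subst hh'
    have hc' : cell l3 z3 = cell l3 y3 := hc
    refine ⟨l1, l2, rfl, ?_⟩
    have n1 := F.lb _ _ ⟨_, hl1⟩ ⟨_, hk1⟩ t1
    have n2 := F.lb _ _ ⟨_, hl2⟩ ⟨_, hk2⟩ t2
    have n3 := F.lb _ _ ⟨_, hl3⟩ ⟨_, hk3⟩ t3
    have b1 := F.φM _ (F.hZ _ hl1)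
    have b2 := F.φM _ (F.hZ _ hl2)
    have b3 := F.φM _ (F.hZ _ hl3)
    have b0 := F.φM _ (F.hZ _ h0)
    have e := fun i => F.pair h0 hs (w := [(z3, l3), (z2, l2), (z1, l1)])
      (w' := [(y3, l3), (y2, k2), (y1, k1)]) hw1 hw0 rfl hc' i
    have hM0 : (0:ℝ) ≤ M := by linarith
    have e2 : ∀ i, |(φ l1 - φ k1) * (vel y1 i - vel y2 i) + (φ l2 - φ k2) * (vel y2 i - vel y3 i)|
        ≤ 19 * M * η := by
      intro i
      have e3 := e i
      simp only [dsp, st] at e3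
      have m1 := mul_near b1 b0 (n1 i) hM0
      have m2 := mul_near b2 b1 (n2 i) hM0
      have m3 := mul_near b3 b2 (n3 i) hM0
      have id : (φ l1 - φ k1) * (vel y1 i - vel y2 i) + (φ l2 - φ k2) * (vel y2 i - vel y3 i) =
        (0 + (φ l1 - φ k0) * vel z1 i + (φ l2 - φ l1) * vel z2 i + (φ l3 - φ l2) * vel z3 i -
          (0 + (φ k1 - φ k0) * vel y1 i + (φ k2 - φ k1) * vel y2 i + (φ l3 - φ k2) * vel y3 i)) -
        (φ l1 - φ k0) * (vel z1 i - vel y1 i) - (φ l2 - φ l1) * (vel z2 i - vel y2 i) -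
        (φ l3 - φ l2) * (vel z3 i - vel y3 i) := by ring
      rw [id]
      rw [abs_le] at e3 m1 m2 m3 ⊢
      have hMη : η ≤ M * η := le_mul_of_one_le_left hη.le hM
      push_cast at e3
      constructor <;> linarith [e3.1, e3.2, m1.1, m1.2, m2.1, m2.2, m3.1, m3.2]
    have v1 := F.vM _ ⟨_, hk1⟩
    have v2 := F.vM _ ⟨_, hk2⟩
    have v3 := F.vM _ ⟨_, hk3⟩
    have hK : ∀ {u v : Fin 2 → ℝ}, (∀ i, |u i| ≤ M) → (∀ i, |v i| ≤ M) → ∀ i, |u i - v i| ≤ 2 * M :=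
      fun hu hv i => (abs_sub _ _).trans (by linarith [hu i, hv i])
    obtain ⟨c1, c2⟩ := cramer2 e2 (hK v1 v2) (hK v2 v3) hθ hθ'
    have e5 : 2 * (2 * M) * (19 * M * η) / θ = R := by rw [hR]; ring
    rw [e5] at c1 c2
    exact ⟨mem_filter.2 ⟨F.hZ _ hl1, c1⟩, mem_filter.2 ⟨F.hZ _ hl2, c2⟩⟩
  choose! a1 a2 hg h11 h22 using key
  have hcard : S.card ≤ ((Z.filter (fun k' => |φ k' - φ k1| ≤ R)) ×ˢ
      (Z.filter (fun k' => |φ k' - φ k2| ≤ R))).card := by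
    refine card_le_card_of_injOn (fun w => (a1 w, a2 w))
      (fun w hw => mem_coe.2 (mem_product.2 ⟨h11 w hw, h22 w hw⟩)) ?_
    intro w hw w' hw' he
    obtain ⟨q1, q2⟩ := Prod.mk.inj he
    refine walk_inj H Y lab hinj (mem_filter.1 (mem_coe.1 hw)).1 (mem_filter.1 (mem_coe.1 hw')).1
      ((mem_filter.1 (mem_coe.1 hw)).2.1.trans (mem_filter.1 (mem_coe.1 hw')).2.1.symm) ?_
    rw [hg w hw, hg w' hw', q1, q2]
  rw [card_product] at hcard
  calc (S.card : ℝ) ≤ ((Z.filter (fun k' => |φ k' - φ k1| ≤ R)).card : ℝ) *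
      ((Z.filter (fun k' => |φ k' - φ k2| ≤ R)).card : ℝ) := by exact_mod_cast hcard
    _ ≤ N * N := mul_le_mul (hN _ (F.hZ _ hk1)) (hN _ (F.hZ _ hk2)) (Nat.cast_nonneg _) hN0
    _ = N ^ 2 := by ring

/-! ### dimension three -/

/-- determinant -/
def det3 (a b c : Fin 3 → ℝ) : ℝ := a 0 * (b 1 * c 2 - b 2 * c 1) -
  a 1 * (b 0 * c 2 - b 2 * c 0) + a 2 * (b 0 * c 1 - b 1 * c 0)

theorem det3_le {x b c : Fin 3 → ℝ} {E K : ℝ} (h : ∀ i, |x i| ≤ E)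
    (hb : ∀ i, |b i| ≤ K) (hc : ∀ i, |c i| ≤ K) : |det3 x b c| ≤ 6 * K ^ 2 * E := by
  have hK : 0 ≤ K := (abs_nonneg _).trans (hb 0)
  have hE : 0 ≤ E := (abs_nonneg _).trans (h 0)
  have p : ∀ i j, |b i * c j| ≤ K * K := fun i j => by
    rw [abs_mul]; exact mul_le_mul (hb i) (hc j) (abs_nonneg _) hK
  have q : ∀ k i j i' j', |x k * (b i * c j - b i' * c j')| ≤ E * (2 * (K * K)) := by
    intro k i j i' j'
    rw [abs_mul]
    refine mul_le_mul (h k) ((abs_sub _ _).trans ?_) (abs_nonneg _) hE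
    linarith [p i j, p i' j']
  unfold det3
  refine (abs_add_le _ _).trans ?_
  refine (add_le_add_left (abs_sub _ _) _).trans ?_
  have q1 := q 0 1 2 2 1
  have q2 := q 1 0 2 2 0
  have q3 := q 2 0 1 1 0
  have : 6 * K ^ 2 * E = 3 * (E * (2 * (K * K))) := by ring
  rw [this]
  linarith

theorem cramer3 {a b c : Fin 3 → ℝ} {s t r E K θ : ℝ}
    (h : ∀ i, |s * a i + t * b i + r * c i| ≤ E)
    (ha : ∀ i, |a i| ≤ K) (hb : ∀ i, |b i| ≤ K) (hc : ∀ i, |c i| ≤ K) (hθ : 0 < θ)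
    (hd : θ ≤ |det3 a b c|) :
    |s| ≤ 6 * K ^ 2 * E / θ ∧ |t| ≤ 6 * K ^ 2 * E / θ ∧ |r| ≤ 6 * K ^ 2 * E / θ := by
  have e1 : s * det3 a b c = det3 (fun i => s * a i + t * b i + r * c i) b c := by
    unfold det3; ring
  have e2 : t * det3 a b c = -det3 (fun i => s * a i + t * b i + r * c i) a c := by
    unfold det3; ring
  have e3 : r * det3 a b c = det3 (fun i => s * a i + t * b i + r * c i) a b := by
    unfold det3; ring
  have fin : ∀ {x D : ℝ}, x * det3 a b c = D → |D| ≤ 6 * K ^ 2 * E → |x| ≤ 6 * K ^ 2 * E / θ := by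
    intro x D h1 h2
    rw [le_div_iff₀ hθ]
    rw [← h1, abs_mul] at h2
    exact (mul_le_mul_of_nonneg_left hd (abs_nonneg _)).trans h2
  exact ⟨fin e1 (det3_le h hb hc), fin e2 (by rw [abs_neg]; exact det3_le h ha hc),
    fin e3 (det3_le h ha hb)⟩

/-- **four lines in space** -/
theorem core3 {vel : ℕ → Fin 3 → ℝ} {pos : ℕ → ℕ → Fin 3 → ℝ}
    (F : Flow 3 H Z φ vel pos near lab cell η M) (h0 : k0 ∈ H y0)
    (hs : Steps near H Y y0 k0 4)
    (hinj : ∀ j < 4, ∀ w ∈ walks H Y j, ∀ y ∈ Y w, ∀ y' ∈ Y w, lab y = lab y' → y = y')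
    {T : Finset β} {NT : ℝ} (hNT : (T.card : ℝ) ≤ NT)
    (hT : ∀ j < 4, ∀ w ∈ walks H Y j, ∀ y ∈ Y w, lab y ∈ T) {NC : ℝ} (hNC0 : 0 ≤ NC)
    (hNC : ∀ k ∈ Z, ∀ S : Finset ℕ, (∀ y ∈ S, k ∈ H y) → (((S.image (cell k)).card : ℕ) : ℝ) ≤ NC)
    {θ : ℝ} (hθ : 0 < θ) (hdet : ∀ y1 k1 y2 k2 y3 k3,
      [(y3, k3), (y2, k2), (y1, k1)] ∈ walks H Y 3 →
      ∀ y4 ∈ Y [(y3, k3), (y2, k2), (y1, k1)],
      θ ≤ |det3 (fun i => vel y1 i - vel y2 i) (fun i => vel y2 i - vel y3 i)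
        (fun i => vel y3 i - vel y4 i)|)
    {a b : ℝ} (ha : 0 ≤ a) (hb : 0 ≤ b)
    (hY : ∀ j < 4, ∀ w ∈ walks H Y j, a ≤ ((Y w).card : ℝ))
    (hH : ∀ j < 4, ∀ w ∈ walks H Y j, ∀ y ∈ Y w, b ≤ ((H y).card : ℝ))
    {N : ℝ} (hN0 : 0 ≤ N) (hN : ∀ k ∈ Z,
      ((Z.filter fun k' => |φ k' - φ k| ≤ 600 * M ^ 3 * η / θ).card : ℝ) ≤ N) :
    (a * b) ^ 4 ≤ NT ^ 4 * (Z.card * NC) * N ^ 3 := by
  classical
  have hM := F.M1
  have hη := F.η0
  have hNT0 : 0 ≤ NT := (Nat.cast_nonneg _).trans hNT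
  have h1 := walks_card H Y ha hb 4 hY hH
  rcases (walks H Y 4).eq_empty_or_nonempty with he | hne
  · rw [he] at h1
    simp only [card_empty, Nat.cast_zero] at h1
    exact h1.trans (by positivity)
  obtain ⟨w0, hw0, h2⟩ := walk_pop H Y lab hNT (m := 3) hT F.hZ cell hNC0 hNC hne
  refine h1.trans (h2.trans (mul_le_mul_of_nonneg_left ?_ (by positivity)))
  have ex : ∀ w ∈ walks H Y 4, ∃ y4 k4 y3 k3 y2 k2 y1 k1,
      w = [(y4, k4), (y3, k3), (y2, k2), (y1, k1)] ∧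
      k4 ∈ H y4 ∧ k3 ∈ H y3 ∧ k2 ∈ H y2 ∧ k1 ∈ H y1 ∧ y4 ∈ Y [(y3, k3), (y2, k2), (y1, k1)] ∧
      [(y3, k3), (y2, k2), (y1, k1)] ∈ walks H Y 3 := by
    intro w hw
    obtain ⟨v, hv0, y4, hy4, k4, hk4, rfl⟩ := (mem_walks_succ H Y).1 hw
    obtain ⟨v, hv, y3, hy3, k3, hk3, rfl⟩ := (mem_walks_succ H Y).1 hv0
    obtain ⟨v, hv', y2, hy2, k2, hk2, rfl⟩ := (mem_walks_succ H Y).1 hv
    obtain ⟨v, hv'', y1, hy1, k1, hk1, rfl⟩ := (mem_walks_succ H Y).1 hv'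
    have hv00 := (mem_walks_zero H Y).1 hv''
    subst hv00
    exact ⟨y4, k4, y3, k3, y2, k2, y1, k1, rfl, hk4, hk3, hk2, hk1, hy4, hv0⟩
  obtain ⟨y4, k4, y3, k3, y2, k2, y1, k1, rfl, hk4, hk3, hk2, hk1, hy4, hv⟩ := ex w0 hw0
  have hθ' := hdet _ _ _ _ _ _ hv y4 hy4
  set S := (walks H Y 4).filter fun w =>
        tys lab w = tys lab [(y4, k4), (y3, k3), (y2, k2), (y1, k1)] ∧
        (hd w).2 = (hd [(y4, k4), (y3, k3), (y2, k2), (y1, k1)]).2 ∧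
        cell (hd w).2 (hd w).1 = cell (hd [(y4, k4), (y3, k3), (y2, k2), (y1, k1)]).2
          (hd [(y4, k4), (y3, k3), (y2, k2), (y1, k1)]).1 with hS
  set R := 600 * M ^ 3 * η / θ with hR
  have key : ∀ w ∈ S, ∃ a1 a2 a3, hgs w = [k4, a3, a2, a1] ∧
      a1 ∈ Z.filter (fun k' => |φ k' - φ k1| ≤ R) ∧ a2 ∈ Z.filter (fun k' => |φ k' - φ k2| ≤ R) ∧
      a3 ∈ Z.filter (fun k' => |φ k' - φ k3| ≤ R) := by
    intro w hw
    obtain ⟨hw1, ht, hh, hc⟩ := mem_filter.1 hw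
    obtain ⟨z4, l4, z3, l3, z2, l2, z1, l1, rfl, hl4, hl3, hl2, hl1, hz4, hv'⟩ := ex w hw1
    simp only [tys, List.map_cons, List.map_nil, List.cons.injEq, and_true] at ht
    obtain ⟨t4, t3, t2, t1⟩ := ht
    have hh' : l4 = k4 := hh
    subst hh'
    have hc' : cell l4 z4 = cell l4 y4 := hc
    refine ⟨l1, l2, l3, rfl, ?_⟩
    have n1 := F.lb _ _ ⟨_, hl1⟩ ⟨_, hk1⟩ t1
    have n2 := F.lb _ _ ⟨_, hl2⟩ ⟨_, hk2⟩ t2
    have n3 := F.lb _ _ ⟨_, hl3⟩ ⟨_, hk3⟩ t3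
    have n4 := F.lb _ _ ⟨_, hl4⟩ ⟨_, hk4⟩ t4
    have b1 := F.φM _ (F.hZ _ hl1)
    have b2 := F.φM _ (F.hZ _ hl2)
    have b3 := F.φM _ (F.hZ _ hl3)
    have b4 := F.φM _ (F.hZ _ hl4)
    have b0 := F.φM _ (F.hZ _ h0)
    have e := fun i => F.pair h0 hs (w := [(z4, l4), (z3, l3), (z2, l2), (z1, l1)])
      (w' := [(y4, l4), (y3, k3), (y2, k2), (y1, k1)]) hw1 hw0 rfl hc' i
    have hM0 : (0:ℝ) ≤ M := by linarith
    have e2 : ∀ i, |(φ l1 - φ k1) * (vel y1 i - vel y2 i) + (φ l2 - φ k2) * (vel y2 i - vel y3 i)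
        + (φ l3 - φ k3) * (vel y3 i - vel y4 i)| ≤ 25 * M * η := by
      intro i
      have e3 := e i
      simp only [dsp, st] at e3
      have m1 := mul_near b1 b0 (n1 i) hM0
      have m2 := mul_near b2 b1 (n2 i) hM0
      have m3 := mul_near b3 b2 (n3 i) hM0
      have m4 := mul_near b4 b3 (n4 i) hM0
      have id : (φ l1 - φ k1) * (vel y1 i - vel y2 i) + (φ l2 - φ k2) * (vel y2 i - vel y3 i)
        + (φ l3 - φ k3) * (vel y3 i - vel y4 i) =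
        (0 + (φ l1 - φ k0) * vel z1 i + (φ l2 - φ l1) * vel z2 i + (φ l3 - φ l2) * vel z3 i +
          (φ l4 - φ l3) * vel z4 i -
          (0 + (φ k1 - φ k0) * vel y1 i + (φ k2 - φ k1) * vel y2 i + (φ k3 - φ k2) * vel y3 i +
          (φ l4 - φ k3) * vel y4 i)) -
        (φ l1 - φ k0) * (vel z1 i - vel y1 i) - (φ l2 - φ l1) * (vel z2 i - vel y2 i) -
        (φ l3 - φ l2) * (vel z3 i - vel y3 i) - (φ l4 - φ l3) * (vel z4 i - vel y4 i) := by ring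
      rw [id]
      rw [abs_le] at e3 m1 m2 m3 m4 ⊢
      have hMη : η ≤ M * η := le_mul_of_one_le_left hη.le hM
      push_cast at e3
      constructor <;> linarith [e3.1, e3.2, m1.1, m1.2, m2.1, m2.2, m3.1, m3.2, m4.1, m4.2]
    have v1 := F.vM _ ⟨_, hk1⟩
    have v2 := F.vM _ ⟨_, hk2⟩
    have v3 := F.vM _ ⟨_, hk3⟩
    have v4 := F.vM _ ⟨_, hk4⟩
    have hK : ∀ {u v : Fin 3 → ℝ}, (∀ i, |u i| ≤ M) → (∀ i, |v i| ≤ M) → ∀ i, |u i - v i| ≤ 2 * M :=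
      fun hu hv i => (abs_sub _ _).trans (by linarith [hu i, hv i])
    obtain ⟨c1, c2, c3⟩ := cramer3 e2 (hK v1 v2) (hK v2 v3) (hK v3 v4) hθ hθ'
    have e5 : 6 * (2 * M) ^ 2 * (25 * M * η) / θ = R := by rw [hR]; ring
    rw [e5] at c1 c2 c3
    exact ⟨mem_filter.2 ⟨F.hZ _ hl1, c1⟩, mem_filter.2 ⟨F.hZ _ hl2, c2⟩,
      mem_filter.2 ⟨F.hZ _ hl3, c3⟩⟩
  choose! a1 a2 a3 hg h11 h22 h33 using key
  have hcard : S.card ≤ ((Z.filter (fun k' => |φ k' - φ k1| ≤ R)) ×ˢ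
      ((Z.filter (fun k' => |φ k' - φ k2| ≤ R)) ×ˢ
      (Z.filter (fun k' => |φ k' - φ k3| ≤ R)))).card := by
    refine card_le_card_of_injOn (fun w => (a1 w, a2 w, a3 w))
      (fun w hw => mem_coe.2 (mem_product.2 ⟨h11 w hw, mem_product.2 ⟨h22 w hw, h33 w hw⟩⟩)) ?_
    intro w hw w' hw' he
    obtain ⟨q1, q23⟩ := Prod.mk.inj he
    obtain ⟨q2, q3⟩ := Prod.mk.inj q23
    refine walk_inj H Y lab hinj (mem_filter.1 (mem_coe.1 hw)).1 (mem_filter.1 (mem_coe.1 hw')).1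
      ((mem_filter.1 (mem_coe.1 hw)).2.1.trans (mem_filter.1 (mem_coe.1 hw')).2.1.symm) ?_
    rw [hg w hw, hg w' hw', q1, q2, q3]
  rw [card_product, card_product] at hcard
  calc (S.card : ℝ) ≤ ((Z.filter (fun k' => |φ k' - φ k1| ≤ R)).card : ℝ) *
      (((Z.filter (fun k' => |φ k' - φ k2| ≤ R)).card : ℝ) *
      ((Z.filter (fun k' => |φ k' - φ k3| ≤ R)).card : ℝ)) := by exact_mod_cast hcard
    _ ≤ N * (N * N) := mul_le_mul (hN _ (F.hZ _ hk1)) (mul_le_mul (hN _ (F.hZ _ hk2))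
        (hN _ (F.hZ _ hk3)) (Nat.cast_nonneg _) hN0) (by positivity) hN0
    _ = N ^ 3 := by ring

end Crest.Agent.R136.Lin560
private theorem rz_ab03276ac5 : type_of% @_root_.Crest.Agent.R136.Lin560.dsp.eq_def := @_root_.Crest.Agent.R136.Lin560.dsp.eq_def -- L39
private theorem rz_c51b1c17b6 : type_of% @_root_.Crest.Agent.R136.Lin560.dsp.eq_1 := @_root_.Crest.Agent.R136.Lin560.dsp.eq_1 -- L39
private theorem rz_43165c1590 : type_of% @_root_.Crest.Agent.R136.Lin560.st.eq_1 := @_root_.Crest.Agent.R136.Lin560.st.eq_1 -- L34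
end

-- ▼ part R136/Lin3_560
section

/-!
# R136, thin branch, `lin` (helper560), part 3: the alternative, finite form

`alt2`, `alt3` : if the number of cells is small, a popular set of types at one point has dependent
velocity differences.
-/

set_option autoImplicit false
set_option linter.unusedSectionVars false
set_option linter.unusedVariables false

namespace Crest.Agent.R136.Lin560

open Finset

variable {β : Type*} [DecidableEq β]

/-- representatives of the types -/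
theorem reps (S : Finset ℕ) (lab : ℕ → β) : ∃ S' ⊆ S,
    (∀ y ∈ S', ∀ y' ∈ S', lab y = lab y' → y = y') ∧ S'.card = (S.image lab).card := by
  classical
  have h : ∀ v ∈ S.image lab, ∃ y ∈ S, lab y = v := fun v hv => mem_image.1 hv
  choose! g hg1 hg2 using h
  refine ⟨(S.image lab).image g, ?_, ?_, ?_⟩
  · intro y hy
    obtain ⟨v, hv, rfl⟩ := mem_image.1 hy
    exact hg1 v hv
  · intro y hy y' hy' he
    obtain ⟨v, hv, rfl⟩ := mem_image.1 hy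
    obtain ⟨v', hv', rfl⟩ := mem_image.1 hy'
    rw [hg2 v hv, hg2 v' hv'] at he
    rw [he]
  · refine card_image_of_injOn fun v hv v' hv' he => ?_
    rw [← hg2 v hv, ← hg2 v' hv', he]

theorem img_split (S : Finset ℕ) (lab : ℕ → β) (p : ℕ → Prop) [DecidablePred p] :
    ((S.image lab).card : ℝ) ≤ (((S.filter p).image lab).card : ℝ) +
      (((S.filter fun l => ¬ p l).image lab).card : ℝ) := by
  have h : S.image lab ⊆ (S.filter p).image lab ∪ (S.filter fun l => ¬ p l).image lab := by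
    intro v hv
    obtain ⟨y, hy, rfl⟩ := mem_image.1 hv
    by_cases hp : p y
    · exact mem_union_left _ (mem_image_of_mem _ (mem_filter.2 ⟨hy, hp⟩))
    · exact mem_union_right _ (mem_image_of_mem _ (mem_filter.2 ⟨hy, hp⟩))
  have := (card_le_card h).trans (card_union_le _ _)
  exact_mod_cast this

theorem filt_ge {S : Finset ℕ} {lab : ℕ → β} {p q : ℕ → Prop} [DecidablePred p] [DecidablePred q]
    {n m : ℝ} (h1 : n ≤ ((S.image lab).card : ℝ)) (h2 : (((S.filter q).image lab).card : ℝ) ≤ m)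
    (hpq : ∀ l, ¬ p l → q l) : n - m ≤ (((S.filter p).image lab).card : ℝ) := by
  have h3 := img_split S lab p
  have h4 : (((S.filter fun l => ¬ p l).image lab).card : ℝ) ≤
      (((S.filter q).image lab).card : ℝ) := by
    refine Nat.cast_le.2 (card_le_card (image_subset_image fun l hl => ?_))
    obtain ⟨a, b⟩ := mem_filter.1 hl
    exact mem_filter.2 ⟨a, hpq l b⟩
  linarith

variable {H : ℕ → Finset ℕ} {Z : Finset ℕ} {φ : ℕ → ℝ} {near : ℕ → ℕ → ℕ → Prop} {lab : ℕ → β}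
  {cell : ℕ → ℕ → ℕ} {η M : ℝ} {y0 k0 : ℕ}

open Classical in
/-- **alternative in the plane** -/
theorem alt2 {vel : ℕ → Fin 2 → ℝ} {pos : ℕ → ℕ → Fin 2 → ℝ}
    (F : Flow 2 H Z φ vel pos near lab cell η M) (h0 : k0 ∈ H y0)
    {St : ℕ → ℕ → Finset ℕ} (hSt : ∀ k y l, l ∈ St k y → near k y l ∧ k ∈ H l)
    {T : Finset β} {NT : ℝ} (hNT : (T.card : ℝ) ≤ NT)
    (hT : ∀ y, (H y).Nonempty → lab y ∈ T) {NC : ℝ} (hNC0 : 0 ≤ NC)
    (hNC : ∀ k ∈ Z, ∀ S : Finset ℕ, (∀ y ∈ S, k ∈ H y) → (((S.image (cell k)).card : ℕ) : ℝ) ≤ NC)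
    {θ δ nS b : ℝ} (hθ : 0 < θ) (hnS : 0 ≤ nS) (hb : 0 ≤ b)
    (hS : ∀ y, ∀ k ∈ H y, nS ≤ (((St k y).image lab).card : ℝ))
    (hc : ∀ c0 : ℝ, ∀ y, ∀ k ∈ H y,
      ((((St k y).filter fun l => |vel l 0 - c0| ≤ δ).image lab).card : ℝ) ≤ nS / 4)
    (hH : ∀ y, (H y).Nonempty → b ≤ ((H y).card : ℝ))
    {N : ℝ} (hN0 : 0 ≤ N) (hN : ∀ k ∈ Z,
      ((Z.filter fun k' => |φ k' - φ k| ≤ 76 * M ^ 2 * η / θ).card : ℝ) ≤ N)
    (hlt : NT ^ 3 * (Z.card * NC) * N ^ 2 < (nS / 2 * b) ^ 3) :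
    ∃ y1 y2 k2, (H y1).Nonempty ∧ k2 ∈ H y2 ∧ δ < |vel y2 0 - vel y1 0| ∧
      nS / 2 ≤ ((((St k2 y2).filter fun l => |det2 (fun i => vel y1 i - vel y2 i)
        (fun i => vel y2 i - vel l i)| < θ).image lab).card : ℝ) := by
  by_contra hcon
  push Not at hcon
  choose R hR1 hR2 hR3 using fun S : Finset ℕ => reps S lab
  obtain ⟨Y, hY⟩ : ∃ Y : List (ℕ × ℕ) → Finset ℕ, Y = fun w => match w with
    | [] => R (St k0 y0)
    | [(y1, k1)] => R ((St k1 y1).filter fun l => δ < |vel l 0 - vel y1 0|)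
    | [(y2, k2), (y1, k1)] => R ((St k2 y2).filter fun l =>
        θ ≤ |det2 (fun i => vel y1 i - vel y2 i) (fun i => vel y2 i - vel l i)|)
    | _ => ∅ := ⟨_, rfl⟩
  have Y0 : Y [] = R (St k0 y0) := by rw [hY]
  have Y1 : ∀ y1 k1, Y [(y1, k1)] = R ((St k1 y1).filter fun l => δ < |vel l 0 - vel y1 0|) :=
    fun _ _ => by rw [hY]
  have Y2 : ∀ y1 k1 y2 k2, Y [(y2, k2), (y1, k1)] = R ((St k2 y2).filter fun l =>
        θ ≤ |det2 (fun i => vel y1 i - vel y2 i) (fun i => vel y2 i - vel l i)|) :=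
    fun _ _ _ _ => by rw [hY]
  have w0 : ∀ w ∈ walks H Y 0, w = [] := fun w hw => (mem_walks_zero H Y).1 hw
  have w1 : ∀ w ∈ walks H Y 1, ∃ y1 k1, w = [(y1, k1)] ∧ k1 ∈ H y1 := by
    intro w hw
    obtain ⟨v, hv, y, hy, k, hk, rfl⟩ := (mem_walks_succ H Y).1 hw
    rw [w0 v hv]
    exact ⟨y, k, rfl, hk⟩
  have w2 : ∀ w ∈ walks H Y 2, ∃ y2 k2 y1 k1, w = [(y2, k2), (y1, k1)] ∧ k1 ∈ H y1 ∧ k2 ∈ H y2 ∧
      y2 ∈ Y [(y1, k1)] := by
    intro w hw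
    obtain ⟨v, hv, y, hy, k, hk, rfl⟩ := (mem_walks_succ H Y).1 hw
    obtain ⟨y1, k1, rfl, h⟩ := w1 v hv
    exact ⟨y, k, y1, k1, rfl, h, hk, hy⟩
  have cases : ∀ j < 3, ∀ w ∈ walks H Y j, Y w ⊆ St (st y0 k0 w).2 (st y0 k0 w).1 ∧
      (∀ y ∈ Y w, ∀ y' ∈ Y w, lab y = lab y' → y = y') ∧ nS / 2 ≤ ((Y w).card : ℝ) := by
    intro j hj w hw
    rcases (by omega : j = 0 ∨ j = 1 ∨ j = 2) with rfl | rfl | rfl
    · rw [w0 w hw, Y0]
      refine ⟨hR1 _, hR2 _, ?_⟩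
      rw [hR3]
      have := hS y0 k0 h0
      linarith
    · obtain ⟨y1, k1, rfl, hk1⟩ := w1 w hw
      rw [Y1]
      refine ⟨(hR1 _).trans (filter_subset _ _), hR2 _, ?_⟩
      rw [hR3]
      have := filt_ge (p := fun l => δ < |vel l 0 - vel y1 0|) (hS y1 k1 hk1)
        (hc (vel y1 0) y1 k1 hk1) (fun l hl => not_lt.1 hl)
      linarith
    · obtain ⟨y2, k2, y1, k1, rfl, hk1, hk2, hy2⟩ := w2 w hw
      rw [Y2]
      refine ⟨(hR1 _).trans (filter_subset _ _), hR2 _, ?_⟩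
      rw [hR3]
      rw [Y1] at hy2
      have h1 := (mem_filter.1 (hR1 _ hy2)).2
      have h2 := hcon y1 y2 k2 ⟨k1, hk1⟩ hk2 h1
      have := filt_ge (p := fun l => θ ≤ |det2 (fun i => vel y1 i - vel y2 i)
        (fun i => vel y2 i - vel l i)|) (hS y2 k2 hk2) h2.le (fun l hl => not_le.1 hl)
      linarith
  have hall : ∀ j < 3, ∀ w ∈ walks H Y j, ∀ y ∈ Y w,
      near (st y0 k0 w).2 (st y0 k0 w).1 y ∧ (st y0 k0 w).2 ∈ H y := by
    intro j hj w hw y hy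
    exact hSt _ _ _ ((cases j hj w hw).1 hy)
  have := core2 F h0 (Y := Y) hall (fun j hj w hw => (cases j hj w hw).2.1) hNT
    (fun j hj w hw y hy => hT y ⟨_, (hall j hj w hw y hy).2⟩) hNC0 hNC hθ ?_
    (a := nS / 2) (b := b) (by positivity) hb (fun j hj w hw => (cases j hj w hw).2.2)
    (fun j hj w hw y hy => hH y ⟨_, (hall j hj w hw y hy).2⟩) hN0 hN
  · exact absurd this (not_le.2 hlt)
  · intro y1 k1 y2 k2 hw y3 hy3
    rw [Y2] at hy3
    exact (mem_filter.1 (hR1 _ hy3)).2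

open Classical in
/-- **alternative in space** -/
theorem alt3 {vel : ℕ → Fin 3 → ℝ} {pos : ℕ → ℕ → Fin 3 → ℝ}
    (F : Flow 3 H Z φ vel pos near lab cell η M) (h0 : k0 ∈ H y0)
    {St : ℕ → ℕ → Finset ℕ} (hSt : ∀ k y l, l ∈ St k y → near k y l ∧ k ∈ H l)
    {T : Finset β} {NT : ℝ} (hNT : (T.card : ℝ) ≤ NT)
    (hT : ∀ y, (H y).Nonempty → lab y ∈ T) {NC : ℝ} (hNC0 : 0 ≤ NC)
    (hNC : ∀ k ∈ Z, ∀ S : Finset ℕ, (∀ y ∈ S, k ∈ H y) → (((S.image (cell k)).card : ℕ) : ℝ) ≤ NC)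
    {θ δ nS b : ℝ} (hθ : 0 < θ) (hnS : 0 ≤ nS) (hb : 0 ≤ b)
    (hS : ∀ y, ∀ k ∈ H y, nS ≤ (((St k y).image lab).card : ℝ))
    (hc : ∀ c0 : ℝ, ∀ y, ∀ k ∈ H y,
      ((((St k y).filter fun l => |vel l 0 - c0| ≤ δ).image lab).card : ℝ) ≤ nS / 4)
    (hH : ∀ y, (H y).Nonempty → b ≤ ((H y).card : ℝ))
    {N : ℝ} (hN0 : 0 ≤ N) (hN : ∀ k ∈ Z,
      ((Z.filter fun k' => |φ k' - φ k| ≤ 600 * M ^ 3 * η / θ).card : ℝ) ≤ N)
    (hlt : NT ^ 4 * (Z.card * NC) * N ^ 3 < (nS / 2 * b) ^ 4) :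
    ∃ y1 y2 y3 k3, (H y1).Nonempty ∧ (H y2).Nonempty ∧ k3 ∈ H y3 ∧ δ < |vel y2 0 - vel y1 0| ∧
      δ < |vel y3 0 - vel y1 0| ∧ δ < |vel y3 0 - vel y2 0| ∧
      nS / 2 ≤ ((((St k3 y3).filter fun l => |det3 (fun i => vel y1 i - vel y2 i)
        (fun i => vel y2 i - vel y3 i) (fun i => vel y3 i - vel l i)| < θ).image lab).card : ℝ) := by
  by_contra hcon
  push Not at hcon
  choose R hR1 hR2 hR3 using fun S : Finset ℕ => reps S lab
  obtain ⟨Y, hY⟩ : ∃ Y : List (ℕ × ℕ) → Finset ℕ, Y = fun w => match w with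
    | [] => R (St k0 y0)
    | [(y1, k1)] => R ((St k1 y1).filter fun l => δ < |vel l 0 - vel y1 0|)
    | [(y2, k2), (y1, k1)] => R (((St k2 y2).filter fun l => δ < |vel l 0 - vel y1 0|).filter
        fun l => δ < |vel l 0 - vel y2 0|)
    | [(y3, k3), (y2, k2), (y1, k1)] => R ((St k3 y3).filter fun l =>
        θ ≤ |det3 (fun i => vel y1 i - vel y2 i) (fun i => vel y2 i - vel y3 i)
          (fun i => vel y3 i - vel l i)|)
    | _ => ∅ := ⟨_, rfl⟩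
  have Y0 : Y [] = R (St k0 y0) := by rw [hY]
  have Y1 : ∀ y1 k1, Y [(y1, k1)] = R ((St k1 y1).filter fun l => δ < |vel l 0 - vel y1 0|) :=
    fun _ _ => by rw [hY]
  have Y2 : ∀ y1 k1 y2 k2, Y [(y2, k2), (y1, k1)] =
      R (((St k2 y2).filter fun l => δ < |vel l 0 - vel y1 0|).filter
        fun l => δ < |vel l 0 - vel y2 0|) := fun _ _ _ _ => by rw [hY]
  have Y3 : ∀ y1 k1 y2 k2 y3 k3, Y [(y3, k3), (y2, k2), (y1, k1)] =
      R ((St k3 y3).filter fun l =>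
        θ ≤ |det3 (fun i => vel y1 i - vel y2 i) (fun i => vel y2 i - vel y3 i)
          (fun i => vel y3 i - vel l i)|) := fun _ _ _ _ _ _ => by rw [hY]
  have w0 : ∀ w ∈ walks H Y 0, w = [] := fun w hw => (mem_walks_zero H Y).1 hw
  have w1 : ∀ w ∈ walks H Y 1, ∃ y1 k1, w = [(y1, k1)] ∧ k1 ∈ H y1 := by
    intro w hw
    obtain ⟨v, hv, y, hy, k, hk, rfl⟩ := (mem_walks_succ H Y).1 hw
    rw [w0 v hv]
    exact ⟨y, k, rfl, hk⟩
  have w2 : ∀ w ∈ walks H Y 2, ∃ y2 k2 y1 k1, w = [(y2, k2), (y1, k1)] ∧ k1 ∈ H y1 ∧ k2 ∈ H y2 ∧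
      y2 ∈ Y [(y1, k1)] := by
    intro w hw
    obtain ⟨v, hv, y, hy, k, hk, rfl⟩ := (mem_walks_succ H Y).1 hw
    obtain ⟨y1, k1, rfl, h⟩ := w1 v hv
    exact ⟨y, k, y1, k1, rfl, h, hk, hy⟩
  have w3 : ∀ w ∈ walks H Y 3, ∃ y3 k3 y2 k2 y1 k1, w = [(y3, k3), (y2, k2), (y1, k1)] ∧
      k1 ∈ H y1 ∧ k2 ∈ H y2 ∧ k3 ∈ H y3 ∧ y2 ∈ Y [(y1, k1)] ∧ y3 ∈ Y [(y2, k2), (y1, k1)] := by
    intro w hw
    obtain ⟨v, hv, y, hy, k, hk, rfl⟩ := (mem_walks_succ H Y).1 hw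
    obtain ⟨y2, k2, y1, k1, rfl, h, h', h''⟩ := w2 v hv
    exact ⟨y, k, y2, k2, y1, k1, rfl, h, h', hk, h'', hy⟩
  have cases : ∀ j < 4, ∀ w ∈ walks H Y j, Y w ⊆ St (st y0 k0 w).2 (st y0 k0 w).1 ∧
      (∀ y ∈ Y w, ∀ y' ∈ Y w, lab y = lab y' → y = y') ∧ nS / 2 ≤ ((Y w).card : ℝ) := by
    intro j hj w hw
    rcases (by omega : j = 0 ∨ j = 1 ∨ j = 2 ∨ j = 3) with rfl | rfl | rfl | rfl
    · rw [w0 w hw, Y0]
      refine ⟨hR1 _, hR2 _, ?_⟩
      rw [hR3]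
      have := hS y0 k0 h0
      linarith
    · obtain ⟨y1, k1, rfl, hk1⟩ := w1 w hw
      rw [Y1]
      refine ⟨(hR1 _).trans (filter_subset _ _), hR2 _, ?_⟩
      rw [hR3]
      have := filt_ge (p := fun l => δ < |vel l 0 - vel y1 0|) (hS y1 k1 hk1)
        (hc (vel y1 0) y1 k1 hk1) (fun l hl => not_lt.1 hl)
      linarith
    · obtain ⟨y2, k2, y1, k1, rfl, hk1, hk2, hy2⟩ := w2 w hw
      rw [Y2]
      refine ⟨(hR1 _).trans ((filter_subset _ _).trans (filter_subset _ _)), hR2 _, ?_⟩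
      rw [hR3]
      have t1 := filt_ge (p := fun l => δ < |vel l 0 - vel y1 0|) (hS y2 k2 hk2)
        (hc (vel y1 0) y2 k2 hk2) (fun l hl => not_lt.1 hl)
      have t2 : (((((St k2 y2).filter fun l => δ < |vel l 0 - vel y1 0|).filter
          fun l => |vel l 0 - vel y2 0| ≤ δ).image lab).card : ℝ) ≤ nS / 4 := by
        refine le_trans (Nat.cast_le.2 (card_le_card (image_subset_image fun l hl => ?_)))
          (hc (vel y2 0) y2 k2 hk2)
        obtain ⟨a1, a2⟩ := mem_filter.1 hl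
        exact mem_filter.2 ⟨(mem_filter.1 a1).1, a2⟩
      have t3 := filt_ge (p := fun l => δ < |vel l 0 - vel y2 0|) t1 t2
        (fun l hl => not_lt.1 hl)
      linarith
    · obtain ⟨y3, k3, y2, k2, y1, k1, rfl, hk1, hk2, hk3, hy2, hy3⟩ := w3 w hw
      rw [Y3]
      refine ⟨(hR1 _).trans (filter_subset _ _), hR2 _, ?_⟩
      rw [hR3]
      rw [Y1] at hy2
      rw [Y2] at hy3
      have h1 := (mem_filter.1 (hR1 _ hy2)).2
      obtain ⟨g1, g2⟩ := mem_filter.1 (hR1 _ hy3)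
      have h2 := hcon y1 y2 y3 k3 ⟨k1, hk1⟩ ⟨k2, hk2⟩ hk3 h1 (mem_filter.1 g1).2 g2
      have := filt_ge (p := fun l => θ ≤ |det3 (fun i => vel y1 i - vel y2 i)
        (fun i => vel y2 i - vel y3 i) (fun i => vel y3 i - vel l i)|) (hS y3 k3 hk3) h2.le
        (fun l hl => not_le.1 hl)
      linarith
  have hall : ∀ j < 4, ∀ w ∈ walks H Y j, ∀ y ∈ Y w,
      near (st y0 k0 w).2 (st y0 k0 w).1 y ∧ (st y0 k0 w).2 ∈ H y := by
    intro j hj w hw y hy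
    exact hSt _ _ _ ((cases j hj w hw).1 hy)
  have := core3 F h0 (Y := Y) hall (fun j hj w hw => (cases j hj w hw).2.1) hNT
    (fun j hj w hw y hy => hT y ⟨_, (hall j hj w hw y hy).2⟩) hNC0 hNC hθ ?_
    (a := nS / 2) (b := b) (by positivity) hb (fun j hj w hw => (cases j hj w hw).2.2)
    (fun j hj w hw y hy => hH y ⟨_, (hall j hj w hw y hy).2⟩) hN0 hN
  · exact absurd this (not_le.2 hlt)
  · intro y1 k1 y2 k2 y3 k3 hw y4 hy4
    rw [Y3] at hy4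
    exact (mem_filter.1 (hR1 _ hy4)).2

end Crest.Agent.R136.Lin560
end

-- ▼ part R136/Lin4_560

/-!
# R136, thin branch, `lin` (helper560), part 4: counts over an `RModel`

`LRow`, `LProf` : hypotheses; `cnt_types` .. : the numbers of types.
-/

set_option autoImplicit false
set_option linter.unusedSectionVars false
set_option linter.unusedVariables false

open Filter Topology

namespace Crest.Agent.R136.Lin560

open Finset
open Crest.Agent.R138.Ex926 (Base U)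
open Crest.Agent.R136.Gf356
open Crest.Agent.R136.Qd329 (int_img floor_close card_le_img voronoi net_facts)

/-! ### overlap of boxes -/

/-- cell of a velocity -/
noncomputable def tyl (w : ℝ) (ty : ℕ → Fin 2 → ℝ) (l : ℕ) : ℤ × ℤ :=
  (⌊ty l 0 / w⌋, ⌊ty l 1 / w⌋)

theorem tyl_close {w : ℝ} (hw : 0 < w) {ty : ℕ → Fin 2 → ℝ} {l l' : ℕ}
    (h : tyl w ty l = tyl w ty l') (i : Fin 2) : |ty l i - ty l' i| ≤ w := by
  obtain ⟨h0, h1⟩ := Prod.mk.inj h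
  fin_cases i
  · exact floor_close hw h0
  · exact floor_close hw h1

theorem overlap_one {w r0 : ℝ} (hw : 0 < w) (hr : 0 ≤ r0) {ty : ℕ → Fin 2 → ℝ} (S : Finset ℕ)
    (hS : ∀ l ∈ S, ∀ l' ∈ S, tyl w ty l = tyl w ty l' → l = l') (v : Fin 2 → ℝ)
    (hv : ∀ l ∈ S, ∀ i, |v i - ty l i| ≤ r0) : (S.card : ℝ) ≤ (2 * r0 / w + 2) ^ 2 := by
  classical
  have h1 : S.card = (S.image (tyl w ty)).card :=
    (card_image_of_injOn fun l hl l' hl' he => hS l hl l' hl' he).symm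
  have h2 : S.image (tyl w ty) ⊆ (S.image fun l => ⌊ty l 0 / w⌋) ×ˢ
      (S.image fun l => ⌊ty l 1 / w⌋) := by
    intro p hp
    obtain ⟨l, hl, rfl⟩ := mem_image.1 hp
    exact mem_product.2 ⟨mem_image_of_mem _ hl, mem_image_of_mem _ hl⟩
  have h3 : ∀ i : Fin 2, ((S.image fun l => ⌊ty l i / w⌋).card : ℝ) ≤ 2 * r0 / w + 2 := by
    intro i
    have := int_img S (fun l => ty l i) (x0 := v i - r0) (x1 := v i + r0) hw (by linarith)
      fun l hl => by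
        have := abs_le.1 (hv l hl i)
        constructor <;> linarith [this.1, this.2]
    have e : (v i + r0 - (v i - r0)) / w + 2 = 2 * r0 / w + 2 := by ring
    rwa [e] at this
  have h4 := card_le_card h2
  rw [card_product, ← h1] at h4
  calc (S.card : ℝ) ≤ ((S.image fun l => ⌊ty l 0 / w⌋).card : ℝ) *
      ((S.image fun l => ⌊ty l 1 / w⌋).card : ℝ) := by exact_mod_cast h4
    _ ≤ (2 * r0 / w + 2) * (2 * r0 / w + 2) := mul_le_mul (h3 0) (h3 1) (Nat.cast_nonneg _)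
        (by positivity)
    _ = _ := by ring

/-- double counting -/
theorem overlap_count {w r0 β : ℝ} (hw : 0 < w) (hr : 0 ≤ r0) {ty : ℕ → Fin 2 → ℝ} (S W : Finset ℕ)
    (hS : ∀ l ∈ S, ∀ l' ∈ S, tyl w ty l = tyl w ty l' → l = l') (Bx : ℕ → Finset ℕ)
    (hB : ∀ l ∈ S, Bx l ⊆ W) (hBr : ∀ l ∈ S, ∀ l' ∈ Bx l, ∀ i, |ty l' i - ty l i| ≤ r0)
    (hβ : ∀ l ∈ S, β ≤ ((Bx l).card : ℝ)) :
    (S.card : ℝ) * β ≤ (2 * r0 / w + 2) ^ 2 * (W.card : ℝ) := by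
  classical
  have h1 : ∑ l ∈ S, (Bx l).card = ∑ l' ∈ W, (S.filter fun l => l' ∈ Bx l).card := by
    have e1 : ∀ l ∈ S, (Bx l).card = ∑ l' ∈ W, if l' ∈ Bx l then 1 else 0 := by
      intro l hl
      rw [← sum_filter, sum_const, smul_eq_mul, mul_one]
      congr 1
      ext l'
      rw [mem_filter]
      exact ⟨fun h => ⟨hB l hl h, h⟩, fun h => h.2⟩
    rw [sum_congr rfl e1, sum_comm]
    refine sum_congr rfl fun l' _ => ?_
    rw [← sum_filter, sum_const, smul_eq_mul, mul_one]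
  have h2 : ∀ l' ∈ W, ((S.filter fun l => l' ∈ Bx l).card : ℝ) ≤ (2 * r0 / w + 2) ^ 2 := by
    intro l' _
    refine overlap_one hw hr _ (fun l hl l1 hl1 => hS l (mem_filter.1 hl).1 l1 (mem_filter.1 hl1).1)
      (ty l') fun l hl i => ?_
    obtain ⟨a, b⟩ := mem_filter.1 hl
    exact hBr l a l' b i
  calc (S.card : ℝ) * β = ∑ _l ∈ S, β := by rw [sum_const, nsmul_eq_mul]
    _ ≤ ∑ l ∈ S, ((Bx l).card : ℝ) := sum_le_sum hβ
    _ = ∑ l' ∈ W, ((S.filter fun l => l' ∈ Bx l).card : ℝ) := by exact_mod_cast h1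
    _ ≤ ∑ _l' ∈ W, (2 * r0 / w + 2) ^ 2 := sum_le_sum h2
    _ = _ := by rw [sum_const, nsmul_eq_mul]; ring

/-! ### hypotheses -/

variable {κ : Type}

/-- the configuration of lines -/
structure LRow (d : ℕ) (B : Base) (G : ℕ → RCfg κ) (x M C : ℝ) (p0 r Qc Qf : κ → ℝ)
    (pc : ℝ → κ → ℝ) (φ : ℕ → ℕ → ℝ) (ty : ℕ → ℕ → Fin 2 → ℝ) (vel : ℕ → ℕ → Fin d → ℝ)
    (pos : ℕ → ℕ → ℕ → Fin d → ℝ) : Prop where
  x0 : 0 < x
  M1 : 1 ≤ M
  C1 : 1 ≤ C
  bd : ∀ᶠ n in (U : Filter ℕ), ∀ k l, (l, k) ∈ (G n).I →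
    (∀ i, |ty n l i| ≤ M) ∧ (∀ i, |vel n l i| ≤ M) ∧ |φ n k| ≤ M
  vt : ∀ᶠ n in (U : Filter ℕ), ∀ k l k' l', (l, k) ∈ (G n).I → (l', k') ∈ (G n).I → ∀ s : ℝ,
    (∀ i, |ty n l i - ty n l' i| ≤ s) → ∀ i, |vel n l i - vel n l' i| ≤ C * s
  evo : ∀ ε : ℝ, 0 < ε → ∀ᶠ n in (U : Filter ℕ), ∀ l k k', (l, k) ∈ (G n).I →
    (l, k') ∈ (G n).I → ∀ i,
    |pos n k' l i - pos n k l i - (φ n k' - φ n k) * vel n l i| ≤ B.d n ^ (x - C * ε)
  rcl : ∀ ε : ℝ, 0 < ε → ∀ᶠ n in (U : Filter ℕ), ∀ k l l', (l, k) ∈ (G n).I →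
    (l', k) ∈ (G n).I → (G n).loose r ε k l l' → ∀ i,
    |pos n k l' i - pos n k l i| ≤ B.d n ^ (x - C * ε)
  qcl : ∀ ε : ℝ, 0 < ε → ∀ᶠ n in (U : Filter ℕ), ∀ k l l', (l, k) ∈ (G n).I →
    (l', k) ∈ (G n).I → (G n).loose Qc ε k l l' → ∀ i,
    |ty n l' i - ty n l i| ≤ B.d n ^ (x - C * ε)
  qfl : ∀ ε : ℝ, 0 < ε → ∀ᶠ n in (U : Filter ℕ), ∀ k l l', (l, k) ∈ (G n).I →
    (l', k) ∈ (G n).I → (G n).loose r ε k l l' →
    (∀ i, |ty n l' i - ty n l i| ≤ B.d n ^ (x - ε)) → (G n).loose Qf (C * ε) k l l'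
  ccl : ∀ y : ℝ, 0 ≤ y → y ≤ x → ∀ ε : ℝ, 0 < ε → ∀ᶠ n in (U : Filter ℕ), ∀ k l l',
    (l, k) ∈ (G n).I → (l', k) ∈ (G n).I → |ty n l' 0 - ty n l 0| ≤ B.d n ^ y →
    (G n).loose (pc y) ε k l l'
  all : ∀ ε : ℝ, 0 < ε → ∀ᶠ n in (U : Filter ℕ), ∀ k l l', (l, k) ∈ (G n).I →
    (l', k) ∈ (G n).I → (G n).loose p0 ε k l l'
  zφ : ∀ᶠ n in (U : Filter ℕ), ∀ k ∈ (G n).Z, ∀ k' ∈ (G n).Z,
    |(G n).z k' - (G n).z k| ≤ C * |φ n k' - φ n k|

/-- the numbers -/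
structure LProf (Leg : Set (κ → ℝ)) (ν : (κ → ℝ) → ℝ) (x m : ℝ)
    (p0 r Qc Qf : κ → ℝ) (pc : ℝ → κ → ℝ) : Prop where
  m0 : 0 < m
  l0 : p0 ∈ Leg
  lr : r ∈ Leg
  lQc : Qc ∈ Leg
  lQf : Qf ∈ Leg
  lc : ∀ y, 0 ≤ y → y ≤ x → pc y ∈ Leg
  hprod : ν p0 + ν Qf ≤ ν r + ν Qc
  H5 : ∀ y, 0 ≤ y → y ≤ x → m * y ≤ ν p0 - ν (pc y)

section

variable {B : Base} {G : ℕ → RCfg κ} {Leg : Set (κ → ℝ)} {ν : (κ → ℝ) → ℝ} {D x M C m : ℝ}
  {p0 r Qc Qf : κ → ℝ} {pc : ℝ → κ → ℝ} {d : ℕ} {φ : ℕ → ℕ → ℝ} {ty : ℕ → ℕ → Fin 2 → ℝ}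
  {vel : ℕ → ℕ → Fin d → ℝ} {pos : ℕ → ℕ → ℕ → Fin d → ℝ}

/-- overlap of `Qc`-boxes -/
theorem ov_le (B : Base) {x C e : ℝ} (hC : 1 ≤ C) (he : 0 < e) : ∀ᶠ n in (U : Filter ℕ),
    (2 * B.d n ^ (x - C * e) / B.d n ^ x + 2) ^ 2 ≤ B.d n ^ (-(2 * (C + 1) * e)) := by
  filter_upwards [ev_const_le B he 4] with n hn
  have h1 : B.d n ^ (x - C * e) / B.d n ^ x = B.d n ^ (-(C * e)) := by
    rw [div_eq_iff (rpos B n x).ne', ← rpow_add']; congr 1; ring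
  have h2 : 1 ≤ B.d n ^ (-(C * e)) := by
    have := rpow_anti B n (s := -(C * e)) (t := 0) (by nlinarith)
    rwa [Real.rpow_zero] at this
  have h3 : 2 * B.d n ^ (x - C * e) / B.d n ^ x + 2 ≤ B.d n ^ (-((C + 1) * e)) := by
    rw [mul_div_assoc, h1]
    calc 2 * B.d n ^ (-(C * e)) + 2 ≤ 4 * B.d n ^ (-(C * e)) := by linarith
      _ ≤ B.d n ^ (-e) * B.d n ^ (-(C * e)) := mul_le_mul_of_nonneg_right hn (rpos B n _).le
      _ = _ := by rw [← rpow_add']; congr 1; ring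
  have h4 : 0 ≤ 2 * B.d n ^ (x - C * e) / B.d n ^ x + 2 := by
    have := rpos B n (x - C * e); have := rpos B n x; positivity
  calc (2 * B.d n ^ (x - C * e) / B.d n ^ x + 2) ^ 2 ≤ (B.d n ^ (-((C + 1) * e))) ^ 2 :=
        pow_le_pow_left₀ h4 h3 2
    _ = _ := by rw [pow_two, ← rpow_add']; congr 1; ring

/-- lines and slices -/
theorem cnt_lines (H : RModel B G 1 x Leg ν D)
    (Q : LRow d B G x M C p0 r Qc Qf pc φ ty vel pos) (P : LProf Leg ν x m p0 r Qc Qf pc)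
    {e : ℝ} (he : 0 < e) : ∀ᶠ n in (U : Filter ℕ), ∀ k ∈ (G n).Z,
      ((G n).slice k).Nonempty ∧ (((G n).slice k).card : ℝ) ≤ B.d n ^ (-ν p0 - D * e) ∧
      ((G n).L.card : ℝ) ≤ B.d n ^ (-ν p0 - (D + 1) * e) := by
  filter_upwards [H.slice e he, Q.all e he, H.up p0 P.l0 e he] with n h1 h2 h3 k hk
  have hLne : (G n).L.Nonempty := by
    obtain ⟨⟨i, k'⟩, hik⟩ := H.nonempty n
    exact ⟨i, H.memL hik⟩
  have h4 := h1 k hk
  have hpos : (0:ℝ) < B.d n ^ e * (G n).L.card :=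
    mul_pos (rpos B n e) (by exact_mod_cast hLne.card_pos)
  have h5 : ((G n).slice k).Nonempty := by
    rw [← card_pos]
    exact_mod_cast hpos.trans_le h4
  obtain ⟨l0, hl0⟩ := h5
  have h6 : (((G n).slice k).card : ℝ) ≤ B.d n ^ (-ν p0 - D * e) := by
    refine le_trans (Nat.cast_le.2 (card_le_card ?_)) (h3 l0 k (H.memSlice.1 hl0))
    intro l hl
    exact RCfg.mem_box.2 ⟨hl, h2 k l0 l (H.memSlice.1 hl0) (H.memSlice.1 hl)⟩
  refine ⟨⟨l0, hl0⟩, h6, ?_⟩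
  have h7 := h4.trans h6
  have e1 : B.d n ^ (-e) * B.d n ^ e = 1 := by
    rw [← rpow_add', neg_add_cancel, Real.rpow_zero]
  calc ((G n).L.card : ℝ) = B.d n ^ (-e) * (B.d n ^ e * (G n).L.card) := by
        rw [← mul_assoc, e1, one_mul]
    _ ≤ B.d n ^ (-e) * B.d n ^ (-ν p0 - D * e) := mul_le_mul_of_nonneg_left h7 (rpos B n _).le
    _ = _ := by rw [← rpow_add']; congr 1; ring

theorem alive (H : RModel B G 1 x Leg ν D) : ∀ᶠ n in (U : Filter ℕ), ∀ l ∈ (G n).L,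
    ∃ k, (l, k) ∈ (G n).I := by
  filter_upwards [H.line 1 one_pos] with n h1 l hl
  have hZne : (G n).Z.Nonempty := by
    obtain ⟨⟨i, k'⟩, hik⟩ := H.nonempty n
    exact ⟨k', H.memZ hik⟩
  have h2 := h1 l hl
  have hpos : (0:ℝ) < B.d n ^ (1:ℝ) * (G n).Z.card :=
    mul_pos (rpos B n 1) (by exact_mod_cast hZne.card_pos)
  have h5 : ((G n).hts l).Nonempty := by
    rw [← card_pos]
    exact_mod_cast hpos.trans_le h2
  obtain ⟨k, hk⟩ := h5
  exact ⟨k, H.memHts.1 hk⟩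

/-- **types in a set of lines**: controlled by any set which contains the `Qc`-boxes -/
theorem cnt_types (H : RModel B G 1 x Leg ν D)
    (Q : LRow d B G x M C p0 r Qc Qf pc φ ty vel pos) (P : LProf Leg ν x m p0 r Qc Qf pc)
    {e : ℝ} (he : 0 < e) : ∀ᶠ n in (U : Filter ℕ), ∀ S : Finset ℕ, ∀ K : ℕ → ℕ,
      (∀ l ∈ S, (l, K l) ∈ (G n).I) → ∀ W : Finset ℕ,
      (∀ l ∈ S, ∀ l', (l', K l) ∈ (G n).I → (∀ i, |ty n l' i - ty n l i| ≤ B.d n ^ (x - C * e)) →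
        l' ∈ W) →
      (∀ l ∈ S, ∀ l' ∈ S, tyl (B.d n ^ x) (ty n) l = tyl (B.d n ^ x) (ty n) l' → l = l') →
      (S.card : ℝ) ≤ B.d n ^ (ν Qc - (2 * C + 3) * e) * (W.card : ℝ) := by
  filter_upwards [ov_le B (x := x) Q.C1 he, Q.qcl e he, H.low Qc P.lQc e he] with n h1 h2 h3 S K hK
    W hW hinj
  have h4 := overlap_count (rpos B n x) (rpos B n (x - C * e)).le (ty := ty n) S W hinj
    (fun l => (G n).box Qc e l (K l)) (fun l hl l' hl' => ?_) (fun l hl l' hl' => ?_)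
    (fun l hl => h3 l (K l) (hK l hl))
  · have h5 := h4.trans (mul_le_mul_of_nonneg_right h1 (Nat.cast_nonneg _))
    have e1 : B.d n ^ (ν Qc - e) * B.d n ^ (-ν Qc + e) = 1 := by
      rw [← rpow_add']
      have : ν Qc - e + (-ν Qc + e) = 0 := by ring
      rw [this, Real.rpow_zero]
    calc (S.card : ℝ) = B.d n ^ (ν Qc - e) * ((S.card : ℝ) * B.d n ^ (-ν Qc + e)) := by
          rw [mul_left_comm, e1, mul_one]
      _ ≤ B.d n ^ (ν Qc - e) * (B.d n ^ (-(2 * (C + 1) * e)) * (W.card : ℝ)) :=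
          mul_le_mul_of_nonneg_left h5 (rpos B n _).le
      _ = _ := by rw [← mul_assoc, ← rpow_add']; congr 2; ring
  · obtain ⟨a1, a2⟩ := RCfg.mem_box.1 hl'
    exact hW l hl l' (H.memSlice.1 a1) (h2 _ _ _ (hK l hl) (H.memSlice.1 a1) a2)
  · obtain ⟨a1, a2⟩ := RCfg.mem_box.1 hl'
    exact h2 _ _ _ (hK l hl) (H.memSlice.1 a1) a2

/-- number of all types -/
theorem cnt_all (H : RModel B G 1 x Leg ν D)
    (Q : LRow d B G x M C p0 r Qc Qf pc φ ty vel pos) (P : LProf Leg ν x m p0 r Qc Qf pc)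
    {e : ℝ} (he : 0 < e) : ∀ᶠ n in (U : Filter ℕ),
      (((G n).L.image (tyl (B.d n ^ x) (ty n))).card : ℝ) ≤
        B.d n ^ (ν Qc - ν p0 - (2 * C + D + 4) * e) := by
  filter_upwards [cnt_types H Q P he, cnt_lines H Q P he, alive H] with n h1 h2 h3
  classical
  obtain ⟨S, hS, hinj, hcard⟩ := reps (G n).L (tyl (B.d n ^ x) (ty n))
  choose! K hK using h3
  have hZne : (G n).Z.Nonempty := by
    obtain ⟨⟨i, k'⟩, hik⟩ := H.nonempty n
    exact ⟨k', H.memZ hik⟩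
  obtain ⟨k0, hk0⟩ := hZne
  rw [← hcard]
  have h4 := h1 S K (fun l hl => hK l (hS hl)) (G n).L (fun l hl l' hl' _ => H.memL hl') hinj
  calc (S.card : ℝ) ≤ B.d n ^ (ν Qc - (2 * C + 3) * e) * ((G n).L.card : ℝ) := h4
    _ ≤ B.d n ^ (ν Qc - (2 * C + 3) * e) * B.d n ^ (-ν p0 - (D + 1) * e) :=
        mul_le_mul_of_nonneg_left (h2 k0 hk0).2.2 (rpos B n _).le
    _ = _ := by rw [← rpow_add']; congr 1; ring

/-- lines with given first velocity -/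
theorem cnt_c (H : RModel B G 1 x Leg ν D)
    (Q : LRow d B G x M C p0 r Qc Qf pc φ ty vel pos) (P : LProf Leg ν x m p0 r Qc Qf pc)
    {e y : ℝ} (he : 0 < e) (hy : 0 ≤ y) (hyx : y ≤ x) : ∀ᶠ n in (U : Filter ℕ), ∀ c0 : ℝ,
      ∀ L' ⊆ (G n).L, (∀ l ∈ L', |ty n l 0 - c0| ≤ B.d n ^ y / 2) →
      (L'.card : ℝ) ≤ B.d n ^ (-ν p0 + m * y - (D + 1) * e) := by
  filter_upwards [H.line e he, Q.ccl y hy hyx e he, H.up (pc y) (P.lc y hy hyx) e he] with n h1 h2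
    h3 c0 L' hL' hc
  classical
  have hZne : (G n).Z.Nonempty := by
    obtain ⟨⟨i, k'⟩, hik⟩ := H.nonempty n
    exact ⟨k', H.memZ hik⟩
  -- average over the heights
  have hsum : ∑ l ∈ L', ((G n).hts l).card = ∑ k ∈ (G n).Z, (L'.filter fun l => (l, k) ∈ (G n).I).card := by
    have e1 : ∀ l ∈ L', ((G n).hts l).card = ∑ k ∈ (G n).Z, if (l, k) ∈ (G n).I then 1 else 0 := by
      intro l _
      rw [← sum_filter, sum_const, smul_eq_mul, mul_one]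
      rfl
    rw [sum_congr rfl e1, sum_comm]
    refine sum_congr rfl fun k _ => ?_
    rw [← sum_filter, sum_const, smul_eq_mul, mul_one]
  have hk : ∀ k ∈ (G n).Z, ((L'.filter fun l => (l, k) ∈ (G n).I).card : ℝ) ≤
      B.d n ^ (-ν (pc y) - D * e) := by
    intro k _
    rcases (L'.filter fun l => (l, k) ∈ (G n).I).eq_empty_or_nonempty with h0 | ⟨l0, hl0⟩
    · rw [h0, card_empty, Nat.cast_zero]; exact (rpos B n _).le
    · obtain ⟨a1, a2⟩ := mem_filter.1 hl0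
      refine le_trans (Nat.cast_le.2 (card_le_card ?_)) (h3 l0 k a2)
      intro l hl
      obtain ⟨b1, b2⟩ := mem_filter.1 hl
      refine RCfg.mem_box.2 ⟨H.memSlice.2 b2, h2 k l0 l a2 b2 ?_⟩
      have c1 := abs_le.1 (hc l0 a1)
      have c2 := abs_le.1 (hc l b1)
      rw [abs_le]
      constructor <;> linarith [c1.1, c1.2, c2.1, c2.2]
  have h4 : (L'.card : ℝ) * (B.d n ^ e * (G n).Z.card) ≤
      (G n).Z.card * B.d n ^ (-ν (pc y) - D * e) := by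
    calc (L'.card : ℝ) * (B.d n ^ e * (G n).Z.card) = ∑ _l ∈ L', B.d n ^ e * (G n).Z.card := by
          rw [sum_const, nsmul_eq_mul]
      _ ≤ ∑ l ∈ L', (((G n).hts l).card : ℝ) := sum_le_sum fun l hl => h1 l (hL' hl)
      _ = ∑ k ∈ (G n).Z, ((L'.filter fun l => (l, k) ∈ (G n).I).card : ℝ) := by
          exact_mod_cast hsum
      _ ≤ ∑ _k ∈ (G n).Z, B.d n ^ (-ν (pc y) - D * e) := sum_le_sum hk
      _ = _ := by rw [sum_const, nsmul_eq_mul]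
  have hZ0 : (0:ℝ) < (G n).Z.card := by exact_mod_cast hZne.card_pos
  have h5 : (L'.card : ℝ) * B.d n ^ e ≤ B.d n ^ (-ν (pc y) - D * e) := by
    have : ((L'.card : ℝ) * B.d n ^ e) * (G n).Z.card ≤
        B.d n ^ (-ν (pc y) - D * e) * (G n).Z.card := by linarith [h4]
    exact le_of_mul_le_mul_right this hZ0
  have e1 : B.d n ^ (-e) * B.d n ^ e = 1 := by
    rw [← rpow_add', neg_add_cancel, Real.rpow_zero]
  calc (L'.card : ℝ) = B.d n ^ (-e) * ((L'.card : ℝ) * B.d n ^ e) := by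
        rw [mul_left_comm, e1, mul_one]
    _ ≤ B.d n ^ (-e) * B.d n ^ (-ν (pc y) - D * e) := mul_le_mul_of_nonneg_left h5 (rpos B n _).le
    _ = B.d n ^ (-ν (pc y) - (D + 1) * e) := by rw [← rpow_add']; congr 1; ring
    _ ≤ _ := rpow_anti B n (by linarith [P.H5 y hy hyx])

/-- types with given first velocity -/
theorem cnt_ctypes (H : RModel B G 1 x Leg ν D)
    (Q : LRow d B G x M C p0 r Qc Qf pc φ ty vel pos) (P : LProf Leg ν x m p0 r Qc Qf pc)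
    {e y : ℝ} (he : 0 < e) (hy : 0 ≤ y) (hyx : y + 2 * e ≤ x - C * e) :
    ∀ᶠ n in (U : Filter ℕ), ∀ c0 : ℝ,
      ∀ S : Finset ℕ, (∀ l ∈ S, l ∈ (G n).L) → (∀ l ∈ S, |ty n l 0 - c0| ≤ B.d n ^ (y + 2 * e)) →
      (((S.image (tyl (B.d n ^ x) (ty n))).card : ℕ) : ℝ) ≤
        B.d n ^ (ν Qc - ν p0 + m * y - (2 * C + D + 4) * e) := by
  filter_upwards [cnt_types H Q P he, cnt_c H Q P he hy (by nlinarith [Q.C1]), alive H,
    ev_const_le B he 4] with n h1 h2 h3 h4 c0 S hSL hSc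
  classical
  obtain ⟨S', hS', hinj, hcard⟩ := reps S (tyl (B.d n ^ x) (ty n))
  choose! K hK using h3
  rw [← hcard]
  set L' := (G n).L.filter fun l => |ty n l 0 - c0| ≤ B.d n ^ y / 2 with hL'
  have e2 : B.d n ^ (y + 2 * e) + B.d n ^ (x - C * e) ≤ B.d n ^ y / 2 := by
    have a1 : B.d n ^ (x - C * e) ≤ B.d n ^ (y + 2 * e) := rpow_anti B n hyx
    have a2 : B.d n ^ (y + 2 * e) ≤ B.d n ^ (y + e) := rpow_anti B n (by linarith)
    have a3 : 4 * B.d n ^ (y + e) ≤ B.d n ^ y := by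
      calc 4 * B.d n ^ (y + e) ≤ B.d n ^ (-e) * B.d n ^ (y + e) :=
            mul_le_mul_of_nonneg_right h4 (rpos B n _).le
        _ = _ := by rw [← rpow_add']; congr 1; ring
    linarith
  have h5 := h1 S' K (fun l hl => hK l (hSL l (hS' hl))) L' (fun l hl l' hl' hd => by
    refine mem_filter.2 ⟨H.memL hl', ?_⟩
    have b1 := hSc l (hS' hl)
    have b2 := hd 0
    have e3 : ty n l' 0 - c0 = (ty n l' 0 - ty n l 0) + (ty n l 0 - c0) := by ring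
    rw [e3]
    refine (abs_add_le _ _).trans ?_
    linarith) hinj
  have h6 := h2 c0 L' (filter_subset _ _) (fun l hl => (mem_filter.1 hl).2)
  calc (S'.card : ℝ) ≤ B.d n ^ (ν Qc - (2 * C + 3) * e) * (L'.card : ℝ) := h5
    _ ≤ B.d n ^ (ν Qc - (2 * C + 3) * e) * B.d n ^ (-ν p0 + m * y - (D + 1) * e) :=
        mul_le_mul_of_nonneg_left h6 (rpos B n _).le
    _ = _ := by rw [← rpow_add']; congr 1; ring

/-- **types through a point** -/
theorem cnt_pt (H : RModel B G 1 x Leg ν D)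
    (Q : LRow d B G x M C p0 r Qc Qf pc φ ty vel pos) (P : LProf Leg ν x m p0 r Qc Qf pc)
    {e : ℝ} (he : 0 < e) : ∀ᶠ n in (U : Filter ℕ), ∀ l k, (l, k) ∈ (G n).I →
      B.d n ^ (ν Qf - ν r + (C * D ^ 3 + 1) * e) ≤
        (((((G n).box r e l k).image (tyl (B.d n ^ x) (ty n))).card : ℕ) : ℝ) := by
  have hD := H.D1
  have hD0 : 0 < D := by linarith
  have hC := Q.C1
  have hDD : 0 < D ^ 2 * e := by positivity
  filter_upwards [H.symm r P.lr e he, H.tri r P.lr (D * e) (by positivity), H.low r P.lr e he,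
    Q.qfl (D ^ 2 * e) hDD, H.up Qf P.lQf (C * (D ^ 2 * e)) (by positivity)] with n h1 h2 h3 h4 h5
    l k hlk
  classical
  have h6 := card_le_img ((G n).box r e l k) (tyl (B.d n ^ x) (ty n)) (le_refl _)
    (rpos B n (-ν Qf - D * (C * (D ^ 2 * e)))).le fun v hv => by
      obtain ⟨l0, hl0, hv0⟩ := mem_image.1 hv
      obtain ⟨a1, a2⟩ := RCfg.mem_box.1 hl0
      have a3 := H.memSlice.1 a1
      refine le_trans (Nat.cast_le.2 (card_le_card ?_)) (h5 l0 k a3)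
      intro l1 hl1
      obtain ⟨b1, b2⟩ := mem_filter.1 hl1
      obtain ⟨c1, c2⟩ := RCfg.mem_box.1 b1
      have c3 := H.memSlice.1 c1
      refine RCfg.mem_box.2 ⟨c1, h4 k l0 l1 a3 c3 ?_ fun i => ?_⟩
      · have d1 := h1 k l l0 hlk a3 a2
        have d2 : (G n).loose r (D * e) k l l1 := H.loose_mono (fun _ => le_rfl) (by nlinarith) c2
        have d3 := h2 k l0 l l1 a3 hlk c3 d1 d2
        have e1 : D * (D * e) = D ^ 2 * e := by ring
        rwa [e1] at d3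
      · have d4 := tyl_close (rpos B n x) (b2.trans hv0.symm) i
        exact d4.trans (rpow_anti B n (by linarith))
  have h7 := (h3 l k hlk).trans h6
  have e1 : B.d n ^ (-ν Qf - D * (C * (D ^ 2 * e))) * B.d n ^ (ν Qf + C * D ^ 3 * e) = 1 := by
    rw [← rpow_add']
    have : -ν Qf - D * (C * (D ^ 2 * e)) + (ν Qf + C * D ^ 3 * e) = 0 := by ring
    rw [this, Real.rpow_zero]
  calc B.d n ^ (ν Qf - ν r + (C * D ^ 3 + 1) * e) =
      B.d n ^ (-ν r + e) * B.d n ^ (ν Qf + C * D ^ 3 * e) := by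
        rw [← rpow_add']; congr 1; ring
    _ ≤ ((((G n).box r e l k).image (tyl (B.d n ^ x) (ty n))).card : ℝ) *
        B.d n ^ (-ν Qf - D * (C * (D ^ 2 * e))) * B.d n ^ (ν Qf + C * D ^ 3 * e) :=
        mul_le_mul_of_nonneg_right h7 (rpos B n _).le
    _ = _ := by rw [mul_assoc, e1, mul_one]

end

end Crest.Agent.R136.Lin560
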