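import Crest.Agent.R136.Plk_511
import Crest.Agent.R136.Pl7d_186
import Crest.Agent.R136.Pl2W_102
import Crest.Agent.R136.Grp_639
import Crest.Agent.R136.Lnk3_989
import Crest.Agent.R136.Shd_410
import Crest.Agent.R136.Clu_108

-- ▼ part R136/Plk2_511
section

/-!
# R136 (S0187), g-free tilt (PLAN 2), B4: count of one bundle over `Two1` (helper511)

`plank_two` : `Plk511.plank_count` from the D-max of `Two1`, constant `(2 W K)^C`.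
-/

set_option autoImplicit false
set_option linter.unusedVariables false
set_option linter.unusedSectionVars false

namespace Crest.Agent.R136.Plk511

open Finset
open Crest.Agent.R136.Sh605
open Crest.Agent.R136.K4 (Plk4)
open Crest.Agent.R136.Tlt51 (Shp InP)
open Crest.Agent.R136.Phc248
open Crest.Agent.R136.Pl7186
open Crest.Agent.R136.Pl2W102 (Near Ex2 Two1)

open Classical in
/-- the D-max of `Two1` as `DMx` -/
theorem dmx_two {qm qp : Fin 3 → ℝ} {L : ℕ → Ln4} {P : Finset ℕ} {cu cv : ℕ → ℕ}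
    {Uf Vf : ℕ → Plk4} {W M a w1 w2 z0 ρ r : ℝ}
    (H : Two1 qm qp L P cu cv Uf Vf W M a w1 w2 z0 ρ r) :
    DMx P L z0 ρ r (fun _ x _ => x ≤ ρ) (fun a' x y => W * M * phC qm qp a w1 w2 a' x y) := by
  intro e c w Q α hS hx
  exact H.dmax ⟨0, e, c, w, Q, α⟩ hS hx

/-- constants are absorbed in powers of `2 W K` -/
theorem const_le {x c : ℝ} {k : ℕ} (hx : 2 ≤ x) (hc : c ≤ 2 ^ k) (hc0 : 0 ≤ c) : c ≤ x ^ k :=
  hc.trans (pow_le_pow_left₀ (by norm_num) hx k)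

open Classical in
/-- **one bundle over `Two1`** -/
theorem plank_two {η : ℝ} {qm qp : Fin 3 → ℝ} (hE : Ex2 η qm qp) :
    ∃ C : ℝ, 0 ≤ C ∧ ∀ {L : ℕ → Ln4} {P : Finset ℕ} {cu cv : ℕ → ℕ}
    {Uf Vf : ℕ → Plk4} {W M a w1 w2 z0 ρ r : ℝ}
    (H : Two1 qm qp L P cu cv Uf Vf W M a w1 w2 z0 ρ r) (hrρ : r ≤ ρ) (hP : P.Nonempty)
    {e : Fin 3 → V3} (he : Ortho e) (T0 : Ln4) {K t l M0 s1 s2 g0 g1 : ℝ} (hK : 1 ≤ K)
    (ht : 0 < t) (ht1 : t ≤ 1) (hw : w2 ≤ K * (t * w1))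
    (hs1 : |s1| * (t * w1) ≤ K * w2) (hs2 : |s2| ≤ K) (hg : g0 ^ 2 + g1 ^ 2 = 1)
    (hl : 0 < l) (hl1 : l ≤ 1) (hM : 1 ≤ M0) (haM : a * M0 ≤ K * w2) (hal : a ≤ K * (l * w2))
    (F : Finset ℕ) (hF : F ⊆ P)
    (hb : ∀ x ∈ F, ∀ z, z0 ≤ z → z ≤ z0 + ρ →
      |dt (e 0) ((L x).pos z - T0.pos z) + s1 * dt (e 1) ((L x).pos z - T0.pos z) +
        s2 * dt (e 2) ((L x).pos z - T0.pos z)| ≤ K * a ∧
      |g0 * (dt (e 1) ((L x).pos z - T0.pos z) / (t * w1)) +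
        g1 * (dt (e 2) ((L x).pos z - T0.pos z) / w2)| ≤ K / M0 ∧
      |g0 * (dt (e 2) ((L x).pos z - T0.pos z) / w2) -
        g1 * (dt (e 1) ((L x).pos z - T0.pos z) / (t * w1))| ≤ K * l),
    (F.card : ℝ) ≤ (2 * W * K) ^ C * M * (t ^ (1 + qm 1) * (l / M0) ^ (1 + qm 2)) := by
  have hm : ∀ k, 0 ≤ qm k := fun k => (hE.le k).1
  have hmp : ∀ k, qm k ≤ qp k := fun k => (hE.le k).2
  have hp : ∀ k, 0 ≤ qp k := fun k => (hm k).trans (hmp k)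
  have hm2 := hE.pos
  have h21 : qm 2 ≤ qm 1 := by
    have h1 := hE.e1
    have h2 := hmp 2
    have h3 := hp 0
    have h4 := hp 2
    linarith
  have h02 : qp 0 ≤ qm 2 := by
    have h1 := hE.e02
    have h2 := hp 0
    linarith
  have hp0 := hp 0
  have hp1 := hp 1
  have hp2 := hp 2
  refine ⟨115 + 22 * (1 + qp 0) + 13 * (1 + qp 1) + 13 * (1 + qp 2), by positivity, ?_⟩
  intro L P cu cv Uf Vf W M a w1 w2 z0 ρ r H hrρ hP e he T0 K t l M0 s1 s2 g0 g1 hK ht ht1 hw hs1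
    hs2 hg hl hl1 hM haM hal F hF hb
  obtain ⟨t0, ht0⟩ := hP
  have W1 := H.W1
  have W0 : 0 < W := by linarith
  have K0 : 0 < K := by linarith
  have ha := H.a0
  have hw1 := H.w10
  have hw2 := H.w20
  have hr0 := H.r0
  have hρ0 := H.ρ0
  have M00 := H.M0
  have hS := H.shU t0 ht0
  obtain ⟨da, d1, d2⟩ := H.dimU t0 ht0
  -- `r ≤ W a`
  have hra : r ≤ W * a := hS.r0_le.trans da.2
  -- `a ≤ W ^ 2 w2`
  have haw : a ≤ W ^ 2 * w2 := by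
    have h1 : a ≤ W * (Uf (cu t0)).a := da.1
    have h2 : (Uf (cu t0)).a ≤ (Uf (cu t0)).w 2 := hS.a_le0.trans hS.w0_le
    have h3 : (Uf (cu t0)).w 2 ≤ W * w2 := d2.2
    calc a ≤ W * (Uf (cu t0)).a := h1
      _ ≤ W * (W * w2) := mul_le_mul_of_nonneg_left (h2.trans h3) W0.le
      _ = _ := by ring
  set X := 2 * W * K with hX
  have hX2 : 2 ≤ X := by
    have : 1 ≤ W * K := one_le_mul_of_one_le_of_one_le W1 hK
    rw [hX]; linarith [mul_assoc 2 W K]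
  have X0 : 0 < X := by linarith
  have X1 : 1 ≤ X := by linarith
  have hWX : W ≤ X := by
    rw [hX]
    have : W * 1 ≤ W * K := mul_le_mul_of_nonneg_left hK W0.le
    nlinarith
  have hKX : K ≤ X := by
    rw [hX]
    have : 1 * K ≤ W * K := mul_le_mul_of_nonneg_right W1 K0.le
    nlinarith
  set K3 := X ^ 4 with hK3
  have hX3 : X ≤ K3 := by
    rw [hK3]
    calc X = X ^ 1 := (pow_one X).symm
      _ ≤ X ^ 4 := pow_le_pow_right₀ X1 (by norm_num)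
  have K31 : 1 ≤ K3 := X1.trans hX3
  have K30 : 0 < K3 := by linarith
  -- the wide D-max
  have hD1 : 0 ≤ W * M := by positivity
  have hKw : 1 ≤ X ^ 13 := one_le_pow₀ X1
  have hwide := DMx.wide hm hmp hD1 hρ0 hr0 hrρ ha hw1 hw2 (dmx_two H) (K := X ^ 13) hKw
  set D0 := (35 * X ^ 13) ^ 6 * (17 * X ^ 13) ^ (1 + qp 0) * (W * M) with hD0
  have D00 : 0 ≤ D0 := by positivity
  set c3 := K3 ^ (1 + qp 0) * K3 ^ (1 + qp 1) * K3 ^ (1 + qp 2) with hc3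
  have c30 : 0 ≤ c3 := by positivity
  -- new reference shape
  have hd : DMx P L z0 ρ r (fun _ x _ => x ≤ X ^ 13 * ρ)
      (fun a' x y => (D0 * c3) * phC qm qp (X ^ 2 * a) (K3 * w1) (K3 * w2) a' x y) := by
    intro e' c' w' Q' α' hS' hx'
    refine (hwide e' c' w' Q' α' hS' hx').trans ?_
    have p0 : 0 < α' := hr0.trans_le hS'.r0_le
    have p2 : 0 < w' 2 := (p0.trans_le hS'.a_le0).trans_le hS'.w0_le
    have p1 : 0 < w' 1 := p2.trans_le hS'.w_le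
    have hX23 : X ^ 2 ≤ K3 := by rw [hK3]; exact pow_le_pow_right₀ X1 (by norm_num)
    have h1 := phC_ref (qm := qm) (qp := qp) (a := X ^ 2 * a) (w1 := K3 * w1) (w2 := K3 * w2)
      (a' := α') (w1' := w' 1) (w2' := w' 2) (a'' := a) (w1'' := w1) (w2'' := w2) (C := K3)
      hm hmp (by positivity) (by positivity) (by positivity) K31 p0.le p1.le p2.le ha hw1 hw2
      (mul_le_mul_of_nonneg_right hX23 ha.le) le_rfl le_rfl
    calc (35 * X ^ 13) ^ 6 * (17 * X ^ 13) ^ (1 + qp 0) * (W * M) *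
          phC qm qp a w1 w2 α' (w' 1) (w' 2) ≤
        D0 * (K3 ^ (1 + qp 0) * K3 ^ (1 + qp 1) * K3 ^ (1 + qp 2) *
          phC qm qp (X ^ 2 * a) (K3 * w1) (K3 * w2) α' (w' 1) (w' 2)) :=
          mul_le_mul_of_nonneg_left h1 D00
      _ = _ := by rw [hc3]; ring
  have hmain := plank_count hm hmp h21 h02 (mul_nonneg D00 c30) hd he T0 (K := X) (t := t)
    (l := l) (M0 := M0) (s1 := s1) (s2 := s2) (g0 := g0) (g1 := g1) X1 (by positivity)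
    (by
      -- `X ^ 2 a ≤ K3 w2`
      calc X ^ 2 * a ≤ X ^ 2 * (W ^ 2 * w2) := by gcongr
        _ ≤ X ^ 2 * (X ^ 2 * w2) := by gcongr
        _ = K3 * w2 := by rw [hK3]; ring) ht ht1
    (by
      calc K3 * w2 ≤ K3 * (K * (t * w1)) := mul_le_mul_of_nonneg_left hw K30.le
        _ ≤ K3 * (X * (t * w1)) := by gcongr
        _ = X * (t * (K3 * w1)) := by ring)
    (by
      calc |s1| * (t * (K3 * w1)) = K3 * (|s1| * (t * w1)) := by ring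
        _ ≤ K3 * (K * w2) := mul_le_mul_of_nonneg_left hs1 K30.le
        _ ≤ K3 * (X * w2) := by gcongr
        _ = X * (K3 * w2) := by ring)
    (hs2.trans hKX) hg hl hl1 hM
    (by
      calc X ^ 2 * a * M0 = X ^ 2 * (a * M0) := by ring
        _ ≤ X ^ 2 * (K * w2) := by gcongr
        _ ≤ X ^ 2 * (X * w2) := by gcongr
        _ = X ^ 3 * w2 := by ring
        _ ≤ X ^ 5 * w2 := by gcongr; norm_num
        _ = X * (K3 * w2) := by rw [hK3]; ring)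
    (by
      calc X ^ 2 * a ≤ X ^ 2 * (K * (l * w2)) := by gcongr
        _ ≤ X ^ 2 * (X * (l * w2)) := by gcongr
        _ = X ^ 3 * (l * w2) := by ring
        _ ≤ X ^ 5 * (l * w2) := by gcongr; norm_num
        _ = X * (l * (K3 * w2)) := by rw [hK3]; ring)
    (by
      -- `30 X ^ 3 (t (K3 w1)) ≤ X ^ 13 ρ`
      have h1 : t * (K3 * w1) ≤ K3 * (W * ρ) := by
        calc t * (K3 * w1) ≤ 1 * (K3 * w1) := by gcongr
          _ = K3 * w1 := one_mul _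
          _ ≤ K3 * (W * ρ) := mul_le_mul_of_nonneg_left H.w1ρ K30.le
      have h2 : (30:ℝ) ≤ X ^ 5 := const_le hX2 (by norm_num) (by norm_num)
      calc 30 * X ^ 3 * (t * (K3 * w1)) ≤ 30 * X ^ 3 * (K3 * (W * ρ)) := by gcongr
        _ ≤ X ^ 5 * X ^ 3 * (X ^ 4 * (X * ρ)) := by
            rw [hK3]; gcongr
        _ = X ^ 13 * ρ := by ring)
    (by
      -- `2 X r ≤ X ^ 2 a`
      calc 2 * X * r ≤ 2 * X * (W * a) := by gcongr
        _ = X * ((2 * W) * a) := by ring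
        _ ≤ X * (X * a) := by
            have h3 : 2 * W ≤ X := by
              rw [hX]
              exact le_mul_of_one_le_right (by positivity) hK
            gcongr
        _ = X ^ 2 * a := by ring) F hF (by
      intro x hx z hz hz'
      obtain ⟨c1, c2, c3⟩ := hb x hx z hz hz'
      have k1 : K3⁻¹ ≤ 1 := inv_le_one_of_one_le₀ K31
      have k0 : 0 < K3⁻¹ := inv_pos.2 K30
      refine ⟨c1.trans ?_, ?_, ?_⟩
      · calc K * a ≤ X * a := by gcongr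
          _ ≤ X * (X ^ 2 * a) := by
              have : 1 * a ≤ X ^ 2 * a := by
                have : 1 ≤ X ^ 2 := one_le_pow₀ X1
                gcongr
              rw [one_mul] at this
              gcongr
      · have e1 : g0 * (dt (e 1) ((L x).pos z - T0.pos z) / (t * (K3 * w1))) +
            g1 * (dt (e 2) ((L x).pos z - T0.pos z) / (K3 * w2)) =
            K3⁻¹ * (g0 * (dt (e 1) ((L x).pos z - T0.pos z) / (t * w1)) +
              g1 * (dt (e 2) ((L x).pos z - T0.pos z) / w2)) := by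
          field_simp
        rw [e1, abs_mul, abs_of_pos k0]
        calc K3⁻¹ * _ ≤ 1 * (K / M0) := mul_le_mul k1 c2 (abs_nonneg _) zero_le_one
          _ = K / M0 := one_mul _
          _ ≤ X / M0 := by gcongr
      · have e1 : g0 * (dt (e 2) ((L x).pos z - T0.pos z) / (K3 * w2)) -
            g1 * (dt (e 1) ((L x).pos z - T0.pos z) / (t * (K3 * w1))) =
            K3⁻¹ * (g0 * (dt (e 2) ((L x).pos z - T0.pos z) / w2) -
              g1 * (dt (e 1) ((L x).pos z - T0.pos z) / (t * w1))) := by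
          field_simp
        rw [e1, abs_mul, abs_of_pos k0]
        calc K3⁻¹ * _ ≤ 1 * (K * l) := mul_le_mul k1 c3 (abs_nonneg _) zero_le_one
          _ = K * l := one_mul _
          _ ≤ X * l := by gcongr)
  refine hmain.trans ?_
  -- exponents
  have hB0 : 0 ≤ t ^ (1 + qm 1) * (l / M0) ^ (1 + qm 2) := by positivity
  have e35 : (35:ℝ) ≤ X ^ 6 := const_le hX2 (by norm_num) (by norm_num)
  have e17 : (17:ℝ) ≤ X ^ 5 := const_le hX2 (by norm_num) (by norm_num)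
  have e50 : (50:ℝ) ≤ X ^ 6 := const_le hX2 (by norm_num) (by norm_num)
  have f1 : (35 * X ^ 13) ^ 6 ≤ X ^ (114:ℝ) := by
    calc (35 * X ^ 13) ^ 6 ≤ (X ^ 6 * X ^ 13) ^ 6 := by gcongr
      _ = X ^ 114 := by ring
      _ = X ^ (114:ℝ) := by rw [← Real.rpow_natCast]; norm_num
  have f2 : (17 * X ^ 13) ^ (1 + qp 0) ≤ X ^ (18 * (1 + qp 0)) := by
    calc (17 * X ^ 13) ^ (1 + qp 0) ≤ (X ^ 5 * X ^ 13) ^ (1 + qp 0) := by gcongr
      _ = (X ^ (18:ℝ)) ^ (1 + qp 0) := by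
          congr 1
          rw [← pow_add, ← Real.rpow_natCast]; norm_num
      _ = _ := by rw [← Real.rpow_mul X0.le]
  have f3 : c3 = X ^ (4 * (1 + qp 0)) * X ^ (4 * (1 + qp 1)) * X ^ (4 * (1 + qp 2)) := by
    have : K3 = X ^ (4:ℝ) := by rw [hK3, ← Real.rpow_natCast]; norm_num
    rw [hc3, this, ← Real.rpow_mul X0.le, ← Real.rpow_mul X0.le, ← Real.rpow_mul X0.le]
  have f4 : ∀ s : ℝ, 0 ≤ s → (50 * X ^ 3) ^ (1 + s) ≤ X ^ (9 * (1 + s)) := by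
    intro s hs
    calc (50 * X ^ 3) ^ (1 + s) ≤ (X ^ 6 * X ^ 3) ^ (1 + s) := by gcongr
      _ = (X ^ (9:ℝ)) ^ (1 + s) := by
          congr 1
          rw [← pow_add, ← Real.rpow_natCast]; norm_num
      _ = _ := by rw [← Real.rpow_mul X0.le]
  have f5 : W ≤ X ^ (1:ℝ) := by rw [Real.rpow_one]; exact hWX
  calc D0 * c3 * ((50 * X ^ 3) ^ (1 + qp 1) * (50 * X ^ 3) ^ (1 + qp 2) *
        (t ^ (1 + qm 1) * (l / M0) ^ (1 + qm 2))) ≤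
      (X ^ (114:ℝ) * X ^ (18 * (1 + qp 0)) * (X ^ (1:ℝ) * M)) *
        (X ^ (4 * (1 + qp 0)) * X ^ (4 * (1 + qp 1)) * X ^ (4 * (1 + qp 2))) *
        (X ^ (9 * (1 + qp 1)) * X ^ (9 * (1 + qp 2)) *
          (t ^ (1 + qm 1) * (l / M0) ^ (1 + qm 2))) := by
        rw [hD0, f3]
        have g1 := f4 _ hp1
        have g2 := f4 _ hp2
        gcongr
    _ = (X ^ (114:ℝ) * X ^ (1:ℝ) * (X ^ (18 * (1 + qp 0)) * X ^ (4 * (1 + qp 0))) *
          (X ^ (4 * (1 + qp 1)) * X ^ (9 * (1 + qp 1))) *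
          (X ^ (4 * (1 + qp 2)) * X ^ (9 * (1 + qp 2)))) * M *
          (t ^ (1 + qm 1) * (l / M0) ^ (1 + qm 2)) := by ring
    _ = _ := by
        congr 2
        rw [← Real.rpow_add X0, ← Real.rpow_add X0, ← Real.rpow_add X0, ← Real.rpow_add X0,
          ← Real.rpow_add X0, ← Real.rpow_add X0, ← Real.rpow_add X0]
        congr 1
        ring

end Crest.Agent.R136.Plk511
end

-- ▼ part R136/Plk3_511
section

/-!
# R136 (S0187), g-free tilt (PLAN 2), B4: `Grp639.Cap` from the D-max of `Two1` (helper511)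
-/

set_option autoImplicit false
set_option linter.unusedVariables false
set_option linter.unusedSectionVars false

namespace Crest.Agent.R136.Plk511

open Finset
open Crest.Agent.R136.Sh605
open Crest.Agent.R136.K4 (Plk4)
open Crest.Agent.R136.Pl2W102 (Near Ex2 Two1)
open Crest.Agent.R136.Grp639 (Cap al pe)

/-- **`Cap` over `Two1`** : strip coordinates `<e 1, ·> / (t w1)`, `<e 2, ·> / w2`; the normal
coordinate `y` of the base line `T0` controls `<e 0 + s1 T0 e 1 + s2 T0 e 2, ·> / a` -/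
theorem cap_of {η : ℝ} {qm qp : Fin 3 → ℝ} (hE : Ex2 η qm qp) :
    ∃ C : ℝ, 0 ≤ C ∧ ∀ {L : ℕ → Ln4} {P : Finset ℕ} {cu cv : ℕ → ℕ}
    {Uf Vf : ℕ → Plk4} {W M a w1 w2 z0 ρ r : ℝ}
    (H : Two1 qm qp L P cu cv Uf Vf W M a w1 w2 z0 ρ r) (hrρ : r ≤ ρ) (hP : P.Nonempty)
    {e : Fin 3 → V3} (he : Ortho e) {Z : Finset ℕ} (hZ : Z ⊆ P) {K K' t M0 lam0 : ℝ}
    {s1 s2 : ℕ → ℝ} {g : ℕ → Fin 2 → ℝ} {p c : ℕ → Fin 2 → ℝ} {b : ℕ → ℝ} {y0 y1 : ℕ → ℕ → ℝ}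
    (hK : 1 ≤ K) (hK' : 1 ≤ K') (ht : 0 < t) (ht1 : t ≤ 1) (hw : w2 ≤ K' * (t * w1))
    (hs1 : ∀ T ∈ Z, |s1 T| * (t * w1) ≤ K' * w2) (hs2 : ∀ T ∈ Z, |s2 T| ≤ K')
    (gn : ∀ T ∈ Z, g T 0 ^ 2 + g T 1 ^ 2 = 1)
    (hM : 1 ≤ M0) (haM : a * M0 ≤ K' * w2) (hal : a ≤ K' * (lam0 * w2))
    (hp : ∀ T ∈ Z, ∀ T' ∈ Z, ∀ ζ : ℝ, 0 ≤ ζ → ζ ≤ 1 →
      (p T' 0 + ζ * c T' 0) - (p T 0 + ζ * c T 0) =
        dt (e 1) ((L T').pos (z0 + ρ * ζ) - (L T).pos (z0 + ρ * ζ)) / (t * w1) ∧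
      (p T' 1 + ζ * c T' 1) - (p T 1 + ζ * c T 1) =
        dt (e 2) ((L T').pos (z0 + ρ * ζ) - (L T).pos (z0 + ρ * ζ)) / w2)
    (hy : ∀ T0 ∈ Z, ∀ T1 ∈ Z, ∀ T' ∈ Z, ∀ ζ : ℝ, 0 ≤ ζ → ζ ≤ 1 →
      |dt (e 0) ((L T').pos (z0 + ρ * ζ) - (L T1).pos (z0 + ρ * ζ)) +
        s1 T0 * dt (e 1) ((L T').pos (z0 + ρ * ζ) - (L T1).pos (z0 + ρ * ζ)) +
        s2 T0 * dt (e 2) ((L T').pos (z0 + ρ * ζ) - (L T1).pos (z0 + ρ * ζ))| ≤
      K' * a * |(y0 T0 T' - y0 T0 T1) + (ζ - b T0) * (y1 T0 T' - y1 T0 T1)|),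
    Cap Z p c b g y0 y1 K M0 lam0 (qm 2)
      ((2 * W * (40 * K' * K)) ^ C * M * (t ^ (1 + qm 1) * (1 / M0) ^ (1 + qm 2))) := by
  obtain ⟨C, hC, hpl⟩ := plank_two hE
  refine ⟨C, hC, ?_⟩
  intro L P cu cv Uf Vf W M a w1 w2 z0 ρ r H hrρ hP e he Z hZ K K' t M0 lam0 s1 s2 g p c b y0 y1
    hK hK' ht ht1 hw hs1 hs2 gn hM haM hal hp hy
  have K0 : 0 < K := by linarith
  have K0' : 0 < K' := by linarith
  have M00 : 0 < M0 := by linarith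
  have ha := H.a0
  have hw2 := H.w20
  have hw1 := H.w10
  have hρ := H.ρ0
  set Kb := 40 * K' * K with hKb
  have hKK : K' ≤ K' * K := le_mul_of_one_le_right K0'.le hK
  have hKb1 : K' ≤ Kb := by rw [hKb]; linarith [mul_assoc 40 K' K]
  have hKK' : K ≤ K' * K := le_mul_of_one_le_left K0.le hK'
  have hKb2 : 40 * K ≤ Kb := by rw [hKb]; linarith [mul_assoc 40 K' K]
  have hKb3 : 1 ≤ Kb := hK'.trans hKb1
  intro T0 hT0 T1 hT1 lam hlam hlam0 hlam1 F hF hb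
  have h := hpl H hrρ hP he (L T1) (K := Kb) (t := t) (l := lam) (M0 := M0) (s1 := s1 T0)
    (s2 := s2 T0) (g0 := g T0 0) (g1 := g T0 1) hKb3 ht ht1
    (hw.trans (by gcongr)) ((hs1 T0 hT0).trans (by gcongr)) ((hs2 T0 hT0).trans hKb1)
    (gn T0 hT0) hlam hlam1 hM (haM.trans (by gcongr))
    (hal.trans (by
      calc K' * (lam0 * w2) ≤ K' * (lam * w2) := by gcongr
        _ ≤ Kb * (lam * w2) := by gcongr)) F (hF.trans hZ) (by
      intro x hx z hz hz'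
      obtain ⟨ζ, hζ⟩ : ∃ ζ, ζ = (z - z0) / ρ := ⟨_, rfl⟩
      have ζ0 : 0 ≤ ζ := by rw [hζ]; exact div_nonneg (by linarith) hρ.le
      have ζ1 : ζ ≤ 1 := by rw [hζ, div_le_one hρ]; linarith
      have ez : z = z0 + ρ * ζ := by rw [hζ]; field_simp; ring
      obtain ⟨b1, b2, b3⟩ := hb x hx ζ ζ0 ζ1
      have hxZ := hF hx
      obtain ⟨q1, q2⟩ := hp T1 hT1 x hxZ ζ ζ0 ζ1
      have hyy := hy T0 hT0 T1 hT1 x hxZ ζ ζ0 ζ1
      rw [← ez] at q1 q2 hyy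
      simp only [al] at b1
      simp only [pe] at b2
      rw [q1, q2] at b1 b2
      refine ⟨hyy.trans ?_, b1.trans ?_, b2.trans ?_⟩
      · calc K' * a * |(y0 T0 x - y0 T0 T1) + (ζ - b T0) * (y1 T0 x - y1 T0 T1)| ≤
            K' * a * (20 * K) := by gcongr
          _ = 20 * (K' * K) * a := by ring
          _ ≤ Kb * a := by
              have : 20 * (K' * K) ≤ Kb := by
                rw [hKb]; nlinarith [mul_pos K0' K0]
              gcongr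
      · have : 20 * K ≤ Kb := by linarith
        gcongr
      · gcongr)
  refine h.trans (le_of_eq ?_)
  have e1 : lam / M0 = (1 / M0) * lam := by ring
  rw [e1, Real.mul_rpow (by positivity) hlam.le]
  ring

end Crest.Agent.R136.Plk511
end

-- ▼ part R136/Plk4_511
section

/-!
# R136 (S0187), g-free tilt (PLAN 2), B4: `Cap` in the strip coordinates of record (helper511)

`stp`, `stc` : strip position at `z0` and strip velocity of the line `s` relative to the line `t0`.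
-/

set_option autoImplicit false
set_option linter.unusedVariables false
set_option linter.unusedSectionVars false

namespace Crest.Agent.R136.Plk511

open Finset
open Crest.Agent.R136.Sh605
open Crest.Agent.R136.K4 (Plk4)
open Crest.Agent.R136.Pl2W102 (Near Ex2 Two1)
open Crest.Agent.R136.Grp639 (Cap al pe)

/-- strip position at the bottom -/
noncomputable def stp (e : Fin 3 → V3) (Λ w1 w2 z0 : ℝ) (t0 : Ln4) (L : ℕ → Ln4) (s : ℕ) :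
    Fin 2 → ℝ :=
  ![Λ * dt (e 1) ((L s).pos z0 - t0.pos z0) / w1, dt (e 2) ((L s).pos z0 - t0.pos z0) / w2]

/-- strip velocity -/
noncomputable def stc (e : Fin 3 → V3) (Λ w1 w2 ρ : ℝ) (t0 : Ln4) (L : ℕ → Ln4) (s : ℕ) :
    Fin 2 → ℝ :=
  ![Λ * dt (e 1) (ρ • ((L s).v - t0.v)) / w1, dt (e 2) (ρ • ((L s).v - t0.v)) / w2]

/-- position difference at the height `z0 + ρ ζ` -/
theorem st_diff (e : Fin 3 → V3) {Λ w1 w2 : ℝ} (z0 ρ : ℝ) (t0 : Ln4) (L : ℕ → Ln4)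
    (hΛ : Λ ≠ 0) (T T' : ℕ) (ζ : ℝ) :
    (stp e Λ w1 w2 z0 t0 L T' 0 + ζ * stc e Λ w1 w2 ρ t0 L T' 0) -
        (stp e Λ w1 w2 z0 t0 L T 0 + ζ * stc e Λ w1 w2 ρ t0 L T 0) =
      dt (e 1) ((L T').pos (z0 + ρ * ζ) - (L T).pos (z0 + ρ * ζ)) / (Λ⁻¹ * w1) ∧
    (stp e Λ w1 w2 z0 t0 L T' 1 + ζ * stc e Λ w1 w2 ρ t0 L T' 1) -
        (stp e Λ w1 w2 z0 t0 L T 1 + ζ * stc e Λ w1 w2 ρ t0 L T 1) =
      dt (e 2) ((L T').pos (z0 + ρ * ζ) - (L T).pos (z0 + ρ * ζ)) / w2 := by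
  have e0 : ∀ u : V3, dt u ((L T').pos (z0 + ρ * ζ) - (L T).pos (z0 + ρ * ζ)) =
      (dt u ((L T').pos z0 - t0.pos z0) + ζ * dt u (ρ • ((L T').v - t0.v))) -
      (dt u ((L T).pos z0 - t0.pos z0) + ζ * dt u (ρ • ((L T).v - t0.v))) := by
    intro u
    simp only [dt, Ln4.pos, Pi.sub_apply, Pi.smul_apply, smul_eq_mul]
    ring
  constructor
  · rw [e0]
    simp only [stp, stc, Matrix.cons_val_zero]
    rw [div_mul_eq_div_div_swap, div_inv_eq_mul]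
    ring
  · rw [e0]
    simp only [stp, stc, Matrix.cons_val_one, Matrix.cons_val_fin_one]
    ring

/-- **`Cap` in the letters of record** (`Λ = 2 ^ j`) -/
theorem cap_std {η : ℝ} {qm qp : Fin 3 → ℝ} (hE : Ex2 η qm qp) :
    ∃ C : ℝ, 0 ≤ C ∧ ∀ {L : ℕ → Ln4} {P : Finset ℕ} {cu cv : ℕ → ℕ}
    {Uf Vf : ℕ → Plk4} {W M a w1 w2 z0 ρ r : ℝ}
    (H : Two1 qm qp L P cu cv Uf Vf W M a w1 w2 z0 ρ r) (hrρ : r ≤ ρ) (hP : P.Nonempty)
    {e : Fin 3 → V3} (he : Ortho e) (t0 : Ln4) {Z : Finset ℕ} (hZ : Z ⊆ P)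
    {K K' Λ M0 lam0 : ℝ}
    {s1 s2 : ℕ → ℝ} {g : ℕ → Fin 2 → ℝ} {b : ℕ → ℝ} {y0 y1 : ℕ → ℕ → ℝ}
    (hK : 1 ≤ K) (hK' : 1 ≤ K') (hΛ : 1 ≤ Λ) (hw : Λ * w2 ≤ K' * w1)
    (hs1 : ∀ T ∈ Z, |s1 T| * w1 ≤ K' * (Λ * w2)) (hs2 : ∀ T ∈ Z, |s2 T| ≤ K')
    (gn : ∀ T ∈ Z, g T 0 ^ 2 + g T 1 ^ 2 = 1)
    (hM : 1 ≤ M0) (haM : a * M0 ≤ K' * w2) (hal : a ≤ K' * (lam0 * w2))
    (hy : ∀ T0 ∈ Z, ∀ T1 ∈ Z, ∀ T' ∈ Z, ∀ ζ : ℝ, 0 ≤ ζ → ζ ≤ 1 →
      |dt (e 0) ((L T').pos (z0 + ρ * ζ) - (L T1).pos (z0 + ρ * ζ)) +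
        s1 T0 * dt (e 1) ((L T').pos (z0 + ρ * ζ) - (L T1).pos (z0 + ρ * ζ)) +
        s2 T0 * dt (e 2) ((L T').pos (z0 + ρ * ζ) - (L T1).pos (z0 + ρ * ζ))| ≤
      K' * a * |(y0 T0 T' - y0 T0 T1) + (ζ - b T0) * (y1 T0 T' - y1 T0 T1)|),
    Cap Z (stp e Λ w1 w2 z0 t0 L) (stc e Λ w1 w2 ρ t0 L) b g y0 y1 K M0 lam0 (qm 2)
      ((2 * W * (40 * K' * K)) ^ C * M * ((1 / Λ) ^ (1 + qm 1) * (1 / M0) ^ (1 + qm 2))) := by
  obtain ⟨C, hC, h⟩ := cap_of hE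
  refine ⟨C, hC, ?_⟩
  intro L P cu cv Uf Vf W M a w1 w2 z0 ρ r H hrρ hP e he t0 Z hZ K K' Λ M0 lam0 s1 s2 g b y0 y1
    hK hK' hΛ hw hs1 hs2 gn hM haM hal hy
  have Λ0 : 0 < Λ := by linarith
  have hi : Λ⁻¹ = 1 / Λ := (one_div Λ).symm
  have := h H hrρ hP he hZ (K := K) (K' := K') (t := Λ⁻¹) (M0 := M0) (lam0 := lam0) (s1 := s1)
    (s2 := s2) (g := g) (p := stp e Λ w1 w2 z0 t0 L) (c := stc e Λ w1 w2 ρ t0 L) (b := b)
    (y0 := y0) (y1 := y1) hK hK' (inv_pos.2 Λ0) (inv_le_one_of_one_le₀ hΛ)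
    (by
      have e1 : K' * (Λ⁻¹ * w1) = K' * w1 / Λ := by field_simp
      rw [e1, le_div_iff₀ Λ0]; linarith)
    (fun T hT => by
      have e1 : |s1 T| * (Λ⁻¹ * w1) = |s1 T| * w1 / Λ := by field_simp
      rw [e1, div_le_iff₀ Λ0]
      have := hs1 T hT
      linarith) hs2 gn hM haM hal
    (fun T hT T' hT' ζ _ _ => st_diff e z0 ρ t0 L Λ0.ne' T T' ζ) hy
  rwa [hi] at this

end Crest.Agent.R136.Plk511
end

-- ▼ part R136/Plk5_511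
section

/-!
# R136 (S0187), g-free tilt (PLAN 2), B4: `Cap` with the normal coordinates of `Lnk989` (helper511)

`ny0`, `ny1` : normal coordinate (unit `a`) of `T' - T` at the base height of `T`, and its velocity.
-/

set_option autoImplicit false
set_option linter.unusedVariables false
set_option linter.unusedSectionVars false

namespace Crest.Agent.R136.Plk511

open Finset
open Crest.Agent.R136.Sh605
open Crest.Agent.R136.K4 (Plk4)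
open Crest.Agent.R136.Pl2W102 (Near Ex2 Two1)
open Crest.Agent.R136.Grp639 (Cap al pe)
open Crest.Agent.R136.Mdr535 (ty gr)
open Crest.Agent.R136.Lnk989 (dis)

/-- normal coordinate at the base height; `N T` = gradient of the sheet at the base height of `T` -/
noncomputable def ny0 (e : Fin 3 → V3) (w : V3) (a z0 ρ : ℝ) (N : ℕ → V3) (b : ℕ → ℝ)
    (L : ℕ → Ln4) (T T' : ℕ) : ℝ :=
  ty e w (N T) (dis (L T) (L T') (z0 + ρ * b T)) / a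

/-- its velocity -/
noncomputable def ny1 (e : Fin 3 → V3) (w : V3) (a z0 ρ : ℝ) (N : ℕ → V3)
    (L : ℕ → Ln4) (T T' : ℕ) : ℝ :=
  ty e w (N T) (dis (L T) (L T') (z0 + ρ) - dis (L T) (L T') z0) / a

theorem ny_eq {e : Fin 3 → V3} {w : V3} {a : ℝ} (ha : a ≠ 0) (z0 ρ : ℝ) (N : ℕ → V3)
    (b : ℕ → ℝ) (L : ℕ → Ln4) (T0 T1 T' : ℕ) (ζ : ℝ) :
    a * ((ny0 e w a z0 ρ N b L T0 T' - ny0 e w a z0 ρ N b L T0 T1) +
      (ζ - b T0) * (ny1 e w a z0 ρ N L T0 T' - ny1 e w a z0 ρ N L T0 T1)) =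
    dt (e 0) ((L T').pos (z0 + ρ * ζ) - (L T1).pos (z0 + ρ * ζ)) +
      gr (N T0) w 1 * dt (e 1) ((L T').pos (z0 + ρ * ζ) - (L T1).pos (z0 + ρ * ζ)) +
      gr (N T0) w 2 * dt (e 2) ((L T').pos (z0 + ρ * ζ) - (L T1).pos (z0 + ρ * ζ)) := by
  have e1 : dt (e 0) ((L T').pos (z0 + ρ * ζ) - (L T1).pos (z0 + ρ * ζ)) +
      gr (N T0) w 1 * dt (e 1) ((L T').pos (z0 + ρ * ζ) - (L T1).pos (z0 + ρ * ζ)) +
      gr (N T0) w 2 * dt (e 2) ((L T').pos (z0 + ρ * ζ) - (L T1).pos (z0 + ρ * ζ)) =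
      (ty e w (N T0) (dis (L T0) (L T') (z0 + ρ * b T0)) -
        ty e w (N T0) (dis (L T0) (L T1) (z0 + ρ * b T0))) +
      (ζ - b T0) * (ty e w (N T0) (dis (L T0) (L T') (z0 + ρ) - dis (L T0) (L T') z0) -
        ty e w (N T0) (dis (L T0) (L T1) (z0 + ρ) - dis (L T0) (L T1) z0)) := by
    simp only [ty, dis, dt, Ln4.pos, Pi.sub_apply]
    ring
  rw [e1]
  simp only [ny0, ny1]
  field_simp


end Crest.Agent.R136.Plk511
end

-- ▼ part R136/Plk6_511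
section

/-!
# R136 (S0187), g-free tilt (PLAN 2), B4: `Cap` over `ShD` (helper511)
-/

set_option autoImplicit false
set_option linter.unusedVariables false
set_option linter.unusedSectionVars false

namespace Crest.Agent.R136.Plk511

open Finset
open Crest.Agent.R136.Sh605
open Crest.Agent.R136.K4 (Plk4)
open Crest.Agent.R136.Pl2W102 (Near Ex2 Two1)
open Crest.Agent.R136.Grp639 (Cap al pe)
open Crest.Agent.R136.Mdr535 (ty gr)
open Crest.Agent.R136.Lnk989 (dis)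
open Crest.Agent.R136.Shd410 (ShD)

/-- `Cap` over `Two1`, all constants `≤ X`, normal coordinates with a unit `au` -/
theorem cap_au {η : ℝ} {qm qp : Fin 3 → ℝ} (hE : Ex2 η qm qp) :
    ∃ C : ℝ, 0 ≤ C ∧ ∀ {L : ℕ → Ln4} {P : Finset ℕ} {cu cv : ℕ → ℕ}
    {Uf Vf : ℕ → Plk4} {W M a w1 w2 z0 ρ r : ℝ}
    (H : Two1 qm qp L P cu cv Uf Vf W M a w1 w2 z0 ρ r) (hrρ : r ≤ ρ) (hP : P.Nonempty)
    {e : Fin 3 → V3} (he : Ortho e) {w : V3} (t0 : Ln4) {Z : Finset ℕ} (hZ : Z ⊆ P)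
    {K K' K1 Λ M0 lam0 au : ℝ} {N : ℕ → V3} {g : ℕ → Fin 2 → ℝ} {b : ℕ → ℝ}
    (hau : 0 < au) (hau' : au ≤ K' * a)
    (hK : 1 ≤ K) (hK' : 1 ≤ K') (hK1 : 1 ≤ K1) (hKK : 2 * K1 ^ 2 ≤ K') (hΛ : 1 ≤ Λ)
    (hw : Λ * w2 ≤ K' * w1) (h0 : 0 < w 0) (h02 : w 0 ≤ w 2) (h1 : 0 < w 1)
    (hw1 : w1 ≤ K1 * w 1) (hw2 : w 2 ≤ K1 * w2)
    (hN : ∀ T ∈ Z, |N T 1 / N T 0| ≤ 2 ∧ |N T 2 / N T 0| ≤ 2)
    (gn : ∀ T ∈ Z, g T 0 ^ 2 + g T 1 ^ 2 = 1)
    (hM : 1 ≤ M0) (haM : a * M0 ≤ K' * w2) (hal : a ≤ K' * (lam0 * w2)),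
    Cap Z (stp e Λ w1 w2 z0 t0 L) (stc e Λ w1 w2 ρ t0 L) b g (ny0 e w au z0 ρ N b L)
      (ny1 e w au z0 ρ N L) K M0 lam0 (qm 2)
      ((2 * W * (40 * K' * K)) ^ C * M * ((1 / Λ) ^ (1 + qm 1) * (1 / M0) ^ (1 + qm 2))) := by
  obtain ⟨C, hC, h⟩ := cap_std hE
  refine ⟨C, hC, ?_⟩
  intro L P cu cv Uf Vf W M a w1 w2 z0 ρ r H hrρ hP e he w t0 Z hZ K K' K1 Λ M0 lam0 au N g b
    hau hau' hK hK' hK1 hKK hΛ hw h0 h02 h1 hw1 hw2 hN gn hM haM hal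
  have h2 : 0 < w 2 := h0.trans_le h02
  have K10 : 0 < K1 := by linarith
  have w2p := H.w20
  have w1p := H.w10
  have hK12 : 1 ≤ K1 ^ 2 := one_le_pow₀ hK1
  refine h H hrρ hP he t0 hZ (K := K) (K' := K') (Λ := Λ) (M0 := M0) (lam0 := lam0)
    (s1 := fun T => gr (N T) w 1) (s2 := fun T => gr (N T) w 2) (g := g) (b := b)
    (y0 := ny0 e w au z0 ρ N b L) (y1 := ny1 e w au z0 ρ N L) hK hK' hΛ hw ?_ ?_ gn hM haM hal ?_
  · intro T hT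
    have e1 : |gr (N T) w 1| ≤ 2 * (w 0 / w 1) := by
      simp only [gr]
      rw [abs_mul, abs_of_pos (div_pos h0 h1)]
      exact mul_le_mul_of_nonneg_right (hN T hT).1 (div_pos h0 h1).le
    calc |gr (N T) w 1| * w1 ≤ 2 * (w 0 / w 1) * (K1 * w 1) := by gcongr
      _ = 2 * K1 * w 0 := by field_simp
      _ ≤ 2 * K1 * (K1 * w2) := by
          have := h02.trans hw2
          gcongr
      _ = 2 * K1 ^ 2 * (1 * w2) := by ring
      _ ≤ K' * (Λ * w2) := by gcongr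
  · intro T hT
    have e1 : |gr (N T) w 2| ≤ 2 * (w 0 / w 2) := by
      simp only [gr]
      rw [abs_mul, abs_of_pos (div_pos h0 h2)]
      exact mul_le_mul_of_nonneg_right (hN T hT).2 (div_pos h0 h2).le
    have e2 : w 0 / w 2 ≤ 1 := (div_le_one h2).2 h02
    calc |gr (N T) w 2| ≤ 2 * (w 0 / w 2) := e1
      _ ≤ 2 * 1 := by gcongr
      _ ≤ K' := by linarith
  · intro T0 _ T1 _ T' _ ζ _ _
    rw [← ny_eq hau.ne' z0 ρ N b L T0 T1 T' ζ, abs_mul, abs_of_pos hau]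
    gcongr

/-- **`Cap` over `ShD`** : every constant is a power of `W` -/
theorem cap_shd {η : ℝ} {qm qp : Fin 3 → ℝ} (hE : Ex2 η qm qp) {c : ℝ} (hc : 0 ≤ c) :
    ∃ C : ℝ, 0 ≤ C ∧ ∀ {K : ℝ} {L : ℕ → Ln4} {Z : Finset ℕ} {S S' : Plk4}
    {f f' : Fin 3 → V3} {W M a Y w1 w2 z0 ρ r : ℝ} {j k' : ℕ}
    (h : ShD K qm qp L Z S S' f f' W M a Y w1 w2 z0 ρ r j k')
    (t0 : Ln4) {F : Finset ℕ} (hF : F ⊆ Z) {Kc M0 lam0 au : ℝ} {N : ℕ → V3}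
    {g : ℕ → Fin 2 → ℝ} {b : ℕ → ℝ}
    (hau : 0 < au) (hau' : au ≤ W ^ c * a) (hK : 1 ≤ Kc) (hKc : Kc ≤ W ^ c)
    (hN : ∀ T ∈ F, |N T 1 / N T 0| ≤ 2 ∧ |N T 2 / N T 0| ≤ 2)
    (gn : ∀ T ∈ F, g T 0 ^ 2 + g T 1 ^ 2 = 1)
    (hM : 1 ≤ M0) (haM : a * M0 ≤ W ^ c * w2) (hl0 : 0 ≤ lam0) (hal : a ≤ W ^ c * (lam0 * w2)),
    Cap F (stp S.e (2 ^ j) w1 w2 z0 t0 L) (stc S.e (2 ^ j) w1 w2 ρ t0 L) b g
      (ny0 S.e S.w au z0 ρ N b L) (ny1 S.e S.w au z0 ρ N L) Kc M0 lam0 (qm 2)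
      (W ^ C * M * ((1 / 2 ^ j) ^ (1 + qm 1) * (1 / M0) ^ (1 + qm 2))) := by
  obtain ⟨C, hC, hcap⟩ := cap_au hE
  refine ⟨(11 + 2 * c) * C, by positivity, ?_⟩
  intro K L Z S S' f f' W M a Y w1 w2 z0 ρ r j k' h t0 F hF Kc M0 lam0 au N g b hau hau' hK hKc hN
    gn hM haM hl0 hal
  obtain ⟨P, cu, cv, Uf, Vf, hZP, hP, H⟩ := h.two
  have W1 : 1 ≤ W := by linarith [h.W2]
  have W0 : 0 < W := by linarith
  have ha := h.a0
  have hw2 : 0 < w2 := ha.trans_le (h.aY.trans h.Yw)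
  have hw1 : 0 < w1 := hw2.trans_le h.ww
  have hS := h.shS
  have p0 : 0 < S.w 0 := (h.r0.trans_le hS.r0_le).trans_le hS.a_le0
  have p2 : 0 < S.w 2 := p0.trans_le hS.w0_le
  have p1 : 0 < S.w 1 := p2.trans_le hS.w_le
  have hWc : 1 ≤ W ^ c := Real.one_le_rpow W1 hc
  set K' := W ^ (3 + c) with hK'
  have hK'1 : 1 ≤ K' := Real.one_le_rpow W1 (by linarith)
  have hcK : W ^ c ≤ K' := Real.rpow_le_rpow_of_exponent_le W1 (by linarith)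
  have h3K : W ^ (3:ℝ) ≤ K' := Real.rpow_le_rpow_of_exponent_le W1 (by linarith)
  have h3 : W ^ (3:ℝ) = W ^ 3 := by rw [← Real.rpow_natCast]; norm_num
  have hKK : 2 * W ^ 2 ≤ K' := by
    refine le_trans ?_ h3K
    rw [h3]
    calc 2 * W ^ 2 ≤ W * W ^ 2 := by have := h.W2; gcongr
      _ = W ^ 3 := by ring
  have h2K : 2 ≤ K' := by
    refine le_trans ?_ hKK
    have : 1 ≤ W ^ 2 := one_le_pow₀ W1
    linarith
  have hΛ : (1:ℝ) ≤ 2 ^ j := one_le_pow₀ (by norm_num)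
  have hlw := h.dy.hlw h.hF.ortho h.hG.ortho (ha.trans_le h.aY) h.Yw h.ww
  have hres := hcap H h.rρ hP hS.ortho (w := S.w) t0 (hF.trans hZP) (K := Kc) (K' := K')
    (K1 := W) (Λ := 2 ^ j) (M0 := M0) (lam0 := lam0) (au := au) (N := N) (g := g) (b := b)
    hau (hau'.trans (by gcongr)) hK hK'1 W1 hKK hΛ (hlw.trans (by gcongr)) p0 hS.w0_le p1
    h.d1.1 h.d2.2 hN gn hM (haM.trans (by gcongr)) (hal.trans (by gcongr))
  -- monotone in the constant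
  have hQ : (2 * W * (40 * K' * Kc)) ^ C ≤ W ^ ((11 + 2 * c) * C) := by
    have e40 : (40:ℝ) ≤ W ^ (6:ℝ) := by
      have : (2:ℝ) ^ (6:ℝ) ≤ W ^ (6:ℝ) := Real.rpow_le_rpow (by norm_num) h.W2 (by norm_num)
      refine le_trans ?_ this
      norm_num
    have e2 : (2:ℝ) ≤ W ^ (1:ℝ) := by rw [Real.rpow_one]; exact h.W2
    have eW : W ≤ W ^ (1:ℝ) := by rw [Real.rpow_one]
    have e1 : 2 * W * (40 * K' * Kc) ≤ W ^ (11 + 2 * c) := by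
      calc 2 * W * (40 * K' * Kc) ≤ W ^ (1:ℝ) * W ^ (1:ℝ) * (W ^ (6:ℝ) * W ^ (3 + c) * W ^ c) := by
            gcongr
        _ = W ^ (11 + 2 * c) := by
            rw [← Real.rpow_add W0, ← Real.rpow_add W0, ← Real.rpow_add W0, ← Real.rpow_add W0]
            congr 1; ring
    have e0 : 0 ≤ 2 * W * (40 * K' * Kc) := by
      have : 0 ≤ Kc := by linarith
      positivity
    calc (2 * W * (40 * K' * Kc)) ^ C ≤ (W ^ (11 + 2 * c)) ^ C := Real.rpow_le_rpow e0 e1 hC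
      _ = _ := by rw [← Real.rpow_mul W0.le]
  intro T0 hT0 T1 hT1 lam hlam hlam0 hlam1 F' hF' hb'
  refine (hres T0 hT0 T1 hT1 lam hlam hlam0 hlam1 F' hF' hb').trans ?_
  have M0p := h.M0
  have q0 : 0 ≤ (1 / (2:ℝ) ^ j) ^ (1 + qm 1) * (1 / M0) ^ (1 + qm 2) := by positivity
  have q1 : 0 ≤ lam ^ (1 + qm 2) := by positivity
  gcongr

end Crest.Agent.R136.Plk511
end

-- ▼ part R136/Vlk_639
section

/-!
# R136 (S0187), PLAN 2, B4: from 108's six inequalities to the greedy groups (helper639)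

`Lnk` : for every line `T` of `Z` the coefficients of the two sheets along `T` (108's letters) and
`Six` for every pair of lines of a piece.  `grp_of` : `Lnk ⊢ Grp`.  `share_lnk` : the count.
-/

set_option autoImplicit false
set_option linter.unusedVariables false

open Finset

namespace Crest.Agent.R136.Vlk639

open Crest.Agent.R136.Clu108 Crest.Agent.R136.Grp639

/-- the constant of the bundles -/
def KK (W K : ℝ) : ℝ := 200 * W ^ 2 * K ^ 3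

/-- **the normal coordinate of a bundle** -/
theorem bundle_y {K d M W m l : ℝ} {g g' : ℝ × ℝ} {h h' : ℝ × ℝ × ℝ} {y0 y1 px s cx t : ℝ}
    (H : Six K d M g g' h h' y0 y1 px s cx t) (hK : 1 ≤ K) (hW : 1 ≤ W) (hM : 0 < M)
    (hd : 100 * d ≤ 1) (hb : Bd (W * M) g h) (hb' : Bd (W * M) g' h')
    (hh : |h.2.2| ≤ W * M) (hh' : |h'.2.2| ≤ W * M)
    (hm : 100 * (K * (W * m)) ≤ 1) (hpx : |px| ≤ m) (hs : |s| ≤ m) (hcx : |cx| ≤ m)
    (ht : |t| ≤ m) (l0 : 0 < l) (l1 : l ≤ 1) (lτ : max |g.2| |g'.2| * l ≤ 1)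
    (lη : max |h.2.2| |h'.2.2| * l ^ 2 ≤ 1)
    (hmax : l = 1 ∨ max |g.2| |g'.2| * l = 1 ∨ max |h.2.2| |h'.2.2| * l ^ 2 = 1)
    (hs4 : 4 * (200 * W ^ 2 * K ^ 3) * |s| ≤ l) (z : ℝ) (hz : |z| ≤ 1) :
    |y0 + z * y1| ≤ 10 * (200 * W ^ 2 * K ^ 3) := by
  have K0 : 0 < K := by linarith
  have W0 : 0 < W := by linarith
  have m0 : 0 ≤ m := (abs_nonneg s).trans hs
  have s0 := abs_nonneg s
  have Wm : 0 ≤ W * m := by positivity
  have hm1 : 100 * (W * m) ≤ 1 := by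
    have : W * m ≤ K * (W * m) := le_mul_of_one_le_left Wm hK
    linarith
  have T := ((bundle H hK hW hM hd hb hb' hh hh' hm hpx hs hcx ht l0 l1 lτ lη hmax).2 hs4).1
  have B := bundle_eq (τ := max |g.2| |g'.2|) (η := max |h.2.2| |h'.2.2|) H hK hW hM hd hb hb'
    (le_max_left _ _) (le_max_right _ _) (le_max_left _ _) (le_max_right _ _) hm1 hpx hs hcx ht
  obtain ⟨F1, F2, F3, F4, F5, F6, F7, F8⟩ := facts hK hW (le_refl (1:ℝ))
  simp only [mul_one] at F1 F2 F3 F4 F5 F6 F7 F8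
  have K11 : 1 ≤ 200 * W ^ 2 * K ^ 3 := by linarith
  have KK1 : 8 * K ≤ 200 * W ^ 2 * K ^ 3 := by linarith
  have KK2 : 240 * W * K ^ 2 ≤ 2 * (200 * W ^ 2 * K ^ 3) := by linarith
  have Q4 := Qs_le K11 rfl rfl l0 l1 lτ lη hs4 T
  obtain ⟨B0, B1, B2, B3⟩ := B
  obtain ⟨K1, hK1⟩ : ∃ K1, K1 = 200 * W ^ 2 * K ^ 3 := ⟨_, rfl⟩
  rw [← hK1] at hs4 K11 KK1 KK2 ⊢
  have η0 : 0 ≤ max |h.2.2| |h'.2.2| := (abs_nonneg _).trans (le_max_left _ _)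
  have p0 : 0 ≤ M * |px| := by positivity
  have p1 : 0 ≤ M * |cx| := by positivity
  have c1 : |y1| ≤ 2 * K1 := by
    have : 60 * W * K ^ 2 * Qs (max |g.2| |g'.2|) (max |h.2.2| |h'.2.2|) s t
        ≤ 60 * W * K ^ 2 * 4 := mul_le_mul_of_nonneg_left Q4 (by positivity)
    linarith
  have c2 : |y0| ≤ K1 := by
    have i1 : |s| ≤ l := by
      have : |s| ≤ K1 * |s| := le_mul_of_one_le_left s0 K11
      have : 0 ≤ K1 * |s| := by positivity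
      linarith
    have i2 : max |h.2.2| |h'.2.2| * s ^ 2 ≤ 1 := by
      calc max |h.2.2| |h'.2.2| * s ^ 2 = max |h.2.2| |h'.2.2| * (|s| ^ 2) := by rw [sq_abs]
        _ ≤ max |h.2.2| |h'.2.2| * l ^ 2 := by gcongr
        _ ≤ 1 := lη
    have : 4 * K * (1 + max |h.2.2| |h'.2.2| * s ^ 2) ≤ 4 * K * 2 :=
      mul_le_mul_of_nonneg_left (by linarith) (by positivity)
    linarith
  have c3 : |y0 + z * y1| ≤ |y0| + 1 * |y1| := by
    refine (abs_add_le _ _).trans (add_le_add le_rfl ?_)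
    rw [abs_mul]
    exact mul_le_mul_of_nonneg_right hz (abs_nonneg _)
  linarith

variable {ι : Type*}

/-- **the data of a pair of sheets in 108's letters**: `(G T, H T)`, `(G' T, H' T)` = linear and
quadratic parts of the two sheets along `T` in the orthonormal frame `(g T, (g T)^⊥)` of the strip. -/
structure Lnk (Z : Finset ι) (p c : ι → Fin 2 → ℝ) (b : ι → ℝ) (g : ι → Fin 2 → ℝ)
    (y0 y1 : ι → ι → ℝ) (M : ι → ℝ) (G G' : ι → ℝ × ℝ) (H H' : ι → ℝ × ℝ × ℝ)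
    (R m W K d M0 Mx : ℝ) : Prop where
  bb : ∀ T ∈ Z, b T = 0 ∨ b T = 1
  gn : ∀ T ∈ Z, g T 0 ^ 2 + g T 1 ^ 2 = 1
  rp : ∀ T ∈ Z, ∀ k, |p T k| ≤ R
  rc : ∀ T ∈ Z, ∀ k, |c T k| ≤ R
  hR : 0 ≤ R
  hm : 0 < m
  hmm : 100 * (K * (W * m)) ≤ 1
  hd : 100 * d ≤ 1
  hW : 1 ≤ W
  hK : 1 ≤ K
  hM : 0 < M0
  hWM : 1 ≤ W * M0
  MM : ∀ T ∈ Z, M0 ≤ M T
  Mx : ∀ T ∈ Z, M T ≤ Mx
  bd : ∀ T ∈ Z, Bd (W * M T) (G T) (H T)
  bd' : ∀ T ∈ Z, Bd (W * M T) (G' T) (H' T)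
  g2 : ∀ T ∈ Z, |(G T).2| ≤ W * M T
  g2' : ∀ T ∈ Z, |(G' T).2| ≤ W * M T
  h22 : ∀ T ∈ Z, |(H T).2.2| ≤ W * M T
  h22' : ∀ T ∈ Z, |(H' T).2.2| ≤ W * M T
  six : ∀ T ∈ Z, ∀ T' ∈ Z, b T' = b T →
    (∀ k, |dx p c b T T' k| ≤ m / 2 ∧ |dc c T T' k| ≤ m / 2) →
    Six K d (M T) (G T) (G' T) (H T) (H' T) (y0 T T') (y1 T T') (al (g T) (dx p c b T T'))
      (pe (g T) (dx p c b T T')) (al (g T) (dc c T T')) (pe (g T) (dc c T T'))

section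
variable {Z : Finset ι} {p c : ι → Fin 2 → ℝ} {b : ι → ℝ} {g : ι → Fin 2 → ℝ}
  {y0 y1 : ι → ι → ℝ} {M : ι → ℝ} {G G' : ι → ℝ × ℝ} {H H' : ι → ℝ × ℝ × ℝ}
  {R m W K d M0 Mx : ℝ}

theorem al_small {g x : Fin 2 → ℝ} {m : ℝ} (hg : g 0 ^ 2 + g 1 ^ 2 = 1) (hx : ∀ k, |x k| ≤ m / 2) :
    |al g x| ≤ m ∧ |pe g x| ≤ m := by
  obtain ⟨n0, n1⟩ := g_le hg
  have a : ∀ u v : ℝ, |u| ≤ 1 → |v| ≤ m / 2 → |u * v| ≤ m / 2 := by
    intro u v hu hv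
    rw [abs_mul]
    calc |u| * |v| ≤ 1 * |v| := mul_le_mul_of_nonneg_right hu (abs_nonneg _)
      _ ≤ m / 2 := by linarith
  constructor
  · refine (abs_add_le _ _).trans ?_
    have := a _ _ n0 (hx 0)
    have := a _ _ n1 (hx 1)
    linarith
  · refine (abs_sub _ _).trans ?_
    have := a _ _ n0 (hx 1)
    have := a _ _ n1 (hx 0)
    linarith

/-- **`Lnk ⊢ Grp`** -/
theorem grp_of (h : Lnk Z p c b g y0 y1 M G G' H H' R m W K d M0 Mx) {N : ℕ}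
    (hN : W * Mx ≤ 2 ^ N) :
    ∃ l ts : ι → ℝ, Grp Z p c b g y0 y1 M l ts R (m / 2) W (200 * W ^ 2 * K ^ 3) M0 N ∧
      (∀ T ∈ Z, 1 ≤ W * (M T * l T)) ∧ ∀ T ∈ Z, (W * Mx)⁻¹ ≤ l T := by
  have hK := h.hK
  have hW := h.hW
  have W0 : 0 < W := by linarith
  obtain ⟨F1, F2, F3, F4, F5, F6, F7, F8⟩ := facts hK hW (le_refl (1:ℝ))
  simp only [mul_one] at F1 F2 F3 F4 F5 F6 F7 F8
  have K11 : 1 ≤ 200 * W ^ 2 * K ^ 3 := by linarith
  have hex : ∀ T, ∃ l : ℝ, 0 < l ∧ l ≤ 1 ∧ max |(G T).2| |(G' T).2| * l ≤ 1 ∧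
      max |(H T).2.2| |(H' T).2.2| * l ^ 2 ≤ 1 ∧
      (l = 1 ∨ max |(G T).2| |(G' T).2| * l = 1 ∨ max |(H T).2.2| |(H' T).2.2| * l ^ 2 = 1) ∧
      ∀ B, 1 ≤ B → max |(G T).2| |(G' T).2| ≤ B → max |(H T).2.2| |(H' T).2.2| ≤ B → 1 ≤ B * l :=
    fun T => exists_l _ _ ((abs_nonneg _).trans (le_max_left _ _))
      ((abs_nonneg _).trans (le_max_left _ _))
  choose l l0 l1 lτ lη lm lB using hex
  have hWM : ∀ T ∈ Z, 1 ≤ W * M T := fun T hT =>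
    h.hWM.trans (mul_le_mul_of_nonneg_left (h.MM T hT) W0.le)
  have hlM : ∀ T ∈ Z, 1 ≤ W * M T * l T := fun T hT =>
    lB T _ (hWM T hT) (max_le (h.g2 T hT) (h.g2' T hT)) (max_le (h.h22 T hT) (h.h22' T hT))
  have hlM' : ∀ T ∈ Z, 1 ≤ W * (M T * l T) := fun T hT => by
    rw [← mul_assoc]; exact hlM T hT
  have hl0 : ∀ T ∈ Z, (W * Mx)⁻¹ ≤ l T := by
    intro T hT
    have a1 : W * M T * l T ≤ W * Mx * l T :=
      mul_le_mul_of_nonneg_right (mul_le_mul_of_nonneg_left (h.Mx T hT) W0.le) (l0 T).le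
    have a2 := (hlM T hT).trans a1
    have a3 : 0 < W * Mx :=
      lt_of_lt_of_le one_pos ((hWM T hT).trans (mul_le_mul_of_nonneg_left (h.Mx T hT) W0.le))
    rw [inv_le_iff_one_le_mul₀ a3]
    linarith
  refine ⟨l, fun T => ts (G T).2 (H T).2.2 (G' T).2 (H' T).2.2, ?_, hlM', hl0⟩
  refine ⟨h.bb, h.gn, h.rp, h.rc, h.hR, by linarith [h.hm], ?_, hW, K11, h.hM, h.MM,
    fun T _ => l1 T, ?_, hlM', ?_⟩
  · have hm := h.hm
    have h1 : W * m ≤ K * (W * m) := le_mul_of_one_le_left (by positivity) hK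
    have h2 : m ≤ W * m := le_mul_of_one_le_left hm.le hW
    have := h.hmm
    linarith
  · intro T hT
    refine le_trans ?_ (hl0 T hT)
    have a3 : 0 < W * Mx :=
      lt_of_lt_of_le one_pos ((hWM T hT).trans (mul_le_mul_of_nonneg_left (h.Mx T hT) W0.le))
    rw [one_div, inv_pow]
    exact inv_anti₀ a3 hN
  · intro T hT T' hT' hb hx
    have S := h.six T hT T' hT' hb hx
    have MT : 0 < M T := h.hM.trans_le (h.MM T hT)
    obtain ⟨x1, x2⟩ := al_small (h.gn T hT) (fun k => (hx k).1)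
    obtain ⟨c1, c2⟩ := al_small (h.gn T hT) (fun k => (hx k).2)
    have B := bundle S hK hW MT h.hd (h.bd T hT) (h.bd' T hT) (h.h22 T hT) (h.h22' T hT) h.hmm
      x1 x2 c1 c2 (l0 T) (l1 T) (lτ T) (lη T) (lm T)
    refine ⟨B.1, fun hs => ⟨(B.2 hs).1, fun z hz => ⟨(B.2 hs).2 z hz, ?_⟩⟩⟩
    exact bundle_y S hK hW MT h.hd (h.bd T hT) (h.bd' T hT) (h.h22 T hT) (h.h22' T hT) h.hmm
      x1 x2 c1 c2 (l0 T) (l1 T) (lτ T) (lη T) (lm T) hs z hz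

/-- **the count from 108's inequalities and the flat planks** -/
theorem share_lnk (h : Lnk Z p c b g y0 y1 M G G' H H' R m W K d M0 Mx) {N : ℕ}
    (hN : W * Mx ≤ 2 ^ N) {q Q : ℝ} (hq : 0 ≤ q) (hQ : 0 ≤ Q)
    (hcap : Cap Z p c b g y0 y1 (200 * W ^ 2 * K ^ 3) M0 (W * Mx)⁻¹ q Q) :
    (Z.card : ℝ) ≤ 2 * 10 ^ 8 * (N + 1) * (R / (m / 2) + 1) ^ 4 *
      ((200 * W ^ 2 * K ^ 3) ^ 2 * W) ^ 2 * (200 * W ^ 2 * K ^ 3) * Q := by
  obtain ⟨l, ts, hg, h1, h2⟩ := grp_of h hN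
  exact groups hg hq hQ h2 hcap

end

end Crest.Agent.R136.Vlk639
end

-- ▼ part R136/Shl_410

/-!
# R136 (S0187), PLAN 2, leaf (B4) share: literal of the links (helper410)

`LnkS` : the links of the pair on a small part.
-/

set_option autoImplicit false
set_option linter.unusedVariables false

open Finset

namespace Crest.Agent.R136.Shv410

open Crest.Agent.R136.Sh605 Crest.Agent.R136.Fl808
open Crest.Agent.R136.K4 (Plk4)
open Crest.Agent.R136.Tlt51 (Shp InP)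
open Crest.Agent.R136.Pl2
open Crest.Agent.R136.Pl2W102 (Near Ex2 Two1)
open Crest.Agent.R136.Shd410
open Crest.Agent.R136.Lnk989 (dis)
open Crest.Agent.R136.Plk511 (stp stc ny0 ny1 cap_shd)
open Crest.Agent.R136.Vlk639 (Lnk share_lnk)

/-- the lines of `F` are close to each other in the boxes of both sheets, at both ends -/
def Small (μ : ℝ) (L : ℕ → Ln4) (F : Finset ℕ) (S S' : Plk4) (z0 ρ : ℝ) : Prop :=
  ∀ T ∈ F, ∀ T' ∈ F, ∀ z, z = z0 ∨ z = z0 + ρ → ∀ k : Fin 3, k ≠ 0 →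
    |dt (S.e k) (dis (L T) (L T') z)| ≤ μ * S.w k ∧
      |dt (S'.e k) (dis (L T) (L T') z)| ≤ μ * S'.w k

/-- the links of the pair on a part -/
def LnkOn (c : ℝ) (L : ℕ → Ln4) (F : Finset ℕ) (S : Plk4) (t0 : Ln4) (W a Y w1 w2 z0 ρ : ℝ)
    (j k' : ℕ) : Prop :=
  ∃ (b : ℕ → ℝ) (gv : ℕ → Fin 2 → ℝ) (N : ℕ → V3) (au : ℝ) (Mf : ℕ → ℝ) (G G' : ℕ → ℝ × ℝ)
    (H H' : ℕ → ℝ × ℝ × ℝ) (R m W1 K1 d M0 Mx : ℝ),
    Lnk F (stp S.e (2 ^ j) w1 w2 z0 t0 L) (stc S.e (2 ^ j) w1 w2 ρ t0 L) b gv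
      (ny0 S.e S.w au z0 ρ N b L) (ny1 S.e S.w au z0 ρ N L) Mf G G' H H' R m W1 K1 d M0 Mx ∧
    R ≤ W ^ c ∧ 1 ≤ W ^ c * m ∧ W1 ≤ W ^ c ∧ K1 ≤ W ^ c ∧ 2 ^ k' * (Y / a) ≤ W ^ c * M0 ∧
    1 ≤ M0 ∧ a * Mx ≤ W ^ c * w2 ∧ 0 < au ∧ au ≤ W ^ c * a ∧
    ∀ T ∈ F, |N T 1 / N T 0| ≤ 2 ∧ |N T 2 / N T 0| ≤ 2

/-- **the links** (989, 816, 18, 524, 777, 723, 140) -/
def LnkS : Prop := ∀ (η : ℝ) (qm qp : Fin 3 → ℝ), Ex2 η qm qp → ∃ K c : ℝ, 0 ≤ K ∧ 0 ≤ c ∧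
  ∀ (L : ℕ → Ln4) (Z : Finset ℕ) (S S' : Plk4) (f g : Fin 3 → V3)
    (W M a Y w1 w2 z0 ρ r : ℝ) (j k' : ℕ),
    ShD K qm qp L Z S S' f g W M a Y w1 w2 z0 ρ r j k' →
    ∀ t0 ∈ Z, ∀ F ⊆ Z, F.Nonempty → Small (1 / W ^ c) L F S S' z0 ρ →
      LnkOn c L F S (L t0) W a Y w1 w2 z0 ρ j k'

end Crest.Agent.R136.Shv410
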