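import Mathlib
import Crest.Agent.R136.Pl2B_860
import Crest.Agent.R136.Shd_410
import Crest.Agent.R136.Shv1_410
import Crest.Agent.R136.Shl_410
import Crest.Agent.R136.Cut_639
import Crest.Agent.R136.Lkp_140
import Crest.Agent.R136.Fl8_808
import Crest.Agent.R136.Mlt2_89
import Crest.Agent.R136.Tpl_706
import Crest.Agent.R136.Hl1_706
import Crest.Agent.R136.Fl1_808

-- ▼ part R136/Vfin2_639
section

/-!
# R136 (S0187), PLAN 2, B4: the numbers at the end of the share of a pair, one letter `W ≥ 2`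
(helper639)

`num_share` : precut factor x `Vlk639.share_lnk` x `Plk511.cap_of ≤ W^C M / (J^(1+s1) E^(1+s2))`.
-/

set_option autoImplicit false
set_option linter.unusedVariables false

namespace Crest.Agent.R136.Vfin2639

/-- **number of dyadic classes** : `X ≤ 2^N`, `N + 1 ≤ W^c'` when `X ≤ W^c x`, `log x ≤ W` -/
theorem exN {W c x X : ℝ} (hW : 2 ≤ W) (hc : 0 ≤ c) (hx : 0 < x) (hlog : Real.log x ≤ W)
    (hX : X ≤ W ^ c * x) : ∃ N : ℕ, X ≤ 2 ^ N ∧ (N : ℝ) + 1 ≤ W ^ (2 * c + 4) := by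
  have hW0 : 0 < W := by linarith
  set Y : ℝ := W ^ c * x with hY
  have hYp : 0 < Y := mul_pos (Real.rpow_pos_of_pos hW0 c) hx
  have hlY : Real.log Y ≤ (c + 1) * W := by
    rw [hY, Real.log_mul (Real.rpow_pos_of_pos hW0 c).ne' hx.ne', Real.log_rpow hW0]
    have h1 : Real.log W ≤ W := (Real.log_le_sub_one_of_pos hW0).trans (by linarith)
    nlinarith
  have hl2 : 0 < Real.log 2 := Real.log_pos (by norm_num)
  have hl2' : 1 / 2 < Real.log 2 := by have := Real.log_two_gt_d9; linarith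
  have key : ∃ N : ℕ, Y ≤ 2 ^ N ∧ (N : ℝ) + 1 ≤ 2 * ((c + 1) * W) + 2 := by
    refine ⟨⌈Real.log Y / Real.log 2⌉₊, ?_, ?_⟩
    · have h1 : Real.log Y / Real.log 2 ≤ (⌈Real.log Y / Real.log 2⌉₊ : ℝ) := Nat.le_ceil _
      rw [div_le_iff₀ hl2] at h1
      have h2 : Real.log Y ≤ Real.log ((2:ℝ) ^ ⌈Real.log Y / Real.log 2⌉₊) := by
        rw [Real.log_pow]; exact h1
      exact (Real.log_le_log_iff hYp (by positivity)).1 h2
    · have h0 : 0 ≤ (c + 1) * W := by positivity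
      have h1 : Real.log Y / Real.log 2 ≤ 2 * ((c + 1) * W) := by
        rw [div_le_iff₀ hl2]
        nlinarith
      rcases le_or_gt (Real.log Y / Real.log 2) 0 with h2 | h2
      · have : ⌈Real.log Y / Real.log 2⌉₊ = 0 := Nat.ceil_eq_zero.2 h2
        rw [this]
        push_cast
        nlinarith
      · have := Nat.ceil_lt_add_one h2.le
        nlinarith
  obtain ⟨N, hN1, hN2⟩ := key
  refine ⟨N, hX.trans hN1, hN2.trans ?_⟩
  -- `2 (c+1) W + 2 ≤ W^(2c+4)`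
  have h1 : 1 + (2 * c) * Real.log 2 ≤ W ^ (2 * c) := by
    have e : (2:ℝ) ^ (2 * c) ≤ W ^ (2 * c) := Real.rpow_le_rpow (by norm_num) hW (by positivity)
    have e2 : (2 * c) * Real.log 2 + 1 ≤ (2:ℝ) ^ (2 * c) := by
      rw [Real.rpow_def_of_pos (by norm_num)]
      have := Real.add_one_le_exp (Real.log 2 * (2 * c))
      linarith
    linarith
  have h2 : 1 + c ≤ W ^ (2 * c) := by nlinarith
  have h3 : W ^ (2 * c + 4) = W ^ (2 * c) * W ^ 4 := by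
    rw [Real.rpow_add hW0, show (4:ℝ) = ((4:ℕ):ℝ) by norm_num, Real.rpow_natCast]
  rw [h3]
  have h4 : 2 * W + 2 ≤ W ^ 4 := by nlinarith [sq_nonneg (W ^ 2), sq_nonneg (W - 2)]
  calc 2 * ((c + 1) * W) + 2 ≤ (1 + c) * (2 * W + 2) := by nlinarith
    _ ≤ W ^ (2 * c) * W ^ 4 := mul_le_mul h2 h4 (by positivity) (by positivity)

theorem mono8 {a b c d e f g x M j a' b' c' d' e' f' g' x' : ℝ} (a0 : 0 ≤ a) (b0 : 0 ≤ b)
    (c0 : 0 ≤ c) (d0 : 0 ≤ d) (e0 : 0 ≤ e) (f0 : 0 ≤ f) (g0 : 0 ≤ g) (x0 : 0 ≤ x) (M0 : 0 ≤ M)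
    (j0 : 0 ≤ j) (ha : a ≤ a') (hb : b ≤ b') (hc : c ≤ c') (hd : d ≤ d') (he : e ≤ e')
    (hf : f ≤ f') (hg : g ≤ g') (hx : x ≤ x') :
    a * (x * b * c * d * e * (f * M * (j * g))) ≤
      a' * (x' * b' * c' * d' * e' * (f' * M * (j * g'))) := by
  have a0' := a0.trans ha
  have b0' := b0.trans hb
  have c0' := c0.trans hc
  have d0' := d0.trans hd
  have e0' := e0.trans he
  have f0' := f0.trans hf
  have g0' := g0.trans hg
  have x0' := x0.trans hx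
  gcongr

set_option maxHeartbeats 2000000 in
/-- **the numbers**, capacity constant `Kc ≤ W^C2` -/
theorem num_share (n : ℕ) {c s1 s2 C2 : ℝ} (hc : 0 ≤ c) (hs1 : 0 ≤ s1) (hs2 : 0 ≤ s2)
    (hC2 : 0 ≤ C2) :
    ∃ C : ℝ, 0 ≤ C ∧ ∀ (W M J E M0 A R m V K Kc : ℝ) (N : ℕ), 2 ≤ W → 0 ≤ M → 0 < J → 0 < E →
      E ≤ W ^ c * M0 → 0 ≤ A → A ≤ W ^ c → (N : ℝ) + 1 ≤ W ^ c → 0 ≤ R → R ≤ W ^ c → 0 < m →
      m⁻¹ ≤ W ^ c → 0 ≤ V → V ≤ W ^ c → 0 ≤ K → K ≤ W ^ c → 0 ≤ Kc → Kc ≤ W ^ C2 →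
      A ^ n * (2 * 10 ^ 8 * (N + 1) * (R / (m / 2) + 1) ^ 4 *
        ((200 * V ^ 2 * K ^ 3) ^ 2 * V) ^ 2 * (200 * V ^ 2 * K ^ 3) *
        (Kc * M *
          (J⁻¹ ^ (1 + s1) * (1 / M0) ^ (1 + s2)))) ≤
          W ^ C * M / (J ^ (1 + s1) * E ^ (1 + s2)) := by
  refine ⟨28 + c * n + c + 4 * (2 * c + 2) + (34 + 22 * c) + (8 + 5 * c) +
    C2 + c * (1 + s2), by positivity, ?_⟩
  intro W M J E M0 A R m V K Kc N hW hM hJ hE hEM hA hA' hN' hR hR' hm hm' hV0 hV' hK hK' hL hL'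
  have hW0 : 0 < W := by linarith
  have hW1 : 1 ≤ W := by linarith
  set U : ℝ := W ^ c with hU
  have hUp : 0 < U := Real.rpow_pos_of_pos hW0 c
  have hU1 : 1 ≤ U := Real.one_le_rpow hW1 hc
  have hM0 : 0 < M0 := by
    by_contra h
    push Not at h
    have := mul_nonpos_of_nonneg_of_nonpos hUp.le h
    linarith
  have hJp : 0 < J ^ (1 + s1) := Real.rpow_pos_of_pos hJ _
  have hEp : 0 < E ^ (1 + s2) := Real.rpow_pos_of_pos hE _
  have e1 : J⁻¹ ^ (1 + s1) = (J ^ (1 + s1))⁻¹ := Real.inv_rpow hJ.le _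
  have e2 : (1 / M0) ^ (1 + s2) ≤ U ^ (1 + s2) * (E ^ (1 + s2))⁻¹ := by
    have h1 : 1 / M0 ≤ U / E := by
      rw [div_le_div_iff₀ hM0 hE]; linarith
    calc (1 / M0) ^ (1 + s2) ≤ (U / E) ^ (1 + s2) :=
          Real.rpow_le_rpow (by positivity) h1 (by linarith)
      _ = U ^ (1 + s2) * (E ^ (1 + s2))⁻¹ := by
          rw [Real.div_rpow hUp.le hE.le, div_eq_mul_inv]
  -- numerals
  have num : ∀ (k : ℕ) (x : ℝ), x ≤ 2 ^ k → x ≤ W ^ (k : ℝ) := by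
    intro k x hx
    rw [Real.rpow_natCast]
    exact hx.trans (pow_le_pow_left₀ (by norm_num) hW k)
  have e3 : (2:ℝ) * 10 ^ 8 ≤ W ^ ((28:ℕ):ℝ) := num 28 _ (by norm_num)
  have n8 : (200:ℝ) ≤ W ^ ((8:ℕ):ℝ) := num 8 _ (by norm_num)
  have pw : ∀ k : ℕ, U ^ k = W ^ (c * k) := by
    intro k
    rw [hU, Real.rpow_mul hW0.le, Real.rpow_natCast]
  have e4 : A ^ n ≤ W ^ (c * n) := by
    rw [← pw]; exact pow_le_pow_left₀ hA hA' n
  have r1 : R / (m / 2) + 1 ≤ W ^ (2 * c + 2) := by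
    have h1 : R / (m / 2) = 2 * (R * m⁻¹) := by field_simp
    have h2 : R * m⁻¹ ≤ U * U := mul_le_mul hR' hm' (inv_pos.2 hm).le hUp.le
    have h3 : W ^ (2 * c + 2) = (U * U) * (W * W) := by
      rw [hU, ← Real.rpow_add hW0, Real.rpow_add hW0, Real.rpow_two]; ring_nf
    rw [h1, h3]
    have h4 : 1 ≤ U * U := by nlinarith
    have h5 : 4 ≤ W * W := by nlinarith
    nlinarith
  have r4 : (R / (m / 2) + 1) ^ 4 ≤ W ^ (4 * (2 * c + 2)) := by
    have h0 : 0 ≤ R / (m / 2) + 1 := by positivity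
    calc (R / (m / 2) + 1) ^ 4 ≤ (W ^ (2 * c + 2)) ^ 4 := pow_le_pow_left₀ h0 r1 4
      _ = W ^ (4 * (2 * c + 2)) := by
          rw [← Real.rpow_natCast, ← Real.rpow_mul hW0.le]; congr 1; push_cast; ring
  have k1 : 200 * V ^ 2 * K ^ 3 ≤ W ^ (8 + 5 * c) := by
    have h1 : V ^ 2 ≤ U ^ 2 := pow_le_pow_left₀ hV0 hV' 2
    have h2 : K ^ 3 ≤ U ^ 3 := pow_le_pow_left₀ hK hK' 3
    have h3 : W ^ (8 + 5 * c) = W ^ ((8:ℕ):ℝ) * (U ^ 2 * U ^ 3) := by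
      rw [← pow_add, pw, ← Real.rpow_add hW0]; congr 1; push_cast; ring
    rw [h3, mul_assoc]
    exact mul_le_mul n8 (mul_le_mul h1 h2 (by positivity) (by positivity)) (by positivity)
      (by positivity)
  have k10 : 0 ≤ 200 * V ^ 2 * K ^ 3 := by positivity
  have k2 : ((200 * V ^ 2 * K ^ 3) ^ 2 * V) ^ 2 ≤ W ^ (34 + 22 * c) := by
    have h1 : (200 * V ^ 2 * K ^ 3) ^ 2 * V ≤ (W ^ (8 + 5 * c)) ^ 2 * U :=
      mul_le_mul (pow_le_pow_left₀ k10 k1 2) hV' hV0 (by positivity)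
    calc ((200 * V ^ 2 * K ^ 3) ^ 2 * V) ^ 2 ≤ ((W ^ (8 + 5 * c)) ^ 2 * U) ^ 2 :=
          pow_le_pow_left₀ (by positivity) h1 2
      _ = W ^ (32 + 22 * c) := by
          rw [hU, ← Real.rpow_natCast, ← Real.rpow_natCast, ← Real.rpow_mul hW0.le,
            ← Real.rpow_add hW0, ← Real.rpow_mul hW0.le]; congr 1; push_cast; ring
      _ ≤ W ^ (34 + 22 * c) := Real.rpow_le_rpow_of_exponent_le hW1 (by linarith)
  have hUs : U ^ (1 + s2) = W ^ (c * (1 + s2)) := by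
    rw [hU, ← Real.rpow_mul hW0.le]
  have big : A ^ n * (2 * 10 ^ 8 * (N + 1) * (R / (m / 2) + 1) ^ 4 *
        ((200 * V ^ 2 * K ^ 3) ^ 2 * V) ^ 2 * (200 * V ^ 2 * K ^ 3) *
        (Kc * M *
          (J⁻¹ ^ (1 + s1) * (1 / M0) ^ (1 + s2)))) ≤
      W ^ (c * n) * (W ^ ((28:ℕ):ℝ) * U * W ^ (4 * (2 * c + 2)) * W ^ (34 + 22 * c) *
        W ^ (8 + 5 * c) * (W ^ C2 * M *
          ((J ^ (1 + s1))⁻¹ * (U ^ (1 + s2) * (E ^ (1 + s2))⁻¹)))) := by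
    rw [e1]
    exact mono8 (by positivity) (by positivity) (by positivity) (by positivity) k10
      hL (by positivity) (by norm_num) hM (by positivity) e4 hN' r4 k2 k1 hL' e2 e3
  refine big.trans (le_of_eq ?_)
  rw [hUs]
  have expand : W ^ (28 + c * n + c + 4 * (2 * c + 2) + (34 + 22 * c) + (8 + 5 * c) +
      C2 + c * (1 + s2)) =
      W ^ ((28:ℕ):ℝ) * W ^ (c * n) * U * W ^ (4 * (2 * c + 2)) * W ^ (34 + 22 * c) *
        W ^ (8 + 5 * c) * W ^ C2 * W ^ (c * (1 + s2)) := by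
    rw [hU, ← Real.rpow_add hW0, ← Real.rpow_add hW0, ← Real.rpow_add hW0, ← Real.rpow_add hW0,
      ← Real.rpow_add hW0, ← Real.rpow_add hW0, ← Real.rpow_add hW0]
    congr 1
  rw [expand, div_eq_mul_inv, mul_inv]
  ring

end Crest.Agent.R136.Vfin2639
end

-- ▼ part R136/Btm_781
section

/-!
# R136 (S0187), PLAN 2, (B6): small monotonicity lemmas for the assembly of `BT` (helper781)

* `Two1.swap`, `Two1.mono`; `CloseC.mono`; `FH.mono`, `FL.mono`; `dy_conv` : the same pair of frames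
  at the smaller thickness, same base tilt `2 ^ j`.
-/

set_option autoImplicit false
set_option linter.unusedVariables false

open Finset

namespace Crest.Agent.R136.Btm781

open Crest.Agent.R136.Sh605 Crest.Agent.R136.Fl808 Crest.Agent.R136.Pl2
open Crest.Agent.R136.K4 (Plk4)
open Crest.Agent.R136.Tlt51 (Shp InP)
open Crest.Agent.R136.Phc248 (ph phC phC_nonneg)
open Crest.Agent.R136.Deep51 (CloseC)
open Crest.Agent.R136.KapP335 (kapP expP DetP)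
open Crest.Agent.R136.Tl102 (angC)
open Crest.Agent.R136.Pl2W102 (Near Ex2 Two1)

variable {qm qp : Fin 3 → ℝ} {L : ℕ → Ln4} {P : Finset ℕ} {cu cv : ℕ → ℕ} {Uf Vf : ℕ → Plk4}
  {W M a w1 w2 z0 ρ r : ℝ}


theorem near_mono {W W' x y : ℝ} (h : Near W x y) (hW : W ≤ W') (hx : 0 ≤ x) (hy : 0 ≤ y) :
    Near W' x y :=
  ⟨h.1.trans (mul_le_mul_of_nonneg_right hW hy), h.2.trans (mul_le_mul_of_nonneg_right hW hx)⟩

theorem shp_pos {S : Plk4} (hr : 0 < r) (h : Shp S z0 ρ r) :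
    0 < S.a ∧ 0 < S.w 0 ∧ 0 < S.w 2 ∧ 0 < S.w 1 := by
  have h1 : 0 < S.a := hr.trans_le h.r0_le
  have h2 : 0 < S.w 0 := h1.trans_le h.a_le0
  have h3 : 0 < S.w 2 := h2.trans_le h.w0_le
  exact ⟨h1, h2, h3, h3.trans_le h.w_le⟩

/-- larger `W` -/
theorem Two1.mono (H : Two1 qm qp L P cu cv Uf Vf W M a w1 w2 z0 ρ r) {W' : ℝ} (hW : W ≤ W') :
    Two1 qm qp L P cu cv Uf Vf W' M a w1 w2 z0 ρ r where
  W1 := H.W1.trans hW
  M0 := H.M0
  r0 := H.r0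
  ρ0 := H.ρ0
  a0 := H.a0
  w10 := H.w10
  w20 := H.w20
  w1ρ := H.w1ρ.trans (mul_le_mul_of_nonneg_right hW H.ρ0.le)
  lg := H.lg.trans hW
  vel := H.vel
  shU := H.shU
  shV := H.shV
  inU := H.inU
  inV := H.inV
  dimU := fun t ht => by
    obtain ⟨p1, -, p2, p3⟩ := shp_pos H.r0 (H.shU t ht)
    obtain ⟨n1, n2, n3⟩ := H.dimU t ht
    exact ⟨near_mono n1 hW H.a0.le p1.le, near_mono n2 hW H.w10.le p3.le,
      near_mono n3 hW H.w20.le p2.le⟩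
  dimV := fun t ht => by
    obtain ⟨p1, -, p2, p3⟩ := shp_pos H.r0 (H.shV t ht)
    obtain ⟨n1, n2, n3⟩ := H.dimV t ht
    exact ⟨near_mono n1 hW H.a0.le p1.le, near_mono n2 hW H.w10.le p3.le,
      near_mono n3 hW H.w20.le p2.le⟩
  fullU := fun t ht => (H.fullU t ht).trans (mul_le_mul_of_nonneg_right hW (Nat.cast_nonneg _))
  fullV := fun t ht => (H.fullV t ht).trans (mul_le_mul_of_nonneg_right hW (Nat.cast_nonneg _))
  dmax := fun S hS hw => by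
    classical
    obtain ⟨p1, -, p2, p3⟩ := shp_pos H.r0 hS
    have hφ := phC_nonneg (qm := qm) (qp := qp) H.a0.le H.w10.le H.w20.le p1.le p3.le p2.le
    exact (H.dmax S hS hw).trans
      (mul_le_mul_of_nonneg_right (mul_le_mul_of_nonneg_right hW H.M0.le) hφ)

theorem CloseC.mono {e : Fin 3 → V3} {w : V3} {q : ℝ → V3 → ℝ} {a' : ℝ} {q' : ℝ → V3 → ℝ}
    {E E' : ℝ} {T : Ln4} (h : CloseC e w q a' q' E T z0 ρ) (hE : E ≤ E') :
    CloseC e w q a' q' E' T z0 ρ :=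
  fun z h1 h2 x h3 h4 => (h z h1 h2 x h3 h4).trans hE

/-- `FH` is monotone in `C` and `Y` -/
theorem FH.mono {C C' Y Y' : ℝ} {S : Plk4} {f : Fin 3 → V3} (h : FH C Y S f z0 ρ) (h0 : 0 ≤ C)
    (hY0 : 0 ≤ Y) (hC : C ≤ C') (hY : Y ≤ Y') (hw1 : 0 ≤ S.w 1) (hw2 : 0 ≤ S.w 2) :
    FH C' Y' S f z0 ρ := by
  have k1 : C * Y ≤ C' * Y' := mul_le_mul hC hY hY0 (h0.trans hC)
  have k2 : C * S.w 2 ≤ C' * S.w 2 := mul_le_mul_of_nonneg_right hC hw2
  have k3 : C * S.w 1 ≤ C' * S.w 1 := mul_le_mul_of_nonneg_right hC hw1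
  refine ⟨h.ortho, h.e01.trans k2, h.e10.trans k2, h.e12.trans k2, h.e21.trans k2,
    h.e00.trans (mul_le_mul_of_nonneg_right hC (abs_nonneg _)), ?_, ?_⟩
  · intro t t' ht ht' z hz hz' i
    have := h.box t t' ht ht' z hz hz' i
    fin_cases i
    · simpa using this.trans (by simpa using k1)
    · simpa using this.trans (by simpa using k3)
    · simpa using this.trans (by simpa using k2)
  · intro T hT z hz hz' x hx hq
    exact (h.pt T hT z hz hz' x hx hq).trans k1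

/-- `FL` at a larger thickness -/
theorem FL.mono {C k Y : ℝ} {S : Plk4} {f : Fin 3 → V3} (h : FL C Y S f z0 ρ) (h0 : 0 ≤ C)
    (hk : 1 ≤ k) (hw1 : 0 ≤ S.w 1) (hw2 : 0 ≤ S.w 2) : FL (C * k) (k * Y) S f z0 ρ := by
  intro T hT
  obtain ⟨b0, h1, h2, h3⟩ := h T hT
  have hb0 : 0 ≤ b0 := by
    by_contra hc
    push Not at hc
    nlinarith
  have hk0 : 0 ≤ k := by linarith
  refine ⟨b0, ?_, ?_, ?_⟩
  · have : C * b0 ≤ C * k * b0 := by
      have := mul_le_mul_of_nonneg_right (le_mul_of_one_le_right h0 hk) hb0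
      exact this
    linarith
  · exact h2.trans (le_mul_of_one_le_right h0 hk)
  · intro m hm z hz hz' x x0 x1 x2
    have hm0 : 0 ≤ m := by linarith
    have hmk : m ≤ m * k := le_mul_of_one_le_right hm0 hk
    have := h3 (m * k) (by nlinarith) z hz hz' x (by rw [mul_assoc]; exact x0)
      (x1.trans (mul_le_mul_of_nonneg_right hmk hw1))
      (x2.trans (mul_le_mul_of_nonneg_right hmk hw2))
    refine this.trans (le_of_eq ?_)
    ring

theorem FL.mono' {C C' Y : ℝ} {S : Plk4} {f : Fin 3 → V3} (h : FL C Y S f z0 ρ) (h0 : 0 ≤ C)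
    (hC : C ≤ C') (hY : 0 ≤ Y) : FL C' Y S f z0 ρ := by
  intro T hT
  obtain ⟨b0, h1, h2, h3⟩ := h T hT
  have hb0 : 0 ≤ b0 := by
    by_contra hc
    push Not at hc
    nlinarith
  refine ⟨b0, h1.trans (mul_le_mul_of_nonneg_right hC hb0), h2.trans hC, ?_⟩
  intro m hm z hz hz' x x0 x1 x2
  refine (h3 m hm z hz hz' x x0 x1 x2).trans ?_
  exact mul_le_mul_of_nonneg_right (mul_le_mul_of_nonneg_right hC (sq_nonneg m)) hY


end Crest.Agent.R136.Btm781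
end

-- ▼ part R136/Shv2_410
section

/-!
# R136 (S0187), PLAN 2, leaf (B4) share: reduction of `ShareL` to `ShareR` (helper410)
-/

set_option autoImplicit false
set_option linter.unusedVariables false

open Finset

namespace Crest.Agent.R136.Shv410

open Crest.Agent.R136.Sh605 Crest.Agent.R136.Fl808
open Crest.Agent.R136.K4 (Plk4)
open Crest.Agent.R136.Tlt51 (Shp InP)
open Crest.Agent.R136.Phc248
open Crest.Agent.R136.KapP335 (kapP expP DetP)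
open Crest.Agent.R136.Pl2
open Crest.Agent.R136.Pl2W102 (Near Ex2 Two1)
open Crest.Agent.R136.Shd410
open Crest.Agent.R136.Btm781

/-- `1 + y ≤ (2 W) ^ (2 y)` -/
theorem one_add_le {X y : ℝ} (hX : 2 ≤ X) (hy : 0 ≤ y) : 1 + y ≤ X ^ (2 * y) := by
  have h1 : (2:ℝ) ^ (2 * y) ≤ X ^ (2 * y) :=
    Real.rpow_le_rpow (by norm_num) hX (by positivity)
  refine le_trans ?_ h1
  rw [Real.rpow_def_of_pos (by norm_num : (0:ℝ) < 2)]
  have h2 := Real.add_one_le_exp (Real.log 2 * (2 * y))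
  have h3 : (1:ℝ) / 2 ≤ Real.log 2 := by have := Real.log_two_gt_d9; linarith
  have h4 : 1 / 2 * (2 * y) ≤ Real.log 2 * (2 * y) :=
    mul_le_mul_of_nonneg_right h3 (by positivity)
  linarith

/-- change of the widths in `Two1` -/
theorem two1_dims {qm qp : Fin 3 → ℝ} (hm : ∀ k, 0 ≤ qm k) (hmp : ∀ k, qm k ≤ qp k)
    {L : ℕ → Ln4} {P : Finset ℕ} {cu cv : ℕ → ℕ} {Uf Vf : ℕ → Plk4}
    {W M a w1 w2 z0 ρ r w1' w2' C1 : ℝ} (H : Two1 qm qp L P cu cv Uf Vf W M a w1 w2 z0 ρ r)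
    (hC1 : 0 ≤ C1) (h1 : w1 ≤ w1') (h1' : w1' ≤ (2 * W) ^ C1 * w1) (h2 : w2 ≤ w2')
    (h2' : w2' ≤ (2 * W) ^ C1 * w2) {c : ℝ}
    (hc : 1 + 4 * C1 + C1 * (3 + qp 0 + qp 1 + qp 2) ≤ c) :
    Two1 qm qp L P cu cv Uf Vf ((2 * W) ^ c) M a w1' w2' z0 ρ r := by
  have hp : ∀ k, 0 ≤ qp k := fun k => (hm k).trans (hmp k)
  have W1 := H.W1
  have X2 : 2 ≤ 2 * W := by linarith
  have X1 : 1 ≤ 2 * W := by linarith
  have X0 : 0 < 2 * W := by linarith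
  set X := 2 * W with hX
  have s0 : 0 ≤ 3 + qp 0 + qp 1 + qp 2 := by linarith [hp 0, hp 1, hp 2]
  have s1 : 0 ≤ C1 * (3 + qp 0 + qp 1 + qp 2) := mul_nonneg hC1 s0
  have mono : ∀ {x y : ℝ}, x ≤ y → X ^ x ≤ X ^ y := fun h =>
    Real.rpow_le_rpow_of_exponent_le X1 h
  have XC : W * X ^ C1 ≤ X ^ c := by
    calc W * X ^ C1 ≤ X ^ (1:ℝ) * X ^ C1 := by
          rw [Real.rpow_one]
          exact mul_le_mul_of_nonneg_right (by linarith) (by positivity)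
      _ = X ^ (1 + C1) := (Real.rpow_add X0 _ _).symm
      _ ≤ X ^ c := mono (by linarith)
  have WX : W ≤ X ^ c := by
    calc W ≤ X ^ (1:ℝ) := by rw [Real.rpow_one]; linarith
      _ ≤ X ^ c := mono (by linarith)
  have XC1 : 1 ≤ X ^ C1 := Real.one_le_rpow X1 hC1
  have Xc0 : 0 < X ^ c := by positivity
  have w10' : 0 < w1' := H.w10.trans_le h1
  have w20' : 0 < w2' := H.w20.trans_le h2
  have near1 : ∀ {x y y' : ℝ}, 0 < x → 0 < y → y ≤ y' → y' ≤ X ^ C1 * y → Near W y x →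
      Near (X ^ c) y' x := by
    intro x y y' hx hy hyy hyy' hn
    constructor
    · calc y' ≤ X ^ C1 * y := hyy'
        _ ≤ X ^ C1 * (W * x) := mul_le_mul_of_nonneg_left hn.1 (by positivity)
        _ = W * X ^ C1 * x := by ring
        _ ≤ X ^ c * x := mul_le_mul_of_nonneg_right XC hx.le
    · calc x ≤ W * y := hn.2
        _ ≤ W * y' := mul_le_mul_of_nonneg_left hyy (by linarith)
        _ ≤ X ^ c * y' := mul_le_mul_of_nonneg_right WX (by linarith)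
  refine ⟨W1.trans WX, H.M0, H.r0, H.ρ0, H.a0, w10', w20', ?_, ?_, H.vel, H.shU, H.shV, H.inU,
    H.inV, ?_, ?_, ?_, ?_, ?_⟩
  · calc w1' ≤ X ^ C1 * w1 := h1'
      _ ≤ X ^ C1 * (W * ρ) := mul_le_mul_of_nonneg_left H.w1ρ (by positivity)
      _ = W * X ^ C1 * ρ := by ring
      _ ≤ X ^ c * ρ := mul_le_mul_of_nonneg_right XC H.ρ0.le
  · have e1 : w1' / a ≤ X ^ C1 * (w1 / a) := by
      rw [← mul_div_assoc]
      exact div_le_div_of_nonneg_right h1' H.a0.le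
    have e2 : Real.log (w1' / a) ≤ Real.log (X ^ C1 * (w1 / a)) :=
      Real.log_le_log (div_pos w10' H.a0) e1
    have e3 : Real.log (X ^ C1 * (w1 / a)) = C1 * Real.log X + Real.log (w1 / a) := by
      rw [Real.log_mul (by positivity) (div_pos H.w10 H.a0).ne', Real.log_rpow X0]
    have e4 : Real.log X ≤ X := (Real.log_le_sub_one_of_pos X0).trans (by linarith)
    have e5 : C1 * Real.log X ≤ C1 * X := mul_le_mul_of_nonneg_left e4 hC1
    have e6 := H.lg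
    have e7 : 1 + 2 * C1 ≤ X ^ (2 * (2 * C1)) := one_add_le X2 (by linarith)
    have e8 : X ^ (1:ℝ) * X ^ (2 * (2 * C1)) ≤ X ^ c := by
      rw [← Real.rpow_add X0]; exact mono (by linarith)
    rw [Real.rpow_one] at e8
    have e9 : X * (1 + 2 * C1) ≤ X * X ^ (2 * (2 * C1)) := mul_le_mul_of_nonneg_left e7 X0.le
    have e10 : 0 ≤ X * C1 := by positivity
    have e11 : W ≤ X := by linarith
    nlinarith
  · intro t ht
    obtain ⟨p1, -, p2, p3⟩ := shp_pos H.r0 (H.shU t ht)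
    obtain ⟨n1, n2, n3⟩ := H.dimU t ht
    exact ⟨near_mono n1 WX H.a0.le p1.le, near1 p3 H.w10 h1 h1' n2, near1 p2 H.w20 h2 h2' n3⟩
  · intro t ht
    obtain ⟨p1, -, p2, p3⟩ := shp_pos H.r0 (H.shV t ht)
    obtain ⟨n1, n2, n3⟩ := H.dimV t ht
    exact ⟨near_mono n1 WX H.a0.le p1.le, near1 p3 H.w10 h1 h1' n2, near1 p2 H.w20 h2 h2' n3⟩
  · exact fun t ht => (H.fullU t ht).trans (mul_le_mul_of_nonneg_right WX (Nat.cast_nonneg _))
  · exact fun t ht => (H.fullV t ht).trans (mul_le_mul_of_nonneg_right WX (Nat.cast_nonneg _))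
  · intro S hS hw
    classical
    obtain ⟨p1, -, p2, p3⟩ := shp_pos H.r0 hS
    have hφ := phC_nonneg (qm := qm) (qp := qp) H.a0.le w10'.le w20'.le p1.le p3.le p2.le
    have h3 := phC_unit hm hmp (x := S.a) (y := S.w 1) (z := S.w 2) XC1 H.a0 H.w10 H.w20 H.a0
      w10' w20' p1.le p3.le p2.le (le_mul_of_one_le_left H.a0.le XC1) h1' h2'
    have h4 : (X ^ C1) ^ (1 + qp 0) * (X ^ C1) ^ (1 + qp 1) * (X ^ C1) ^ (1 + qp 2) =
        X ^ (C1 * (3 + qp 0 + qp 1 + qp 2)) := by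
      rw [← Real.rpow_mul X0.le, ← Real.rpow_mul X0.le, ← Real.rpow_mul X0.le,
        ← Real.rpow_add X0, ← Real.rpow_add X0]
      congr 1; ring
    rw [h4] at h3
    refine (H.dmax S hS hw).trans ?_
    have WM : 0 ≤ W * M := mul_nonneg (by linarith) H.M0.le
    calc W * M * phC qm qp a w1 w2 S.a (S.w 1) (S.w 2) ≤
        W * M * (X ^ (C1 * (3 + qp 0 + qp 1 + qp 2)) *
          phC qm qp a w1' w2' S.a (S.w 1) (S.w 2)) := mul_le_mul_of_nonneg_left h3 WM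
      _ = (W * X ^ (C1 * (3 + qp 0 + qp 1 + qp 2))) * (M *
          phC qm qp a w1' w2' S.a (S.w 1) (S.w 2)) := by ring
      _ ≤ X ^ c * (M * phC qm qp a w1' w2' S.a (S.w 1) (S.w 2)) := by
          refine mul_le_mul_of_nonneg_right ?_ (mul_nonneg H.M0.le hφ)
          calc W * X ^ (C1 * (3 + qp 0 + qp 1 + qp 2)) ≤
              X ^ (1:ℝ) * X ^ (C1 * (3 + qp 0 + qp 1 + qp 2)) := by
                rw [Real.rpow_one]
                exact mul_le_mul_of_nonneg_right (by linarith) (by positivity)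
            _ = X ^ (1 + C1 * (3 + qp 0 + qp 1 + qp 2)) := (Real.rpow_add X0 _ _).symm
            _ ≤ X ^ c := mono (by linarith)
      _ = _ := by ring

open Classical in
/-- **reduction** -/
theorem shareL_of (h : ShareR) : ShareL := by
  intro η qm qp hx C1 hC1
  obtain ⟨K, C, hK, hC, main⟩ := h η qm qp hx
  have hm : ∀ k, 0 ≤ qm k := fun k => (hx.le k).1
  have hmp : ∀ k, qm k ≤ qp k := fun k => (hx.le k).2
  have hp : ∀ k, 0 ≤ qp k := fun k => (hm k).trans (hmp k)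
  have s0 : 0 ≤ 3 + qp 0 + qp 1 + qp 2 := by linarith [hp 0, hp 1, hp 2]
  have s1 : 0 ≤ C1 * (3 + qp 0 + qp 1 + qp 2) := mul_nonneg hC1 s0
  obtain ⟨c, hc⟩ : ∃ c, c = 1 + 4 * C1 + C1 * (3 + qp 0 + qp 1 + qp 2) := ⟨_, rfl⟩
  have hc1 : 1 ≤ c := by linarith
  have hc0 : 0 ≤ c := by linarith
  refine ⟨c * K + 1, by positivity, fun K0 hK0 => ⟨c * K, c * C, by positivity, by positivity, ?_⟩⟩
  intro L P cu cv Uf Vf W M a w1 w2 z0 ρ r H hr t ht f g Y w1' w2' hty haY hYw hww h1 h1' h2 h2'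
    hF hL hG j k' hdy hthr
  have W1 := H.W1
  have X2 : 2 ≤ 2 * W := by linarith
  have X1 : 1 ≤ 2 * W := by linarith
  have X0 : 0 < 2 * W := by linarith
  have Y0 : 0 < Y := H.a0.trans_le haY
  have H' := two1_dims hm hmp H hC1 h1 h1' h2 h2' hc.ge
  have mono : ∀ {x y : ℝ}, x ≤ y → (2 * W) ^ x ≤ (2 * W) ^ y := fun h =>
    Real.rpow_le_rpow_of_exponent_le X1 h
  have hXc : 2 * W ≤ (2 * W) ^ c := by
    calc 2 * W = (2 * W) ^ (1:ℝ) := (Real.rpow_one _).symm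
      _ ≤ _ := mono hc1
  have hWc : W ≤ (2 * W) ^ c := by linarith
  have hCc : (2 * W) ^ C1 ≤ (2 * W) ^ c := mono (by linarith)
  have pw : ∀ y, ((2 * W) ^ c) ^ y = (2 * W) ^ (c * y) := fun y => (Real.rpow_mul X0.le _ _).symm
  obtain ⟨p1, -, p2, p3⟩ := shp_pos H.r0 (H.shU t ht)
  obtain ⟨q1, -, q2, q3⟩ := shp_pos H.r0 (H.shV t ht)
  set Z := P.filter fun s => cu s = cu t ∧ cv s = cv t with hZ
  have mem : ∀ s ∈ Z, s ∈ P ∧ cu s = cu t ∧ cv s = cv t := fun s hs => mem_filter.1 hs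
  have hShD : ShD K qm qp L Z (Uf (cu t)) (Vf (cv t)) f g ((2 * W) ^ c) M a Y w1' w2' z0 ρ r
      j k' := by
    refine ⟨X2.trans hXc, H.M0, H.r0, H.ρ0, hr, H.a0, haY, hYw, hww, H'.w1ρ, H'.lg,
      ⟨P, cu, cv, Uf, Vf, filter_subset _ _, ⟨t, ht⟩, H'⟩, ?_, H.shU t ht, H.shV t ht, ?_, ?_,
      (H'.dimU t ht).1, (H'.dimU t ht).2.1, (H'.dimU t ht).2.2, (H'.dimV t ht).1,
      (H'.dimV t ht).2.1, (H'.dimV t ht).2.2, ?_, ?_, ?_, ?_, ?_, ?_, ?_, hdy, ?_⟩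
    · exact fun s hs => H.vel s (mem s hs).1
    · intro s hs
      obtain ⟨m1, m2, m3⟩ := mem s hs
      have := H.inU s m1
      rwa [m2] at this
    · intro s hs
      obtain ⟨m1, m2, m3⟩ := mem s hs
      have := H.inV s m1
      rwa [m3] at this
    · intro s hs
      obtain ⟨m1, m2, m3⟩ := mem s hs
      have := (hty s m1 m2 m3).1.big
      refine le_trans ?_ this
      rw [pw]
      exact mul_le_mul_of_nonneg_right (mono (by linarith)) H.a0.le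
    · intro s hs
      obtain ⟨m1, m2, m3⟩ := mem s hs
      exact (hty s m1 m2 m3).1.le
    · intro s hs
      obtain ⟨m1, m2, m3⟩ := mem s hs
      exact (hty s m1 m2 m3).2
    · intro s hs hn
      obtain ⟨m1, m2, m3⟩ := mem s hs
      have hT := (hty s m1 m2 m3).1
      have b1 : W * a ≤ kp (Uf (cu t)) z0 ρ (L s) := by
        refine le_trans (mul_le_mul_of_nonneg_right ?_ H.a0.le) hT.big
        calc W ≤ (2 * W) ^ (1:ℝ) := by rw [Real.rpow_one]; linarith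
          _ ≤ (2 * W) ^ K0 := mono (by have := mul_nonneg hc0 hK; linarith)
      have b2 := hT.typ.rot b1 (le_trans (mul_le_mul_of_nonneg_right hWc p2.le) hn)
      exact le_trans (one_div_le_one_div_of_le (by linarith) hWc) b2
    · exact Btm781.FH.mono hF (by positivity) Y0.le hCc le_rfl p3.le p2.le
    · exact Btm781.FL.mono' hL (by positivity) hCc Y0.le
    · exact Btm781.FH.mono hG (by positivity) Y0.le hCc le_rfl q3.le q2.le
    · rw [pw]; exact hthr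
  have := main L Z (Uf (cu t)) (Vf (cv t)) f g _ M a Y w1' w2' z0 ρ r j k' hShD
  rw [pw] at this
  exact this

end Crest.Agent.R136.Shv410
end

-- ▼ part R136/Vat_410
section

/-!
# R136 (S0187), PLAN 2, leaf (B4) share: final assembly (helper410)

`shareR_of : LnkS → ShareR`.
-/

set_option autoImplicit false
set_option linter.unusedVariables false

open Finset

namespace Crest.Agent.R136.Shv410

open Crest.Agent.R136.Sh605 Crest.Agent.R136.Fl808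
open Crest.Agent.R136.K4 (Plk4)
open Crest.Agent.R136.Tlt51 (Shp InP)
open Crest.Agent.R136.Pl2
open Crest.Agent.R136.Pl2W102 (Near Ex2 Two1)
open Crest.Agent.R136.Shd410
open Crest.Agent.R136.Lnk989 (dis)
open Crest.Agent.R136.Plk511 (stp stc ny0 ny1 cap_shd)
open Crest.Agent.R136.Vlk639 (Lnk share_lnk)

theorem bx_le {S : Plk4} {z0 ρ : ℝ} {T T0 : Ln4} (hT : InP T S z0 ρ) (hT0 : InP T0 S z0 ρ)
    {k : Fin 3} (hw : 0 < S.w k) {z : ℝ} (hz : z0 ≤ z) (hz' : z ≤ z0 + ρ) :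
    |dt (S.e k) (T.pos z - T0.pos z) / S.w k| ≤ 2 := by
  have a1 := (hT z hz hz').1 k
  have a2 := (hT0 z hz hz').1 k
  have e1 : dt (S.e k) (T.pos z - T0.pos z) =
      dt (S.e k) (T.pos z - S.c.pos z) - dt (S.e k) (T0.pos z - S.c.pos z) := by
    simp only [dt, Pi.sub_apply]; ring
  rw [abs_div, abs_of_pos hw, div_le_iff₀ hw, e1]
  exact (abs_sub _ _).trans ((add_le_add a1 a2).trans (by linarith))

theorem dl_le {e : V3} {T T' T0 : Ln4} {z w d : ℝ} (hw : 0 < w)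
    (h : |dt e (T'.pos z - T0.pos z) / w - dt e (T.pos z - T0.pos z) / w| ≤ d) :
    |dt e (dis T T' z)| ≤ d * w := by
  have e1 : dt e (T'.pos z - T0.pos z) / w - dt e (T.pos z - T0.pos z) / w =
      dt e (dis T T' z) / w := by
    rw [← sub_div]
    congr 1
    simp only [dis, dt, Pi.sub_apply]; ring
  rw [e1, abs_div, abs_of_pos hw, div_le_iff₀ hw] at h
  exact h

set_option maxHeartbeats 1000000 in
open Classical in
/-- **final assembly** -/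
theorem shareR_of (h : LnkS) : ShareR := by
  intro η qm qp hx
  obtain ⟨K, c, hK, hc, main⟩ := h η qm qp hx
  have hm : ∀ k, 0 ≤ qm k := fun k => (hx.le k).1
  obtain ⟨c1, hc1⟩ : ∃ c1, c1 = 8 + 6 * c := ⟨_, rfl⟩
  have c10 : 0 ≤ c1 := by linarith
  obtain ⟨C2, hC2, hcap⟩ := cap_shd hx c10
  obtain ⟨C, hC, hnum⟩ := Vfin2639.num_share 8 (c := c1) (s1 := qm 1) (s2 := qm 2) (C2 := C2) c10
    (hm 1) (hm 2) hC2
  refine ⟨K, C, hK, hC, ?_⟩
  intro L Z S S' f g W M a Y w1 w2 z0 ρ r j k' H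
  have W2 := H.W2
  have W1 : 1 ≤ W := by linarith
  have W0 : 0 < W := by linarith
  have M0 := H.M0
  have a0 := H.a0
  have ρ0 := H.ρ0
  have hY : 0 < Y := a0.trans_le H.aY
  have hw2 : 0 < w2 := hY.trans_le H.Yw
  have hw1 : 0 < w1 := hw2.trans_le H.ww
  have hE : 0 < (2:ℝ) ^ k' * (Y / a) := by positivity
  obtain ⟨-, -, p2, p1⟩ := Btm781.shp_pos H.r0 H.shS
  obtain ⟨-, -, q2, q1⟩ := Btm781.shp_pos H.r0 H.shS'
  set RHS : ℝ := W ^ C * M / (((2:ℝ) ^ j) ^ (1 + qm 1) * ((2:ℝ) ^ k' * (Y / a)) ^ (1 + qm 2))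
    with hRHS
  have R0 : 0 ≤ RHS := by positivity
  rcases Z.eq_empty_or_nonempty with hZ | ⟨t0, ht0⟩
  · rw [hZ, card_empty, Nat.cast_zero]; exact R0
  have Wc : 1 ≤ W ^ c := Real.one_le_rpow W1 hc
  have Wcp : 0 < W ^ c := by positivity
  have mono : ∀ {x y : ℝ}, x ≤ y → W ^ x ≤ W ^ y := fun h =>
    Real.rpow_le_rpow_of_exponent_le W1 h
  have two_pow : ∀ n : ℕ, (2:ℝ) ^ n ≤ W ^ (n:ℝ) := fun n => by
    rw [Real.rpow_natCast]; exact pow_le_pow_left₀ (by norm_num) W2 n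
  have hcc1 : W ^ c ≤ W ^ c1 := mono (by linarith)
  set d : ℝ := 1 / W ^ c with hd
  have d0 : 0 < d := by positivity
  set A : ℝ := 2 * 2 / d + 1 with hA
  have eA : A = 4 * W ^ c + 1 := by rw [hA, hd]; field_simp; ring
  have A0 : 0 < A := by positivity
  have A1 : A ≤ W ^ c1 := by
    have h3 := two_pow 3
    have h4 : W ^ ((3:ℕ):ℝ) * W ^ c ≤ W ^ c1 := by
      rw [← Real.rpow_add W0]; exact mono (by push_cast; linarith)
    have h5 : 8 * W ^ c ≤ W ^ ((3:ℕ):ℝ) * W ^ c :=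
      mul_le_mul_of_nonneg_right (by norm_num at h3 ⊢; linarith) Wcp.le
    rw [eA]; linarith
  -- one part
  have part : ∀ F ⊆ Z, Small d L F S S' z0 ρ → (F.card : ℝ) ≤ RHS / A ^ 8 := by
    intro F hF hs
    rcases F.eq_empty_or_nonempty with hFe | hFn
    · rw [hFe, card_empty, Nat.cast_zero]; positivity
    obtain ⟨b, gv, N, au, Mf, G, G', Hh, Hh', R, m, V, K1, dd, M00, Mx, hL, hR, hm', hV, hK1,
      hME, hM1, hMx, hau, hau', hN⟩ := main L Z S S' f g W M a Y w1 w2 z0 ρ r j k' H t0 ht0 F hF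
        hFn hs
    obtain ⟨T1, hT1⟩ := hFn
    have hMM : M00 ≤ Mx := (hL.MM T1 hT1).trans (hL.Mx T1 hT1)
    have hM00 := hL.hM
    have hMxp : 0 < Mx := hM00.trans_le hMM
    have V1 := hL.hW
    have V0 : 0 < V := by linarith
    have K11 := hL.hK
    have K10 : 0 < K1 := by linarith
    have mp := hL.hm
    -- N
    have hX : V * Mx ≤ W ^ (2 * c) * (w1 / a) := by
      have e1 : Mx ≤ W ^ c * (w2 / a) := by
        rw [← mul_div_assoc, le_div_iff₀ a0]; linarith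
      have e2 : w2 / a ≤ w1 / a := div_le_div_of_nonneg_right H.ww a0.le
      have e3 : W ^ (2 * c) = W ^ c * W ^ c := by rw [← Real.rpow_add W0]; congr 1; ring
      rw [e3]
      calc V * Mx ≤ W ^ c * (W ^ c * (w2 / a)) := mul_le_mul hV e1 hMxp.le Wcp.le
        _ ≤ W ^ c * (W ^ c * (w1 / a)) := by gcongr
        _ = _ := by ring
    obtain ⟨n, hn1, hn2⟩ := Vfin2639.exN W2 (by positivity : 0 ≤ 2 * c) (div_pos hw1 a0) H.lg hX
    have hn3 : (n:ℝ) + 1 ≤ W ^ c1 := hn2.trans (mono (by linarith))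
    -- Kc
    have hKc1 : 1 ≤ 200 * V ^ 2 * K1 ^ 3 := by
      have x1 : 1 ≤ V ^ 2 := one_le_pow₀ V1
      have x2 : 1 ≤ K1 ^ 3 := one_le_pow₀ K11
      nlinarith
    have hKc : 200 * V ^ 2 * K1 ^ 3 ≤ W ^ c1 := by
      have h8 := two_pow 8
      have e8 : (200:ℝ) ≤ W ^ ((8:ℕ):ℝ) := by norm_num at h8 ⊢; linarith
      have eV : V ^ 2 ≤ (W ^ c) ^ 2 := by gcongr
      have eK : K1 ^ 3 ≤ (W ^ c) ^ 3 := by gcongr
      calc 200 * V ^ 2 * K1 ^ 3 ≤ W ^ ((8:ℕ):ℝ) * (W ^ c) ^ 2 * (W ^ c) ^ 3 := by gcongr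
        _ = W ^ (8 + 5 * c) := by
            rw [← Real.rpow_natCast (W ^ c) 2, ← Real.rpow_natCast (W ^ c) 3,
              ← Real.rpow_mul W0.le, ← Real.rpow_mul W0.le, ← Real.rpow_add W0,
              ← Real.rpow_add W0]
            congr 1; push_cast; ring
        _ ≤ W ^ c1 := mono (by linarith)
    have haM : a * M00 ≤ W ^ c1 * w2 := by
      calc a * M00 ≤ a * Mx := by gcongr
        _ ≤ W ^ c * w2 := hMx
        _ ≤ W ^ c1 * w2 := by gcongr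
    have hal : a ≤ W ^ c1 * ((V * Mx)⁻¹ * w2) := by
      have e3 : W ^ c * W ^ c ≤ W ^ c1 := by rw [← Real.rpow_add W0]; exact mono (by linarith)
      have e4 : W ^ c1 * ((V * Mx)⁻¹ * w2) = W ^ c1 * w2 / (V * Mx) := by
        rw [div_eq_mul_inv]; ring
      rw [e4, le_div_iff₀ (by positivity)]
      calc a * (V * Mx) = V * (a * Mx) := by ring
        _ ≤ W ^ c * (W ^ c * w2) := by
            refine mul_le_mul hV hMx (by positivity) Wcp.le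
        _ = W ^ c * W ^ c * w2 := by ring
        _ ≤ W ^ c1 * w2 := by gcongr
    have hCap := hcap H (L t0) hF (Kc := 200 * V ^ 2 * K1 ^ 3) (M0 := M00)
      (lam0 := (V * Mx)⁻¹) (au := au) (N := N) (g := gv) (b := b) hau
      (hau'.trans (by gcongr)) hKc1 hKc hN hL.gn hM1 haM (by positivity) hal
    have hcard := share_lnk hL hn1 (hm 2) (by positivity) hCap
    have hfin := hnum W M ((2:ℝ) ^ j) ((2:ℝ) ^ k' * (Y / a)) M00 A R m V K1 (W ^ C2) n W2 M0.le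
      (by positivity) hE (hME.trans (by gcongr)) A0.le A1 hn3 hL.hR (hR.trans hcc1) mp
      (by
        refine le_trans ?_ hcc1
        rw [inv_le_iff_one_le_mul₀ mp]; exact hm')
      V0.le (hV.trans hcc1) K10.le (hK1.trans hcc1) (by positivity) le_rfl
    rw [le_div_iff₀ (by positivity)]
    rw [one_div] at hcard
    calc (F.card : ℝ) * A ^ 8 = A ^ 8 * F.card := by ring
      _ ≤ _ := mul_le_mul_of_nonneg_left hcard (by positivity)
      _ ≤ RHS := hfin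
  -- the labels
  have zz0 : z0 ≤ z0 + ρ := by linarith
  have key : (Z.card : ℝ) ≤ A ^ 8 * (RHS / A ^ 8) := by
    refine Cut639.precutF (n := 8)
      (fun i T => dt ((![S.e 1, S.e 2, S'.e 1, S'.e 2, S.e 1, S.e 2, S'.e 1, S'.e 2] : Fin 8 → V3) i)
        ((L T).pos ((![z0, z0, z0, z0, z0 + ρ, z0 + ρ, z0 + ρ, z0 + ρ] : Fin 8 → ℝ) i) -
          (L t0).pos ((![z0, z0, z0, z0, z0 + ρ, z0 + ρ, z0 + ρ, z0 + ρ] : Fin 8 → ℝ) i)) /
        (![S.w 1, S.w 2, S'.w 1, S'.w 2, S.w 1, S.w 2, S'.w 1, S'.w 2] : Fin 8 → ℝ) i)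
      (by norm_num) d0 (by positivity) ?_ ?_
    · intro i T hT
      fin_cases i
      · exact bx_le (H.inS T hT) (H.inS t0 ht0) p1 le_rfl zz0
      · exact bx_le (H.inS T hT) (H.inS t0 ht0) p2 le_rfl zz0
      · exact bx_le (H.inS' T hT) (H.inS' t0 ht0) q1 le_rfl zz0
      · exact bx_le (H.inS' T hT) (H.inS' t0 ht0) q2 le_rfl zz0
      · exact bx_le (H.inS T hT) (H.inS t0 ht0) p1 zz0 le_rfl
      · exact bx_le (H.inS T hT) (H.inS t0 ht0) p2 zz0 le_rfl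
      · exact bx_le (H.inS' T hT) (H.inS' t0 ht0) q1 zz0 le_rfl
      · exact bx_le (H.inS' T hT) (H.inS' t0 ht0) q2 zz0 le_rfl
    · intro F hF hu
      refine part F hF ?_
      intro T hT T' hT' z hz k hk
      have b0 := dl_le (T := L T) (T' := L T') (T0 := L t0) (z := z0) p1 (hu 0 T' hT' T hT)
      have b1 := dl_le (T := L T) (T' := L T') (T0 := L t0) (z := z0) p2 (hu 1 T' hT' T hT)
      have b2 := dl_le (T := L T) (T' := L T') (T0 := L t0) (z := z0) q1 (hu 2 T' hT' T hT)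
      have b3 := dl_le (T := L T) (T' := L T') (T0 := L t0) (z := z0) q2 (hu 3 T' hT' T hT)
      have b4 := dl_le (T := L T) (T' := L T') (T0 := L t0) (z := z0 + ρ) p1 (hu 4 T' hT' T hT)
      have b5 := dl_le (T := L T) (T' := L T') (T0 := L t0) (z := z0 + ρ) p2 (hu 5 T' hT' T hT)
      have b6 := dl_le (T := L T) (T' := L T') (T0 := L t0) (z := z0 + ρ) q1 (hu 6 T' hT' T hT)
      have b7 := dl_le (T := L T) (T' := L T') (T0 := L t0) (z := z0 + ρ) q2 (hu 7 T' hT' T hT)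
      rcases hz with rfl | rfl
      · fin_cases k
        · exact absurd rfl hk
        · exact ⟨b0, b2⟩
        · exact ⟨b1, b3⟩
      · fin_cases k
        · exact absurd rfl hk
        · exact ⟨b4, b6⟩
        · exact ⟨b5, b7⟩
  refine key.trans (le_of_eq ?_)
  field_simp

end Crest.Agent.R136.Shv410
end

-- ▼ part R136/Mlo_723
section

/-!
# R136 (S0187), PLAN 2, B4: lower bound of the gradient of a pair, large base tilt (helper723)

`strip_num` : numbers; `strip_e` : vectors, in the plank frames `e`, `e'` of the two sheets (no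
hypothesis on the size of `Y / w2`).
-/

set_option autoImplicit false

namespace Crest.Agent.R136.Mlo723

open Crest.Agent.R136.Sh605 Crest.Agent.R136.Fl808

theorem abs_add3 {x y z X Y Z : ℝ} (hx : |x| ≤ X) (hy : |y| ≤ Y) (hz : |z| ≤ Z) :
    |x + y + z| ≤ X + Y + Z :=
  (abs_add_le _ _).trans (add_le_add ((abs_add_le _ _).trans (add_le_add hx hy)) hz)

theorem abs_mul_le {x y X Y : ℝ} (hx : |x| ≤ X) (hy : |y| ≤ Y) : |x * y| ≤ X * Y := by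
  rw [abs_mul]
  exact mul_le_mul hx hy (abs_nonneg _) ((abs_nonneg _).trans hx)

theorem abs_mul_le_one {x y Y : ℝ} (hx : |x| ≤ 1) (hy : |y| ≤ Y) : |x * y| ≤ Y := by
  have := abs_mul_le hx hy
  linarith

/-- **numbers.** `n_i = (1, a_i, b_i)`, `n'_i = (1, a'_i, b'_i)` in the two frames, `p` the
transition matrix, `n'_i = s_i n_i + (0, c_i, d_i)`. -/
theorem strip_num {K Λ Y v1 v2 ε : ℝ} {p00 p01 p02 p10 p11 p12 p20 p21 p22 : ℝ}
    {a0 b0 a1 b1 a0' b0' a1' b1' s0 s1 c0 d0 c1 d1 : ℝ}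
    (hK : 1 ≤ K) (hΛ : 1500 * K ^ 7 ≤ Λ) (hY : 0 < Y) (hv2 : 0 < v2) (hv : Λ * v2 ≤ 2 * v1)
    (hYv : Y ≤ K * v2) (hε : 0 ≤ ε) (hε1 : 500 * K ^ 5 * ε ≤ 1)
    (h00 : |p00| ≤ 1) (h01 : |p01| ≤ 1) (h02 : |p02| ≤ 1) (h10 : |p10| ≤ 1) (h11 : |p11| ≤ 1)
    (h20 : |p20| ≤ 1) (h21 : |p21| ≤ 1) (h22 : |p22| ≤ 1)
    (ha0 : |a0| * v1 ≤ K * v2) (ha1 : |a1| * v1 ≤ K * v2) (hb0 : |b0| ≤ K) (hb1 : |b1| ≤ K)
    (ha0' : |a0'| * v1 ≤ K * v2) (ha1' : |a1'| * v1 ≤ K * v2) (hb0' : |b0'| ≤ K) (hb1' : |b1'| ≤ K)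
    (E00 : s0 = p00 + p01 * a0' + p02 * b0') (E10 : s1 = p00 + p01 * a1' + p02 * b1')
    (E01 : s0 * a0 + c0 = p10 + p11 * a0' + p12 * b0')
    (E11 : s1 * a1 + c1 = p10 + p11 * a1' + p12 * b1')
    (E02 : s0 * b0 + d0 = p20 + p21 * a0' + p22 * b0')
    (E12 : s1 * b1 + d1 = p20 + p21 * a1' + p22 * b1')
    (F : p00 * s1 + p10 * (s1 * a1 + c1) + p20 * (s1 * b1 + d1) = 1)
    (hα : |a1 - a0| * v1 ≤ K * Y) (hβ : Y ≤ K * (|b1 - b0| * v2))
    (hα' : |a1' - a0'| * v1 ≤ K * Y)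
    (hβ' : |b1' - b0'| * v2 ≤ K * Y)
    (ht : Λ * v2 ≤ K * (|p10| * v1) ∨ Λ * v2 ≤ K * (|p12| * v1))
    (hc0 : |c0| * v1 ≤ ε * (Λ * Y)) (hc1 : |c1| * v1 ≤ ε * (Λ * Y))
    (hd0 : |d0| * v2 ≤ ε * Y) (hd1 : |d1| * v2 ≤ ε * Y) : False := by
  have hK0 : 0 < K := by linarith
  have hK7 : 1 ≤ K ^ 7 := one_le_pow₀ hK
  have hΛ1 : 1500 ≤ Λ := by linarith
  have hΛ0 : 0 < Λ := by linarith
  have hv1 : 0 < v1 := by
    have := mul_pos hΛ0 hv2
    linarith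
  have hv12 : v2 ≤ v1 := by
    have := mul_le_mul_of_nonneg_right hΛ1 hv2.le
    linarith
  -- differences
  obtain ⟨α, hαd⟩ : ∃ α, α = a1 - a0 := ⟨_, rfl⟩
  obtain ⟨β, hβd⟩ : ∃ β, β = b1 - b0 := ⟨_, rfl⟩
  obtain ⟨α', hαd'⟩ : ∃ α', α' = a1' - a0' := ⟨_, rfl⟩
  obtain ⟨β', hβd'⟩ : ∃ β', β' = b1' - b0' := ⟨_, rfl⟩
  rw [← hαd] at hα
  rw [← hβd] at hβ
  rw [← hαd'] at hα'
  rw [← hβd'] at hβ'
  -- sizes of `a`
  have ba : ∀ x : ℝ, |x| * v1 ≤ K * v2 → |x| ≤ K := by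
    intro x hx
    have : |x| * v1 ≤ K * v1 := hx.trans (mul_le_mul_of_nonneg_left hv12 hK0.le)
    exact le_of_mul_le_mul_right this hv1
  have ba1 := ba a1 ha1
  have ba0 := ba a0 ha0
  have ba1' := ba a1' ha1'
  -- size of `s1`
  have hs1 : |s1| ≤ 3 * K := by
    rw [E10]
    refine (abs_add3 h00 (abs_mul_le_one h01 ba1') (abs_mul_le_one h02 hb1')).trans ?_
    linarith
  -- `σ`
  have hσ : s1 - s0 = p01 * α' + p02 * β' := by rw [E10, E00, hαd', hβd']; ring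
  have hσ1 : |s1 - s0| ≤ |α'| + |β'| := by
    rw [hσ]
    exact (abs_add_le _ _).trans (add_le_add (abs_mul_le_one h01 le_rfl) (abs_mul_le_one h02 le_rfl))
  -- (i)
  have e1 : p12 * β' = s1 * α + (s1 - s0) * a0 + (c1 - c0) - p11 * α' := by
    have : p11 * α' + p12 * β' = s1 * a1 + c1 - (s0 * a0 + c0) := by rw [E11, E01, hαd', hβd']; ring
    rw [hαd]; linarith
  have i1 : |s1 * α| * v1 ≤ 3 * K * (K * Y) := by
    rw [abs_mul, mul_assoc]
    exact mul_le_mul hs1 hα (by positivity) (by positivity)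
  have hσv : |s1 - s0| * v2 ≤ 2 * (K * Y) := by
    have h1 : |α'| * v2 ≤ K * Y := (mul_le_mul_of_nonneg_left hv12 (abs_nonneg _)).trans hα'
    calc |s1 - s0| * v2 ≤ (|α'| + |β'|) * v2 := mul_le_mul_of_nonneg_right hσ1 hv2.le
      _ = |α'| * v2 + |β'| * v2 := by ring
      _ ≤ _ := by linarith
  have i2 : |(s1 - s0) * a0| * v1 ≤ 2 * (K * Y) * K := by
    rw [abs_mul, mul_assoc]
    calc |s1 - s0| * (|a0| * v1) ≤ |s1 - s0| * (K * v2) := mul_le_mul_of_nonneg_left ha0 (abs_nonneg _)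
      _ = |s1 - s0| * v2 * K := by ring
      _ ≤ _ := mul_le_mul_of_nonneg_right hσv hK0.le
  have i3 : |c1 - c0| * v1 ≤ 2 * (ε * (Λ * Y)) := by
    calc |c1 - c0| * v1 ≤ (|c1| + |c0|) * v1 := mul_le_mul_of_nonneg_right (abs_sub _ _) hv1.le
      _ = |c1| * v1 + |c0| * v1 := by ring
      _ ≤ _ := by linarith
  have i4 : |p11 * α'| * v1 ≤ K * Y := by
    refine (mul_le_mul_of_nonneg_right (abs_mul_le_one h11 le_rfl) hv1.le).trans hα'
  have i5 : |p12 * β'| * v1 ≤ 6 * K ^ 2 * Y + 2 * (ε * (Λ * Y)) := by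
    have : |p12 * β'| ≤ |s1 * α| + |(s1 - s0) * a0| + |c1 - c0| + |p11 * α'| := by
      rw [e1]
      exact (abs_sub _ _).trans (add_le_add (abs_add3 le_rfl le_rfl le_rfl) le_rfl)
    calc |p12 * β'| * v1 ≤ (|s1 * α| + |(s1 - s0) * a0| + |c1 - c0| + |p11 * α'|) * v1 :=
          mul_le_mul_of_nonneg_right this hv1.le
      _ = |s1 * α| * v1 + |(s1 - s0) * a0| * v1 + |c1 - c0| * v1 + |p11 * α'| * v1 := by ring
      _ ≤ 3 * K * (K * Y) + 2 * (K * Y) * K + 2 * (ε * (Λ * Y)) + K * Y := by linarith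
      _ ≤ _ := by
        have h1 : K * Y ≤ K * (K * Y) := le_mul_of_one_le_left (by positivity) hK
        have h2 : 6 * K ^ 2 * Y = 6 * (K * (K * Y)) := by ring
        linarith
  -- (ii)
  have i6 : Λ * v2 ≤ 2 * K ^ 2 * (|p12| * v1) := by
    have hK12 : K ≤ K ^ 2 := by
      have := mul_le_mul_of_nonneg_left hK hK0.le
      rw [sq]; linarith
    rcases ht with ht | ht
    · have h1 : p10 = s0 * a0 + c0 - p11 * a0' - p12 * b0' := by linarith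
      have hs0 : |s0| ≤ 3 * K := by
        rw [E00]
        refine (abs_add3 h00 (abs_mul_le_one h01 (ba a0' ha0')) (abs_mul_le_one h02 hb0')).trans ?_
        linarith
      have h2 : |p10| ≤ |s0 * a0| + |c0| + |p11 * a0'| + |p12 * b0'| := by
        rw [h1]
        refine (abs_sub _ _).trans (add_le_add ((abs_sub _ _).trans
          (add_le_add (abs_add_le _ _) le_rfl)) le_rfl)
      have j1 : |s0 * a0| * v1 ≤ 3 * K * (K * v2) := by
        rw [abs_mul, mul_assoc]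
        exact mul_le_mul hs0 ha0 (by positivity) (by positivity)
      have j2 : |c0| * v1 ≤ ε * K * (Λ * v2) := by
        refine hc0.trans ?_
        calc ε * (Λ * Y) ≤ ε * (Λ * (K * v2)) := by gcongr
          _ = _ := by ring
      have j3 : |p11 * a0'| * v1 ≤ K * v2 :=
        (mul_le_mul_of_nonneg_right (abs_mul_le_one h11 le_rfl) hv1.le).trans ha0'
      have j4 : |p12 * b0'| * v1 ≤ K * (|p12| * v1) := by
        rw [abs_mul]
        calc |p12| * |b0'| * v1 ≤ |p12| * K * v1 := by gcongr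
          _ = _ := by ring
      have j5 : |p10| * v1 ≤ 3 * K * (K * v2) + ε * K * (Λ * v2) + K * v2 + K * (|p12| * v1) := by
        calc |p10| * v1 ≤ (|s0 * a0| + |c0| + |p11 * a0'| + |p12 * b0'|) * v1 :=
              mul_le_mul_of_nonneg_right h2 hv1.le
          _ = |s0 * a0| * v1 + |c0| * v1 + |p11 * a0'| * v1 + |p12 * b0'| * v1 := by ring
          _ ≤ _ := by linarith
      have j6 : Λ * v2 ≤ 4 * K ^ 3 * v2 + ε * K ^ 2 * (Λ * v2) + K ^ 2 * (|p12| * v1) := by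
        have h3 : K * (|p10| * v1) ≤ K * (3 * K * (K * v2) + ε * K * (Λ * v2) + K * v2 +
            K * (|p12| * v1)) := mul_le_mul_of_nonneg_left j5 hK0.le
        have h4 : K ^ 2 * v2 ≤ K ^ 3 * v2 :=
          mul_le_mul_of_nonneg_right (pow_le_pow_right₀ hK (by norm_num)) hv2.le
        have h5 : K * (3 * K * (K * v2) + ε * K * (Λ * v2) + K * v2 + K * (|p12| * v1)) =
          3 * K ^ 3 * v2 + ε * K ^ 2 * (Λ * v2) + K ^ 2 * v2 + K ^ 2 * (|p12| * v1) := by ring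
        linarith
      have j7 : 1500 * (K ^ 3 * v2) ≤ Λ * v2 := by
        have h3 : K ^ 3 ≤ K ^ 7 := pow_le_pow_right₀ hK (by norm_num)
        calc 1500 * (K ^ 3 * v2) = 1500 * K ^ 3 * v2 := by ring
          _ ≤ Λ * v2 := mul_le_mul_of_nonneg_right (by linarith) hv2.le
      have j8 : 500 * (ε * K ^ 2 * (Λ * v2)) ≤ Λ * v2 := by
        have h3 : K ^ 2 ≤ K ^ 5 := pow_le_pow_right₀ hK (by norm_num)
        have h4 : 500 * K ^ 2 * ε ≤ 500 * K ^ 5 * ε :=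
          mul_le_mul_of_nonneg_right (by linarith) hε
        calc 500 * (ε * K ^ 2 * (Λ * v2)) = 500 * K ^ 2 * ε * (Λ * v2) := by ring
          _ ≤ 1 * (Λ * v2) := mul_le_mul_of_nonneg_right (by linarith) (by positivity)
          _ = _ := one_mul _
      have h6 : 4 * K ^ 3 * v2 = 4 * (K ^ 3 * v2) := by ring
      have h7 : 2 * K ^ 2 * (|p12| * v1) = 2 * (K ^ 2 * (|p12| * v1)) := by ring
      have h8 : 0 < Λ * v2 := mul_pos hΛ0 hv2
      linarith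
    · have h1 : 0 ≤ |p12| * v1 := by positivity
      calc Λ * v2 ≤ K * (|p12| * v1) := ht
        _ ≤ K ^ 2 * (|p12| * v1) := mul_le_mul_of_nonneg_right hK12 h1
        _ ≤ 2 * K ^ 2 * (|p12| * v1) := by
          have : 0 ≤ K ^ 2 * (|p12| * v1) := by positivity
          linarith
  -- (iii)
  have k1 : |β'| * v2 * Λ ≤ 12 * K ^ 4 * Y + 4 * K ^ 2 * (ε * (Λ * Y)) := by
    calc |β'| * v2 * Λ = |β'| * (Λ * v2) := by ring
      _ ≤ |β'| * (2 * K ^ 2 * (|p12| * v1)) := mul_le_mul_of_nonneg_left i6 (abs_nonneg _)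
      _ = 2 * K ^ 2 * (|p12 * β'| * v1) := by rw [abs_mul]; ring
      _ ≤ 2 * K ^ 2 * (6 * K ^ 2 * Y + 2 * (ε * (Λ * Y))) :=
        mul_le_mul_of_nonneg_left i5 (by positivity)
      _ = _ := by ring
  have k2 : |α'| * v2 * Λ ≤ 2 * (K * Y) := by
    calc |α'| * v2 * Λ = |α'| * (Λ * v2) := by ring
      _ ≤ |α'| * (2 * v1) := mul_le_mul_of_nonneg_left hv (abs_nonneg _)
      _ = 2 * (|α'| * v1) := by ring
      _ ≤ _ := by linarith
  -- (iv)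
  have e2 : s1 * β = p21 * α' + p22 * β' - (s1 - s0) * b0 - (d1 - d0) := by
    have : p21 * α' + p22 * β' = s1 * b1 + d1 - (s0 * b0 + d0) := by rw [E12, E02, hαd', hβd']; ring
    rw [hβd]; linarith
  have k3 : |s1 * β| ≤ 2 * K * (|α'| + |β'|) + |d1 - d0| := by
    have h1 : |p21 * α' + p22 * β'| ≤ |α'| + |β'| :=
      (abs_add_le _ _).trans (add_le_add (abs_mul_le_one h21 le_rfl) (abs_mul_le_one h22 le_rfl))
    have h2 : |(s1 - s0) * b0| ≤ (|α'| + |β'|) * K := abs_mul_le hσ1 hb0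
    have h3 : |s1 * β| ≤ |p21 * α' + p22 * β'| + |(s1 - s0) * b0| + |d1 - d0| := by
      rw [e2]
      exact (abs_sub _ _).trans (add_le_add (abs_sub _ _) le_rfl)
    have h4 : |α'| + |β'| ≤ K * (|α'| + |β'|) := le_mul_of_one_le_left (by positivity) hK
    have h5 : 2 * K * (|α'| + |β'|) = K * (|α'| + |β'|) + (|α'| + |β'|) * K := by ring
    linarith
  have k4 : |d1 - d0| * v2 * Λ ≤ 2 * (ε * (Λ * Y)) := by
    have h1 : |d1 - d0| * v2 ≤ 2 * (ε * Y) := by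
      calc |d1 - d0| * v2 ≤ (|d1| + |d0|) * v2 := mul_le_mul_of_nonneg_right (abs_sub _ _) hv2.le
        _ = |d1| * v2 + |d0| * v2 := by ring
        _ ≤ _ := by linarith
    calc |d1 - d0| * v2 * Λ ≤ 2 * (ε * Y) * Λ := mul_le_mul_of_nonneg_right h1 hΛ0.le
      _ = _ := by ring
  have k5 : |s1 * β| * v2 * Λ ≤ 28 * K ^ 5 * Y + 10 * K ^ 3 * (ε * (Λ * Y)) := by
    have h1 : |s1 * β| * v2 * Λ ≤ 2 * K * (|α'| * v2 * Λ + |β'| * v2 * Λ) + |d1 - d0| * v2 * Λ := by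
      calc |s1 * β| * v2 * Λ ≤ (2 * K * (|α'| + |β'|) + |d1 - d0|) * v2 * Λ := by gcongr
        _ = _ := by ring
    have h2 : 2 * K * (|α'| * v2 * Λ + |β'| * v2 * Λ) ≤
        2 * K * (2 * (K * Y) + (12 * K ^ 4 * Y + 4 * K ^ 2 * (ε * (Λ * Y)))) :=
      mul_le_mul_of_nonneg_left (by linarith) (by positivity)
    have h3 : 2 * K * (2 * (K * Y) + (12 * K ^ 4 * Y + 4 * K ^ 2 * (ε * (Λ * Y)))) =
      4 * (K ^ 2 * Y) + 24 * K ^ 5 * Y + 8 * K ^ 3 * (ε * (Λ * Y)) := by ring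
    have h4 : K ^ 2 * Y ≤ K ^ 5 * Y :=
      mul_le_mul_of_nonneg_right (pow_le_pow_right₀ hK (by norm_num)) hY.le
    have h5 : 0 ≤ ε * (Λ * Y) := by positivity
    have h6 : ε * (Λ * Y) ≤ K ^ 3 * (ε * (Λ * Y)) :=
      le_mul_of_one_le_left h5 (one_le_pow₀ hK)
    have h7 : 28 * K ^ 5 * Y = 4 * (K ^ 5 * Y) + 24 * K ^ 5 * Y := by ring
    have h8 : 10 * K ^ 3 * (ε * (Λ * Y)) = 2 * (K ^ 3 * (ε * (Λ * Y))) + 8 * K ^ 3 * (ε * (Λ * Y)) := by
      ring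
    linarith
  -- (v)
  have m1 : 1 ≤ 4 * K * |s1| := by
    have h1 : |c1| ≤ 2 * ε * K := by
      have h2 : |c1| * v1 ≤ 2 * ε * K * v1 := by
        calc |c1| * v1 ≤ ε * (Λ * Y) := hc1
          _ ≤ ε * (Λ * (K * v2)) := by gcongr
          _ = ε * K * (Λ * v2) := by ring
          _ ≤ ε * K * (2 * v1) := mul_le_mul_of_nonneg_left hv (by positivity)
          _ = _ := by ring
      exact le_of_mul_le_mul_right h2 hv1
    have h2 : |d1| ≤ ε * K := by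
      have h3 : |d1| * v2 ≤ ε * K * v2 := by
        calc |d1| * v2 ≤ ε * Y := hd1
          _ ≤ ε * (K * v2) := by gcongr
          _ = _ := by ring
      exact le_of_mul_le_mul_right h3 hv2
    have h3 : |p00 * s1 + p10 * (s1 * a1 + c1) + p20 * (s1 * b1 + d1)| ≤
        |s1| + (|s1| * K + 2 * ε * K) + (|s1| * K + ε * K) := by
      refine abs_add3 (abs_mul_le_one h00 le_rfl) (abs_mul_le_one h10 ?_) (abs_mul_le_one h20 ?_)
      · exact (abs_add_le _ _).trans (add_le_add (abs_mul_le le_rfl ba1) h1)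
      · exact (abs_add_le _ _).trans (add_le_add (abs_mul_le le_rfl hb1) h2)
    rw [F, abs_one] at h3
    have h4 : |s1| ≤ K * |s1| := le_mul_of_one_le_left (abs_nonneg _) hK
    have h5 : 500 * (ε * K) ≤ 1 := by
      have h6 : K ≤ K ^ 5 := by
        calc K = K ^ 1 := (pow_one K).symm
          _ ≤ K ^ 5 := pow_le_pow_right₀ hK (by norm_num)
      have h7 : 500 * K * ε ≤ 500 * K ^ 5 * ε := mul_le_mul_of_nonneg_right (by linarith) hε
      linarith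
    have h6 : 4 * K * |s1| = 4 * (K * |s1|) := by ring
    have h7 : |s1| * K = K * |s1| := mul_comm _ _
    have h8 : 2 * ε * K = 2 * (ε * K) := by ring
    have h9 : 0 ≤ K * |s1| := by positivity
    linarith
  -- conclusion
  have n1 : |β| * v2 * Λ ≤ 4 * K * (28 * K ^ 5 * Y + 10 * K ^ 3 * (ε * (Λ * Y))) := by
    have h0 : 0 ≤ |β| * v2 * Λ := by positivity
    calc |β| * v2 * Λ ≤ 4 * K * |s1| * (|β| * v2 * Λ) := le_mul_of_one_le_left h0 m1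
      _ = 4 * K * (|s1 * β| * v2 * Λ) := by rw [abs_mul]; ring
      _ ≤ _ := mul_le_mul_of_nonneg_left k5 (by positivity)
  have n2 : Λ * Y ≤ 112 * K ^ 7 * Y + 40 * K ^ 5 * ε * (Λ * Y) := by
    calc Λ * Y ≤ Λ * (K * (|β| * v2)) := mul_le_mul_of_nonneg_left hβ hΛ0.le
      _ = K * (|β| * v2 * Λ) := by ring
      _ ≤ K * (4 * K * (28 * K ^ 5 * Y + 10 * K ^ 3 * (ε * (Λ * Y)))) :=
        mul_le_mul_of_nonneg_left n1 hK0.le
      _ = _ := by ring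
  have n3 : 1500 * (K ^ 7 * Y) ≤ Λ * Y := by
    calc 1500 * (K ^ 7 * Y) = 1500 * K ^ 7 * Y := by ring
      _ ≤ Λ * Y := mul_le_mul_of_nonneg_right hΛ hY.le
  have n4 : 500 * K ^ 5 * ε * (Λ * Y) ≤ Λ * Y := by
    have h1 : 0 ≤ Λ * Y := by positivity
    calc 500 * K ^ 5 * ε * (Λ * Y) ≤ 1 * (Λ * Y) := mul_le_mul_of_nonneg_right hε1 h1
      _ = _ := one_mul _
  have n5 : 112 * K ^ 7 * Y = 112 * (K ^ 7 * Y) := by ring
  have n6 : 500 * K ^ 5 * ε * (Λ * Y) = 12.5 * (40 * K ^ 5 * ε * (Λ * Y)) := by ring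
  have n7 : 0 < Λ * Y := mul_pos hΛ0 hY
  linarith

/-- one vector read in the other frame, normalised -/
theorem expand_at {e' : Fin 3 → V3} (he' : Ortho e') (x N' : V3) (h : 0 < dt (e' 0) N') :
    dt x N' / dt (e' 0) N' = dt x (e' 0) + dt x (e' 1) * (dt (e' 1) N' / dt (e' 0) N') +
      dt x (e' 2) * (dt (e' 2) N' / dt (e' 0) N') := by
  rw [dt_expand he' x N']
  field_simp

/-- **vectors.** `N0, N1` the gradients of the sheet `S` at `ζ = 0, 1`, `N0', N1'` those of `S'`,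
`e`, `e'` the two plank frames. `πk = <e0, N> <ek, N'> - <e0, N'> <ek, N>`. -/
theorem strip_e {K Λ Y v1 v2 ε : ℝ} {e e' : Fin 3 → V3} {N0 N1 N0' N1' : V3}
    (he : Ortho e) (he' : Ortho e')
    (hK : 1 ≤ K) (hΛ : 192000 * K ^ 7 ≤ Λ) (hY : 0 < Y) (hv2 : 0 < v2) (hv : Λ * v2 ≤ 2 * v1)
    (hYv : Y ≤ K * v2) (hε : 0 ≤ ε) (hε1 : 64000 * K ^ 5 * ε ≤ 1)
    (z0 : 1 / 2 ≤ dt (e 0) N0) (z1 : 1 / 2 ≤ dt (e 0) N1)
    (z0' : 1 / 2 ≤ dt (e' 0) N0') (z1' : 1 / 2 ≤ dt (e' 0) N1')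
    (ha0 : |dt (e 1) N0| * v1 ≤ K * v2) (ha1 : |dt (e 1) N1| * v1 ≤ K * v2)
    (hb0 : |dt (e 2) N0| ≤ K) (hb1 : |dt (e 2) N1| ≤ K)
    (ha0' : |dt (e' 1) N0'| * v1 ≤ K * v2) (ha1' : |dt (e' 1) N1'| * v1 ≤ K * v2)
    (hb0' : |dt (e' 2) N0'| ≤ K) (hb1' : |dt (e' 2) N1'| ≤ K)
    (hα : |dt (e 1) N1 / dt (e 0) N1 - dt (e 1) N0 / dt (e 0) N0| * v1 ≤ 2 * K * Y)
    (hβ : Y ≤ 2 * K * (|dt (e 2) N1 / dt (e 0) N1 - dt (e 2) N0 / dt (e 0) N0| * v2))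
    (hα' : |dt (e' 1) N1' / dt (e' 0) N1' - dt (e' 1) N0' / dt (e' 0) N0'| * v1 ≤ 2 * K * Y)
    (hβ' : |dt (e' 2) N1' / dt (e' 0) N1' - dt (e' 2) N0' / dt (e' 0) N0'| * v2 ≤ 2 * K * Y)
    (ht : Λ * v2 ≤ 2 * K * (|dt (e 1) (e' 0)| * v1) ∨ Λ * v2 ≤ 2 * K * (|dt (e 1) (e' 2)| * v1)) :
    ε * Y ≤ max (|dt (e 0) N0 * dt (e 1) N0' - dt (e 0) N0' * dt (e 1) N0| * v1 / Λ)
        (|dt (e 0) N0 * dt (e 2) N0' - dt (e 0) N0' * dt (e 2) N0| * v2) ∨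
      ε * Y ≤ max (|dt (e 0) N1 * dt (e 1) N1' - dt (e 0) N1' * dt (e 1) N1| * v1 / Λ)
        (|dt (e 0) N1 * dt (e 2) N1' - dt (e 0) N1' * dt (e 2) N1| * v2) := by
  have hK0 : 0 < K := by linarith
  have hΛ0 : 0 < Λ := lt_of_lt_of_le (by positivity) hΛ
  have hv1 : 0 < v1 := by
    have := mul_pos hΛ0 hv2
    linarith
  by_contra hc
  simp only [not_or, not_le, max_lt_iff] at hc
  obtain ⟨⟨q1, q2⟩, q3, q4⟩ := hc
  have y0 : 0 < dt (e 0) N0 := by linarith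
  have y1 : 0 < dt (e 0) N1 := by linarith
  have y0' : 0 < dt (e' 0) N0' := by linarith
  have y1' : 0 < dt (e' 0) N1' := by linarith
  -- quotients
  have qa : ∀ x y X : ℝ, 1 / 2 ≤ y → 0 ≤ X → |x| * v1 ≤ X → |x / y| * v1 ≤ 2 * X := by
    intro x y X hy hX hx
    have hy0 : 0 < y := by linarith
    rw [abs_div, abs_of_pos hy0, div_mul_eq_mul_div, div_le_iff₀ hy0]
    nlinarith
  have qb : ∀ x y X : ℝ, 1 / 2 ≤ y → 0 ≤ X → |x| ≤ X → |x / y| ≤ 2 * X := by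
    intro x y X hy hX hx
    have hy0 : 0 < y := by linarith
    rw [abs_div, abs_of_pos hy0, div_le_iff₀ hy0]
    nlinarith
  -- the products `π` control `c`, `d`
  have qc : ∀ (k : Fin 3) (N N' : V3) (v X : ℝ), 0 < v → 1 / 2 ≤ dt (e 0) N →
      1 / 2 ≤ dt (e' 0) N' →
      |dt (e 0) N * dt (e k) N' - dt (e 0) N' * dt (e k) N| * v ≤ X →
      |dt (e k) N' / dt (e' 0) N' - dt (e 0) N' / dt (e' 0) N' * (dt (e k) N / dt (e 0) N)| * v ≤
        4 * X := by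
    intro k N N' v X hv0 h1 h2 h3
    have g1 : 0 < dt (e 0) N := by linarith
    have g2 : 0 < dt (e' 0) N' := by linarith
    have h4 : dt (e k) N' / dt (e' 0) N' - dt (e 0) N' / dt (e' 0) N' * (dt (e k) N / dt (e 0) N) =
        (dt (e 0) N * dt (e k) N' - dt (e 0) N' * dt (e k) N) / (dt (e' 0) N' * dt (e 0) N) := by
      field_simp
    rw [h4, abs_div, abs_of_pos (mul_pos g2 g1), div_mul_eq_mul_div, div_le_iff₀ (mul_pos g2 g1)]
    have h5 : 1 / 4 ≤ dt (e' 0) N' * dt (e 0) N := by nlinarith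
    have h6 : 0 ≤ X := le_trans (by positivity) h3
    nlinarith
  have hX : 0 ≤ K * v2 := by positivity
  have q1' : |dt (e 0) N0 * dt (e 1) N0' - dt (e 0) N0' * dt (e 1) N0| * v1 ≤ ε * Y * Λ := by
    have := q1.le
    rwa [div_le_iff₀ hΛ0] at this
  have q3' : |dt (e 0) N1 * dt (e 1) N1' - dt (e 0) N1' * dt (e 1) N1| * v1 ≤ ε * Y * Λ := by
    have := q3.le
    rwa [div_le_iff₀ hΛ0] at this
  have c0 := qc 1 N0 N0' v1 _ hv1 z0 z0' q1'
  have c1 := qc 1 N1 N1' v1 _ hv1 z1 z1' q3'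
  have d0 := qc 2 N0 N0' v2 _ hv2 z0 z0' q2.le
  have d1 := qc 2 N1 N1' v2 _ hv2 z1 z1' q4.le
  have F : dt (e 0) (e' 0) * (dt (e 0) N1' / dt (e' 0) N1') +
      dt (e 1) (e' 0) * (dt (e 0) N1' / dt (e' 0) N1' * (dt (e 1) N1 / dt (e 0) N1) +
        (dt (e 1) N1' / dt (e' 0) N1' - dt (e 0) N1' / dt (e' 0) N1' *
          (dt (e 1) N1 / dt (e 0) N1))) +
      dt (e 2) (e' 0) * (dt (e 0) N1' / dt (e' 0) N1' * (dt (e 2) N1 / dt (e 0) N1) +
        (dt (e 2) N1' / dt (e' 0) N1' - dt (e 0) N1' / dt (e' 0) N1' *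
          (dt (e 2) N1 / dt (e 0) N1))) = 1 := by
    have h1 := dt_expand he (e' 0) N1'
    rw [dt_comm (e' 0) (e 0), dt_comm (e' 0) (e 1), dt_comm (e' 0) (e 2)] at h1
    rw [add_sub_cancel, add_sub_cancel]
    have h2 : dt (e 0) (e' 0) * (dt (e 0) N1' / dt (e' 0) N1') +
        dt (e 1) (e' 0) * (dt (e 1) N1' / dt (e' 0) N1') +
        dt (e 2) (e' 0) * (dt (e 2) N1' / dt (e' 0) N1') =
        (dt (e 0) (e' 0) * dt (e 0) N1' + dt (e 1) (e' 0) * dt (e 1) N1' +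
          dt (e 2) (e' 0) * dt (e 2) N1') / dt (e' 0) N1' := by ring
    rw [h2, ← h1, div_self y1'.ne']
  exact strip_num (K := 2 * K) (Λ := Λ) (Y := Y) (v1 := v1) (v2 := v2) (ε := 4 * ε)
    (p00 := dt (e 0) (e' 0)) (p01 := dt (e 0) (e' 1)) (p02 := dt (e 0) (e' 2))
    (p10 := dt (e 1) (e' 0)) (p11 := dt (e 1) (e' 1)) (p12 := dt (e 1) (e' 2))
    (p20 := dt (e 2) (e' 0)) (p21 := dt (e 2) (e' 1)) (p22 := dt (e 2) (e' 2))
    (a0 := dt (e 1) N0 / dt (e 0) N0) (b0 := dt (e 2) N0 / dt (e 0) N0)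
    (a1 := dt (e 1) N1 / dt (e 0) N1) (b1 := dt (e 2) N1 / dt (e 0) N1)
    (a0' := dt (e' 1) N0' / dt (e' 0) N0') (b0' := dt (e' 2) N0' / dt (e' 0) N0')
    (a1' := dt (e' 1) N1' / dt (e' 0) N1') (b1' := dt (e' 2) N1' / dt (e' 0) N1')
    (s0 := dt (e 0) N0' / dt (e' 0) N0') (s1 := dt (e 0) N1' / dt (e' 0) N1')
    (c0 := dt (e 1) N0' / dt (e' 0) N0' - dt (e 0) N0' / dt (e' 0) N0' * (dt (e 1) N0 / dt (e 0) N0))
    (d0 := dt (e 2) N0' / dt (e' 0) N0' - dt (e 0) N0' / dt (e' 0) N0' * (dt (e 2) N0 / dt (e 0) N0))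
    (c1 := dt (e 1) N1' / dt (e' 0) N1' - dt (e 0) N1' / dt (e' 0) N1' * (dt (e 1) N1 / dt (e 0) N1))
    (d1 := dt (e 2) N1' / dt (e' 0) N1' - dt (e 0) N1' / dt (e' 0) N1' * (dt (e 2) N1 / dt (e 0) N1))
    (by linarith) (by nlinarith [pow_pos hK0 7]) hY hv2 hv (by nlinarith) (by linarith)
    (by nlinarith [pow_pos hK0 5])
    (abs_dt_le_one he' he 0 0) (abs_dt_le_one he' he 0 1) (abs_dt_le_one he' he 0 2)
    (abs_dt_le_one he' he 1 0) (abs_dt_le_one he' he 1 1)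
    (abs_dt_le_one he' he 2 0) (abs_dt_le_one he' he 2 1) (abs_dt_le_one he' he 2 2)
    ((qa _ _ _ z0 hX ha0).trans_eq (by ring)) ((qa _ _ _ z1 hX ha1).trans_eq (by ring))
    (qb _ _ _ z0 hK0.le hb0) (qb _ _ _ z1 hK0.le hb1)
    ((qa _ _ _ z0' hX ha0').trans_eq (by ring)) ((qa _ _ _ z1' hX ha1').trans_eq (by ring))
    (qb _ _ _ z0' hK0.le hb0') (qb _ _ _ z1' hK0.le hb1')
    (expand_at he' (e 0) N0' y0') (expand_at he' (e 0) N1' y1')
    (by rw [add_sub_cancel]; exact expand_at he' (e 1) N0' y0')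
    (by rw [add_sub_cancel]; exact expand_at he' (e 1) N1' y1')
    (by rw [add_sub_cancel]; exact expand_at he' (e 2) N0' y0')
    (by rw [add_sub_cancel]; exact expand_at he' (e 2) N1' y1')
    F hα hβ hα' hβ' ht (c0.trans_eq (by ring)) (c1.trans_eq (by ring)) (d0.trans_eq (by ring))
    (d1.trans_eq (by ring))

/-- `strip_e` for gradients given as functions of `ζ` -/
theorem strip_z {K Λ Y v1 v2 ε : ℝ} {e e' : Fin 3 → V3} {N N' : ℝ → V3}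
    (he : Ortho e) (he' : Ortho e')
    (hK : 1 ≤ K) (hΛ : 192000 * K ^ 7 ≤ Λ) (hY : 0 < Y) (hv2 : 0 < v2) (hv : Λ * v2 ≤ 2 * v1)
    (hYv : Y ≤ K * v2) (hε : 0 ≤ ε) (hε1 : 64000 * K ^ 5 * ε ≤ 1)
    (hN : ∀ ζ : ℝ, ζ = 0 ∨ ζ = 1 → 1 / 2 ≤ dt (e 0) (N ζ) ∧ |dt (e 1) (N ζ)| * v1 ≤ K * v2 ∧
      |dt (e 2) (N ζ)| ≤ K)
    (hN' : ∀ ζ : ℝ, ζ = 0 ∨ ζ = 1 → 1 / 2 ≤ dt (e' 0) (N' ζ) ∧
      |dt (e' 1) (N' ζ)| * v1 ≤ K * v2 ∧ |dt (e' 2) (N' ζ)| ≤ K)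
    (hα : |dt (e 1) (N 1) / dt (e 0) (N 1) - dt (e 1) (N 0) / dt (e 0) (N 0)| * v1 ≤ 2 * K * Y)
    (hβ : Y ≤ 2 * K * (|dt (e 2) (N 1) / dt (e 0) (N 1) - dt (e 2) (N 0) / dt (e 0) (N 0)| * v2))
    (hα' : |dt (e' 1) (N' 1) / dt (e' 0) (N' 1) - dt (e' 1) (N' 0) / dt (e' 0) (N' 0)| * v1 ≤
      2 * K * Y)
    (hβ' : |dt (e' 2) (N' 1) / dt (e' 0) (N' 1) - dt (e' 2) (N' 0) / dt (e' 0) (N' 0)| * v2 ≤
      2 * K * Y)
    (ht : Λ * v2 ≤ 2 * K * (|dt (e 1) (e' 0)| * v1) ∨ Λ * v2 ≤ 2 * K * (|dt (e 1) (e' 2)| * v1)) :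
    ∃ ζ : ℝ, (ζ = 0 ∨ ζ = 1) ∧
      ε * Y ≤ max (|dt (e 0) (N ζ) * dt (e 1) (N' ζ) - dt (e 0) (N' ζ) * dt (e 1) (N ζ)| * v1 / Λ)
        (|dt (e 0) (N ζ) * dt (e 2) (N' ζ) - dt (e 0) (N' ζ) * dt (e 2) (N ζ)| * v2) := by
  obtain ⟨z0, ha0, hb0⟩ := hN 0 (Or.inl rfl)
  obtain ⟨z1, ha1, hb1⟩ := hN 1 (Or.inr rfl)
  obtain ⟨z0', ha0', hb0'⟩ := hN' 0 (Or.inl rfl)
  obtain ⟨z1', ha1', hb1'⟩ := hN' 1 (Or.inr rfl)
  rcases strip_e he he' hK hΛ hY hv2 hv hYv hε hε1 z0 z1 z0' z1' ha0 ha1 hb0 hb1 ha0' ha1' hb0'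
    hb1' hα hβ hα' hβ' ht with h | h
  · exact ⟨0, Or.inl rfl, h⟩
  · exact ⟨1, Or.inr rfl, h⟩

end Crest.Agent.R136.Mlo723
end

-- ▼ part R136/Mlr_723
section

/-!
# R136 (S0187), PLAN 2, B4: lower bound of the gradient of a pair, large base tilt, raw form
(helper723)

`gr S z0 ρ T ζ` : gradient of the sheet `S` at the line `T`, height `z0 + ρ ζ`.
`mlow_j` : `W ^ 46 ≤ 2 ^ j` ⊢ at `ζ = 0` or `ζ = 1` the gradient of the pair is large.
-/

set_option autoImplicit false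
set_option linter.unusedVariables false

open Finset

namespace Crest.Agent.R136.Mlr723

open Crest.Agent.R136.Sh605 Crest.Agent.R136.Fl808 Crest.Agent.R136.Mlo723
open Crest.Agent.R136.K4 (Plk4)
open Crest.Agent.R136.Tlt51 (Shp InP)
open Crest.Agent.R136.KapP335 (kapP expP DetP expP_spec)
open Crest.Agent.R136.Tl102 (NrmC IsExp StP shB1 kap scB1 QF)
open Crest.Agent.R136.Pl2
open Crest.Agent.R136.Pl2W102 (Near Ex2 Two1)
open Crest.Agent.R136.Mlt89 (cv dt_cv0 dt_cv1 dt_cv2)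
open Crest.Agent.R136.Shd410 (ShD)

/-- gradient of the sheet `S` at the height `z0 + ρ ζ` of its line `T` -/
noncomputable def gr (S : Plk4) (z0 ρ : ℝ) (T : Ln4) (ζ : ℝ) : V3 :=
  cv S.e S.w (fun k => (expP S z0 ρ T).1 k + ζ * (expP S z0 ρ T).2.1 k)

/-- the coefficients of a sheet at one of its lines are normalised -/
theorem nrm {S : Plk4} {T : Ln4} {z0 ρ r : ℝ} (hr : 0 < r) (hρ : 0 < ρ) (hS : Shp S z0 ρ r)
    (hT : InP T S z0 ρ) : NrmC (expP S z0 ρ T).1 (expP S z0 ρ T).2.1 (expP S z0 ρ T).2.2 := by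
  have hw0 : 0 < S.w 0 := (hr.trans_le hS.r0_le).trans_le hS.a_le0
  exact (expP_spec hS.isQ hw0.ne' z0 ρ T).nrmC (StP.of_shN hS hw0) hρ.le
    (fun z h1 h2 => (hT z h1 h2).1)

/-- sizes of the gradient at the two ends -/
theorem gr_le {S : Plk4} {T : Ln4} {z0 ρ r : ℝ} (hr : 0 < r) (hρ : 0 < ρ) (hS : Shp S z0 ρ r)
    (hT : InP T S z0 ρ) {ζ : ℝ} (hζ : ζ = 0 ∨ ζ = 1) :
    1 / 2 ≤ dt (S.e 0) (gr S z0 ρ T ζ) ∧ dt (S.e 0) (gr S z0 ρ T ζ) ≤ 2 ∧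
      |dt (S.e 1) (gr S z0 ρ T ζ)| * S.w 1 ≤ S.w 0 ∧
      |dt (S.e 2) (gr S z0 ρ T ζ)| * S.w 2 ≤ S.w 0 := by
  have hw0 : 0 < S.w 0 := (hr.trans_le hS.r0_le).trans_le hS.a_le0
  have hw2 : 0 < S.w 2 := hw0.trans_le hS.w0_le
  have hw1 : 0 < S.w 1 := hw2.trans_le hS.w_le
  have N := nrm hr hρ hS hT
  have z1 : 0 ≤ ζ := by rcases hζ with h | h <;> rw [h]; norm_num
  have z2 : ζ ≤ 1 := by rcases hζ with h | h <;> rw [h]; norm_num
  have s := N.st ζ z1 z2 0 0 0 (by norm_num) (by norm_num) (by norm_num)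
  simp only [mul_zero, add_zero] at s
  have h1 : |(expP S z0 ρ T).1 1 + ζ * (expP S z0 ρ T).2.1 1| ≤ 1 := by
    rcases hζ with h | h <;> rw [h]
    · simpa using N.b01
    · simpa using N.b11
  have h2 : |(expP S z0 ρ T).1 2 + ζ * (expP S z0 ρ T).2.1 2| ≤ 1 := by
    rcases hζ with h | h <;> rw [h]
    · simpa using N.b02
    · simpa using N.b12
  unfold gr
  rw [dt_cv0 hS.ortho hw0.ne', dt_cv1 hS.ortho, dt_cv2 hS.ortho]
  refine ⟨s.1, s.2, ?_, ?_⟩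
  · rw [abs_mul, abs_of_pos (div_pos hw0 hw1), mul_right_comm, div_mul_cancel₀ _ hw1.ne']
    exact mul_le_of_le_one_right hw0.le h1
  · rw [abs_mul, abs_of_pos (div_pos hw0 hw2), mul_right_comm, div_mul_cancel₀ _ hw2.ne']
    exact mul_le_of_le_one_right hw0.le h2

/-- rotation of the normalised gradient over the cell, exact -/
theorem gr_rot {S : Plk4} {T : Ln4} {z0 ρ r : ℝ} (hr : 0 < r) (hρ : 0 < ρ) (hS : Shp S z0 ρ r)
    (hT : InP T S z0 ρ) :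
    (∀ k : Fin 3, k = 1 ∨ k = 2 →
      (dt (S.e k) (gr S z0 ρ T 1) / dt (S.e 0) (gr S z0 ρ T 1) -
        dt (S.e k) (gr S z0 ρ T 0) / dt (S.e 0) (gr S z0 ρ T 0)) * S.w k =
        S.w 0 * shB1 (expP S z0 ρ T).1 (expP S z0 ρ T).2.1 k / dt (S.e 0) (gr S z0 ρ T 1)) := by
  have hw0 : 0 < S.w 0 := (hr.trans_le hS.r0_le).trans_le hS.a_le0
  have hw2 : 0 < S.w 2 := hw0.trans_le hS.w0_le
  have hw1 : 0 < S.w 1 := hw2.trans_le hS.w_le
  obtain ⟨p0, -⟩ := gr_le hr hρ hS hT (ζ := 0) (Or.inl rfl)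
  obtain ⟨p1, -⟩ := gr_le hr hρ hS hT (ζ := 1) (Or.inr rfl)
  unfold gr at p0 p1 ⊢
  rw [dt_cv0 hS.ortho hw0.ne'] at p0 p1
  have q0 : (expP S z0 ρ T).1 0 ≠ 0 := by
    have : (0:ℝ) < (expP S z0 ρ T).1 0 := by linarith
    exact this.ne'
  have q1 : (expP S z0 ρ T).1 0 + (expP S z0 ρ T).2.1 0 ≠ 0 := by
    have : (0:ℝ) < (expP S z0 ρ T).1 0 + (expP S z0 ρ T).2.1 0 := by linarith
    exact this.ne'
  intro k hk
  rcases hk with hk | hk <;> subst hk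
  · rw [dt_cv0 hS.ortho hw0.ne', dt_cv0 hS.ortho hw0.ne', dt_cv1 hS.ortho, dt_cv1 hS.ortho]
    simp only [shB1, Matrix.cons_val_one, Matrix.cons_val_zero, one_mul, zero_mul, add_zero]
    field_simp
    ring
  · rw [dt_cv0 hS.ortho hw0.ne', dt_cv0 hS.ortho hw0.ne', dt_cv2 hS.ortho, dt_cv2 hS.ortho]
    simp only [shB1, Matrix.cons_val, one_mul, zero_mul, add_zero]
    field_simp
    ring

theorem absm (x : ℝ) {w : ℝ} (hw : 0 < w) : |x| * w = |x * w| := by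
  rw [abs_mul, abs_of_pos hw]

/-- upper bound of the rotation -/
theorem gr_rot_le {S : Plk4} {T : Ln4} {z0 ρ r : ℝ} (hr : 0 < r) (hρ : 0 < ρ)
    (hS : Shp S z0 ρ r) (hT : InP T S z0 ρ) {k : Fin 3} (hk : k = 1 ∨ k = 2) :
    |dt (S.e k) (gr S z0 ρ T 1) / dt (S.e 0) (gr S z0 ρ T 1) -
      dt (S.e k) (gr S z0 ρ T 0) / dt (S.e 0) (gr S z0 ρ T 0)| * S.w k ≤ 2 * kp S z0 ρ T := by
  have hw0 : 0 < S.w 0 := (hr.trans_le hS.r0_le).trans_le hS.a_le0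
  have hw2 : 0 < S.w 2 := hw0.trans_le hS.w0_le
  have hw1 : 0 < S.w 1 := hw2.trans_le hS.w_le
  have hwk : 0 < S.w k := by rcases hk with h | h <;> subst h <;> assumption
  obtain ⟨p1, -⟩ := gr_le hr hρ hS hT (ζ := 1) (Or.inr rfl)
  have hp : 0 < dt (S.e 0) (gr S z0 ρ T 1) := by linarith
  have hκ : |shB1 (expP S z0 ρ T).1 (expP S z0 ρ T).2.1 k| ≤
      kap (expP S z0 ρ T).1 (expP S z0 ρ T).2.1 (expP S z0 ρ T).2.2 := by
    rcases hk with h | h <;> subst h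
    · exact (le_max_left _ _).trans (le_max_left _ _)
    · exact (le_max_right _ _).trans (le_max_left _ _)
  rw [absm _ hwk, gr_rot hr hρ hS hT k hk, abs_div, abs_of_pos hp, abs_mul, abs_of_pos hw0,
    div_le_iff₀ hp]
  have h1 : kp S z0 ρ T =
    S.w 0 * kap (expP S z0 ρ T).1 (expP S z0 ρ T).2.1 (expP S z0 ρ T).2.2 := rfl
  have h2 : 0 ≤ kap (expP S z0 ρ T).1 (expP S z0 ρ T).2.1 (expP S z0 ρ T).2.2 :=
    (abs_nonneg _).trans hκ
  rw [h1]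
  calc S.w 0 * |shB1 (expP S z0 ρ T).1 (expP S z0 ρ T).2.1 k| ≤
      S.w 0 * kap (expP S z0 ρ T).1 (expP S z0 ρ T).2.1 (expP S z0 ρ T).2.2 :=
        mul_le_mul_of_nonneg_left hκ hw0.le
    _ ≤ _ := by
      have h3 := mul_nonneg hw0.le h2
      nlinarith

/-- lower bound of the rotation along the second axis -/
theorem le_gr_rot {S : Plk4} {T : Ln4} {z0 ρ r W : ℝ} (hr : 0 < r) (hρ : 0 < ρ)
    (hS : Shp S z0 ρ r) (hT : InP T S z0 ρ) (hW : 0 < W) (hrot : 1 / W ≤ rot2 S z0 ρ T) :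
    kp S z0 ρ T ≤ 2 * W * (|dt (S.e 2) (gr S z0 ρ T 1) / dt (S.e 0) (gr S z0 ρ T 1) -
      dt (S.e 2) (gr S z0 ρ T 0) / dt (S.e 0) (gr S z0 ρ T 0)| * S.w 2) := by
  have hw0 : 0 < S.w 0 := (hr.trans_le hS.r0_le).trans_le hS.a_le0
  have hw2 : 0 < S.w 2 := hw0.trans_le hS.w0_le
  obtain ⟨p1, p2, -⟩ := gr_le hr hρ hS hT (ζ := 1) (Or.inr rfl)
  have hp : 0 < dt (S.e 0) (gr S z0 ρ T 1) := by linarith
  have h1 : kp S z0 ρ T =
    S.w 0 * kap (expP S z0 ρ T).1 (expP S z0 ρ T).2.1 (expP S z0 ρ T).2.2 := rfl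
  have hκ0 := Tl102.kap_nonneg (expP S z0 ρ T).1 (expP S z0 ρ T).2.1 (expP S z0 ρ T).2.2
  have h2 : kap (expP S z0 ρ T).1 (expP S z0 ρ T).2.1 (expP S z0 ρ T).2.2 ≤
      W * |shB1 (expP S z0 ρ T).1 (expP S z0 ρ T).2.1 2| := by
    rcases hκ0.eq_or_lt with h | h
    · rw [← h]; positivity
    · have h1 := hrot
      unfold rot2 at h1
      simp only [scB1, Matrix.cons_val] at h1
      rw [abs_div, abs_of_pos h, div_le_div_iff₀ hW h] at h1
      linarith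
  rw [absm _ hw2, gr_rot hr hρ hS hT 2 (Or.inr rfl), abs_div, abs_of_pos hp, abs_mul,
    abs_of_pos hw0, h1]
  have h3 : S.w 0 * |shB1 (expP S z0 ρ T).1 (expP S z0 ρ T).2.1 2| ≤
      2 * (S.w 0 * |shB1 (expP S z0 ρ T).1 (expP S z0 ρ T).2.1 2| /
        dt (S.e 0) (gr S z0 ρ T 1)) := by
    rw [← mul_div_assoc, le_div_iff₀ hp, mul_comm]
    exact mul_le_mul_of_nonneg_right p2 (by positivity)
  calc S.w 0 * kap (expP S z0 ρ T).1 (expP S z0 ρ T).2.1 (expP S z0 ρ T).2.2 ≤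
      S.w 0 * (W * |shB1 (expP S z0 ρ T).1 (expP S z0 ρ T).2.1 2|) :=
        mul_le_mul_of_nonneg_left h2 hw0.le
    _ = W * (S.w 0 * |shB1 (expP S z0 ρ T).1 (expP S z0 ρ T).2.1 2|) := by ring
    _ ≤ W * (2 * (S.w 0 * |shB1 (expP S z0 ρ T).1 (expP S z0 ρ T).2.1 2| /
        dt (S.e 0) (gr S z0 ρ T 1))) := mul_le_mul_of_nonneg_left h3 hW.le
    _ = _ := by ring

/-- **M bound, case of a large base tilt** -/
theorem mlow_j {K : ℝ} {qm qp : Fin 3 → ℝ} {L : ℕ → Ln4} {Z : Finset ℕ} {S S' : Plk4}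
    {f g : Fin 3 → V3} {W M a Y w1 w2 z0 ρ r : ℝ} {j k' : ℕ}
    (H : ShD K qm qp L Z S S' f g W M a Y w1 w2 z0 ρ r j k') {s : ℕ} (hs : s ∈ Z)
    (hj : W ^ 46 ≤ (2:ℝ) ^ j) :
    ∃ ζ : ℝ, (ζ = 0 ∨ ζ = 1) ∧
      Y ≤ W ^ 36 * max
        (|dt (S.e 0) (gr S z0 ρ (L s) ζ) * dt (S.e 1) (gr S' z0 ρ (L s) ζ) -
          dt (S.e 0) (gr S' z0 ρ (L s) ζ) * dt (S.e 1) (gr S z0 ρ (L s) ζ)| * (w1 / 2 ^ j))
        (|dt (S.e 0) (gr S z0 ρ (L s) ζ) * dt (S.e 2) (gr S' z0 ρ (L s) ζ) -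
          dt (S.e 0) (gr S' z0 ρ (L s) ζ) * dt (S.e 2) (gr S z0 ρ (L s) ζ)| * w2) := by
  have hW := H.W2
  have hW0 : 0 < W := by linarith
  have hW1 : 1 ≤ W := by linarith
  have hY : 0 < Y := H.a0.trans_le H.aY
  have hw2 : 0 < w2 := hY.trans_le H.Yw
  have hw1 : 0 < w1 := hw2.trans_le H.ww
  have hS := H.shS
  have hS' := H.shS'
  have hT := H.inS s hs
  have hT' := H.inS' s hs
  have hr := H.r0
  have hρ := H.ρ0
  have u0 : 0 < S.w 0 := (hr.trans_le hS.r0_le).trans_le hS.a_le0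
  have u2 : 0 < S.w 2 := u0.trans_le hS.w0_le
  have u1 : 0 < S.w 1 := u2.trans_le hS.w_le
  have u0' : 0 < S'.w 0 := (hr.trans_le hS'.r0_le).trans_le hS'.a_le0
  have u2' : 0 < S'.w 2 := u0'.trans_le hS'.w0_le
  have u1' : 0 < S'.w 1 := u2'.trans_le hS'.w_le
  have hlw : (2:ℝ) ^ j * w2 ≤ 2 * w1 := Dy.hlw H.dy H.hF.ortho H.hG.ortho hY H.Yw H.ww
  have p1 : W ^ 1 ≤ W ^ 4 := pow_le_pow_right₀ hW1 (by norm_num)
  have p2 : W ^ 2 ≤ W ^ 4 := pow_le_pow_right₀ hW1 (by norm_num)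
  -- sizes
  have sz : ∀ (U : Plk4), Shp U z0 ρ r → InP (L s) U z0 ρ → Near W w1 (U.w 1) →
      Near W w2 (U.w 2) → ∀ ζ : ℝ, ζ = 0 ∨ ζ = 1 → 1 / 2 ≤ dt (U.e 0) (gr U z0 ρ (L s) ζ) ∧
        |dt (U.e 1) (gr U z0 ρ (L s) ζ)| * w1 ≤ W ^ 4 * w2 ∧
        |dt (U.e 2) (gr U z0 ρ (L s) ζ)| ≤ W ^ 4 := by
    intro U hU hTU n1 n2 ζ hζ
    obtain ⟨q1, -, q3, q4⟩ := gr_le hr hρ hU hTU hζ
    have v0 : 0 < U.w 0 := (hr.trans_le hU.r0_le).trans_le hU.a_le0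
    have v2 : 0 < U.w 2 := v0.trans_le hU.w0_le
    refine ⟨q1, ?_, ?_⟩
    · calc |dt (U.e 1) (gr U z0 ρ (L s) ζ)| * w1 ≤
          |dt (U.e 1) (gr U z0 ρ (L s) ζ)| * (W * U.w 1) :=
            mul_le_mul_of_nonneg_left n1.1 (abs_nonneg _)
        _ = W * (|dt (U.e 1) (gr U z0 ρ (L s) ζ)| * U.w 1) := by ring
        _ ≤ W * U.w 0 := mul_le_mul_of_nonneg_left q3 hW0.le
        _ ≤ W * (W * w2) := mul_le_mul_of_nonneg_left (hU.w0_le.trans n2.2) hW0.le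
        _ = W ^ 2 * w2 := by ring
        _ ≤ W ^ 4 * w2 := mul_le_mul_of_nonneg_right p2 hw2.le
    · have h1 : |dt (U.e 2) (gr U z0 ρ (L s) ζ)| * U.w 2 ≤ 1 * U.w 2 := by
        rw [one_mul]; exact q4.trans hU.w0_le
      have h2 := le_of_mul_le_mul_right h1 v2
      have h3 : (1:ℝ) ≤ W ^ 4 := one_le_pow₀ hW1
      linarith
  -- upper bounds of the rotations
  have ru : ∀ (U : Plk4), Shp U z0 ρ r → InP (L s) U z0 ρ → Near W w1 (U.w 1) →
      Near W w2 (U.w 2) → kp U z0 ρ (L s) ≤ 4 * Y → 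
      |dt (U.e 1) (gr U z0 ρ (L s) 1) / dt (U.e 0) (gr U z0 ρ (L s) 1) -
        dt (U.e 1) (gr U z0 ρ (L s) 0) / dt (U.e 0) (gr U z0 ρ (L s) 0)| * w1 ≤ 2 * W ^ 4 * Y ∧
      |dt (U.e 2) (gr U z0 ρ (L s) 1) / dt (U.e 0) (gr U z0 ρ (L s) 1) -
        dt (U.e 2) (gr U z0 ρ (L s) 0) / dt (U.e 0) (gr U z0 ρ (L s) 0)| * w2 ≤ 2 * W ^ 4 * Y := by
    intro U hU hTU n1 n2 hk
    have a1 := gr_rot_le hr hρ hU hTU (k := 1) (Or.inl rfl)
    have a2 := gr_rot_le hr hρ hU hTU (k := 2) (Or.inr rfl)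
    have h8 : 8 * W ≤ 2 * W ^ 4 := by
      have : (2:ℝ) ^ 3 ≤ W ^ 3 := pow_le_pow_left₀ (by norm_num) hW 3
      have h : W ^ 4 = W ^ 3 * W := by ring
      nlinarith
    constructor
    · calc _ ≤ |dt (U.e 1) (gr U z0 ρ (L s) 1) / dt (U.e 0) (gr U z0 ρ (L s) 1) -
            dt (U.e 1) (gr U z0 ρ (L s) 0) / dt (U.e 0) (gr U z0 ρ (L s) 0)| * (W * U.w 1) :=
              mul_le_mul_of_nonneg_left n1.1 (abs_nonneg _)
        _ = W * (|dt (U.e 1) (gr U z0 ρ (L s) 1) / dt (U.e 0) (gr U z0 ρ (L s) 1) -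
            dt (U.e 1) (gr U z0 ρ (L s) 0) / dt (U.e 0) (gr U z0 ρ (L s) 0)| * U.w 1) := by ring
        _ ≤ W * (2 * (4 * Y)) := mul_le_mul_of_nonneg_left (by linarith) hW0.le
        _ = 8 * W * Y := by ring
        _ ≤ _ := mul_le_mul_of_nonneg_right h8 hY.le
    · calc _ ≤ |dt (U.e 2) (gr U z0 ρ (L s) 1) / dt (U.e 0) (gr U z0 ρ (L s) 1) -
            dt (U.e 2) (gr U z0 ρ (L s) 0) / dt (U.e 0) (gr U z0 ρ (L s) 0)| * (W * U.w 2) :=
              mul_le_mul_of_nonneg_left n2.1 (abs_nonneg _)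
        _ = W * (|dt (U.e 2) (gr U z0 ρ (L s) 1) / dt (U.e 0) (gr U z0 ρ (L s) 1) -
            dt (U.e 2) (gr U z0 ρ (L s) 0) / dt (U.e 0) (gr U z0 ρ (L s) 0)| * U.w 2) := by ring
        _ ≤ W * (2 * (4 * Y)) := mul_le_mul_of_nonneg_left (by linarith) hW0.le
        _ = 8 * W * Y := by ring
        _ ≤ _ := mul_le_mul_of_nonneg_right h8 hY.le
  obtain ⟨r1, r2⟩ := ru S hS hT H.d1 H.d2 (H.near s hs).2
  obtain ⟨r1', r2'⟩ := ru S' hS' hT' H.d1' H.d2' ((H.le s hs).trans (H.near s hs).2)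
  -- powers
  have big : (2:ℝ) ^ 18 ≤ W ^ 18 := pow_le_pow_left₀ (by norm_num) hW 18
  have big' : (2:ℝ) ^ 16 ≤ W ^ 16 := pow_le_pow_left₀ (by norm_num) hW 16
  have hΛ : 192000 * (W ^ 4) ^ 7 ≤ (2:ℝ) ^ j := by
    refine le_trans ?_ hj
    calc 192000 * (W ^ 4) ^ 7 ≤ W ^ 18 * (W ^ 4) ^ 7 :=
          mul_le_mul_of_nonneg_right (by norm_num at big; linarith) (by positivity)
      _ = W ^ 46 := by ring
  have hε : 64000 * (W ^ 4) ^ 5 * (1 / W ^ 36) ≤ 1 := by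
    rw [mul_one_div, div_le_one (by positivity)]
    calc 64000 * (W ^ 4) ^ 5 ≤ W ^ 16 * (W ^ 4) ^ 5 :=
          mul_le_mul_of_nonneg_right (by norm_num at big'; linarith) (by positivity)
      _ = W ^ 36 := by ring
  have hj3 : 32 * W ^ 3 ≤ (2:ℝ) ^ j := by
    refine le_trans ?_ hj
    calc 32 * W ^ 3 ≤ W ^ 18 * W ^ 3 :=
          mul_le_mul_of_nonneg_right (by norm_num at big; linarith) (by positivity)
      _ = W ^ 21 := by ring
      _ ≤ W ^ 46 := pow_le_pow_right₀ hW1 (by norm_num)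
  -- the sheet `S` is narrow
  have nar : W * S.w 2 ≤ S.w 1 := by
    have h1 : (2:ℝ) ^ j * S.w 2 ≤ 2 * W ^ 2 * S.w 1 := by
      calc (2:ℝ) ^ j * S.w 2 ≤ 2 ^ j * (W * w2) := mul_le_mul_of_nonneg_left H.d2.2 (by positivity)
        _ = W * (2 ^ j * w2) := by ring
        _ ≤ W * (2 * w1) := mul_le_mul_of_nonneg_left hlw hW0.le
        _ = 2 * W * w1 := by ring
        _ ≤ 2 * W * (W * S.w 1) := mul_le_mul_of_nonneg_left H.d1.1 (by positivity)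
        _ = _ := by ring
    have h2 : 32 * W ^ 3 * S.w 2 ≤ 2 * W ^ 2 * S.w 1 :=
      (mul_le_mul_of_nonneg_right hj3 u2.le).trans h1
    have h3 : 2 * W ^ 2 * (16 * (W * S.w 2)) ≤ 2 * W ^ 2 * S.w 1 := by
      calc 2 * W ^ 2 * (16 * (W * S.w 2)) = 32 * W ^ 3 * S.w 2 := by ring
        _ ≤ _ := h2
    have h4 := le_of_mul_le_mul_left h3 (by positivity)
    have h5 : 0 < W * S.w 2 := mul_pos hW0 u2
    linarith
  have hβ : Y ≤ 2 * W ^ 4 * (|dt (S.e 2) (gr S z0 ρ (L s) 1) / dt (S.e 0) (gr S z0 ρ (L s) 1) -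
      dt (S.e 2) (gr S z0 ρ (L s) 0) / dt (S.e 0) (gr S z0 ρ (L s) 0)| * w2) := by
    have h1 := le_gr_rot hr hρ hS hT hW0 (H.rot s hs nar)
    set x := |dt (S.e 2) (gr S z0 ρ (L s) 1) / dt (S.e 0) (gr S z0 ρ (L s) 1) -
      dt (S.e 2) (gr S z0 ρ (L s) 0) / dt (S.e 0) (gr S z0 ρ (L s) 0)| with hx
    have hx0 : 0 ≤ x := abs_nonneg _
    calc Y ≤ 4 * kp S z0 ρ (L s) := (H.near s hs).1
      _ ≤ 4 * (2 * W * (x * S.w 2)) := by linarith
      _ ≤ 4 * (2 * W * (x * (W * w2))) := by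
        have := H.d2.2
        gcongr
      _ = 2 * (4 * W ^ 2) * (x * w2) := by ring
      _ ≤ 2 * W ^ 4 * (x * w2) := by
        have h4 : (2:ℝ) ^ 2 ≤ W ^ 2 := pow_le_pow_left₀ (by norm_num) hW 2
        have h5 : 4 * W ^ 2 ≤ W ^ 4 := by
          calc 4 * W ^ 2 ≤ W ^ 2 * W ^ 2 :=
                mul_le_mul_of_nonneg_right (by norm_num at h4; linarith) (by positivity)
            _ = W ^ 4 := by ring
        have h6 : 0 ≤ x * w2 := by positivity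
        exact mul_le_mul_of_nonneg_right (by linarith) h6
  -- tilt
  obtain ⟨t1, -⟩ := Tpl706.tilt_plank hw1 hw2 hW1 H.hF H.hG H.d1 H.d2 H.d1' H.d2' hS.ortho
    hS'.ortho H.dy
  have t2 := t1 hj3
  have h4W : 8 ≤ 2 * W ^ 4 := by
    have : (2:ℝ) ^ 4 ≤ W ^ 4 := pow_le_pow_left₀ (by norm_num) hW 4
    norm_num at this; linarith
  have ht : (2:ℝ) ^ j * w2 ≤ 2 * W ^ 4 * (|dt (S.e 1) (S'.e 0)| * w1) ∨
      (2:ℝ) ^ j * w2 ≤ 2 * W ^ 4 * (|dt (S.e 1) (S'.e 2)| * w1) := by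
    rcases max_choice |dt (S.e 1) (S'.e 0)| |dt (S.e 1) (S'.e 2)| with h | h
    · left
      rw [h] at t2
      refine t2.trans ?_
      rw [mul_comm w1]
      exact mul_le_mul_of_nonneg_right h4W (by positivity)
    · right
      rw [h] at t2
      refine t2.trans ?_
      rw [mul_comm w1]
      exact mul_le_mul_of_nonneg_right h4W (by positivity)
  have hYv : Y ≤ W ^ 4 * w2 := H.Yw.trans (le_mul_of_one_le_left hw2.le (one_le_pow₀ hW1))
  obtain ⟨ζ, hζ, h⟩ := strip_z (N := gr S z0 ρ (L s)) (N' := gr S' z0 ρ (L s)) (ε := 1 / W ^ 36)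
    (K := W ^ 4) (Λ := 2 ^ j) (Y := Y) (v1 := w1) (v2 := w2) hS.ortho hS'.ortho
    (one_le_pow₀ hW1) hΛ hY hw2 hlw hYv (by positivity) hε (sz S hS hT H.d1 H.d2)
    (sz S' hS' hT' H.d1' H.d2') r1 hβ r1' r2' ht
  refine ⟨ζ, hζ, ?_⟩
  rw [one_div, inv_mul_le_iff₀ (by positivity)] at h
  rw [← mul_div_assoc]
  exact h

end Crest.Agent.R136.Mlr723
end

-- ▼ part R136/Mlo_777
section

/-!
# R136 (S0187), PLAN 2, leaf B4: the gradient minors of a tilted pair of flat boxes (helper777)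

`tilt_low` : two conormals `n`, `n'`, adapted to the frames `f`, `g` of flat boxes `Y × w1 × w2`
whose tilt is `(2^j, 2^k')` (`Dy`), have 2x2-minors of size `2^k' Y` :
`2^k' Y ≤ C K^6 (|π 1| w1 / 2^j + |π 2| w2 + Y)`.
-/

set_option autoImplicit false
set_option linter.unusedVariables false

namespace Crest.Agent.R136.Mlo777

open Finset Crest.Agent.R136.Sh605 Crest.Agent.R136.Fl808 Crest.Agent.R136.Hl706

theorem dt_cr_self (n n' : V3) : dt n (cr n n') = 0 := by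
  simp only [cr, dt, Matrix.cons_val_zero, Matrix.cons_val_one, Matrix.cons_val]; ring

theorem det3_eq (a b c : V3) : det3 a b c = dt a (cr b c) := by
  simp only [det3, cr, dt, Matrix.cons_val_zero, Matrix.cons_val_one, Matrix.cons_val]; ring

/-- swap of the axes `1`, `2` -/
theorem ortho_swap {e : Fin 3 → V3} (h : Ortho e) : Ortho ![e 0, e 2, e 1] := by
  have h00 := h 0 0
  have h01 := h 0 1
  have h02 := h 0 2
  have h10 := h 1 0
  have h11 := h 1 1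
  have h12 := h 1 2
  have h20 := h 2 0
  have h21 := h 2 1
  have h22 := h 2 2
  simp only [if_true, Fin.isValue, Fin.reduceEq, if_false, zero_ne_one, one_ne_zero] at h00 h01 h02 h10 h11 h12 h20 h21 h22
  intro i j
  fin_cases i <;> fin_cases j <;>
    simp only [Fin.zero_eta, Fin.mk_one, Fin.reduceFinMk, Matrix.cons_val_zero,
      Matrix.cons_val_one, Matrix.cons_val, h00, h01, h02, h10,
      h11, h12, h20, h21, h22, if_true, Fin.isValue, Fin.reduceEq, if_false, zero_ne_one,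
      one_ne_zero]

/-- `D (e 1)` is the minor of the axes `0, 2` -/
theorem D1 {e : Fin 3 → V3} (h : Ortho e) (n n' : V3) :
    |dt (e 1) (cr n n')| = |dt (e 0) n * dt (e 2) n' - dt (e 0) n' * dt (e 2) n| := by
  rw [← det3_eq, det3_frame h, sh]
  rw [← abs_neg]; congr 1; ring

/-- `D (e 2)` is the minor of the axes `0, 1` -/
theorem D2 {e : Fin 3 → V3} (h : Ortho e) (n n' : V3) :
    |dt (e 2) (cr n n')| = |dt (e 0) n * dt (e 1) n' - dt (e 0) n' * dt (e 1) n| :=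
  D1 (ortho_swap h) n n'

/-- `D (e 0)` by the other two minors, if `n` is adapted to the box of `e` -/
theorem D0_le {e : Fin 3 → V3} (h : Ortho e) {n n' : V3} {K Y w1 w2 : ℝ} (hK : 1 ≤ K)
    (h0 : 1 ≤ K * |dt (e 0) n|) (h1 : |dt (e 1) n| * w1 ≤ K * Y) (h2 : |dt (e 2) n| * w2 ≤ K * Y)
    (hw1 : 0 < w1) (hw2 : 0 < w2) :
    |dt (e 0) (cr n n')| * (w1 * w2) ≤
      K ^ 2 * Y * (|dt (e 1) (cr n n')| * w2 + |dt (e 2) (cr n n')| * w1) := by
  have hx := dt_expand h n (cr n n')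
  rw [dt_cr_self, dt_comm n (e 0), dt_comm n (e 1), dt_comm n (e 2)] at hx
  set d0 := dt (e 0) (cr n n')
  set d1 := dt (e 1) (cr n n')
  set d2 := dt (e 2) (cr n n')
  have e1 : |dt (e 0) n| * |d0| ≤ |dt (e 1) n| * |d1| + |dt (e 2) n| * |d2| := by
    rw [← abs_mul, ← abs_mul, ← abs_mul]
    have : dt (e 0) n * d0 = -(dt (e 1) n * d1 + dt (e 2) n * d2) := by linarith
    rw [this, abs_neg]; exact abs_add_le _ _
  have e2 : |d0| ≤ K * (|dt (e 1) n| * |d1| + |dt (e 2) n| * |d2|) := by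
    have a1 : |d0| ≤ (K * |dt (e 0) n|) * |d0| := by nlinarith [abs_nonneg d0]
    nlinarith
  have e3 : |dt (e 1) n| * |d1| * (w1 * w2) ≤ K * Y * (|d1| * w2) := by
    have := mul_le_mul_of_nonneg_right h1 (mul_nonneg (abs_nonneg d1) hw2.le)
    nlinarith
  have e4 : |dt (e 2) n| * |d2| * (w1 * w2) ≤ K * Y * (|d2| * w1) := by
    have := mul_le_mul_of_nonneg_right h2 (mul_nonneg (abs_nonneg d2) hw1.le)
    nlinarith
  have e5 : |d0| * (w1 * w2) ≤ K * (|dt (e 1) n| * |d1| + |dt (e 2) n| * |d2|) * (w1 * w2) :=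
    mul_le_mul_of_nonneg_right e2 (by positivity)
  nlinarith

theorem aux_a {M R0 R1 R2 P0 P1 P2 s E Y K : ℝ} (hs : 0 < s) (hK : 1 ≤ K) (hY : 0 < Y)
    (hM : M = R0 * P0 + R1 * P1 + R2 * P2) (hR : E * Y ≤ 2 * (|R0| * s))
    (h1 : |R1| * |P1| * s ≤ 2 * K * Y) (h2 : |R2| * |P2| * s ≤ 2 * K * Y) (hP : 1 ≤ K * |P0|) :
    E * Y ≤ 2 * K * (|M| * s) + 8 * K ^ 2 * Y := by
  have e1 : |R0| * |P0| ≤ |M| + |R1| * |P1| + |R2| * |P2| := by
    rw [← abs_mul, ← abs_mul, ← abs_mul]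
    have : R0 * P0 = M - R1 * P1 - R2 * P2 := by linarith
    rw [this]
    exact (abs_sub _ _).trans (add_le_add (abs_sub _ _) le_rfl)
  have e2 : |R0| ≤ K * (|R0| * |P0|) := by nlinarith [abs_nonneg R0]
  have e3 : |R0| * s ≤ K * ((|M| + |R1| * |P1| + |R2| * |P2|) * s) := by
    have a1 : |R0| * s ≤ K * (|R0| * |P0|) * s := mul_le_mul_of_nonneg_right e2 hs.le
    have a2 : (|R0| * |P0|) * s ≤ (|M| + |R1| * |P1| + |R2| * |P2|) * s :=
      mul_le_mul_of_nonneg_right e1 hs.le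
    have a3 := mul_le_mul_of_nonneg_left a2 (zero_le_one.trans hK)
    nlinarith
  have e4 : K * ((|M| + |R1| * |P1| + |R2| * |P2|) * s) ≤ K * (|M| * s + 4 * K * Y) := by
    refine mul_le_mul_of_nonneg_left ?_ (zero_le_one.trans hK)
    linarith
  nlinarith

theorem aux_b {A0 Ak B0 Bk s Y K : ℝ} (hs : 0 < s) (hK : 1 ≤ K) (hY : 0 < Y)
    (hA : 1 ≤ K * |A0|) (hB : |B0| ≤ 3 * K) (hk : |Ak| * s ≤ K * Y) :
    |Bk| * s ≤ K * (|A0 * Bk - B0 * Ak| * s) + 3 * K ^ 3 * Y := by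
  have e1 : |A0| * |Bk| ≤ |A0 * Bk - B0 * Ak| + |B0| * |Ak| := by
    rw [← abs_mul, ← abs_mul]
    have : A0 * Bk = (A0 * Bk - B0 * Ak) + B0 * Ak := by ring
    calc |A0 * Bk| = |(A0 * Bk - B0 * Ak) + B0 * Ak| := by rw [← this]
      _ ≤ _ := abs_add_le _ _
  have e2 : |Bk| ≤ K * (|A0| * |Bk|) := by nlinarith [abs_nonneg Bk]
  have e3 : |B0| * |Ak| * s ≤ 3 * K * (K * Y) := by
    have a1 : |B0| * (|Ak| * s) ≤ 3 * K * (K * Y) :=
      mul_le_mul hB hk (by positivity) (by positivity)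
    nlinarith
  have e4 : |Bk| * s ≤ K * ((|A0 * Bk - B0 * Ak| + |B0| * |Ak|) * s) := by
    have a1 : |Bk| * s ≤ K * (|A0| * |Bk|) * s := mul_le_mul_of_nonneg_right e2 hs.le
    have a2 : (|A0| * |Bk|) * s ≤ (|A0 * Bk - B0 * Ak| + |B0| * |Ak|) * s :=
      mul_le_mul_of_nonneg_right e1 hs.le
    have a3 := mul_le_mul_of_nonneg_left a2 (zero_le_one.trans hK)
    nlinarith
  have e5 : K * ((|A0 * Bk - B0 * Ak| + |B0| * |Ak|) * s) ≤
      K * (|A0 * Bk - B0 * Ak| * s + 3 * K * (K * Y)) := by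
    refine mul_le_mul_of_nonneg_left ?_ (zero_le_one.trans hK)
    linarith
  nlinarith

theorem aux_c {M R0 R1 R2 P0 P1 P2 A0 Ak B0 s E Y K : ℝ} (hs : 0 < s) (hK : 1 ≤ K) (hY : 0 < Y)
    (hM : M = R0 * P0 + R1 * P1 + R2 * P2) (hR : E * Y ≤ 2 * (|R0| * s))
    (h1 : |R1| * |P1| * s ≤ 2 * K * Y) (h2 : |R2| * |P2| * s ≤ 2 * K * Y) (hP : 1 ≤ K * |P0|)
    (hA : 1 ≤ K * |A0|) (hB : |B0| ≤ 3 * K) (hk : |Ak| * s ≤ K * Y) :
    E * Y ≤ 14 * K ^ 4 * (|A0 * M - B0 * Ak| * s + Y) := by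
  have e1 := aux_a hs hK hY hM hR h1 h2 hP
  have e2 := aux_b (Bk := M) hs hK hY hA hB hk
  have e3 : 2 * K * (|M| * s) ≤ 2 * K * (K * (|A0 * M - B0 * Ak| * s) + 3 * K ^ 3 * Y) :=
    mul_le_mul_of_nonneg_left e2 (by positivity)
  have hπ : 0 ≤ |A0 * M - B0 * Ak| * s := by positivity
  have hK2 : K ^ 2 ≤ K ^ 4 := pow_le_pow_right₀ hK (by norm_num)
  have e4 : K ^ 2 * (|A0 * M - B0 * Ak| * s) ≤ K ^ 4 * (|A0 * M - B0 * Ak| * s) :=
    mul_le_mul_of_nonneg_right hK2 hπ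
  have e5 : K ^ 2 * Y ≤ K ^ 4 * Y := mul_le_mul_of_nonneg_right hK2 hY.le
  have e6 : 0 ≤ K ^ 4 * (|A0 * M - B0 * Ak| * s) := by positivity
  nlinarith

/-- the first coordinate of an adapted conormal in another frame -/
theorem c0_le {f g : Fin 3 → V3} (hf : Ortho f) (hg : Ortho g) {Y w1 w2 : ℝ}
    (hY : 0 < Y) (hYw : Y ≤ w2) (hw : w2 ≤ w1) {K : ℝ} (hK : 1 ≤ K) {n : V3}
    (n0' : |dt (f 0) n| ≤ K)
    (n1 : |dt (f 1) n| * w1 ≤ K * Y) (n2 : |dt (f 2) n| * w2 ≤ K * Y) :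
    |dt (g 0) n| ≤ 3 * K := by
  have hw2 : 0 < w2 := hY.trans_le hYw
  have hw1 : 0 < w1 := hw2.trans_le hw
  have h1 : |dt (f 1) n| ≤ K := by
    have : |dt (f 1) n| * w1 ≤ K * w1 := n1.trans (by nlinarith)
    exact le_of_mul_le_mul_right this hw1
  have h2 : |dt (f 2) n| ≤ K := by
    have : |dt (f 2) n| * w2 ≤ K * w2 := n2.trans (by nlinarith)
    exact le_of_mul_le_mul_right this hw2
  have h := comp_le hf (g 0) n0' h1 h2
  have a0 := abs_dt_le_one hf hg 0 0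
  have a1 := abs_dt_le_one hf hg 0 1
  have a2 := abs_dt_le_one hf hg 0 2
  nlinarith

theorem fin_aux {x S1 Y K : ℝ} (hK : 1 ≤ K) (hY : 0 < Y) (hS : 0 ≤ S1) (hx : x ≤ 4 * K ^ 2 * S1) :
    14 * K ^ 4 * (x + Y) ≤ 56 * K ^ 6 * (S1 + Y) := by
  have hK6 : K ^ 4 ≤ K ^ 6 := pow_le_pow_right₀ hK (by norm_num)
  have a1 : 14 * K ^ 4 * (x + Y) ≤ 14 * K ^ 4 * (4 * K ^ 2 * S1 + Y) := by
    refine mul_le_mul_of_nonneg_left (by linarith) (by positivity)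
  have a2 : 14 * K ^ 4 * (4 * K ^ 2 * S1 + Y) = 56 * K ^ 6 * S1 + 14 * (K ^ 4 * Y) := by ring
  have a3 : K ^ 4 * Y ≤ K ^ 6 * Y := mul_le_mul_of_nonneg_right hK6 hY.le
  have a4 : 0 ≤ K ^ 6 * Y := by positivity
  nlinarith

/-- the minor of `g 0, g 1` by those of `f` -/
theorem g2_aux {D d0 d1 d2 R20 R21 R22 Λ w1 w2 Y K : ℝ} (hK : 1 ≤ K) (hY : 0 < Y) (hYw : Y ≤ w2)
    (hw : w2 ≤ w1) (hΛ : 1 ≤ Λ) (h : D = R20 * d0 + R21 * d1 + R22 * d2) (h20 : |R20| ≤ 1)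
    (h21 : |R21| * w1 ≤ Λ * w2) (h22 : |R22| ≤ 1)
    (h0 : |d0| * (w1 * w2) ≤ K ^ 2 * Y * (|d1| * w2 + |d2| * w1)) :
    |D| * (w1 / Λ) ≤ 4 * K ^ 2 * (|d2| * (w1 / Λ) + |d1| * w2) := by
  have hw2 : 0 < w2 := hY.trans_le hYw
  have hw1 : 0 < w1 := hw2.trans_le hw
  have hΛ0 : 0 < Λ := by linarith
  have hK2 : 1 ≤ K ^ 2 := one_le_pow₀ hK
  have e0 : |d0| * w1 ≤ K ^ 2 * (|d1| * w2 + |d2| * w1) := by
    refine le_of_mul_le_mul_right (a := w2) ?_ hw2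
    have : K ^ 2 * Y * (|d1| * w2 + |d2| * w1) ≤ K ^ 2 * w2 * (|d1| * w2 + |d2| * w1) := by
      gcongr
    nlinarith
  have e1 : |D| ≤ |R20| * |d0| + |R21| * |d1| + |R22| * |d2| := by
    rw [h, ← abs_mul, ← abs_mul, ← abs_mul]
    exact (abs_add_le _ _).trans (add_le_add (abs_add_le _ _) le_rfl)
  have e2 : |D| * w1 ≤ |d0| * w1 + Λ * w2 * |d1| + |d2| * w1 := by
    have a1 : |R20| * |d0| ≤ |d0| := by nlinarith [abs_nonneg d0]
    have a2 : |R22| * |d2| ≤ |d2| := by nlinarith [abs_nonneg d2]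
    have a3 := mul_le_mul_of_nonneg_right h21 (abs_nonneg d1)
    have a4 := mul_le_mul_of_nonneg_right e1 hw1.le
    nlinarith
  have e3 : |D| * w1 ≤ 2 * K ^ 2 * (Λ * (|d1| * w2) + |d2| * w1) := by
    have a1 : 0 ≤ |d1| * w2 := by positivity
    have a2 : 0 ≤ |d2| * w1 := by positivity
    have a3 : |d1| * w2 ≤ Λ * (|d1| * w2) := by nlinarith
    have a4 : K ^ 2 * (|d1| * w2) ≤ K ^ 2 * (Λ * (|d1| * w2)) := by gcongr
    have a5 : Λ * (|d1| * w2) ≤ K ^ 2 * (Λ * (|d1| * w2)) := by nlinarith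
    have a6 : |d2| * w1 ≤ K ^ 2 * (|d2| * w1) := by nlinarith
    nlinarith
  have e4 : |D| * (w1 / Λ) = |D| * w1 / Λ := by ring
  have e5 : |d2| * (w1 / Λ) + |d1| * w2 = (Λ * (|d1| * w2) + |d2| * w1) / Λ := by
    field_simp; ring
  rw [e4, e5, ← mul_div_assoc]
  refine div_le_div_of_nonneg_right ?_ hΛ0.le
  have : 0 ≤ K ^ 2 * (Λ * (|d1| * w2) + |d2| * w1) := by positivity
  linarith

/-- the minor of `g 0, g 2` by those of `f` -/
theorem g1_aux {D d0 d1 d2 R10 R11 R12 Λ w1 w2 Y K : ℝ} (hK : 1 ≤ K) (hY : 0 < Y) (hYw : Y ≤ w2)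
    (hw : w2 ≤ w1) (hΛ : 1 ≤ Λ) (hlw : Λ * w2 ≤ 2 * w1) (h : D = R10 * d0 + R11 * d1 + R12 * d2)
    (h10 : |R10| ≤ 1) (h11 : |R11| ≤ 1) (h12 : |R12| ≤ 1)
    (h0 : |d0| * (w1 * w2) ≤ K ^ 2 * Y * (|d1| * w2 + |d2| * w1)) :
    |D| * w2 ≤ 4 * K ^ 2 * (|d2| * (w1 / Λ) + |d1| * w2) := by
  have hw2 : 0 < w2 := hY.trans_le hYw
  have hw1 : 0 < w1 := hw2.trans_le hw
  have hΛ0 : 0 < Λ := by linarith
  have hK2 : 1 ≤ K ^ 2 := one_le_pow₀ hK
  have hl : w2 ≤ 2 * (w1 / Λ) := by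
    rw [← mul_div_assoc, le_div_iff₀ hΛ0]; linarith
  have e0 : |d0| * w2 ≤ K ^ 2 * (|d1| * w2 + |d2| * w2) := by
    refine le_of_mul_le_mul_right (a := w1) ?_ hw1
    have b1 : Y * (|d1| * w2) ≤ w1 * (|d1| * w2) := by
      refine mul_le_mul_of_nonneg_right (by linarith) (by positivity)
    have b2 : Y * (|d2| * w1) ≤ w1 * (|d2| * w2) := by
      have := mul_le_mul_of_nonneg_right hYw (show 0 ≤ |d2| * w1 by positivity)
      nlinarith
    have b3 : K ^ 2 * (Y * (|d1| * w2) + Y * (|d2| * w1)) ≤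
        K ^ 2 * (w1 * (|d1| * w2) + w1 * (|d2| * w2)) := by gcongr
    nlinarith
  have e1 : |D| ≤ |R10| * |d0| + |R11| * |d1| + |R12| * |d2| := by
    rw [h, ← abs_mul, ← abs_mul, ← abs_mul]
    exact (abs_add_le _ _).trans (add_le_add (abs_add_le _ _) le_rfl)
  have e2 : |D| * w2 ≤ (|d0| + |d1| + |d2|) * w2 := by
    have a1 : |R10| * |d0| ≤ |d0| := by nlinarith [abs_nonneg d0]
    have a2 : |R12| * |d2| ≤ |d2| := by nlinarith [abs_nonneg d2]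
    have a3 : |R11| * |d1| ≤ |d1| := by nlinarith [abs_nonneg d1]
    exact mul_le_mul_of_nonneg_right (by linarith) hw2.le
  have e3 : |d2| * w2 ≤ 2 * (|d2| * (w1 / Λ)) := by
    have := mul_le_mul_of_nonneg_left hl (abs_nonneg d2)
    linarith
  have a1 : 0 ≤ |d1| * w2 := by positivity
  have a2 : 0 ≤ |d2| * (w1 / Λ) := by positivity
  have a3 : |D| * w2 ≤ 2 * K ^ 2 * (|d1| * w2 + |d2| * w2) := by
    have a4 : |d1| * w2 + |d2| * w2 ≤ K ^ 2 * (|d1| * w2 + |d2| * w2) :=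
      le_mul_of_one_le_left (by positivity) hK2
    linarith
  have a5 : 2 * K ^ 2 * (|d1| * w2 + |d2| * w2) ≤ 2 * K ^ 2 * (|d1| * w2 + 2 * (|d2| * (w1 / Λ))) := by
    gcongr
  have a6 : 0 ≤ K ^ 2 * (|d1| * w2) := by positivity
  linarith

theorem prod_le {R P w s Y K : ℝ} (hP : |P| * w ≤ K * Y) (hRs : |R| * s ≤ 2 * w) :
    |R| * |P| * s ≤ 2 * K * Y := by
  have h1 := mul_le_mul_of_nonneg_right hRs (abs_nonneg P)
  linarith

/-- **the gradient minors of a tilted pair.** -/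
theorem tilt_low {f g : Fin 3 → V3} (hf : Ortho f) (hg : Ortho g) {Y w1 w2 : ℝ} {j k' : ℕ}
    (hY : 0 < Y) (hYw : Y ≤ w2) (hw : w2 ≤ w1) (H : Dy f g Y w1 w2 j k') {K : ℝ} (hK : 1 ≤ K)
    {n n' : V3} (n0 : 1 ≤ K * |dt (f 0) n|) (n0' : |dt (f 0) n| ≤ K)
    (n1 : |dt (f 1) n| * w1 ≤ K * Y) (n2 : |dt (f 2) n| * w2 ≤ K * Y)
    (m0 : 1 ≤ K * |dt (g 0) n'|) (m0' : |dt (g 0) n'| ≤ K)
    (m1 : |dt (g 1) n'| * w1 ≤ K * Y) (m2 : |dt (g 2) n'| * w2 ≤ K * Y) :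
    2 ^ k' * Y ≤ 56 * K ^ 6 *
      (|dt (f 0) n * dt (f 1) n' - dt (f 0) n' * dt (f 1) n| * (w1 / 2 ^ j) +
        |dt (f 0) n * dt (f 2) n' - dt (f 0) n' * dt (f 2) n| * w2 + Y) := by
  have hw2 : 0 < w2 := hY.trans_le hYw
  have hw1 : 0 < w1 := hw2.trans_le hw
  have hΛ0 : (0:ℝ) < 2 ^ j := by positivity
  have hΛ1 : (1:ℝ) ≤ 2 ^ j := one_le_pow₀ (by norm_num)
  have hlw := H.hlw hf hg hY hYw hw
  have hD1 := D1 hf n n'
  have hD2 := D2 hf n n'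
  have hs : (0:ℝ) < w1 / 2 ^ j := by positivity
  have hsw : w1 / 2 ^ j ≤ w1 := div_le_self hw1.le hΛ1
  have hS0 : 0 ≤ |dt (f 2) (cr n n')| * (w1 / 2 ^ j) + |dt (f 1) (cr n n')| * w2 := by positivity
  have hbig : ∀ x : ℝ, 0 ≤ x → x ≤ 4 * K ^ 2 * x := fun x hx =>
    le_mul_of_one_le_left hx (by have := one_le_pow₀ hK (n := 2); linarith)
  rw [← hD1, ← hD2]
  have key : ∀ x : ℝ, x ≤ 4 * K ^ 2 * (|dt (f 2) (cr n n')| * (w1 / 2 ^ j) +
      |dt (f 1) (cr n n')| * w2) → 2 ^ k' * Y ≤ 14 * K ^ 4 * (x + Y) → 2 ^ k' * Y ≤ 56 * K ^ 6 *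
      (|dt (f 2) (cr n n')| * (w1 / 2 ^ j) + |dt (f 1) (cr n n')| * w2 + Y) :=
    fun x hx h => h.trans (fin_aux hK hY hS0 hx)
  rcases H.tlo with h | h | h | h | h
  · -- k' = 0
    refine key 0 (by positivity) ?_
    rw [h, pow_zero, one_mul, zero_add]
    have a1 : (1:ℝ) ≤ 14 * K ^ 4 := by have := one_le_pow₀ hK (n := 4); linarith
    exact le_mul_of_one_le_left hY.le a1
  · -- R10
    have hD := g2_aux hK hY hYw hw hΛ1 (dt_expand hf (g 2) (cr n n')) (abs_dt_le_one hf hg 2 0)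
      H.b21 (abs_dt_le_one hf hg 2 2) (D0_le hf hK n0 n1 n2 hw1 hw2)
    refine key _ hD ?_
    rw [D2 hg n n']
    have hM := dt_expand hf (g 1) n
    have hR : 2 ^ k' * Y ≤ 2 * (|dt (g 1) (f 0)| * (w1 / 2 ^ j)) := by
      have e1 : 2 * (|dt (g 1) (f 0)| * (w1 / 2 ^ j)) = 2 * (|dt (g 1) (f 0)| * w1) / 2 ^ j := by
        ring
      rw [e1, le_div_iff₀ hΛ0]; linarith
    have h1 : |dt (g 1) (f 1)| * |dt (f 1) n| * (w1 / 2 ^ j) ≤ 2 * K * Y := by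
      refine prod_le n1 ?_
      have := abs_dt_le_one hf hg 1 1
      nlinarith
    have h2 : |dt (g 1) (f 2)| * |dt (f 2) n| * (w1 / 2 ^ j) ≤ 2 * K * Y := by
      refine prod_le n2 ?_
      have := H.b12 hf hg hY hYw hw
      have e1 : |dt (g 1) (f 2)| * (w1 / 2 ^ j) = |dt (g 1) (f 2)| * w1 / 2 ^ j := by ring
      rw [e1, div_le_iff₀ hΛ0]; linarith
    have m1s : |dt (g 1) n'| * (w1 / 2 ^ j) ≤ K * Y :=
      (mul_le_mul_of_nonneg_left hsw (abs_nonneg _)).trans m1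
    have := aux_c hs hK hY hM hR h1 h2 n0 m0 (c0_le hf hg hY hYw hw hK n0' n1 n2) m1s
    refine this.trans (le_of_eq ?_)
    rw [← abs_neg (dt (g 0) n' * dt (g 1) n - dt (g 0) n * dt (g 1) n')]
    congr 4
    ring
  · -- R20
    have hD := g1_aux hK hY hYw hw hΛ1 hlw (dt_expand hf (g 1) (cr n n'))
      (abs_dt_le_one hf hg 1 0) (abs_dt_le_one hf hg 1 1) (abs_dt_le_one hf hg 1 2)
      (D0_le hf hK n0 n1 n2 hw1 hw2)
    refine key _ hD ?_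
    rw [D1 hg n n']
    have hM := dt_expand hf (g 2) n
    have hR : 2 ^ k' * Y ≤ 2 * (|dt (g 2) (f 0)| * w2) := by
      refine le_of_mul_le_mul_left ?_ hΛ0
      linarith
    have h1 : |dt (g 2) (f 1)| * |dt (f 1) n| * w2 ≤ 2 * K * Y := by
      refine prod_le n1 ?_
      have := abs_dt_le_one hf hg 2 1
      nlinarith
    have h2 : |dt (g 2) (f 2)| * |dt (f 2) n| * w2 ≤ 2 * K * Y := by
      refine prod_le n2 ?_
      have := abs_dt_le_one hf hg 2 2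
      nlinarith
    have := aux_c hw2 hK hY hM hR h1 h2 n0 m0 (c0_le hf hg hY hYw hw hK n0' n1 n2) m2
    refine this.trans (le_of_eq ?_)
    rw [← abs_neg (dt (g 0) n' * dt (g 2) n - dt (g 0) n * dt (g 2) n')]
    congr 4
    ring
  · -- R01
    have hx : |dt (f 2) (cr n n')| * (w1 / 2 ^ j) ≤ 4 * K ^ 2 *
        (|dt (f 2) (cr n n')| * (w1 / 2 ^ j) + |dt (f 1) (cr n n')| * w2) := by
      refine le_trans ?_ (hbig _ hS0)
      have : 0 ≤ |dt (f 1) (cr n n')| * w2 := by positivity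
      linarith
    refine key _ hx ?_
    rw [hD2]
    have hM := dt_expand hg (f 1) n'
    rw [dt_comm (f 1) (g 0), dt_comm (f 1) (g 1), dt_comm (f 1) (g 2)] at hM
    have hR : 2 ^ k' * Y ≤ 2 * (|dt (g 0) (f 1)| * (w1 / 2 ^ j)) := by
      have e1 : 2 * (|dt (g 0) (f 1)| * (w1 / 2 ^ j)) = 2 * (|dt (g 0) (f 1)| * w1) / 2 ^ j := by
        ring
      rw [e1, le_div_iff₀ hΛ0]; linarith
    have h1 : |dt (g 1) (f 1)| * |dt (g 1) n'| * (w1 / 2 ^ j) ≤ 2 * K * Y := by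
      refine prod_le m1 ?_
      have := abs_dt_le_one hf hg 1 1
      nlinarith
    have h2 : |dt (g 2) (f 1)| * |dt (g 2) n'| * (w1 / 2 ^ j) ≤ 2 * K * Y := by
      refine prod_le m2 ?_
      have := H.b21
      have e1 : |dt (g 2) (f 1)| * (w1 / 2 ^ j) = |dt (g 2) (f 1)| * w1 / 2 ^ j := by ring
      rw [e1, div_le_iff₀ hΛ0]
      have : 0 ≤ 2 ^ j * w2 := by positivity
      linarith
    have n1s : |dt (f 1) n| * (w1 / 2 ^ j) ≤ K * Y :=
      (mul_le_mul_of_nonneg_left hsw (abs_nonneg _)).trans n1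
    exact aux_c hs hK hY hM hR h1 h2 m0 n0 (c0_le hg hf hY hYw hw hK m0' m1 m2) n1s
  · -- R02
    have hx : |dt (f 1) (cr n n')| * w2 ≤ 4 * K ^ 2 *
        (|dt (f 2) (cr n n')| * (w1 / 2 ^ j) + |dt (f 1) (cr n n')| * w2) := by
      refine le_trans ?_ (hbig _ hS0)
      have : 0 ≤ |dt (f 2) (cr n n')| * (w1 / 2 ^ j) := by positivity
      linarith
    refine key _ hx ?_
    rw [hD1]
    have hM := dt_expand hg (f 2) n'
    rw [dt_comm (f 2) (g 0), dt_comm (f 2) (g 1), dt_comm (f 2) (g 2)] at hM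
    have hR : 2 ^ k' * Y ≤ 2 * (|dt (g 0) (f 2)| * w2) := by
      refine le_of_mul_le_mul_left ?_ hΛ0
      linarith
    have h1 : |dt (g 1) (f 2)| * |dt (g 1) n'| * w2 ≤ 2 * K * Y := by
      refine prod_le m1 ?_
      have := abs_dt_le_one hf hg 1 2
      nlinarith
    have h2 : |dt (g 2) (f 2)| * |dt (g 2) n'| * w2 ≤ 2 * K * Y := by
      refine prod_le m2 ?_
      have := abs_dt_le_one hf hg 2 2
      nlinarith
    exact aux_c hw2 hK hY hM hR h1 h2 m0 n0 (c0_le hg hf hY hYw hw hK m0' m1 m2) n2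

end Crest.Agent.R136.Mlo777
end

-- ▼ part R136/Mlo2_777
section

/-!
# R136 (S0187), PLAN 2, leaf B4: the gradient of a sheet is adapted to its hull frame (helper777)

`nrm S z0 ρ T ζ` : gradient of `S.q` at the point of `T` at the height `z0 + ρ ζ`.
`conorm_of_FH`   : it is adapted to the frame of the flat hull (`FH`).
-/

set_option autoImplicit false
set_option linter.unusedVariables false

namespace Crest.Agent.R136.Mlo777

open Finset Crest.Agent.R136.Sh605 Crest.Agent.R136.Fl808 Crest.Agent.R136.Hl706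
open Crest.Agent.R136.K4 (Plk4)
open Crest.Agent.R136.Tlt51 (Shp InP)
open Crest.Agent.R136.KapP335 (kapP expP expP_spec DetP)
open Crest.Agent.R136.Tl102 (QF Fq bz shB0 shB1 shG kap NrmC IsExp StP fr cmb)
open Crest.Agent.R136.Pl2 (FH FL kp)

/-- zero of a steep quadratic polynomial -/
theorem exists_root {b yy yu uu l s : ℝ} (hs : |s| ≤ 2) (hl : |l| ≤ 1 / 64)
    (st : ∀ σ, |σ| ≤ 1 → 1 / 2 ≤ b + yy * σ + yu * l) {F0 : ℝ}
    (hF0 : F0 = yy * (s * l) ^ 2 - yu * (s * l) * l + uu * l ^ 2) (hF : |F0| ≤ 1 / 16) :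
    ∃ h : ℝ, |h| ≤ 2 * |F0| ∧
      b * h + yy * (h - s * l) ^ 2 + yu * (h - s * l) * l + uu * l ^ 2 = 0 := by
  set F : ℝ → ℝ := fun h => b * h + yy * (h - s * l) ^ 2 + yu * (h - s * l) * l + uu * l ^ 2 with hFd
  have hsl : |s * l| ≤ 1 / 32 := by
    rw [abs_mul]
    calc |s| * |l| ≤ 2 * (1 / 64) := mul_le_mul hs hl (abs_nonneg _) (by norm_num)
      _ = 1 / 32 := by norm_num
  rw [abs_le] at hsl
  have key : ∀ h, F h = F0 + h * (b + yy * (h - 2 * (s * l)) + yu * l) := by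
    intro h; rw [hF0]; simp only [hFd]; ring
  have hcont : Continuous F := by
    simp only [hFd]; fun_prop
  have hF' := abs_le.1 hF
  have h0 : 0 ≤ |F0| := abs_nonneg _
  have n1 := neg_abs_le F0
  have n2 := le_abs_self F0
  have hlo : F (-(2 * |F0|)) ≤ 0 := by
    have := st (-(2 * |F0|) - 2 * (s * l)) (by rw [abs_le]; constructor <;> linarith)
    rw [key]; nlinarith
  have hhi : 0 ≤ F (2 * |F0|) := by
    have := st (2 * |F0| - 2 * (s * l)) (by rw [abs_le]; constructor <;> linarith)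
    rw [key]; nlinarith
  have hle : -(2 * |F0|) ≤ 2 * |F0| := by linarith
  obtain ⟨h, hh, hz⟩ := intermediate_value_Icc hle hcont.continuousOn ⟨hlo, hhi⟩
  exact ⟨h, abs_le.2 ⟨hh.1, hh.2⟩, hz⟩

/-- gradient of the function of the sheet along `T`, as a vector -/
noncomputable def nrm (S : Plk4) (z0 ρ : ℝ) (T : Ln4) (ζ : ℝ) : V3 :=
  cmb S.e (fun k => S.w 0 / S.w k * ((expP S z0 ρ T).1 k + ζ * (expP S z0 ρ T).2.1 k))

theorem dt_cmb_e {e : Fin 3 → V3} (he : Ortho e) (x : V3) (i : Fin 3) :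
    dt (e i) (cmb e x) = x i := by
  have h : ∀ j, dt (e i) (e j) = if i = j then 1 else 0 := he i
  have e1 : dt (e i) (cmb e x) = x 0 * dt (e i) (e 0) + x 1 * dt (e i) (e 1) +
      x 2 * dt (e i) (e 2) := by
    simp only [dt, cmb]; ring
  rw [e1, h 0, h 1, h 2]
  fin_cases i <;> simp

theorem dt_nrm {S : Plk4} (he : Ortho S.e) (z0 ρ : ℝ) (T : Ln4) (ζ : ℝ) (i : Fin 3) :
    dt (S.e i) (nrm S z0 ρ T ζ) =
      S.w 0 / S.w i * ((expP S z0 ρ T).1 i + ζ * (expP S z0 ρ T).2.1 i) :=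
  dt_cmb_e he _ i

/-- scalar facts of the expansion: slope, curvature along the tangent -/
theorem curv_le {b0 b1 : V3} {G : QF} (N : NrmC b0 b1 G) {ζ : ℝ} (hζ : 0 ≤ ζ) (hζ' : ζ ≤ 1) :
    1 / 2 ≤ b0 0 + ζ * b1 0 ∧ b0 0 + ζ * b1 0 ≤ 2 ∧ |b0 1 + ζ * b1 1| ≤ 1 ∧
      |b0 2 + ζ * b1 2| ≤ 1 ∧
      |G.yy * ((b0 1 + ζ * b1 1) / (b0 0 + ζ * b1 0)) ^ 2 -
        G.yu * ((b0 1 + ζ * b1 1) / (b0 0 + ζ * b1 0)) + G.uu| ≤ 11 * kap b0 b1 G ∧
      |G.yy * ((b0 2 + ζ * b1 2) / (b0 0 + ζ * b1 0)) ^ 2 -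
        G.yv * ((b0 2 + ζ * b1 2) / (b0 0 + ζ * b1 0)) + G.vv| ≤ 11 * kap b0 b1 G := by
  have a0 : |(0 : ℝ)| ≤ 1 := by norm_num
  have h0 := N.st ζ hζ hζ' 0 0 0 a0 a0 a0
  have h00 := N.st 0 le_rfl zero_le_one 0 0 0 a0 a0 a0
  simp only [mul_zero, add_zero, zero_mul] at h0 h00
  obtain ⟨m1, m2, m3, m4, m5, m6⟩ := N.G_le
  have k1 : |shB1 b0 b1 1| ≤ kap b0 b1 G := (le_max_left _ _).trans (le_max_left _ _)
  have k2 : |shB1 b0 b1 2| ≤ kap b0 b1 G := (le_max_right _ _).trans (le_max_left _ _)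
  have k3 : |(shG b0 G).uu| ≤ kap b0 b1 G :=
    (le_max_left _ _).trans ((le_max_left _ _).trans (le_max_right _ _))
  have k5 : |(shG b0 G).vv| ≤ kap b0 b1 G := (le_max_right _ _).trans (le_max_right _ _)
  have c1 : |b0 1 + ζ * b1 1| ≤ 1 := by
    have e1 := abs_le.1 N.b01
    have e2 := abs_le.1 N.b11
    rw [abs_le]; constructor <;> nlinarith [e1.1, e1.2, e2.1, e2.2]
  have c2 : |b0 2 + ζ * b1 2| ≤ 1 := by
    have e1 := abs_le.1 N.b02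
    have e2 := abs_le.1 N.b12
    rw [abs_le]; constructor <;> nlinarith [e1.1, e1.2, e2.1, e2.2]
  have gen : ∀ p p0 B0 B yu uu sb sg κ : ℝ, 1 / 2 ≤ B0 → 1 / 2 ≤ B → |p| ≤ 1 → |p0| ≤ 1 →
      |sb| ≤ κ → |sg| ≤ κ → |yu| ≤ 1 → p / B - p0 / B0 = ζ * sb / B →
      sg = uu - p0 / B0 * yu + (p0 / B0) ^ 2 * G.yy →
      |G.yy * (p / B) ^ 2 - yu * (p / B) + uu| ≤ 11 * κ := by
    intro p p0 B0 B yu uu sb sg κ hB0 hB hp hp0 hsb hsg hyu hd hs
    have q1 : |p / B| ≤ 2 := by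
      rw [abs_div, abs_of_pos (by linarith : 0 < B), div_le_iff₀ (by linarith)]; linarith
    have q0 : |p0 / B0| ≤ 2 := by
      rw [abs_div, abs_of_pos (by linarith : 0 < B0), div_le_iff₀ (by linarith)]; linarith
    have q2 : |p / B - p0 / B0| ≤ 2 * κ := by
      rw [hd, abs_div, abs_of_pos (by linarith : 0 < B), div_le_iff₀ (by linarith), abs_mul,
        abs_of_nonneg hζ]
      have hκ : 0 ≤ κ := (abs_nonneg _).trans hsb
      have : ζ * |sb| ≤ 1 * κ := mul_le_mul hζ' hsb (abs_nonneg _) zero_le_one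
      nlinarith
    have q3 : |G.yy * (p / B + p0 / B0) - yu| ≤ 5 := by
      have := abs_sub (G.yy * (p / B + p0 / B0)) yu
      have h1 : |G.yy * (p / B + p0 / B0)| ≤ 1 * 4 := by
        rw [abs_mul]
        refine mul_le_mul m1 ((abs_add_le _ _).trans (by linarith)) (abs_nonneg _) zero_le_one
      linarith
    have e1 : G.yy * (p / B) ^ 2 - yu * (p / B) + uu =
        sg + (p / B - p0 / B0) * (G.yy * (p / B + p0 / B0) - yu) := by
      rw [hs]; ring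
    rw [e1]
    have h2 : |(p / B - p0 / B0) * (G.yy * (p / B + p0 / B0) - yu)| ≤ 2 * κ * 5 := by
      rw [abs_mul]
      exact mul_le_mul q2 q3 (abs_nonneg _) ((abs_nonneg _).trans q2)
    exact (abs_add_le _ _).trans (by linarith)
  have hB : b0 0 + ζ * b1 0 ≠ 0 := by linarith [h0.1]
  have hB0 : b0 0 ≠ 0 := by linarith [h00.1]
  refine ⟨h0.1, h0.2, c1, c2, ?_, ?_⟩
  · refine gen _ (b0 1) (b0 0) _ _ _ (shB1 b0 b1 1) (shG b0 G).uu _ h00.1 h0.1 c1 N.b01 k1 k3 m2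
      ?_ rfl
    have : shB1 b0 b1 1 = b1 1 - b0 1 / b0 0 * b1 0 := rfl
    rw [this]
    field_simp
    ring
  · refine gen _ (b0 2) (b0 0) _ _ _ (shB1 b0 b1 2) (shG b0 G).vv _ h00.1 h0.1 c2 N.b02 k2 k5 m3
      ?_ rfl
    have : shB1 b0 b1 2 = b1 2 - b0 2 / b0 0 * b1 0 := rfl
    rw [this]
    field_simp
    ring

theorem dt_cmb_fr' (f : V3) (e : Fin 3 → V3) (w x : V3) : dt f (cmb (fr e w) x) =
    x 0 * w 0 * dt f (e 0) + x 1 * w 1 * dt f (e 1) + x 2 * w 2 * dt f (e 2) := by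
  simp only [dt, cmb, fr, Pi.smul_apply, smul_eq_mul]; ring

/-- a point of the sheet over a tangent direction -/
theorem tau_aux {S : Plk4} {T : Ln4} {z0 ρ r C Y ζ : ℝ} {f : Fin 3 → V3} (hρ : 0 < ρ) (hr : 0 < r)
    (hS : Shp S z0 ρ r) (hT : InP T S z0 ρ) (hF : FH C Y S f z0 ρ) (hζ : 0 ≤ ζ) (hζ' : ζ ≤ 1)
    {x : V3} (hx : ∀ i, |x i| ≤ 1 / 8)
    (h0 : Fq (expP S z0 ρ T).1 (expP S z0 ρ T).2.1 (expP S z0 ρ T).2.2 ζ x = 0) :
    |x 0 * S.w 0 * dt (f 0) (S.e 0) + x 1 * S.w 1 * dt (f 0) (S.e 1) +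
      x 2 * S.w 2 * dt (f 0) (S.e 2)| ≤ C * Y := by
  have hw0 : 0 < S.w 0 := (hr.trans_le hS.r0_le).trans_le hS.a_le0
  have hst := StP.of_shN hS hw0
  have hE := expP_spec hS.isQ hw0.ne' z0 ρ T
  have z1 : z0 ≤ z0 + ρ * ζ := by nlinarith
  have z2 : z0 + ρ * ζ ≤ z0 + ρ := by nlinarith
  have h1 := hF.pt T hT (z0 + ρ * ζ) z1 z2 (T.pos (z0 + ρ * ζ) + cmb (fr S.e S.w) x) ?_ ?_
  · have e1 : T.pos (z0 + ρ * ζ) + cmb (fr S.e S.w) x - T.pos (z0 + ρ * ζ) =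
      cmb (fr S.e S.w) x := by abel
    rw [e1, dt_cmb_fr'] at h1
    exact h1
  · intro i
    have e1 : T.pos (z0 + ρ * ζ) + cmb (fr S.e S.w) x - T.pos (z0 + ρ * ζ) =
      cmb (fr S.e S.w) x := by abel
    rw [e1, Crest.Agent.R136.Tl102.dt_cmb_fr hst.ortho, abs_mul, abs_of_pos (hst.pos i)]
    have := mul_le_mul_of_nonneg_left (hx i) (hst.pos i).le
    change _ ≤ S.w i / 8
    linarith
  · rw [hE ζ x, h0, mul_zero, add_zero]
    exact (hT _ z1 z2).2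

set_option maxHeartbeats 1000000 in
/-- **tangency** of the flat hull: `τ k = ⟨f 0, t_k⟩`, `t_k` the tangent vectors of the sheet. -/
theorem tau_le {S : Plk4} {T : Ln4} {z0 ρ r C Y ζ : ℝ} {f : Fin 3 → V3} (hρ : 0 < ρ) (hr : 0 < r)
    (hY : 0 < Y) (hC : 1 ≤ C) (hS : Shp S z0 ρ r) (hT : InP T S z0 ρ)
    (hk : kapP S z0 ρ T ≤ 4 * Y) (hF : FH C Y S f z0 ρ) (hζ : 0 ≤ ζ) (hζ' : ζ ≤ 1) :
    |dt (f 0) (S.e 1) - dt (S.e 1) (nrm S z0 ρ T ζ) / dt (S.e 0) (nrm S z0 ρ T ζ) *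
        dt (f 0) (S.e 0)| * S.w 1 ≤ 66 * C * Y ∧
    |dt (f 0) (S.e 2) - dt (S.e 2) (nrm S z0 ρ T ζ) / dt (S.e 0) (nrm S z0 ρ T ζ) *
        dt (f 0) (S.e 0)| * S.w 2 ≤ 66 * C * Y := by
  have hw0 : 0 < S.w 0 := (hr.trans_le hS.r0_le).trans_le hS.a_le0
  have hst := StP.of_shN hS hw0
  have hE := expP_spec hS.isQ hw0.ne' z0 ρ T
  have N := IsExp.nrmC hst hρ.le (fun z h1 h2 => (hT z h1 h2).1) hE
  have hw1 := hst.pos 1
  have hw2 := hst.pos 2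
  have hA := abs_dt_le_one hst.ortho hF.ortho 0 0
  rw [dt_nrm hst.ortho, dt_nrm hst.ortho, dt_nrm hst.ortho]
  have hk' : S.w 0 * kap (expP S z0 ρ T).1 (expP S z0 ρ T).2.1 (expP S z0 ρ T).2.2 ≤ 4 * Y := hk
  have hκ13 := Crest.Agent.R136.Tl102.kap_le N
  have aux := fun x => tau_aux (x := x) hρ hr hS hT hF hζ hζ'
  obtain ⟨B1, B2, P1, P2, Q1, Q2⟩ := curv_le N hζ hζ'
  have hstp := N.st ζ hζ hζ'
  generalize (expP S z0 ρ T).1 = b0 at *
  generalize (expP S z0 ρ T).2.1 = b1 at *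
  generalize (expP S z0 ρ T).2.2 = G at *
  have hκ0 := Crest.Agent.R136.Tl102.kap_nonneg b0 b1 G
  set κ := kap b0 b1 G with hκ
  set B := b0 0 + ζ * b1 0 with hB
  have hB0 : 0 < B := by linarith
  set s1 := (b0 1 + ζ * b1 1) / B with hs1
  set s2 := (b0 2 + ζ * b1 2) / B with hs2
  have hs1' : |s1| ≤ 2 := by
    rw [hs1, abs_div, abs_of_pos hB0, div_le_iff₀ hB0]; linarith
  have hs2' : |s2| ≤ 2 := by
    rw [hs2, abs_div, abs_of_pos hB0, div_le_iff₀ hB0]; linarith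
  have a0 : |(0 : ℝ)| ≤ 1 := by norm_num
  have al : |(1 / 64 : ℝ)| ≤ 1 := by rw [abs_of_pos] <;> norm_num
  have al' : |(1 / 64 : ℝ)| ≤ 1 / 64 := by rw [abs_of_pos] <;> norm_num
  constructor
  · obtain ⟨h, hh, hz⟩ := exists_root (b := B) (yy := G.yy) (yu := G.yu) (uu := G.uu) (l := 1 / 64)
      (s := s1) hs1' al' (fun σ hσ => by
        have := (hstp σ (1 / 64) 0 hσ al a0).1
        linarith) rfl (by
        have e1 : G.yy * (s1 * (1 / 64)) ^ 2 - G.yu * (s1 * (1 / 64)) * (1 / 64) +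
          G.uu * (1 / 64) ^ 2 = (1 / 64) ^ 2 * (G.yy * s1 ^ 2 - G.yu * s1 + G.uu) := by ring
        rw [e1, abs_mul]
        have : |((1 : ℝ) / 64) ^ 2| = 1 / 4096 := by rw [abs_of_pos (by norm_num)]; norm_num
        rw [this]
        linarith)
    have hF0 : |G.yy * (s1 * (1 / 64)) ^ 2 - G.yu * (s1 * (1 / 64)) * (1 / 64) +
          G.uu * (1 / 64) ^ 2| ≤ 1 / 4096 * (11 * κ) := by
      have e1 : G.yy * (s1 * (1 / 64)) ^ 2 - G.yu * (s1 * (1 / 64)) * (1 / 64) +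
        G.uu * (1 / 64) ^ 2 = (1 / 64) ^ 2 * (G.yy * s1 ^ 2 - G.yu * s1 + G.uu) := by ring
      rw [e1, abs_mul]
      have : |((1 : ℝ) / 64) ^ 2| = 1 / 4096 := by rw [abs_of_pos (by norm_num)]; norm_num
      rw [this]
      linarith
    have hhκ : |h| ≤ 22 / 4096 * κ := by linarith
    have hx0 : |h - s1 * (1 / 64)| ≤ 1 / 8 := by
      refine (abs_sub _ _).trans ?_
      rw [abs_mul]
      have : |s1| * |(1 / 64 : ℝ)| ≤ 2 * (1 / 64) :=
        mul_le_mul hs1' al' (abs_nonneg _) (by norm_num)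
      linarith
    have h1 := aux ![h - s1 * (1 / 64), 1 / 64, 0] (by
      intro i; fin_cases i
      · exact hx0
      · exact al'.trans (by norm_num)
      · change |(0:ℝ)| ≤ _
        norm_num) (by
      have e2 : b0 1 + ζ * b1 1 = s1 * B := by rw [hs1]; field_simp
      simp only [Fq, dt, bz, QF.ev, Matrix.cons_val_zero, Matrix.cons_val_one, Matrix.cons_val]
      rw [← hB, e2]
      linear_combination hz)
    simp only [Matrix.cons_val_zero, Matrix.cons_val_one, Matrix.cons_val] at h1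
    have e3 : (dt (f 0) (S.e 1) - S.w 0 / S.w 1 * (b0 1 + ζ * b1 1) / (S.w 0 / S.w 0 * B) *
        dt (f 0) (S.e 0)) * S.w 1 * (1 / 64) =
        ((h - s1 * (1 / 64)) * S.w 0 * dt (f 0) (S.e 0) + 1 / 64 * S.w 1 * dt (f 0) (S.e 1) +
          0 * S.w 2 * dt (f 0) (S.e 2)) - h * S.w 0 * dt (f 0) (S.e 0) := by
      rw [hs1]; field_simp; ring
    have e4 : |h * S.w 0 * dt (f 0) (S.e 0)| ≤ 22 / 4096 * (4 * Y) := by
      rw [abs_mul, abs_mul, abs_of_pos hw0]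
      have g1 : |h| * S.w 0 ≤ 22 / 4096 * κ * S.w 0 := mul_le_mul_of_nonneg_right hhκ hw0.le
      have g2 : |h| * S.w 0 * |dt (f 0) (S.e 0)| ≤ |h| * S.w 0 * 1 :=
        mul_le_mul_of_nonneg_left hA (by positivity)
      linarith
    have e5 : |(dt (f 0) (S.e 1) - S.w 0 / S.w 1 * (b0 1 + ζ * b1 1) / (S.w 0 / S.w 0 * B) *
        dt (f 0) (S.e 0))| * S.w 1 * (1 / 64) ≤ C * Y + 22 / 4096 * (4 * Y) := by
      have := congrArg abs e3
      rw [abs_mul, abs_mul, abs_of_pos hw1, abs_of_pos (by norm_num : (0:ℝ) < 1 / 64)] at this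
      rw [this]
      exact (abs_sub _ _).trans (add_le_add h1 e4)
    have : Y ≤ C * Y := le_mul_of_one_le_left hY.le hC
    linarith
  · obtain ⟨h, hh, hz⟩ := exists_root (b := B) (yy := G.yy) (yu := G.yv) (uu := G.vv) (l := 1 / 64)
      (s := s2) hs2' al' (fun σ hσ => by
        have := (hstp σ 0 (1 / 64) hσ a0 al).1
        linarith) rfl (by
        have e1 : G.yy * (s2 * (1 / 64)) ^ 2 - G.yv * (s2 * (1 / 64)) * (1 / 64) +
          G.vv * (1 / 64) ^ 2 = (1 / 64) ^ 2 * (G.yy * s2 ^ 2 - G.yv * s2 + G.vv) := by ring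
        rw [e1, abs_mul]
        have : |((1 : ℝ) / 64) ^ 2| = 1 / 4096 := by rw [abs_of_pos (by norm_num)]; norm_num
        rw [this]
        linarith)
    have hF0 : |G.yy * (s2 * (1 / 64)) ^ 2 - G.yv * (s2 * (1 / 64)) * (1 / 64) +
          G.vv * (1 / 64) ^ 2| ≤ 1 / 4096 * (11 * κ) := by
      have e1 : G.yy * (s2 * (1 / 64)) ^ 2 - G.yv * (s2 * (1 / 64)) * (1 / 64) +
        G.vv * (1 / 64) ^ 2 = (1 / 64) ^ 2 * (G.yy * s2 ^ 2 - G.yv * s2 + G.vv) := by ring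
      rw [e1, abs_mul]
      have : |((1 : ℝ) / 64) ^ 2| = 1 / 4096 := by rw [abs_of_pos (by norm_num)]; norm_num
      rw [this]
      linarith
    have hhκ : |h| ≤ 22 / 4096 * κ := by linarith
    have hx0 : |h - s2 * (1 / 64)| ≤ 1 / 8 := by
      refine (abs_sub _ _).trans ?_
      rw [abs_mul]
      have : |s2| * |(1 / 64 : ℝ)| ≤ 2 * (1 / 64) :=
        mul_le_mul hs2' al' (abs_nonneg _) (by norm_num)
      linarith
    have h1 := aux ![h - s2 * (1 / 64), 0, 1 / 64] (by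
      intro i; fin_cases i
      · exact hx0
      · change |(0:ℝ)| ≤ _; norm_num
      · exact al'.trans (by norm_num)) (by
      have e2 : b0 2 + ζ * b1 2 = s2 * B := by rw [hs2]; field_simp
      simp only [Fq, dt, bz, QF.ev, Matrix.cons_val_zero, Matrix.cons_val_one, Matrix.cons_val]
      rw [← hB, e2]
      linear_combination hz)
    simp only [Matrix.cons_val_zero, Matrix.cons_val_one, Matrix.cons_val] at h1
    have e3 : (dt (f 0) (S.e 2) - S.w 0 / S.w 2 * (b0 2 + ζ * b1 2) / (S.w 0 / S.w 0 * B) *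
        dt (f 0) (S.e 0)) * S.w 2 * (1 / 64) =
        ((h - s2 * (1 / 64)) * S.w 0 * dt (f 0) (S.e 0) + 0 * S.w 1 * dt (f 0) (S.e 1) +
          1 / 64 * S.w 2 * dt (f 0) (S.e 2)) - h * S.w 0 * dt (f 0) (S.e 0) := by
      rw [hs2]; field_simp; ring
    have e4 : |h * S.w 0 * dt (f 0) (S.e 0)| ≤ 22 / 4096 * (4 * Y) := by
      rw [abs_mul, abs_mul, abs_of_pos hw0]
      have g1 : |h| * S.w 0 ≤ 22 / 4096 * κ * S.w 0 := mul_le_mul_of_nonneg_right hhκ hw0.le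
      have g2 : |h| * S.w 0 * |dt (f 0) (S.e 0)| ≤ |h| * S.w 0 * 1 :=
        mul_le_mul_of_nonneg_left hA (by positivity)
      linarith
    have e5 : |(dt (f 0) (S.e 2) - S.w 0 / S.w 2 * (b0 2 + ζ * b1 2) / (S.w 0 / S.w 0 * B) *
        dt (f 0) (S.e 0))| * S.w 2 * (1 / 64) ≤ C * Y + 22 / 4096 * (4 * Y) := by
      have := congrArg abs e3
      rw [abs_mul, abs_mul, abs_of_pos hw2, abs_of_pos (by norm_num : (0:ℝ) < 1 / 64)] at this
      rw [this]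
      exact (abs_sub _ _).trans (add_le_add h1 e4)
    have : Y ≤ C * Y := le_mul_of_one_le_left hY.le hC
    linarith

set_option maxHeartbeats 2000000 in
/-- **the gradient is adapted to the hull frame.** -/
theorem conorm_of_FH {S : Plk4} {T : Ln4} {z0 ρ r C Y ζ : ℝ} {f : Fin 3 → V3} (hρ : 0 < ρ)
    (hr : 0 < r) (hY : 0 < Y) (hC : 1 ≤ C) (hS : Shp S z0 ρ r) (hT : InP T S z0 ρ)
    (hk : kapP S z0 ρ T ≤ 4 * Y) (hF : FH C Y S f z0 ρ) (hζ : 0 ≤ ζ) (hζ' : ζ ≤ 1) :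
    (264 * C * Y ≤ S.w 2 → 1 ≤ 4 * |dt (f 0) (nrm S z0 ρ T ζ)|) ∧
    |dt (f 0) (nrm S z0 ρ T ζ)| ≤ 4 ∧
    |dt (f 1) (nrm S z0 ρ T ζ)| * S.w 1 ≤ 264 * C ^ 3 * Y ∧
    |dt (f 2) (nrm S z0 ρ T ζ)| * S.w 2 ≤ 264 * C ^ 3 * Y := by
  have hw0 : 0 < S.w 0 := (hr.trans_le hS.r0_le).trans_le hS.a_le0
  have hst := StP.of_shN hS hw0
  have hE := expP_spec hS.isQ hw0.ne' z0 ρ T
  have N := IsExp.nrmC hst hρ.le (fun z h1 h2 => (hT z h1 h2).1) hE
  have hw1 := hst.pos 1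
  have hw2 := hst.pos 2
  have h21 : S.w 2 ≤ S.w 1 := hS.w_le
  have h02 : S.w 0 ≤ S.w 2 := hS.w0_le
  obtain ⟨t1, t2⟩ := tau_le hρ hr hY hC hS hT hk hF hζ hζ'
  obtain ⟨B1, B2, P1, P2, -, -⟩ := curv_le N hζ hζ'
  have n0 : dt (S.e 0) (nrm S z0 ρ T ζ) =
      (expP S z0 ρ T).1 0 + ζ * (expP S z0 ρ T).2.1 0 := by
    rw [dt_nrm hst.ortho, div_self hw0.ne', one_mul]
  have n1 : |dt (S.e 1) (nrm S z0 ρ T ζ)| ≤ 1 := by
    rw [dt_nrm hst.ortho, abs_mul, abs_of_pos (by positivity)]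
    have : S.w 0 / S.w 1 ≤ 1 := by rw [div_le_one hw1]; linarith
    calc S.w 0 / S.w 1 * |_| ≤ 1 * 1 := mul_le_mul this P1 (abs_nonneg _) zero_le_one
      _ = 1 := one_mul 1
  have n2 : |dt (S.e 2) (nrm S z0 ρ T ζ)| ≤ 1 := by
    rw [dt_nrm hst.ortho, abs_mul, abs_of_pos (by positivity)]
    have : S.w 0 / S.w 2 ≤ 1 := by rw [div_le_one hw2]; linarith
    calc S.w 0 / S.w 2 * |_| ≤ 1 * 1 := mul_le_mul this P2 (abs_nonneg _) zero_le_one
      _ = 1 := one_mul 1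
  rw [← n0] at B1 B2
  have x0 := dt_expand hst.ortho (f 0) (nrm S z0 ρ T ζ)
  have x1 := dt_expand hst.ortho (f 1) (nrm S z0 ρ T ζ)
  have x2 := dt_expand hst.ortho (f 2) (nrm S z0 ρ T ζ)
  have y0 := dt_expand hst.ortho (f 0) (f 0)
  have y1 := dt_expand hst.ortho (f 1) (f 0)
  have y2 := dt_expand hst.ortho (f 2) (f 0)
  rw [hF.ortho 0 0, if_pos rfl] at y0
  rw [hF.ortho 1 0, if_neg (by decide)] at y1
  rw [hF.ortho 2 0, if_neg (by decide)] at y2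
  rw [dt_comm (S.e 0) (f 0), dt_comm (S.e 1) (f 0), dt_comm (S.e 2) (f 0)] at y0 y1 y2
  have r00 := abs_dt_le_one hst.ortho hF.ortho 0 0
  have r01 := abs_dt_le_one hst.ortho hF.ortho 0 1
  have r02 := abs_dt_le_one hst.ortho hF.ortho 0 2
  have r11 := abs_dt_le_one hst.ortho hF.ortho 1 1
  have r21 := abs_dt_le_one hst.ortho hF.ortho 2 1
  have r22 := abs_dt_le_one hst.ortho hF.ortho 2 2
  have q00 := hF.e00
  have q12 := hF.e12
  generalize dt (S.e 0) (nrm S z0 ρ T ζ) = N0 at *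
  generalize dt (S.e 1) (nrm S z0 ρ T ζ) = N1 at *
  generalize dt (S.e 2) (nrm S z0 ρ T ζ) = N2 at *
  generalize dt (f 0) (nrm S z0 ρ T ζ) = M0 at *
  generalize dt (f 1) (nrm S z0 ρ T ζ) = M1 at *
  generalize dt (f 2) (nrm S z0 ρ T ζ) = M2 at *
  generalize dt (f 0) (S.e 0) = A at *
  generalize dt (f 0) (S.e 1) = A1 at *
  generalize dt (f 0) (S.e 2) = A2 at *
  generalize dt (f 1) (S.e 0) = R10 at *
  generalize dt (f 1) (S.e 1) = R11 at *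
  generalize dt (f 1) (S.e 2) = R12 at *
  generalize dt (f 2) (S.e 0) = R20 at *
  generalize dt (f 2) (S.e 1) = R21 at *
  generalize dt (f 2) (S.e 2) = R22 at *
  have hN0 : 0 < N0 := by linarith
  have hC0 : 0 < C := by linarith
  set τ1 := A1 - N1 / N0 * A with hτ1
  set τ2 := A2 - N2 / N0 * A with hτ2
  have k1 : A * M1 = -(N0 * (R11 * τ1 + R12 * τ2)) := by
    have : R10 * A = -(R11 * A1) - R12 * A2 := by linarith
    rw [x1, hτ1, hτ2]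
    field_simp
    linear_combination N0 * this
  have k2 : A * M2 = -(N0 * (R21 * τ1 + R22 * τ2)) := by
    have : R20 * A = -(R21 * A1) - R22 * A2 := by linarith
    rw [x2, hτ1, hτ2]
    field_simp
    linear_combination N0 * this
  have k0 : A * M0 = N0 * (1 - A1 * τ1 - A2 * τ2) := by
    rw [x0, hτ1, hτ2]
    field_simp
    linear_combination (-N0) * y0
  have g1 : |M1| ≤ 2 * C * (|R11| * |τ1| + |R12| * |τ2|) := by
    have a1 : |A| * |M1| ≤ 2 * (|R11| * |τ1| + |R12| * |τ2|) := by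
      rw [← abs_mul, k1, abs_neg, abs_mul, abs_of_pos hN0, ← abs_mul, ← abs_mul]
      exact mul_le_mul B2 (abs_add_le _ _) (abs_nonneg _) (by norm_num)
    have a2 : |M1| ≤ C * |A| * |M1| := le_mul_of_one_le_left (abs_nonneg _) q00
    have a3 := mul_le_mul_of_nonneg_left a1 hC0.le
    linarith
  have g2 : |M2| ≤ 2 * C * (|R21| * |τ1| + |R22| * |τ2|) := by
    have a1 : |A| * |M2| ≤ 2 * (|R21| * |τ1| + |R22| * |τ2|) := by
      rw [← abs_mul, k2, abs_neg, abs_mul, abs_of_pos hN0, ← abs_mul, ← abs_mul]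
      exact mul_le_mul B2 (abs_add_le _ _) (abs_nonneg _) (by norm_num)
    have a2 : |M2| ≤ C * |A| * |M2| := le_mul_of_one_le_left (abs_nonneg _) q00
    have a3 := mul_le_mul_of_nonneg_left a1 hC0.le
    linarith
  have p1 := abs_nonneg τ1
  have p2 := abs_nonneg τ2
  have hCY : 0 < C * Y := by positivity
  have c2 : C * Y ≤ C ^ 2 * Y := by nlinarith
  have c3 : C ^ 2 * Y ≤ C ^ 3 * Y := by
    have : C ^ 2 ≤ C ^ 3 := pow_le_pow_right₀ hC (by norm_num)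
    exact mul_le_mul_of_nonneg_right this hY.le
  refine ⟨fun hw => ?_, ?_, ?_, ?_⟩
  · have e1 : |τ1| ≤ 1 / 4 := by
      refine le_of_mul_le_mul_right (a := S.w 1) ?_ hw1
      linarith
    have e2 : |τ2| ≤ 1 / 4 := by
      refine le_of_mul_le_mul_right (a := S.w 2) ?_ hw2
      linarith
    have e3 : |A1 * τ1| ≤ 1 / 4 := by
      rw [abs_mul]
      calc |A1| * |τ1| ≤ 1 * (1 / 4) := mul_le_mul r01 e1 p1 zero_le_one
        _ = 1 / 4 := one_mul _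
    have e4 : |A2 * τ2| ≤ 1 / 4 := by
      rw [abs_mul]
      calc |A2| * |τ2| ≤ 1 * (1 / 4) := mul_le_mul r02 e2 p2 zero_le_one
        _ = 1 / 4 := one_mul _
    rw [abs_le] at e3 e4
    have e5 : 1 / 4 ≤ A * M0 := by
      rw [k0]
      have : 1 / 2 ≤ 1 - A1 * τ1 - A2 * τ2 := by linarith [e3.1, e3.2, e4.1, e4.2]
      nlinarith
    have e6 : A * M0 ≤ |M0| := by
      calc A * M0 ≤ |A * M0| := le_abs_self _
        _ = |A| * |M0| := abs_mul _ _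
        _ ≤ 1 * |M0| := mul_le_mul_of_nonneg_right r00 (abs_nonneg _)
        _ = |M0| := one_mul _
    linarith
  · rw [x0]
    refine (abs_add_le _ _).trans ?_
    have e1 := abs_add_le (A * N0) (A1 * N1)
    rw [abs_mul, abs_mul] at e1
    have e2 : |A| * |N0| ≤ 1 * 2 := mul_le_mul r00 (by rw [abs_of_pos hN0]; exact B2)
      (abs_nonneg _) zero_le_one
    have e3 : |A1| * |N1| ≤ 1 * 1 := mul_le_mul r01 n1 (abs_nonneg _) zero_le_one
    have e4 : |A2 * N2| ≤ 1 * 1 := by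
      rw [abs_mul]; exact mul_le_mul r02 n2 (abs_nonneg _) zero_le_one
    linarith
  · have e1 : |R11| * |τ1| * S.w 1 ≤ 66 * C * Y := by
      have : |R11| * |τ1| ≤ |τ1| := mul_le_of_le_one_left p1 r11
      exact (mul_le_mul_of_nonneg_right this hw1.le).trans t1
    have e2 : |R12| * |τ2| * S.w 1 ≤ 66 * C ^ 2 * Y := by
      have a1 := mul_le_mul_of_nonneg_right q12 p2
      have a2 := mul_le_mul_of_nonneg_left t2 hC0.le
      linarith
    have e3 := mul_le_mul_of_nonneg_right g1 hw1.le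
    have e4 : 2 * C * (|R11| * |τ1| * S.w 1 + |R12| * |τ2| * S.w 1) ≤
        2 * C * (66 * C * Y + 66 * C ^ 2 * Y) :=
      mul_le_mul_of_nonneg_left (by linarith) (by positivity)
    have e5 : 2 * C * (66 * C * Y + 66 * C ^ 2 * Y) = 132 * (C ^ 2 * Y) + 132 * (C ^ 3 * Y) := by
      ring
    linarith
  · have e1 : |R21| * |τ1| * S.w 2 ≤ 66 * C * Y := by
      have : |R21| * |τ1| ≤ |τ1| := mul_le_of_le_one_left p1 r21
      have a1 := mul_le_mul_of_nonneg_right this hw2.le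
      have a2 := mul_le_mul_of_nonneg_left h21 p1
      linarith
    have e2 : |R22| * |τ2| * S.w 2 ≤ 66 * C * Y := by
      have : |R22| * |τ2| ≤ |τ2| := mul_le_of_le_one_left p2 r22
      exact (mul_le_mul_of_nonneg_right this hw2.le).trans t2
    have e3 := mul_le_mul_of_nonneg_right g2 hw2.le
    have e4 : 2 * C * (|R21| * |τ1| * S.w 2 + |R22| * |τ2| * S.w 2) ≤
        2 * C * (66 * C * Y + 66 * C * Y) :=
      mul_le_mul_of_nonneg_left (by linarith) (by positivity)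
    have e5 : 2 * C * (66 * C * Y + 66 * C * Y) = 264 * (C ^ 2 * Y) := by ring
    linarith

end Crest.Agent.R136.Mlo777
end

-- ▼ part R136/Mcv_140
section

/-!
# R136 (U4, PLAN 2, B4): minors of two gradients in the hull frame and in the plank frame (helper140)

`minor_frame` : the strip size of `n × n'` in the hull frame `f` is at most `18 K^3` times the one in
the plank frame `e`, where `⟨e 0, n⟩` is never small.
-/

set_option autoImplicit false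
set_option linter.unusedVariables false

namespace Crest.Agent.R136.Mcv140

open Crest.Agent.R136.Sh605
open Crest.Agent.R136.Fl808 (dt_expand abs_dt_le_one)

/-- minor on the axes `i, j` -/
def mn (f : Fin 3 → V3) (n n' : V3) (i j : Fin 3) : ℝ :=
  dt (f i) n * dt (f j) n' - dt (f i) n' * dt (f j) n

theorem mn_expand {e : Fin 3 → V3} (he : Ortho e) (f : Fin 3 → V3) (n n' : V3) (i j : Fin 3) :
    mn f n n' i j =
      (dt (f i) (e 0) * dt (f j) (e 1) - dt (f i) (e 1) * dt (f j) (e 0)) * mn e n n' 0 1 +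
      (dt (f i) (e 0) * dt (f j) (e 2) - dt (f i) (e 2) * dt (f j) (e 0)) * mn e n n' 0 2 +
      (dt (f i) (e 1) * dt (f j) (e 2) - dt (f i) (e 2) * dt (f j) (e 1)) * mn e n n' 1 2 := by
  unfold mn
  rw [dt_expand he (f i) n, dt_expand he (f j) n, dt_expand he (f i) n', dt_expand he (f j) n']
  ring

theorem plucker (e : Fin 3 → V3) (n n' : V3) :
    dt (e 0) n * mn e n n' 1 2 = dt (e 1) n * mn e n n' 0 2 - dt (e 2) n * mn e n n' 0 1 := by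
  unfold mn; ring

/-- **hull frame against plank frame** -/
theorem minor_frame {e f : Fin 3 → V3} (he : Ortho e) (hf : Ortho f) {n n' : V3}
    {w1 w2 Λ K : ℝ} (hw2 : 0 < w2) (hw : w2 ≤ w1) (hK : 1 ≤ K) (hΛ1 : 1 ≤ Λ)
    (hlw : Λ * w2 ≤ 2 * w1)
    (r01 : |dt (f 0) (e 1)| * w1 ≤ K * w2) (r10 : |dt (f 1) (e 0)| * w1 ≤ K * w2)
    (r12 : |dt (f 1) (e 2)| * w1 ≤ K * w2) (r21 : |dt (f 2) (e 1)| * w1 ≤ K * w2)
    (h0 : 1 ≤ K * |dt (e 0) n|) (h1 : |dt (e 1) n| * w1 ≤ K * w2) (h2 : |dt (e 2) n| ≤ K) :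
    |mn f n n' 0 1| * (w1 / Λ) + |mn f n n' 0 2| * w2 ≤
      18 * K ^ 3 * (|mn e n n' 0 1| * (w1 / Λ) + |mn e n n' 0 2| * w2) := by
  have hΛ : 0 < Λ := by linarith
  have hw1 : 0 < w1 := hw2.trans_le hw
  have hK0 : 0 < K := by linarith
  have o : ∀ i j, |dt (f i) (e j)| ≤ 1 := fun i j => abs_dt_le_one he hf i j
  obtain ⟨s, hs⟩ : ∃ s, s = w2 / w1 := ⟨_, rfl⟩
  have s0 : 0 < s := by rw [hs]; positivity
  have s1 : s ≤ 1 := by rw [hs, div_le_one hw1]; exact hw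
  have hsw : s * w1 = w2 := by rw [hs]; field_simp
  have cv : ∀ {x : ℝ}, |x| * w1 ≤ K * w2 → |x| ≤ K * s := by
    intro x hx
    have : |x| * w1 ≤ (K * s) * w1 := by rw [mul_assoc, hsw]; exact hx
    exact le_of_mul_le_mul_right this hw1
  have q01 := cv r01
  have q10 := cv r10
  have q12 := cv r12
  have q21 := cv r21
  have q1 := cv h1
  obtain ⟨a, ha⟩ : ∃ a, a = |mn e n n' 0 1| := ⟨_, rfl⟩
  obtain ⟨b, hb⟩ : ∃ b, b = |mn e n n' 0 2| := ⟨_, rfl⟩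
  obtain ⟨c, hc⟩ : ∃ c, c = |mn e n n' 1 2| := ⟨_, rfl⟩
  have a0 : 0 ≤ a := by rw [ha]; exact abs_nonneg _
  have b0 : 0 ≤ b := by rw [hb]; exact abs_nonneg _
  have c0 : 0 ≤ c := by rw [hc]; exact abs_nonneg _
  -- the third minor
  have hcc : c ≤ K ^ 2 * (a + s * b) := by
    have e1 : |dt (e 0) n| * c ≤ K * s * b + K * a := by
      rw [hc, ← abs_mul, plucker]
      refine (abs_sub _ _).trans ?_
      rw [abs_mul, abs_mul, ← ha, ← hb]
      exact add_le_add (mul_le_mul_of_nonneg_right q1 b0) (mul_le_mul_of_nonneg_right h2 a0)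
    calc c = 1 * c := (one_mul c).symm
      _ ≤ (K * |dt (e 0) n|) * c := mul_le_mul_of_nonneg_right h0 c0
      _ = K * (|dt (e 0) n| * c) := by ring
      _ ≤ K * (K * s * b + K * a) := mul_le_mul_of_nonneg_left e1 hK0.le
      _ = _ := by ring
  -- coefficients
  have co : ∀ {x y z t : ℝ} {A B : ℝ}, |x * y| ≤ A → |z * t| ≤ B → |x * y - z * t| ≤ A + B :=
    fun hx hz => (abs_sub _ _).trans (add_le_add hx hz)
  have m1 : ∀ {x y A : ℝ}, |x| ≤ 1 → |y| ≤ A → |x * y| ≤ A := by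
    intro x y A hx hy
    rw [abs_mul]
    calc |x| * |y| ≤ 1 * |y| := mul_le_mul_of_nonneg_right hx (abs_nonneg _)
      _ ≤ A := by rw [one_mul]; exact hy
  have m2 : ∀ {x y A : ℝ}, |x| ≤ A → |y| ≤ 1 → |x * y| ≤ A := by
    intro x y A hx hy
    rw [mul_comm]; exact m1 hy hx
  have Ks : 0 < K * s := by positivity
  have K2 : 1 ≤ K ^ 2 := one_le_pow₀ hK
  have tri : ∀ {x y z : ℝ}, |x + y + z| ≤ |x| + |y| + |z| := fun {x y z} =>
    (abs_add_le _ _).trans (add_le_add (abs_add_le _ _) le_rfl)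
  have f1 : |mn f n n' 0 1| ≤ 6 * K ^ 2 * (a + s * b) := by
    rw [mn_expand he f n n' 0 1]
    refine tri.trans ?_
    rw [abs_mul, abs_mul, abs_mul, ← ha, ← hb, ← hc]
    have k1 : |dt (f 0) (e 0) * dt (f 1) (e 1) - dt (f 0) (e 1) * dt (f 1) (e 0)| ≤ 1 + 1 :=
      co (m1 (o 0 0) (o 1 1)) (m1 (o 0 1) (o 1 0))
    have k2 : |dt (f 0) (e 0) * dt (f 1) (e 2) - dt (f 0) (e 2) * dt (f 1) (e 0)| ≤ K * s + K * s :=
      co (m1 (o 0 0) q12) (m1 (o 0 2) q10)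
    have k3 : |dt (f 0) (e 1) * dt (f 1) (e 2) - dt (f 0) (e 2) * dt (f 1) (e 1)| ≤ 1 + 1 :=
      co (m1 (o 0 1) (o 1 2)) (m1 (o 0 2) (o 1 1))
    have t1 := mul_le_mul_of_nonneg_right k1 a0
    have t2 := mul_le_mul_of_nonneg_right k2 b0
    have t3 := mul_le_mul k3 hcc c0 (by norm_num : (0:ℝ) ≤ 1 + 1)
    have u1 : a ≤ K ^ 2 * a := le_mul_of_one_le_left a0 K2
    have u2 : K * (s * b) ≤ K ^ 2 * (s * b) := by
      have : K ≤ K ^ 2 := le_self_pow₀ hK (by norm_num)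
      exact mul_le_mul_of_nonneg_right this (by positivity)
    have e1 : (K * s + K * s) * b = 2 * (K * (s * b)) := by ring
    have e2 : (1 + 1) * (K ^ 2 * (a + s * b)) = 2 * (K ^ 2 * a) + 2 * (K ^ 2 * (s * b)) := by ring
    have e3 : 6 * K ^ 2 * (a + s * b) = 6 * (K ^ 2 * a) + 6 * (K ^ 2 * (s * b)) := by ring
    have e4 : 0 ≤ K ^ 2 * (s * b) := by positivity
    have e5 : 0 ≤ K ^ 2 * a := by positivity
    rw [e1] at t2
    rw [e2] at t3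
    rw [e3]
    linarith
  have f2 : |mn f n n' 0 2| ≤ 6 * K ^ 3 * (s * a + b) := by
    rw [mn_expand he f n n' 0 2]
    refine tri.trans ?_
    rw [abs_mul, abs_mul, abs_mul, ← ha, ← hb, ← hc]
    have k1 : |dt (f 0) (e 0) * dt (f 2) (e 1) - dt (f 0) (e 1) * dt (f 2) (e 0)| ≤ K * s + K * s :=
      co (m1 (o 0 0) q21) (m2 q01 (o 2 0))
    have k2 : |dt (f 0) (e 0) * dt (f 2) (e 2) - dt (f 0) (e 2) * dt (f 2) (e 0)| ≤ 1 + 1 :=
      co (m1 (o 0 0) (o 2 2)) (m1 (o 0 2) (o 2 0))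
    have k3 : |dt (f 0) (e 1) * dt (f 2) (e 2) - dt (f 0) (e 2) * dt (f 2) (e 1)| ≤ K * s + K * s :=
      co (m2 q01 (o 2 2)) (m1 (o 0 2) q21)
    have t1 := mul_le_mul_of_nonneg_right k1 a0
    have t2 := mul_le_mul_of_nonneg_right k2 b0
    have t3 := mul_le_mul k3 hcc c0 (by positivity : (0:ℝ) ≤ K * s + K * s)
    have K3 : 1 ≤ K ^ 3 := one_le_pow₀ hK
    have u1 : K * (s * a) ≤ K ^ 3 * (s * a) := by
      have : K ≤ K ^ 3 := le_self_pow₀ hK (by norm_num)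
      exact mul_le_mul_of_nonneg_right this (by positivity)
    have u2 : b ≤ K ^ 3 * b := le_mul_of_one_le_left b0 K3
    have u3 : s * (s * b) ≤ b := by
      have h3 : s * b ≤ b := mul_le_of_le_one_left b0 s1
      exact (mul_le_of_le_one_left (by positivity) s1).trans h3
    have u4 : K ^ 3 * (s * (s * b)) ≤ K ^ 3 * b := mul_le_mul_of_nonneg_left u3 (by positivity)
    have e1 : (K * s + K * s) * a = 2 * (K * (s * a)) := by ring
    have e2 : (K * s + K * s) * (K ^ 2 * (a + s * b)) = 2 * (K ^ 3 * (s * a)) +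
        2 * (K ^ 3 * (s * (s * b))) := by ring
    have e3 : 6 * K ^ 3 * (s * a + b) = 6 * (K ^ 3 * (s * a)) + 6 * (K ^ 3 * b) := by ring
    have e4 : 0 ≤ K ^ 3 * b := by positivity
    have e5 : 0 ≤ K ^ 3 * (s * a) := by positivity
    rw [e1] at t1
    rw [e2] at t3
    rw [e3]
    linarith
  -- units
  have p1 : 0 < w1 / Λ := by positivity
  have hwΛ : w2 ≤ 2 * (w1 / Λ) := by
    have : w2 = (Λ * w2) / Λ := by field_simp
    rw [this, ← mul_div_assoc]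
    exact div_le_div_of_nonneg_right hlw hΛ.le
  rw [← ha, ← hb]
  have g1 : s * b * (w1 / Λ) ≤ b * w2 * (1 / Λ) := by
    refine le_of_eq ?_
    calc s * b * (w1 / Λ) = (s * w1) * b * (1 / Λ) := by ring
      _ = _ := by rw [hsw]; ring
  have hi : 1 / Λ ≤ 1 := by rw [div_le_one hΛ]; exact hΛ1
  have g2 : b * w2 * (1 / Λ) ≤ b * w2 := mul_le_of_le_one_right (by positivity) hi
  have g3 : s * a * w2 ≤ 2 * (a * (w1 / Λ)) := by
    calc s * a * w2 ≤ 1 * a * w2 := by gcongr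
      _ = a * w2 := by ring
      _ ≤ a * (2 * (w1 / Λ)) := mul_le_mul_of_nonneg_left hwΛ a0
      _ = _ := by ring
  have A1 := mul_le_mul_of_nonneg_right f1 p1.le
  have A2 := mul_le_mul_of_nonneg_right f2 hw2.le
  have K23 : K ^ 2 ≤ K ^ 3 := pow_le_pow_right₀ hK (by norm_num)
  have X0 : 0 ≤ a * (w1 / Λ) := by positivity
  have Z0 : 0 ≤ b * w2 := by positivity
  have A1' : |mn f n n' 0 1| * (w1 / Λ) ≤ 6 * K ^ 3 * (a * (w1 / Λ) + b * w2) := by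
    refine A1.trans ?_
    calc 6 * K ^ 2 * (a + s * b) * (w1 / Λ) = 6 * K ^ 2 * (a * (w1 / Λ) + s * b * (w1 / Λ)) := by
          ring
      _ ≤ 6 * K ^ 2 * (a * (w1 / Λ) + b * w2) := by
          have := g1.trans g2
          gcongr
      _ ≤ _ := by
          have : 0 ≤ a * (w1 / Λ) + b * w2 := by positivity
          gcongr
  have A2' : |mn f n n' 0 2| * w2 ≤ 6 * K ^ 3 * (2 * (a * (w1 / Λ)) + b * w2) := by
    refine A2.trans ?_
    calc 6 * K ^ 3 * (s * a + b) * w2 = 6 * K ^ 3 * (s * a * w2 + b * w2) := by ring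
      _ ≤ _ := by gcongr
  have e1 : 6 * K ^ 3 * (a * (w1 / Λ) + b * w2) = 6 * (K ^ 3 * (a * (w1 / Λ))) +
      6 * (K ^ 3 * (b * w2)) := by ring
  have e2 : 6 * K ^ 3 * (2 * (a * (w1 / Λ)) + b * w2) = 12 * (K ^ 3 * (a * (w1 / Λ))) +
      6 * (K ^ 3 * (b * w2)) := by ring
  have e3 : 18 * K ^ 3 * (a * (w1 / Λ) + b * w2) = 18 * (K ^ 3 * (a * (w1 / Λ))) +
      18 * (K ^ 3 * (b * w2)) := by ring
  have e4 : 0 ≤ K ^ 3 * (b * w2) := by positivity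
  rw [e1] at A1'
  rw [e2] at A2'
  rw [e3]
  linarith

end Crest.Agent.R136.Mcv140
end

-- ▼ part R136/Mlo3_777
section

/-!
# R136 (S0187), PLAN 2, leaf B4: lower bound of the gradient minors, case `2^k'` large (helper777)

`mlow_k` : over `ShD`, if `W^85 ≤ 2^k'`, then at every height of the cell
`2^k' Y ≤ W^99 max (|π 1| w1 / 2^j) (|π 2| w2)`, `π` = minors of the gradients in the frame `S.e`.
-/

set_option autoImplicit false
set_option linter.unusedVariables false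

namespace Crest.Agent.R136.Mlo777

open Finset Crest.Agent.R136.Sh605 Crest.Agent.R136.Fl808 Crest.Agent.R136.Hl706
open Crest.Agent.R136.K4 (Plk4)
open Crest.Agent.R136.Tlt51 (Shp InP)
open Crest.Agent.R136.KapP335 (kapP expP expP_spec DetP)
open Crest.Agent.R136.Tl102 (QF Fq bz shB0 shB1 shG kap NrmC IsExp StP fr cmb)
open Crest.Agent.R136.Pl2 (FH FL kp)
open Crest.Agent.R136.Pl2W102 (Near)
open Crest.Agent.R136.Mlt89 (cv)
open Crest.Agent.R136.Mcv140 (mn minor_frame)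
open Crest.Agent.R136.Shd410 (ShD)

theorem nrm_eq_cv (S : Plk4) (z0 ρ : ℝ) (T : Ln4) (ζ : ℝ) : nrm S z0 ρ T ζ =
    cv S.e S.w (fun k => (expP S z0 ρ T).1 k + ζ * (expP S z0 ρ T).2.1 k) := by
  ext i
  simp only [nrm, cmb, cv, Fin.sum_univ_three, Pi.add_apply, Pi.smul_apply, smul_eq_mul]

/-- bounds of the gradient in the plank frame -/
theorem nrm_plank {S : Plk4} {T : Ln4} {z0 ρ r ζ : ℝ} (hρ : 0 < ρ) (hr : 0 < r)
    (hS : Shp S z0 ρ r) (hT : InP T S z0 ρ) (hζ : 0 ≤ ζ) (hζ' : ζ ≤ 1) :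
    1 / 2 ≤ dt (S.e 0) (nrm S z0 ρ T ζ) ∧ dt (S.e 0) (nrm S z0 ρ T ζ) ≤ 2 ∧
    |dt (S.e 1) (nrm S z0 ρ T ζ)| * S.w 1 ≤ S.w 0 ∧
    |dt (S.e 2) (nrm S z0 ρ T ζ)| * S.w 2 ≤ S.w 0 := by
  have hw0 : 0 < S.w 0 := (hr.trans_le hS.r0_le).trans_le hS.a_le0
  have hst := StP.of_shN hS hw0
  have hE := expP_spec hS.isQ hw0.ne' z0 ρ T
  have N := IsExp.nrmC hst hρ.le (fun z h1 h2 => (hT z h1 h2).1) hE
  have hw1 := hst.pos 1
  have hw2 := hst.pos 2
  obtain ⟨B1, B2, P1, P2, -, -⟩ := curv_le N hζ hζ'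
  refine ⟨?_, ?_, ?_, ?_⟩
  · rw [dt_nrm hst.ortho, div_self hw0.ne', one_mul]; exact B1
  · rw [dt_nrm hst.ortho, div_self hw0.ne', one_mul]; exact B2
  · rw [dt_nrm hst.ortho, abs_mul, abs_of_pos (by positivity)]
    have : S.w 0 / S.w 1 * |(expP S z0 ρ T).1 1 + ζ * (expP S z0 ρ T).2.1 1| * S.w 1 =
      S.w 0 * |(expP S z0 ρ T).1 1 + ζ * (expP S z0 ρ T).2.1 1| := by field_simp
    rw [this]
    exact mul_le_of_le_one_right hw0.le P1
  · rw [dt_nrm hst.ortho, abs_mul, abs_of_pos (by positivity)]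
    have : S.w 0 / S.w 2 * |(expP S z0 ρ T).1 2 + ζ * (expP S z0 ρ T).2.1 2| * S.w 2 =
      S.w 0 * |(expP S z0 ρ T).1 2 + ζ * (expP S z0 ρ T).2.1 2| := by field_simp
    rw [this]
    exact mul_le_of_le_one_right hw0.le P2

/-- the four conormal bounds in the letters of `ShD` -/
theorem con_shd {S : Plk4} {T : Ln4} {z0 ρ r Y ζ W w1 w2 : ℝ} {f : Fin 3 → V3} (hW : 2 ≤ W)
    (hρ : 0 < ρ) (hr : 0 < r) (hY : 0 < Y) (hw2 : 0 < w2) (hS : Shp S z0 ρ r)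
    (hT : InP T S z0 ρ) (hk : kapP S z0 ρ T ≤ 4 * Y) (hF : FH W Y S f z0 ρ)
    (d1 : Near W w1 (S.w 1)) (d2 : Near W w2 (S.w 2)) (hYw : W ^ 11 * Y ≤ w2) (hζ : 0 ≤ ζ)
    (hζ' : ζ ≤ 1) :
    1 ≤ W ^ 13 * |dt (f 0) (nrm S z0 ρ T ζ)| ∧
    |dt (f 0) (nrm S z0 ρ T ζ)| ≤ W ^ 13 ∧
    |dt (f 1) (nrm S z0 ρ T ζ)| * w1 ≤ W ^ 13 * Y ∧
    |dt (f 2) (nrm S z0 ρ T ζ)| * w2 ≤ W ^ 13 * Y := by
  obtain ⟨c1, c2, c3, c4⟩ := conorm_of_FH hρ hr hY (by linarith) hS hT hk hF hζ hζ'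
  have hW0 : 0 < W := by linarith
  have h9 : (264:ℝ) ≤ W ^ 9 := by
    calc (264:ℝ) ≤ 2 ^ 9 := by norm_num
      _ ≤ W ^ 9 := by gcongr
  have h13 : (4:ℝ) ≤ W ^ 13 := by
    calc (4:ℝ) ≤ 2 ^ 13 := by norm_num
      _ ≤ W ^ 13 := by gcongr
  have hsmall : 264 * W * Y ≤ S.w 2 := by
    have h1 := d2.1
    have e1 : W ^ 11 * Y ≤ W * S.w 2 := hYw.trans h1
    have e2 : W * (W ^ 10 * Y) ≤ W * S.w 2 := by
      calc W * (W ^ 10 * Y) = W ^ 11 * Y := by ring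
        _ ≤ _ := e1
    have e3 := le_of_mul_le_mul_left e2 hW0
    have e4 : 264 * W * Y ≤ W ^ 10 * Y := by
      have : 264 * W ≤ W ^ 10 := by
        calc 264 * W ≤ W ^ 9 * W := by gcongr
          _ = W ^ 10 := by ring
      exact mul_le_mul_of_nonneg_right this hY.le
    linarith
  have hC : 264 * W ^ 3 * Y * W ≤ W ^ 13 * Y := by
    have : 264 * W ^ 3 * W ≤ W ^ 13 := by
      calc 264 * W ^ 3 * W ≤ W ^ 9 * W ^ 3 * W := by gcongr
        _ = W ^ 13 := by ring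
    calc 264 * W ^ 3 * Y * W = 264 * W ^ 3 * W * Y := by ring
      _ ≤ W ^ 13 * Y := mul_le_mul_of_nonneg_right this hY.le
  refine ⟨?_, c2.trans h13, ?_, ?_⟩
  · refine (c1 hsmall).trans ?_
    exact mul_le_mul_of_nonneg_right h13 (abs_nonneg _)
  · have e1 := mul_le_mul_of_nonneg_left d1.1 (abs_nonneg (dt (f 1) (nrm S z0 ρ T ζ)))
    have e2 := mul_le_mul_of_nonneg_right c3 hW0.le
    linarith
  · have e1 := mul_le_mul_of_nonneg_left d2.1 (abs_nonneg (dt (f 2) (nrm S z0 ρ T ζ)))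
    have e2 := mul_le_mul_of_nonneg_right c4 hW0.le
    linarith

/-- **lower bound of the minors, `2^k'` large, in the frame of the plank** -/
theorem mlow_nrm {K : ℝ} {qm qp : Fin 3 → ℝ} {L : ℕ → Ln4} {Z : Finset ℕ} {S S' : Plk4}
    {f g : Fin 3 → V3} {W M a Y w1 w2 z0 ρ r : ℝ} {j k' : ℕ}
    (H : ShD K qm qp L Z S S' f g W M a Y w1 w2 z0 ρ r j k') (hk : W ^ 85 ≤ 2 ^ k') {s : ℕ}
    (hs : s ∈ Z) {ζ : ℝ} (hζ : 0 ≤ ζ) (hζ' : ζ ≤ 1) :
    2 ^ k' * Y ≤ W ^ 99 * max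
      (|mn S.e (nrm S z0 ρ (L s) ζ) (nrm S' z0 ρ (L s) ζ) 0 1| * (w1 / 2 ^ j))
      (|mn S.e (nrm S z0 ρ (L s) ζ) (nrm S' z0 ρ (L s) ζ) 0 2| * w2) := by
  have hW := H.W2
  have hW0 : 0 < W := by linarith
  have hW1 : 1 ≤ W := by linarith
  have hY : 0 < Y := H.a0.trans_le H.aY
  have hw2 : 0 < w2 := hY.trans_le H.Yw
  have hw1 : 0 < w1 := hw2.trans_le H.ww
  have hsS := H.inS s hs
  have hsS' := H.inS' s hs
  have hkS : kapP S z0 ρ (L s) ≤ 4 * Y := (H.near s hs).2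
  have hkS' : kapP S' z0 ρ (L s) ≤ 4 * Y := (H.le s hs).trans hkS
  have hf := H.hF.ortho
  have hg := H.hG.ortho
  have he : Ortho S.e := H.shS.ortho
  have hleg := H.dy.hleg hf hg hY H.Yw H.ww
  have hlw := H.dy.hlw hf hg hY H.Yw H.ww
  have hΛ1 : (1:ℝ) ≤ 2 ^ j := one_le_pow₀ (by norm_num)
  have hΛ0 : (0:ℝ) < 2 ^ j := by linarith
  have p8 : (8:ℝ) ≤ W ^ 3 := by
    calc (8:ℝ) = 2 ^ 3 := by norm_num
      _ ≤ W ^ 3 := by gcongr
  have hYw : W ^ 11 * Y ≤ w2 := by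
    have e1 : W ^ 14 ≤ W ^ 85 := pow_le_pow_right₀ hW1 (by norm_num)
    have e2 : 8 * (W ^ 11 * Y) ≤ 8 * w2 := by
      calc 8 * (W ^ 11 * Y) ≤ W ^ 3 * (W ^ 11 * Y) := by gcongr
        _ = Y * W ^ 14 := by ring
        _ ≤ Y * 2 ^ k' := by gcongr; exact e1.trans hk
        _ ≤ _ := hleg
    linarith
  obtain ⟨a1, a2, a3, a4⟩ := con_shd hW H.ρ0 H.r0 hY hw2 H.shS hsS hkS H.hF H.d1 H.d2 hYw hζ hζ'
  obtain ⟨b1, b2, b3, b4⟩ := con_shd hW H.ρ0 H.r0 hY hw2 H.shS' hsS' hkS' H.hG H.d1' H.d2' hYw hζ hζ'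
  obtain ⟨q1, q2, q3, q4⟩ := nrm_plank H.ρ0 H.r0 H.shS hsS hζ hζ'
  set n := nrm S z0 ρ (L s) ζ with hn
  set n' := nrm S' z0 ρ (L s) ζ with hn'
  have hK : (1:ℝ) ≤ W ^ 13 := one_le_pow₀ hW1
  have ht := tilt_low hf hg hY H.Yw H.ww H.dy hK a1 a2 a3 a4 b1 b2 b3 b4
  -- frame change
  have w02 : S.w 0 ≤ S.w 2 := H.shS.w0_le
  have d22 : S.w 2 ≤ W * w2 := H.d2.2
  have d11 : w1 ≤ W * S.w 1 := H.d1.1
  have d21 : w2 ≤ W * S.w 2 := H.d2.1
  have cvt : ∀ x : ℝ, |x| * S.w 1 ≤ W * S.w 2 → |x| * w1 ≤ W ^ 3 * w2 := by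
    intro x hx
    have e1 := mul_le_mul_of_nonneg_left d11 (abs_nonneg x)
    have e2 := mul_le_mul_of_nonneg_left hx hW0.le
    have e3 := mul_le_mul_of_nonneg_left d22 (mul_nonneg hW0.le hW0.le)
    calc |x| * w1 ≤ |x| * (W * S.w 1) := e1
      _ = W * (|x| * S.w 1) := by ring
      _ ≤ W * (W * S.w 2) := e2
      _ = W * W * S.w 2 := by ring
      _ ≤ W * W * (W * w2) := e3
      _ = W ^ 3 * w2 := by ring
  have hK3 : (1:ℝ) ≤ W ^ 3 := one_le_pow₀ hW1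
  have m0 : 1 ≤ W ^ 3 * |dt (S.e 0) n| := by
    have : dt (S.e 0) n ≤ |dt (S.e 0) n| := le_abs_self _
    nlinarith
  have m1 : |dt (S.e 1) n| * w1 ≤ W ^ 3 * w2 := by
    refine cvt _ ?_
    have : S.w 2 ≤ W * S.w 2 := le_mul_of_one_le_left (by
      have := H.d2.1; nlinarith) hW1
    linarith
  have m2 : |dt (S.e 2) n| ≤ W ^ 3 := by
    have hs2 : 0 < S.w 2 := by
      by_contra hc
      push Not at hc
      nlinarith
    have : |dt (S.e 2) n| * S.w 2 ≤ 1 * S.w 2 := by linarith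
    exact (le_of_mul_le_mul_right this hs2).trans hK3
  have mf := minor_frame he hf hw2 H.ww hK3 hΛ1 hlw (cvt _ H.hF.e01) (cvt _ H.hF.e10)
    (cvt _ H.hF.e12) (cvt _ H.hF.e21) m0 m1 m2 (n' := n')
  have mx1 := le_max_left (|mn S.e n n' 0 1| * (w1 / 2 ^ j)) (|mn S.e n n' 0 2| * w2)
  have mx2 := le_max_right (|mn S.e n n' 0 1| * (w1 / 2 ^ j)) (|mn S.e n n' 0 2| * w2)
  set X := max (|mn S.e n n' 0 1| * (w1 / 2 ^ j)) (|mn S.e n n' 0 2| * w2) with hX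
  have hX0 : 0 ≤ X := le_trans (by positivity) mx1
  have mf' : |mn f n n' 0 1| * (w1 / 2 ^ j) + |mn f n n' 0 2| * w2 ≤ 36 * W ^ 9 * X := by
    refine mf.trans ?_
    calc 18 * (W ^ 3) ^ 3 * (|mn S.e n n' 0 1| * (w1 / 2 ^ j) + |mn S.e n n' 0 2| * w2) ≤
        18 * (W ^ 3) ^ 3 * (X + X) := by gcongr
      _ = 36 * W ^ 9 * X := by ring
  have ht' : 2 ^ k' * Y ≤ 56 * (W ^ 13) ^ 6 *
      (|mn f n n' 0 1| * (w1 / 2 ^ j) + |mn f n n' 0 2| * w2 + Y) := ht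
  have c1 : 56 * (W ^ 13) ^ 6 * (|mn f n n' 0 1| * (w1 / 2 ^ j) + |mn f n n' 0 2| * w2 + Y) ≤
      56 * (W ^ 13) ^ 6 * (36 * W ^ 9 * X + Y) := by gcongr
  have c2 : 56 * (W ^ 13) ^ 6 * (36 * W ^ 9 * X + Y) = 2016 * W ^ 87 * X + 56 * W ^ 78 * Y := by
    ring
  have c3 : 112 * W ^ 78 * Y ≤ 2 ^ k' * Y := by
    refine mul_le_mul_of_nonneg_right (le_trans ?_ hk) hY.le
    calc 112 * W ^ 78 ≤ 2 ^ 7 * W ^ 78 := by gcongr; norm_num
      _ ≤ W ^ 7 * W ^ 78 := by gcongr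
      _ = W ^ 85 := by ring
  have c4 : 4032 * W ^ 87 * X ≤ W ^ 99 * X := by
    refine mul_le_mul_of_nonneg_right ?_ hX0
    calc 4032 * W ^ 87 ≤ 2 ^ 12 * W ^ 87 := by gcongr; norm_num
      _ ≤ W ^ 12 * W ^ 87 := by gcongr
      _ = W ^ 99 := by ring
  linarith

/-- **`mlow_k`** : the same with 89's `cv`. -/
theorem mlow_k {K : ℝ} {qm qp : Fin 3 → ℝ} {L : ℕ → Ln4} {Z : Finset ℕ} {S S' : Plk4}
    {f g : Fin 3 → V3} {W M a Y w1 w2 z0 ρ r : ℝ} {j k' : ℕ}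
    (H : ShD K qm qp L Z S S' f g W M a Y w1 w2 z0 ρ r j k') (hk : W ^ 85 ≤ 2 ^ k') {s : ℕ}
    (hs : s ∈ Z) {ζ : ℝ} (hζ : 0 ≤ ζ) (hζ' : ζ ≤ 1) {n n' : V3}
    (hn : n = cv S.e S.w (fun k => (expP S z0 ρ (L s)).1 k + ζ * (expP S z0 ρ (L s)).2.1 k))
    (hn' : n' = cv S'.e S'.w
      (fun k => (expP S' z0 ρ (L s)).1 k + ζ * (expP S' z0 ρ (L s)).2.1 k)) :
    2 ^ k' * Y ≤ W ^ 99 * max
      (|dt (S.e 0) n * dt (S.e 1) n' - dt (S.e 0) n' * dt (S.e 1) n| * (w1 / 2 ^ j))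
      (|dt (S.e 0) n * dt (S.e 2) n' - dt (S.e 0) n' * dt (S.e 2) n| * w2) := by
  have h := mlow_nrm H hk hs hζ hζ'
  rw [nrm_eq_cv, nrm_eq_cv, ← hn, ← hn'] at h
  exact h

end Crest.Agent.R136.Mlo777
end

-- ▼ part R136/Mlz_410

/-!
# R136 (S0187), PLAN 2, leaf (B4) share: the lower bound of the minors (helper410)

Glue of 777's `mlow_k` (large thickness tilt) and 723's `mlow_j` (large base tilt).
-/

set_option autoImplicit false
set_option linter.unusedVariables false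

namespace Crest.Agent.R136.Shv410

open Crest.Agent.R136.Sh605 Crest.Agent.R136.Fl808
open Crest.Agent.R136.K4 (Plk4)
open Crest.Agent.R136.KapP335 (kapP expP DetP)
open Crest.Agent.R136.Shd410
open Crest.Agent.R136.Lkp140 (pik MLow)

/-- **the M bound** -/
theorem mLow : MLow := by
  refine ⟨131, 121, by norm_num, by norm_num, ?_⟩
  intro qm qp L Z S S' f g W M a Y w1 w2 z0 ρ r j k' H s hs
  have W2 := H.W2
  have W1 : 1 ≤ W := by linarith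
  have W0 : 0 < W := by linarith
  have hY : 0 < Y := H.a0.trans_le H.aY
  have hw2 : 0 < w2 := hY.trans_le H.Yw
  have hw1 : 0 < w1 := hw2.trans_le H.ww
  have e121 : W ^ (121:ℝ) = W ^ 121 := by exact_mod_cast Real.rpow_natCast W 121
  have e131 : W ^ (131:ℝ) = W ^ 131 := by exact_mod_cast Real.rpow_natCast W 131
  have hthr := H.thr
  rw [e131] at hthr
  rw [e121]
  by_cases hk : W ^ 85 ≤ (2:ℝ) ^ k'
  · refine ⟨0, Or.inl rfl, ?_⟩
    have h := Mlo777.mlow_k H hk hs le_rfl zero_le_one rfl rfl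
    refine h.trans ?_
    have : W ^ 99 ≤ W ^ 121 := pow_le_pow_right₀ W1 (by norm_num)
    refine mul_le_mul_of_nonneg_right this ?_
    exact le_max_of_le_right (by positivity)
  · rw [not_le] at hk
    have hj : W ^ 46 ≤ (2:ℝ) ^ j := by
      by_contra hc
      rw [not_le] at hc
      have h1 : (2:ℝ) ^ j * 2 ^ k' < W ^ 46 * W ^ 85 :=
        mul_lt_mul'' hc hk (by positivity) (by positivity)
      have h2 : W ^ 46 * W ^ 85 = W ^ 131 := by ring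
      rw [h2] at h1
      linarith
    obtain ⟨ζ, hζ, h⟩ := Mlr723.mlow_j H hs hj
    refine ⟨ζ, hζ, ?_⟩
    have h3 : (2:ℝ) ^ k' * Y ≤ W ^ 85 * Y := mul_le_mul_of_nonneg_right hk.le hY.le
    have h4 := mul_le_mul_of_nonneg_left h (by positivity : 0 ≤ W ^ 85)
    refine h3.trans (h4.trans ?_)
    rw [← mul_assoc, ← pow_add]
    exact le_rfl

end Crest.Agent.R136.Shv410
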