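import Crest.Agent.R138.Tub3_70
import Mathlib
import Crest.Prelude.Def_Kakeya

-- ▼ part R136/Mx1_639
section

/-!
# R136 / S0186, part 1 (helper639): `KM32` for tubes with `δ`-separated velocities

`Sq δ k`: the half open square of side `δ` with index `k`. `card_plank`: number of points, one in each
square, in a rectangle. `overlap`: the `L^{3/2}` bound of the overlap function of tubes whose velocities
are in different squares.
-/

set_option autoImplicit false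

open MeasureTheory
open scoped ENNReal

namespace Crest.Agent.R136.GR639

open Crest.Agent.R138.Tub70

/-- the square of side `δ` and index `k`. -/
def Sq (δ : ℝ) (k : ℤ × ℤ) (v : E2) : Prop := ⌊v 0 / δ⌋ = k.1 ∧ ⌊v 1 / δ⌋ = k.2

theorem abs_coord_le (x : E2) (i : Fin 2) : |x i| ≤ ‖x‖ := by
  rw [← Real.norm_eq_abs]; exact PiLp.norm_apply_le x i

theorem norm_sq_E2 (x : E2) : ‖x‖ ^ 2 = x 0 ^ 2 + x 1 ^ 2 := by
  rw [EuclideanSpace.norm_sq_eq]; simp [Fin.sum_univ_two, sq_abs]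

theorem norm_sq_basis (b : OrthonormalBasis (Fin 2) ℝ E2) (x : E2) :
    ‖x‖ ^ 2 = (inner ℝ x (b 0)) ^ 2 + (inner ℝ x (b 1)) ^ 2 := by
  have := b.sum_sq_norm_inner_right x
  rw [Fin.sum_univ_two] at this
  rw [← this]
  simp only [Real.norm_eq_abs, sq_abs]
  rw [real_inner_comm, real_inner_comm x]

/-- **number of velocities in a rectangle**. -/
theorem card_plank {δ : ℝ} (hδ : 0 < δ) (K : Finset (ℤ × ℤ)) (v : ℤ × ℤ → E2)
    (hv : ∀ k ∈ K, Sq δ k (v k)) (b : OrthonormalBasis (Fin 2) ℝ E2) (v0 : E2) (s : Fin 2 → ℝ)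
    (hs : ∀ j, 2 / 5 * δ ≤ s j) (hin : ∀ k ∈ K, ∀ j, |inner ℝ (v k - v0) (b j)| ≤ s j) :
    (K.card : ℝ) ≤ 1600 * (s 0 * s 1) / δ ^ 2 := by
  classical
  set F : ℤ × ℤ → ℤ × ℤ := fun k => (⌊inner ℝ (v k - v0) (b 0) / δ⌋, ⌊inner ℝ (v k - v0) (b 1) / δ⌋)
    with hF
  -- the fibres
  have hfib : ∀ a ∈ K.image F, (K.filter fun k => F k = a).card ≤ 25 := by
    intro a ha
    obtain ⟨k0, hk0, rfl⟩ := Finset.mem_image.1 ha
    have hsub : (K.filter fun k => F k = F k0) ⊆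
        (Finset.Icc (k0.1 - 2) (k0.1 + 2)) ×ˢ (Finset.Icc (k0.2 - 2) (k0.2 + 2)) := by
      intro k hk
      rw [Finset.mem_filter] at hk
      have e0 := congrArg Prod.fst hk.2
      have e1 := congrArg Prod.snd hk.2
      have h0 := Int.abs_sub_lt_one_of_floor_eq_floor e0
      have h1 := Int.abs_sub_lt_one_of_floor_eq_floor e1
      rw [← sub_div, abs_div, abs_of_pos hδ, div_lt_one hδ, ← inner_sub_left] at h0 h1
      have e : v k - v0 - (v k0 - v0) = v k - v k0 := by abel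
      rw [e] at h0 h1
      have hn : ‖v k - v k0‖ ^ 2 ≤ 2 * δ ^ 2 := by
        rw [norm_sq_basis b]
        have := sq_lt_sq' (by linarith [abs_nonneg (inner ℝ (v k - v k0) (b 0) : ℝ)]) h0
        have h2 := sq_lt_sq' (by linarith [abs_nonneg (inner ℝ (v k - v k0) (b 1) : ℝ)]) h1
        rw [sq_abs] at this h2
        linarith
      have hc : ∀ i : Fin 2, |(v k) i - (v k0) i| < 3/2 * δ := by
        intro i
        have h3 := abs_coord_le (v k - v k0) i
        have h4 : ‖v k - v k0‖ < 3/2 * δ := by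
          by_contra hcon
          push Not at hcon
          have : (3/2 * δ) ^ 2 ≤ ‖v k - v k0‖ ^ 2 := by gcongr
          nlinarith [sq_nonneg δ, mul_pos hδ hδ]
        have h5 : (v k - v k0) i = (v k) i - (v k0) i := rfl
        rw [h5] at h3
        linarith
      have hi : ∀ (x y : ℝ) (m n : ℤ), ⌊x / δ⌋ = m → ⌊y / δ⌋ = n → |x - y| < 3/2 * δ →
          m ∈ Finset.Icc (n - 2) (n + 2) := by
        intro x y m n hm hn' hxy
        have h6 : |x / δ - y / δ| < 3/2 := by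
          rw [← sub_div, abs_div, abs_of_pos hδ, div_lt_iff₀ hδ]; exact hxy
        have h7 := abs_lt.1 h6
        have a1 := Int.floor_le (x / δ)
        have a2 := Int.lt_floor_add_one (x / δ)
        have a3 := Int.floor_le (y / δ)
        have a4 := Int.lt_floor_add_one (y / δ)
        rw [hm] at a1 a2
        rw [hn'] at a3 a4
        rw [Finset.mem_Icc]
        have b1 : (m : ℝ) < n + 3 := by linarith
        have b2 : (n : ℝ) - 3 < m := by linarith
        have b1' : m < n + 3 := by exact_mod_cast b1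
        have b2' : n - 3 < m := by exact_mod_cast b2
        omega
      rw [Finset.mem_product]
      exact ⟨hi _ _ _ _ (hv k hk.1).1 (hv k0 hk0).1 (hc 0),
        hi _ _ _ _ (hv k hk.1).2 (hv k0 hk0).2 (hc 1)⟩
    refine (Finset.card_le_card hsub).trans ?_
    rw [Finset.card_product]
    simp only [Int.card_Icc]
    have e1 : (k0.1 + 2 + 1 - (k0.1 - 2)).toNat = 5 := by omega
    have e2 : (k0.2 + 2 + 1 - (k0.2 - 2)).toNat = 5 := by omega
    rw [e1, e2]
  have hcard : K.card ≤ 25 * (K.image F).card := by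
    have := Finset.card_le_mul_card_image (s := K) (f := F) 25 hfib
    exact this
  -- the image
  have him : ((K.image F).card : ℝ) ≤ (2 * (s 0 / δ) + 2) * (2 * (s 1 / δ) + 2) := by
    have hsub : K.image F ⊆ (Finset.Icc ⌊-(s 0 / δ)⌋ ⌊s 0 / δ⌋) ×ˢ (Finset.Icc ⌊-(s 1 / δ)⌋ ⌊s 1 / δ⌋) := by
      intro a ha
      obtain ⟨k, hk, rfl⟩ := Finset.mem_image.1 ha
      have key : ∀ j, ⌊(inner ℝ (v k - v0) (b j) : ℝ) / δ⌋ ∈ Finset.Icc ⌊-(s j / δ)⌋ ⌊s j / δ⌋ := by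
        intro j
        have h := abs_le.1 (hin k hk j)
        rw [Finset.mem_Icc]
        constructor
        · apply Int.floor_le_floor
          rw [← neg_div]
          exact div_le_div_of_nonneg_right h.1 hδ.le
        · exact Int.floor_le_floor (div_le_div_of_nonneg_right h.2 hδ.le)
      rw [Finset.mem_product]
      exact ⟨key 0, key 1⟩
    have h1 : ∀ x : ℝ, 0 ≤ x → ((Finset.Icc ⌊-x⌋ ⌊x⌋).card : ℝ) ≤ 2 * x + 2 := by
      intro x hx
      rw [Int.card_Icc]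
      have a1 := Int.floor_le x
      have a2 := Int.lt_floor_add_one (-x)
      have a3 : ⌊-x⌋ ≤ ⌊x⌋ := Int.floor_le_floor (by linarith)
      have : (((⌊x⌋ + 1 - ⌊-x⌋).toNat : ℤ) : ℝ) = (⌊x⌋ : ℝ) + 1 - ⌊-x⌋ := by
        rw [Int.toNat_of_nonneg (by omega)]; push_cast; ring
      have h' : (((⌊x⌋ + 1 - ⌊-x⌋).toNat : ℕ) : ℝ) = (⌊x⌋ : ℝ) + 1 - ⌊-x⌋ := by
        exact_mod_cast this
      rw [h']; linarith
    have hs' : ∀ j, 0 ≤ s j / δ := fun j => by
      have := hs j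
      have : 0 ≤ s j := by nlinarith
      positivity
    calc ((K.image F).card : ℝ) ≤ (((Finset.Icc ⌊-(s 0 / δ)⌋ ⌊s 0 / δ⌋) ×ˢ
            (Finset.Icc ⌊-(s 1 / δ)⌋ ⌊s 1 / δ⌋)).card : ℝ) := by
            exact_mod_cast Finset.card_le_card hsub
      _ = ((Finset.Icc ⌊-(s 0 / δ)⌋ ⌊s 0 / δ⌋).card : ℝ) *
            ((Finset.Icc ⌊-(s 1 / δ)⌋ ⌊s 1 / δ⌋).card : ℝ) := by
            rw [Finset.card_product]; push_cast; rfl
      _ ≤ _ := mul_le_mul (h1 _ (hs' 0)) (h1 _ (hs' 1)) (Nat.cast_nonneg _)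
            (by linarith [hs' 0])
  have hs2 : ∀ j, 2 ≤ 5 * (s j / δ) := fun j => by
    have : 2 / 5 ≤ s j / δ := by rw [le_div_iff₀ hδ]; exact hs j
    linarith
  have hfin : (2 * (s 0 / δ) + 2) * (2 * (s 1 / δ) + 2) ≤ 64 * ((s 0 / δ) * (s 1 / δ)) := by
    have p0 := hs2 0
    have p1 := hs2 1
    calc (2 * (s 0 / δ) + 2) * (2 * (s 1 / δ) + 2) ≤ (8 * (s 0 / δ)) * (8 * (s 1 / δ)) := by
          apply mul_le_mul <;> linarith
      _ = _ := by ring
  have : (K.card : ℝ) ≤ 25 * ((K.image F).card : ℝ) := by exact_mod_cast hcard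
  calc (K.card : ℝ) ≤ 25 * ((K.image F).card : ℝ) := this
    _ ≤ 25 * (64 * ((s 0 / δ) * (s 1 / δ))) := by linarith [him.trans hfin]
    _ = 1600 * (s 0 * s 1) / δ ^ 2 := by field_simp; ring

/-- number of all squares. -/
theorem card_all {δ : ℝ} (hδ : 0 < δ) (hδ1 : δ ≤ 1) (K : Finset (ℤ × ℤ)) (v : ℤ × ℤ → E2)
    (hv : ∀ k ∈ K, Sq δ k (v k)) (hv2 : ∀ k ∈ K, ‖v k‖ ≤ 2) :
    (K.card : ℝ) ≤ 6400 / δ ^ 2 := by
  have h := card_plank hδ K v hv (EuclideanSpace.basisFun (Fin 2) ℝ) 0 (fun _ => 2)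
    (fun _ => by linarith) (fun k hk j => by
      refine (abs_real_inner_le_norm _ _).trans ?_
      rw [(EuclideanSpace.basisFun (Fin 2) ℝ).orthonormal.1 j, mul_one, sub_zero]
      exact hv2 k hk)
  norm_num at h ⊢
  exact h

/-- **overlap of tubes with separated velocities**. -/
theorem overlap (hKM : ∀ V : ℝ, KM32 V) (ε : ℝ) (hε : 0 < ε) : ∃ C : ℝ, 0 ≤ C ∧
    ∀ δ : ℝ, 0 < δ → δ < 1 → ∀ (K : Finset (ℤ × ℤ)) (p v : ℤ × ℤ → E2),
      (∀ k ∈ K, Sq δ k (v k)) → (∀ k ∈ K, ‖v k‖ ≤ 2) → (∀ k ∈ K, ‖p k‖ ≤ 10) →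
      ∫⁻ t in Set.Icc (-5 : ℝ) 5, ∫⁻ x in {x : E2 | ‖x‖ ≤ 5},
          (∑ k ∈ K, (if ‖x - p k - t • v k‖ ≤ 2 * δ then (1 : ℝ≥0∞) else 0)) ^ (3/2 : ℝ) ≤
        ENNReal.ofReal (C * δ ^ (-ε) * (δ ^ 2 * K.card)) := by
  classical
  obtain ⟨C, hC, h⟩ := tubes_KM (hKM 2) ε hε
  refine ⟨C * (2/5) ^ (-ε) * Real.sqrt 256 * 20, by positivity, ?_⟩
  intro δ hδ hδ1 K p v hv hv2 hp
  have key := h (2 * δ) 5 (by positivity) (by linarith) K (fun k => p k) (fun k => - v k)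
    (fun _ => 1) (fun _ => by norm_num) (fun k => by norm_num; exact hp k k.2)
    (fun k => by rw [norm_neg]; exact hv2 k k.2) 256 (by norm_num)
    (fun b s x0 c0 hs => by
      have hs0 : ∀ j, 2 / 5 * δ ≤ s j := fun j => by have := (hs j).1; linarith
      set K' : Finset (ℤ × ℤ) := K.filter (fun k => ∀ t : ℝ, |t| ≤ 5 →
        sl c0 b (fun i => s i * 5) x0 t (p k - t • (- v k))) with hK'
      have h1 : ∑ k : K, (if ∀ t : ℝ, |t| ≤ 5 → sl c0 b (fun i => s i * 5) x0 t (p k - t • (- v k)) then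
          (1 : ℝ) * (2 * δ) ^ 2 else 0) = (K'.card : ℝ) * (2 * δ) ^ 2 := by
        rw [Finset.sum_coe_sort K (fun k => if ∀ t : ℝ, |t| ≤ 5 →
          sl c0 b (fun i => s i * 5) x0 t (p k - t • (- v k)) then (1 : ℝ) * (2 * δ) ^ 2 else 0),
          ← Finset.sum_filter]
        simp [K']
      rw [h1]
      have h2 := card_plank hδ K' v (fun k hk => hv k (Finset.mem_filter.1 hk).1) b (-c0) s hs0
        (fun k hk j => by
          have h3 := (Finset.mem_filter.1 hk).2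
          have h4 := h3 5 (by norm_num) j
          have h5 := h3 (-5) (by norm_num) j
          have e : (10 : ℝ) * inner ℝ (v k - -c0) (b j) =
              inner ℝ (p k - (5 : ℝ) • (- v k) - x0 + (5 : ℝ) • c0) (b j) -
              inner ℝ (p k - (-5 : ℝ) • (- v k) - x0 + (-5 : ℝ) • c0) (b j) := by
            simp only [inner_sub_left, inner_add_left, inner_smul_left, inner_neg_left, smul_neg,
              neg_smul, neg_neg, sub_neg_eq_add]
            simp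
            ring
          have h6 : |(10 : ℝ) * inner ℝ (v k - -c0) (b j)| ≤ 10 * s j := by
            rw [e]
            refine (abs_sub _ _).trans ?_
            linarith
          rw [abs_mul, abs_of_pos (by norm_num : (0:ℝ) < 10)] at h6
          linarith)
      calc (K'.card : ℝ) * (2 * δ) ^ 2 ≤ 1600 * (s 0 * s 1) / δ ^ 2 * (2 * δ) ^ 2 := by gcongr
        _ = 256 * (s 0 * s 1 * 5 ^ 2) := by field_simp; ring)
    (fun x t => ∑ k ∈ K, (if ‖x - p k - t • v k‖ ≤ 2 * δ then (1 : ℝ≥0∞) else 0))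
    (fun x t _ _ => by
      rw [← Finset.sum_coe_sort K]
      refine Finset.sum_le_sum fun k _ => ?_
      rw [smul_neg, ← sub_eq_add_neg, ENNReal.ofReal_one])
  refine key.trans (ENNReal.ofReal_le_ofReal ?_)
  rw [Finset.sum_coe_sort K (fun _ => (1 : ℝ) * (2 * δ) ^ 2), Finset.sum_const, nsmul_eq_mul]
  have e : (2 * δ / 5) ^ (-ε) = (2/5) ^ (-ε) * δ ^ (-ε) := by
    rw [← Real.mul_rpow (by norm_num) hδ.le]; congr 1; ring
  rw [e]
  apply le_of_eq
  ring

end Crest.Agent.R136.GR639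
end

-- ▼ part R136/Mx2_639
section

/-!
# R136 / S0186, part 2 (helper639): level sets, harmonic sum

`harm`: from the level set bounds to the sum of cubes (loss: a harmonic number). `lev`: Hoelder.
-/

set_option autoImplicit false

open MeasureTheory
open scoped ENNReal

namespace Crest.Agent.R136.GR639

open Classical in
/-- from level sets to the sum of cubes. -/
theorem harm {ι : Type*} (A : ι → ℝ≥0∞) (M : ℝ≥0∞) : ∀ (n : ℕ) (K : Finset ι), K.card = n →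
    (∀ t : ℝ≥0∞, t ^ 3 * ((K.filter fun k => t ≤ A k).card : ℝ≥0∞) ≤ M) →
    ∑ k ∈ K, A k ^ 3 ≤ M * ∑ i ∈ Finset.range n, ((i : ℝ≥0∞) + 1)⁻¹ := by
  intro n
  induction n with
  | zero =>
    intro K hK _
    rw [Finset.card_eq_zero] at hK
    subst hK; simp
  | succ n ih =>
    intro K hK h
    have hne : K.Nonempty := by rw [← Finset.card_pos]; omega
    obtain ⟨m, hm, hmin⟩ := Finset.exists_min_image K A hne
    have h1 := h (A m)
    rw [Finset.filter_true_of_mem (fun k hk => hmin k hk), hK] at h1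
    have h2 : A m ^ 3 ≤ M * ((n : ℝ≥0∞) + 1)⁻¹ := by
      have hn0 : ((n + 1 : ℕ) : ℝ≥0∞) ≠ 0 := by exact_mod_cast Nat.succ_ne_zero n
      have hnt : ((n + 1 : ℕ) : ℝ≥0∞) ≠ ⊤ := ENNReal.natCast_ne_top _
      have := ENNReal.le_div_iff_mul_le (a := A m ^ 3) (b := ((n + 1 : ℕ) : ℝ≥0∞)) (c := M)
        (Or.inl hn0) (Or.inl hnt)
      rw [ENNReal.div_eq_inv_mul, mul_comm] at this
      have h3 := this.2 h1
      push_cast at h3
      exact h3
    have h3 := ih (K.erase m) (by rw [Finset.card_erase_of_mem hm, hK]; rfl) (fun t => by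
      refine le_trans ?_ (h t)
      gcongr
      exact Finset.erase_subset _ _)
    rw [← Finset.sum_erase_add K _ hm, Finset.sum_range_succ, mul_add]
    exact add_le_add h3 h2

theorem sum_inv_le (n : ℕ) : ∑ i ∈ Finset.range n, ((i : ℝ≥0∞) + 1)⁻¹ ≤
    ENNReal.ofReal (1 + Real.log n) := by
  have h := harmonic_le_one_add_log n
  have e : ∑ i ∈ Finset.range n, ((i : ℝ≥0∞) + 1)⁻¹ = ENNReal.ofReal ((harmonic n : ℚ) : ℝ) := by
    unfold harmonic
    push_cast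
    rw [ENNReal.ofReal_sum_of_nonneg (fun i _ => by positivity)]
    refine Finset.sum_congr rfl fun i _ => ?_
    rw [ENNReal.ofReal_inv_of_pos (by positivity), ENNReal.ofReal_add (by positivity) (by norm_num)]
    simp
  rw [e]
  exact ENNReal.ofReal_le_ofReal h

/-- the harmonic loss is `≤ C δ^-ε`. -/
theorem harm_loss (ε : ℝ) (hε : 0 < ε) : ∃ C : ℝ, 0 ≤ C ∧ ∀ δ : ℝ, 0 < δ → δ < 1 → ∀ n : ℕ,
    (n : ℝ) ≤ 6400 / δ ^ 2 →
    ∑ i ∈ Finset.range n, ((i : ℝ≥0∞) + 1)⁻¹ ≤ ENNReal.ofReal (C * δ ^ (-ε)) := by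
  refine ⟨1 + 6400 ^ (ε / 2) / (ε / 2), by positivity, ?_⟩
  intro δ hδ hδ1 n hn
  refine (sum_inv_le n).trans (ENNReal.ofReal_le_ofReal ?_)
  have h1 : (1 : ℝ) ≤ δ ^ (-ε) := Real.one_le_rpow_of_pos_of_le_one_of_nonpos hδ hδ1.le (by linarith)
  have h2 : Real.log n ≤ (n : ℝ) ^ (ε / 2) / (ε / 2) :=
    Real.log_le_rpow_div (Nat.cast_nonneg n) (by positivity)
  have h3 : (n : ℝ) ^ (ε / 2) ≤ 6400 ^ (ε / 2) * δ ^ (-ε) := by
    calc (n : ℝ) ^ (ε / 2) ≤ (6400 / δ ^ 2) ^ (ε / 2) :=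
          Real.rpow_le_rpow (Nat.cast_nonneg n) hn (by positivity)
      _ = 6400 ^ (ε / 2) * δ ^ (-ε) := by
          rw [Real.div_rpow (by norm_num) (by positivity), div_eq_mul_inv,
            ← Real.rpow_neg (by positivity)]
          congr 1
          rw [← Real.rpow_natCast δ 2, ← Real.rpow_mul hδ.le]
          congr 1
          push_cast; ring
  calc 1 + Real.log n ≤ δ ^ (-ε) + (6400 ^ (ε / 2) * δ ^ (-ε)) / (ε / 2) := by
        have : (n : ℝ) ^ (ε / 2) / (ε / 2) ≤ (6400 ^ (ε / 2) * δ ^ (-ε)) / (ε / 2) := by gcongr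
        linarith
    _ = _ := by ring

variable {X : Type*} [MeasurableSpace X]

open Classical in
/-- **level sets by Hoelder**. -/
theorem lev {ι : Type*} (μ : Measure X) (B : Set X) (hB : MeasurableSet B) (K : Finset ι)
    (T : ι → Set X) (hT : ∀ k ∈ K, MeasurableSet (T k)) (hTB : ∀ k ∈ K, T k ⊆ B)
    (V : ℝ≥0∞) (hV0 : V ≠ 0) (hVt : V ≠ ⊤) (hV : ∀ k ∈ K, V ≤ μ (T k)) (hTt : ∀ k ∈ K, μ (T k) ≠ ⊤)
    (g : X → ℝ≥0∞) (hg : Measurable g) (D : ℝ≥0∞)
    (hD : ∀ K' ⊆ K, ∫⁻ x in B, (∑ k ∈ K', (T k).indicator (fun _ => (1 : ℝ≥0∞)) x) ^ (3/2 : ℝ) ∂μ ≤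
      D * K'.card) (t : ℝ≥0∞) :
    t ^ 3 * ((K.filter fun k => t ≤ (μ (T k))⁻¹ * ∫⁻ x in T k, g x ∂μ).card : ℝ≥0∞) ≤
      (∫⁻ x in B, g x ^ 3 ∂μ) * D ^ 2 * (V ^ 3)⁻¹ := by
  set K' := K.filter fun k => t ≤ (μ (T k))⁻¹ * ∫⁻ x in T k, g x ∂μ with hK'
  set N : ℝ≥0∞ := (K'.card : ℝ≥0∞) with hN
  set I := ∫⁻ x in B, g x ^ 3 ∂μ with hI
  have hsub : K' ⊆ K := Finset.filter_subset _ _
  rcases Nat.eq_zero_or_pos K'.card with h0 | hpos
  · rw [hN, h0]; simp
  have hN0 : N ≠ 0 := by rw [hN]; exact_mod_cast hpos.ne'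
  have hNt : N ≠ ⊤ := ENNReal.natCast_ne_top _
  have hS : Measurable (fun x => ∑ k ∈ K', (T k).indicator (fun _ => (1 : ℝ≥0∞)) x) :=
    Finset.measurable_sum _ fun k hk => measurable_const.indicator (hT k (hsub hk))
  have h1 : t * N * V ≤ ∫⁻ x in B, g x * (∑ k ∈ K', (T k).indicator (fun _ => (1 : ℝ≥0∞)) x) ∂μ := by
    have e : ∫⁻ x in B, g x * (∑ k ∈ K', (T k).indicator (fun _ => (1 : ℝ≥0∞)) x) ∂μ =
        ∑ k ∈ K', ∫⁻ x in T k, g x ∂μ := by
      simp only [Finset.mul_sum]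
      have hmeas : ∀ k ∈ K', Measurable (fun x => g x * (T k).indicator (fun _ => (1 : ℝ≥0∞)) x) :=
        fun k hk => hg.mul (measurable_const.indicator (hT k (hsub hk)))
      rw [lintegral_finsetSum K' hmeas]
      refine Finset.sum_congr rfl fun k hk => ?_
      have e2 : ∀ x, g x * (T k).indicator (fun _ => (1 : ℝ≥0∞)) x = (T k).indicator g x := by
        intro x
        by_cases hx : x ∈ T k
        · simp [hx]
        · simp [hx]
      simp only [e2]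
      rw [lintegral_indicator (hT k (hsub hk)), Measure.restrict_restrict (hT k (hsub hk)),
        Set.inter_eq_left.2 (hTB k (hsub hk))]
    rw [e]
    calc t * N * V = ∑ k ∈ K', t * V := by
          rw [Finset.sum_const, nsmul_eq_mul]; ring
      _ ≤ _ := Finset.sum_le_sum fun k hk => by
          have hk1 := hsub hk
          have hk2 := (Finset.mem_filter.1 hk).2
          have hm0 : μ (T k) ≠ 0 := fun h => hV0 (le_antisymm ((hV k hk1).trans h.le) (by simp))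
          calc t * V ≤ ((μ (T k))⁻¹ * ∫⁻ x in T k, g x ∂μ) * μ (T k) := by
                gcongr
                exact hV k hk1
            _ = (μ (T k) * (μ (T k))⁻¹) * ∫⁻ x in T k, g x ∂μ := by ring
            _ = _ := by rw [ENNReal.mul_inv_cancel hm0 (hTt k hk1), one_mul]
  have hpq : (3 : ℝ).HolderConjugate (3/2) := by
    rw [Real.holderConjugate_iff]; norm_num
  have h2 := ENNReal.lintegral_mul_le_Lp_mul_Lq (μ.restrict B) hpq hg.aemeasurable hS.aemeasurable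
  simp only [Pi.mul_apply] at h2
  have h3 : t * N * V ≤ I ^ (1/3 : ℝ) * (D * N) ^ (2/3 : ℝ) := by
    refine h1.trans (h2.trans ?_)
    have e1 : (∫⁻ a in B, g a ^ (3:ℝ) ∂μ) = I := by
      simp only [hI]
      congr 1; funext x
      exact_mod_cast ENNReal.rpow_natCast (g x) 3
    rw [e1]
    have e2 : (1 / (3/2) : ℝ) = 2/3 := by norm_num
    rw [e2]
    gcongr
    exact hD K' hsub
  have h4 : (t * N * V) ^ 3 ≤ I * (D * N) ^ 2 := by
    calc (t * N * V) ^ 3 ≤ (I ^ (1/3 : ℝ) * (D * N) ^ (2/3 : ℝ)) ^ 3 := by gcongr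
      _ = I * (D * N) ^ 2 := by
        rw [mul_pow, ← ENNReal.rpow_natCast (I ^ (1/3 : ℝ)), ← ENNReal.rpow_natCast ((D*N) ^ (2/3:ℝ)),
          ← ENNReal.rpow_mul, ← ENNReal.rpow_mul, ← ENNReal.rpow_natCast (D * N)]
        norm_num
  have hN2 : N ^ 2 * (N ^ 2)⁻¹ = 1 := ENNReal.mul_inv_cancel (pow_ne_zero _ hN0) (ENNReal.pow_ne_top hNt)
  have hV3 : V ^ 3 * (V ^ 3)⁻¹ = 1 := ENNReal.mul_inv_cancel (pow_ne_zero _ hV0) (ENNReal.pow_ne_top hVt)
  calc t ^ 3 * N = t ^ 3 * N * (N ^ 2 * (N ^ 2)⁻¹) * (V ^ 3 * (V ^ 3)⁻¹) := by rw [hN2, hV3]; ring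
    _ = (t * N * V) ^ 3 * ((N ^ 2)⁻¹ * (V ^ 3)⁻¹) := by ring
    _ ≤ (I * (D * N) ^ 2) * ((N ^ 2)⁻¹ * (V ^ 3)⁻¹) := by gcongr
    _ = I * D ^ 2 * (V ^ 3)⁻¹ * (N ^ 2 * (N ^ 2)⁻¹) := by ring
    _ = I * D ^ 2 * (V ^ 3)⁻¹ := by rw [hN2, mul_one]

end Crest.Agent.R136.GR639
end

-- ▼ part R136/Mx3_639
section

/-!
# R136 / S0186, part 3 (helper639): tubes of `ℝ³` in the chart `ω 2 ≥ 1/2`, local estimate
-/

set_option autoImplicit false

open MeasureTheory
open scoped ENNReal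

namespace Crest.Agent.R136.GR639

open Crest.Agent.R138.Tub70 Crest.AnalysisR.Kakeya

/-- three space -/
abbrev E3 := EuclideanSpace ℝ (Fin 3)

/-- first two coordinates -/
noncomputable def pr (y : E3) : E2 := !₂[y 0, y 1]

/-- point with given coordinates -/
noncomputable def mk (x : E2) (z : ℝ) : E3 := !₂[x 0, x 1, z]

@[simp] theorem pr_0 (y : E3) : pr y 0 = y 0 := rfl
@[simp] theorem pr_1 (y : E3) : pr y 1 = y 1 := rfl
@[simp] theorem mk_0 (x : E2) (z : ℝ) : mk x z 0 = x 0 := rfl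
@[simp] theorem mk_1 (x : E2) (z : ℝ) : mk x z 1 = x 1 := rfl
@[simp] theorem mk_2 (x : E2) (z : ℝ) : mk x z 2 = z := rfl

@[simp] theorem pr_mk (x : E2) (z : ℝ) : pr (mk x z) = x := by
  ext i; fin_cases i <;> rfl


theorem norm_sq_E3 (y : E3) : ‖y‖ ^ 2 = ‖pr y‖ ^ 2 + y 2 ^ 2 := by
  rw [norm_sq_E2, EuclideanSpace.norm_sq_eq]
  simp [Fin.sum_univ_three, sq_abs]

theorem norm_pr_le (y : E3) : ‖pr y‖ ≤ ‖y‖ := by
  have := norm_sq_E3 y
  exact abs_le_of_sq_le_sq' (by nlinarith [sq_nonneg (y 2)]) (norm_nonneg _) |>.2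

theorem abs_2_le (y : E3) : |y 2| ≤ ‖y‖ := by
  have := norm_sq_E3 y
  exact abs_le_of_sq_le_sq (by nlinarith [sq_nonneg ‖pr y‖]) (norm_nonneg _)

theorem measurable_pr : Measurable pr := by
  apply Continuous.measurable
  unfold pr
  fun_prop

theorem measurable_mk : Measurable (fun q : ℝ × E2 => mk q.2 q.1) := by
  apply Continuous.measurable
  unfold mk
  fun_prop

/-- Fubini in the coordinates `(z, x)`. -/
theorem lintegral_E3 {g : E3 → ℝ≥0∞} (hg : Measurable g) :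
    ∫⁻ y, g y = ∫⁻ z : ℝ, ∫⁻ x : E2, g (mk x z) := by
  have h1 := (PiLp.volume_preserving_toLp (Fin 3)).lintegral_comp hg
  have h2 := (volume_preserving_piFinSuccAbove (fun _ : Fin 3 => ℝ) 2).symm
  have hgm : Measurable (fun q : Fin 3 → ℝ => g (WithLp.toLp 2 q)) :=
    hg.comp (WithLp.measurable_toLp _ _)
  have h3 := h2.lintegral_comp hgm
  have h5 : ∫⁻ q : ℝ × (Fin 2 → ℝ), g (WithLp.toLp 2
      ((MeasurableEquiv.piFinSuccAbove (fun _ : Fin 3 => ℝ) 2).symm q)) ∂(volume.prod volume) =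
      ∫⁻ z : ℝ, ∫⁻ x : Fin 2 → ℝ, g (WithLp.toLp 2
      ((MeasurableEquiv.piFinSuccAbove (fun _ : Fin 3 => ℝ) 2).symm (z, x))) :=
    lintegral_prod (fun q : ℝ × (Fin 2 → ℝ) => g (WithLp.toLp 2
      ((MeasurableEquiv.piFinSuccAbove (fun _ : Fin 3 => ℝ) 2).symm q)))
      (hgm.comp (MeasurableEquiv.piFinSuccAbove (fun _ : Fin 3 => ℝ) 2).symm.measurable).aemeasurable
  rw [← h1, ← h3, Measure.volume_eq_prod, h5]
  refine lintegral_congr fun z => ?_
  have h4 := (PiLp.volume_preserving_toLp (Fin 2)).lintegral_comp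
    (f := fun x : E2 => g (mk x z)) (hg.comp (measurable_mk.comp measurable_prodMk_left))
  rw [← h4]
  refine lintegral_congr fun x => ?_
  congr 1
  ext i
  fin_cases i <;> rfl

/-- the velocity -/
noncomputable def vel (ω : E3) : E2 := (ω 2)⁻¹ • pr ω

theorem vel_sq {ω : E3} (h1 : ‖ω‖ = 1) (h2 : 1 / 2 ≤ ω 2) : 1 + ‖vel ω‖ ^ 2 = ((ω 2) ^ 2)⁻¹ := by
  have h := norm_sq_E3 ω
  rw [h1] at h
  have h0 : (0 : ℝ) < ω 2 := by linarith
  unfold vel
  rw [norm_smul, mul_pow, norm_inv, Real.norm_eq_abs, inv_pow, sq_abs]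
  have : ‖pr ω‖ ^ 2 = 1 - ω 2 ^ 2 := by linarith
  rw [this]
  field_simp
  ring

theorem vel_sq_le {ω : E3} (h1 : ‖ω‖ = 1) (h2 : 1 / 2 ≤ ω 2) : 1 + ‖vel ω‖ ^ 2 ≤ 4 := by
  rw [vel_sq h1 h2]
  rw [inv_le_comm₀ (by positivity) (by norm_num)]
  nlinarith

theorem norm_vel_le {ω : E3} (h1 : ‖ω‖ = 1) (h2 : 1 / 2 ≤ ω 2) : ‖vel ω‖ ≤ 2 := by
  have := vel_sq_le h1 h2
  nlinarith [norm_nonneg (vel ω)]

theorem pr_eq_vel {ω : E3} (h2 : 1 / 2 ≤ ω 2) : pr ω = (ω 2) • vel ω := by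
  unfold vel
  rw [smul_smul, mul_inv_cancel₀ (by linarith), one_smul]

theorem pr_add (x y : E3) : pr (x + y) = pr x + pr y := by
  ext i; fin_cases i <;> rfl


theorem pr_smul (t : ℝ) (y : E3) : pr (t • y) = t • pr y := by
  ext i; fin_cases i <;> rfl

/-- a tube is contained in a tube of the chart. -/
theorem tube_chart {δ : ℝ} {a ω y : E3} (h1 : ‖ω‖ = 1) (h2 : 1 / 2 ≤ ω 2)
    (hy : y ∈ tube δ a ω) : ‖pr y - (pr a - (a 2) • vel ω) - (y 2) • vel ω‖ ≤ 2 * δ := by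
  obtain ⟨t, u, ht, hu, hun, rfl⟩ := hy
  have e : pr (a + t • ω + u) - (pr a - (a 2) • vel ω) - ((a + t • ω + u) 2) • vel ω =
      pr u - (u 2) • vel ω := by
    rw [pr_add, pr_add, pr_smul, pr_eq_vel h2]
    have : (a + t • ω + u) 2 = a 2 + t * ω 2 + u 2 := rfl
    rw [this, add_smul, add_smul, smul_smul]
    abel
  rw [e]
  have h3 : ‖pr u - (u 2) • vel ω‖ ≤ ‖pr u‖ + |u 2| * ‖vel ω‖ := by
    refine (norm_sub_le _ _).trans ?_
    rw [norm_smul, Real.norm_eq_abs]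
  have h4 := norm_sq_E3 u
  have h5 := vel_sq_le h1 h2
  have h6 : (‖pr u‖ + |u 2| * ‖vel ω‖) ^ 2 ≤ (2 * ‖u‖) ^ 2 := by
    have h7 : (‖pr u‖ + |u 2| * ‖vel ω‖) ^ 2 ≤ (‖pr u‖ ^ 2 + |u 2| ^ 2) * (1 + ‖vel ω‖ ^ 2) := by
      nlinarith [sq_nonneg (‖pr u‖ * ‖vel ω‖ - |u 2|)]
    rw [sq_abs, ← h4] at h7
    nlinarith [sq_nonneg ‖u‖]
  have h8 : ‖pr u‖ + |u 2| * ‖vel ω‖ ≤ 2 * ‖u‖ := by
    exact abs_le_of_sq_le_sq' h6 (by positivity) |>.2
  linarith

theorem tube_norm {δ : ℝ} {a ω y : E3} (h1 : ‖ω‖ = 1) (hy : y ∈ tube δ a ω) :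
    ‖y - a‖ ≤ 1 / 2 + δ := by
  obtain ⟨t, u, ht, hu, hun, rfl⟩ := hy
  have e : a + t • ω + u - a = t • ω + u := by abel
  rw [e]
  refine (norm_add_le _ _).trans ?_
  rw [norm_smul, h1, mul_one, Real.norm_eq_abs]
  linarith

theorem tube_eq {δ : ℝ} {a ω : E3} (h1 : ‖ω‖ = 1) :
    tube δ a ω = {y | |inner ℝ (y - a) ω| ≤ 1 / 2 ∧ ‖y - a - (inner ℝ (y - a) ω : ℝ) • ω‖ ≤ δ} := by
  have hω : inner ℝ ω ω = (1 : ℝ) := by rw [real_inner_self_eq_norm_sq, h1]; norm_num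
  ext y
  constructor
  · rintro ⟨t, u, ht, hu, hun, rfl⟩
    have e : a + t • ω + u - a = t • ω + u := by abel
    have e2 : inner ℝ (t • ω + u) ω = (t : ℝ) := by
      rw [inner_add_left, inner_smul_left, hω, hu]; simp
    simp only [Set.mem_ofPred_eq, e, e2]
    refine ⟨ht, ?_⟩
    rwa [add_sub_cancel_left]
  · rintro ⟨ht, hu⟩
    refine ⟨inner ℝ (y - a) ω, y - a - (inner ℝ (y - a) ω : ℝ) • ω, ht, ?_, hu, by abel⟩
    rw [inner_sub_left, inner_smul_left, hω]; simp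

theorem isClosed_tube {δ : ℝ} {a ω : E3} (h1 : ‖ω‖ = 1) : IsClosed (tube δ a ω) := by
  rw [tube_eq h1]
  have c1 : Continuous (fun y : E3 => |(inner ℝ (y - a) ω : ℝ)|) := by fun_prop
  have c2 : Continuous (fun y : E3 => ‖y - a - (inner ℝ (y - a) ω : ℝ) • ω‖) := by fun_prop
  exact (isClosed_le c1 continuous_const).inter (isClosed_le c2 continuous_const)

theorem measurableSet_tube {δ : ℝ} {a ω : E3} (h1 : ‖ω‖ = 1) : MeasurableSet (tube δ a ω) :=
  (isClosed_tube h1).measurableSet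

theorem tube_vol_ne_top {δ : ℝ} {a ω : E3} (h1 : ‖ω‖ = 1) : volume (tube δ a ω) ≠ ⊤ := by
  have hsub : tube δ a ω ⊆ Metric.closedBall a (1/2 + δ) := fun y hy => by
    rw [Metric.mem_closedBall, dist_eq_norm]; exact tube_norm h1 hy
  exact ((measure_mono hsub).trans_lt measure_closedBall_lt_top).ne

/-- lower bound of the volume of a tube. -/
theorem tube_vol {δ : ℝ} (hδ : 0 < δ) (hδ1 : δ < 1) {a ω : E3} (h1 : ‖ω‖ = 1) (h2 : 1 / 2 ≤ ω 2) :
    ENNReal.ofReal (δ ^ 2 / 64) ≤ volume (tube δ a ω) := by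
  have hmem : ∀ (z : ℝ) (x : E2), |z - a 2| ≤ 1/8 → ‖x - (pr a + (z - a 2) • vel ω)‖ ≤ δ / 4 →
      mk x z ∈ tube δ a ω := by
    intro z x hz hx
    set w := x - (pr a + (z - a 2) • vel ω) with hw
    have h0 : (0 : ℝ) < ω 2 := by linarith
    have e : mk x z - a = ((z - a 2) / ω 2) • ω + mk w 0 := by
      have hv : ∀ i, (vel ω) i = (ω 2)⁻¹ * (pr ω) i := fun i => rfl
      ext i
      fin_cases i
      · show x 0 - a 0 = (z - a 2) / ω 2 * ω 0 + (x 0 - (a 0 + (z - a 2) * ((ω 2)⁻¹ * ω 0)))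
        field_simp
        ring
      · show x 1 - a 1 = (z - a 2) / ω 2 * ω 1 + (x 1 - (a 1 + (z - a 2) * ((ω 2)⁻¹ * ω 1)))
        field_simp
        ring
      · show z - a 2 = (z - a 2) / ω 2 * ω 2 + 0
        field_simp
        ring
    have hω : inner ℝ ω ω = (1 : ℝ) := by rw [real_inner_self_eq_norm_sq, h1]; norm_num
    have hmkn : ‖mk w 0‖ = ‖w‖ := by
      have := norm_sq_E3 (mk w 0)
      rw [pr_mk, mk_2] at this
      have h3 : ‖mk w 0‖ ^ 2 = ‖w‖ ^ 2 := by rw [this]; ring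
      exact (sq_eq_sq₀ (norm_nonneg _) (norm_nonneg _)).1 h3
    have ein : inner ℝ (mk x z - a) ω = (z - a 2) / ω 2 + inner ℝ (mk w 0) ω := by
      rw [e, inner_add_left, inner_smul_left, hω]; simp
    have hin : |inner ℝ (mk w 0) ω| ≤ δ / 4 := by
      refine (abs_real_inner_le_norm _ _).trans ?_
      rw [h1, mul_one, hmkn]; exact hx
    rw [tube_eq h1]
    refine ⟨?_, ?_⟩
    · rw [ein]
      refine (abs_add_le _ _).trans ?_
      have : |(z - a 2) / ω 2| ≤ 1/4 := by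
        rw [abs_div, abs_of_pos h0, div_le_iff₀ h0]; linarith
      linarith
    · rw [ein, e]
      have e3 : ((z - a 2) / ω 2) • ω + mk w 0 - ((z - a 2) / ω 2 + inner ℝ (mk w 0) ω) • ω =
          mk w 0 - (inner ℝ (mk w 0) ω : ℝ) • ω := by
        rw [add_smul]; abel
      rw [e3]
      have h4 : ‖mk w 0 - (inner ℝ (mk w 0) ω : ℝ) • ω‖ ^ 2 ≤ ‖mk w 0‖ ^ 2 := by
        rw [norm_sub_sq_real, inner_smul_right, norm_smul, h1, mul_one, Real.norm_eq_abs, sq_abs]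
        nlinarith [sq_nonneg (inner ℝ (mk w 0) ω : ℝ)]
      have h5 := abs_le_of_sq_le_sq' h4 (norm_nonneg _) |>.2
      rw [hmkn] at h5
      linarith
  have hm := measurableSet_tube (δ := δ) (a := a) h1
  have hv : volume (tube δ a ω) = ∫⁻ z : ℝ, ∫⁻ x : E2, (tube δ a ω).indicator (fun _ => (1 : ℝ≥0∞)) (mk x z) := by
    rw [← lintegral_E3 (measurable_const.indicator hm), lintegral_indicator hm]
    simp
  rw [hv]
  have hball : ∀ c : E2, volume (Metric.closedBall c (δ / 4)) = ENNReal.ofReal (δ / 4) ^ 2 * ENNReal.ofReal Real.pi :=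
    fun c => EuclideanSpace.volume_closedBall_fin_two c (δ / 4)
  calc ENNReal.ofReal (δ ^ 2 / 64)
      ≤ ENNReal.ofReal (1/4) * (ENNReal.ofReal (δ / 4) ^ 2 * ENNReal.ofReal Real.pi) := by
        have : (1 : ℝ≥0∞) ≤ ENNReal.ofReal Real.pi := by
          rw [ENNReal.one_le_ofReal]
          linarith [Real.pi_gt_three]
        calc ENNReal.ofReal (δ ^ 2 / 64) = ENNReal.ofReal (1/4) * (ENNReal.ofReal (δ / 4) ^ 2 * 1) := by
              rw [mul_one, ← ENNReal.ofReal_pow (by positivity), ← ENNReal.ofReal_mul (by norm_num)]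
              congr 1; ring
          _ ≤ _ := by gcongr
    _ = ∫⁻ z in Set.Icc (a 2 - 1/8) (a 2 + 1/8), (ENNReal.ofReal (δ / 4) ^ 2 * ENNReal.ofReal Real.pi) := by
        rw [setLIntegral_const, Real.volume_Icc]
        rw [mul_comm]
        congr 2; ring
    _ ≤ ∫⁻ z in Set.Icc (a 2 - 1/8) (a 2 + 1/8), ∫⁻ x : E2,
          (tube δ a ω).indicator (fun _ => (1 : ℝ≥0∞)) (mk x z) := by
        refine setLIntegral_mono' measurableSet_Icc fun z hz => ?_
        rw [← hball (pr a + (z - a 2) • vel ω), ← setLIntegral_one]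
        rw [← lintegral_indicator Metric.isClosed_closedBall.measurableSet]
        refine lintegral_mono fun x => ?_
        by_cases hx : x ∈ Metric.closedBall (pr a + (z - a 2) • vel ω) (δ / 4)
        · rw [Set.indicator_of_mem hx]
          rw [Metric.mem_closedBall, dist_eq_norm] at hx
          have := hmem z x (abs_le.2 ⟨by linarith [hz.1], by linarith [hz.2]⟩) hx
          rw [Set.indicator_of_mem this]
        · rw [Set.indicator_of_notMem hx]; exact zero_le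
    _ ≤ _ := setLIntegral_le_lintegral _ _

/-- the big box -/
def B0 : Set E3 := {y | |y 2| ≤ 5 ∧ ‖pr y‖ ≤ 5}

theorem measurableSet_B0 : MeasurableSet B0 := by
  have c1 : Continuous (fun y : E3 => |y 2|) := by fun_prop
  exact ((isClosed_le c1 continuous_const).measurableSet).inter
    (measurableSet_le (measurable_pr.norm) measurable_const)

/-- the unit cube -/
def Q0 (a : E3) : Prop := ∀ i, 0 ≤ a i ∧ a i < 1

theorem Q0_norm {a : E3} (h : Q0 a) : ‖a‖ ≤ 2 := by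
  have : ‖a‖ ^ 2 ≤ 2 ^ 2 := by
    rw [EuclideanSpace.norm_sq_eq, Fin.sum_univ_three]
    simp only [Real.norm_eq_abs, sq_abs]
    nlinarith [(h 0).1, (h 0).2, (h 1).1, (h 1).2, (h 2).1, (h 2).2]
  exact abs_le_of_sq_le_sq' this (by norm_num) |>.2

theorem tube_B0 {δ : ℝ} (hδ1 : δ < 1) {a ω : E3} (h1 : ‖ω‖ = 1) (ha : Q0 a) : tube δ a ω ⊆ B0 := by
  intro y hy
  have h3 := tube_norm h1 hy
  have h4 := Q0_norm ha
  have h5 : ‖y‖ ≤ 5 := by
    calc ‖y‖ = ‖(y - a) + a‖ := by congr 1; abel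
      _ ≤ ‖y - a‖ + ‖a‖ := norm_add_le _ _
      _ ≤ _ := by linarith
  exact ⟨(abs_2_le y).trans h5, (norm_pr_le y).trans h5⟩

/-- the average -/
noncomputable def avg (δ : ℝ) (g : E3 → ℝ≥0∞) (a ω : E3) : ℝ≥0∞ :=
  (volume (tube δ a ω))⁻¹ * ∫⁻ x in tube δ a ω, g x

/-- **local estimate**. -/
theorem local_bound (hKM : ∀ V : ℝ, KM32 V) (ε : ℝ) (hε : 0 < ε) : ∃ C : ℝ, 0 ≤ C ∧
    ∀ δ : ℝ, 0 < δ → δ < 1 → ∀ (K : Finset (ℤ × ℤ)) (ω a : ℤ × ℤ → E3),
      (∀ k ∈ K, ‖ω k‖ = 1 ∧ 1 / 2 ≤ ω k 2 ∧ Sq δ k (vel (ω k))) → (∀ k ∈ K, Q0 (a k)) →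
      ∀ g : E3 → ℝ≥0∞, Measurable g →
      ∑ k ∈ K, avg δ g (a k) (ω k) ^ 3 * ENNReal.ofReal (δ ^ 2) ≤
        ENNReal.ofReal (C * δ ^ (-ε)) * ∫⁻ y in B0, g y ^ 3 := by
  classical
  obtain ⟨C1, hC1, h1⟩ := overlap hKM (ε / 4) (by positivity)
  obtain ⟨C2, hC2, h2⟩ := harm_loss (ε / 2) (by positivity)
  refine ⟨C1 ^ 2 * 64 ^ 3 * C2, by positivity, ?_⟩
  intro δ hδ hδ1 K ω a hω ha g hg
  set D : ℝ≥0∞ := ENNReal.ofReal (C1 * δ ^ (-(ε / 4)) * δ ^ 2) with hD
  set V : ℝ≥0∞ := ENNReal.ofReal (δ ^ 2 / 64) with hV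
  have hV0 : V ≠ 0 := by rw [hV]; simp only [ne_eq, ENNReal.ofReal_eq_zero, not_le]; positivity
  set I := ∫⁻ y in B0, g y ^ 3 with hI
  have hoverlap : ∀ K' ⊆ K, ∫⁻ y in B0, (∑ k ∈ K',
      (tube δ (a k) (ω k)).indicator (fun _ => (1 : ℝ≥0∞)) y) ^ (3/2 : ℝ) ≤ D * K'.card := by
    intro K' hK'
    have hm : Measurable (fun y : E3 => (∑ k ∈ K',
      (tube δ (a k) (ω k)).indicator (fun _ => (1 : ℝ≥0∞)) y) ^ (3/2 : ℝ)) := by
      apply Measurable.pow_const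
      exact Finset.measurable_sum _ fun k hk => measurable_const.indicator
        (measurableSet_tube (hω k (hK' hk)).1)
    rw [← lintegral_indicator measurableSet_B0, lintegral_E3 (hm.indicator measurableSet_B0)]
    have h3 := h1 δ hδ hδ1 K' (fun k => pr (a k) - (a k 2) • vel (ω k)) (fun k => vel (ω k))
      (fun k hk => (hω k (hK' hk)).2.2) (fun k hk => norm_vel_le (hω k (hK' hk)).1 (hω k (hK' hk)).2.1)
      (fun k hk => by
        have b1 := Q0_norm (ha k (hK' hk))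
        have b2 := norm_vel_le (hω k (hK' hk)).1 (hω k (hK' hk)).2.1
        refine (norm_sub_le _ _).trans ?_
        rw [norm_smul, Real.norm_eq_abs]
        have b3 := norm_pr_le (a k)
        have b4 := abs_2_le (a k)
        nlinarith [abs_nonneg (a k 2), norm_nonneg (vel (ω k))])
    refine le_trans ?_ (h3.trans (le_of_eq ?_))
    · rw [← lintegral_indicator measurableSet_Icc]
      refine lintegral_mono fun z => ?_
      by_cases hz : z ∈ Set.Icc (-5 : ℝ) 5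
      · rw [Set.indicator_of_mem hz]
        have hms : MeasurableSet {x : E2 | ‖x‖ ≤ 5} := measurableSet_le measurable_norm measurable_const
        rw [← lintegral_indicator hms]
        refine lintegral_mono fun x => ?_
        by_cases hx : x ∈ {x : E2 | ‖x‖ ≤ 5}
        · rw [Set.indicator_of_mem hx]
          refine (Set.indicator_le_self _ _ _).trans ?_
          gcongr with k hk
          by_cases hy : mk x z ∈ tube δ (a k) (ω k)
          · rw [Set.indicator_of_mem hy, if_pos]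
            have := tube_chart (hω k (hK' hk)).1 (hω k (hK' hk)).2.1 hy
            rwa [pr_mk, mk_2] at this
          · rw [Set.indicator_of_notMem hy]; exact zero_le
        · rw [Set.indicator_of_notMem hx, Set.indicator_of_notMem]
          intro hc
          exact hx (by have := hc.2; rwa [pr_mk] at this)
      · rw [Set.indicator_of_notMem hz]
        refine le_of_eq ?_
        rw [lintegral_eq_zero_iff' ]
        · filter_upwards with x
          rw [Set.indicator_of_notMem]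
          · rfl
          · intro hc
            have := hc.1
            rw [mk_2] at this
            exact hz (abs_le.1 this)
        · exact ((hm.indicator measurableSet_B0).comp
            (measurable_mk.comp measurable_prodMk_left)).aemeasurable
    · rw [hD, ← ENNReal.ofReal_natCast, ← ENNReal.ofReal_mul (by positivity)]
      congr 1; ring
  have hlev := lev (volume : Measure E3) B0 measurableSet_B0 K (fun k => tube δ (a k) (ω k))
    (fun k hk => measurableSet_tube (hω k hk).1) (fun k hk => tube_B0 hδ1 (hω k hk).1 (ha k hk))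
    V hV0 ENNReal.ofReal_ne_top (fun k hk => tube_vol hδ hδ1 (hω k hk).1 (hω k hk).2.1)
    (fun k hk => tube_vol_ne_top (hω k hk).1) g hg D hoverlap
  have hharm := harm (fun k => avg δ g (a k) (ω k)) (I * D ^ 2 * (V ^ 3)⁻¹) K.card K rfl hlev
  have hcard : (K.card : ℝ) ≤ 6400 / δ ^ 2 := card_all hδ hδ1.le K (fun k => vel (ω k))
    (fun k hk => (hω k hk).2.2) (fun k hk => norm_vel_le (hω k hk).1 (hω k hk).2.1)
  have h3 := h2 δ hδ hδ1 K.card hcard
  rw [← Finset.sum_mul]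
  calc (∑ k ∈ K, avg δ g (a k) (ω k) ^ 3) * ENNReal.ofReal (δ ^ 2)
      ≤ (I * D ^ 2 * (V ^ 3)⁻¹ * ENNReal.ofReal (C2 * δ ^ (-(ε / 2)))) * ENNReal.ofReal (δ ^ 2) := by
        gcongr
        exact hharm.trans (by gcongr)
    _ = ENNReal.ofReal (C1 ^ 2 * 64 ^ 3 * C2 * δ ^ (-ε)) * I := by
        rw [hD, hV, ← ENNReal.ofReal_pow (by positivity), ← ENNReal.ofReal_pow (by positivity),
          ← ENNReal.ofReal_inv_of_pos (by positivity)]
        rw [show ∀ p q r s : ℝ≥0∞, I * p * q * r * s = (p * q * r * s) * I from fun p q r s => by ring]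
        congr 1
        rw [← ENNReal.ofReal_mul (by positivity), ← ENNReal.ofReal_mul (by positivity),
          ← ENNReal.ofReal_mul (by positivity)]
        congr 1
        have e1 : δ ^ (-ε) = (δ ^ (-(ε / 4))) ^ 2 * δ ^ (-(ε / 2)) := by
          rw [← Real.rpow_natCast (δ ^ (-(ε / 4))) 2, ← Real.rpow_mul hδ.le, ← Real.rpow_add hδ]
          congr 1; push_cast; ring
        rw [e1]
        field_simp
end Crest.Agent.R136.GR639
end

-- ▼ part R136/Mx4_639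
section

/-!
# R136 / S0186, part 4 (helper639): arbitrary centres
-/

set_option autoImplicit false

open MeasureTheory
open scoped ENNReal

namespace Crest.Agent.R136.GR639

open Crest.Agent.R138.Tub70 Crest.AnalysisR.Kakeya

theorem mem_tube_sub {δ : ℝ} {a ω τ y : E3} : y ∈ tube δ (a - τ) ω ↔ y + τ ∈ tube δ a ω := by
  constructor
  · rintro ⟨t, u, ht, hu, hun, rfl⟩
    exact ⟨t, u, ht, hu, hun, by abel⟩
  · rintro ⟨t, u, ht, hu, hun, h⟩
    refine ⟨t, u, ht, hu, hun, ?_⟩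
    have : y = a + t • ω + u - τ := by rw [← h]; abel
    rw [this]; abel

theorem avg_sub (δ : ℝ) (g : E3 → ℝ≥0∞) (a ω τ : E3) (h1 : ‖ω‖ = 1) :
    avg δ (fun y => g (y + τ)) (a - τ) ω = avg δ g a ω := by
  have hm := measurableSet_tube (δ := δ) (a := a) h1
  have hm' := measurableSet_tube (δ := δ) (a := a - τ) h1
  have hpre : tube δ (a - τ) ω = (fun y => y + τ) ⁻¹' tube δ a ω := by
    ext y; exact mem_tube_sub
  unfold avg
  congr 1
  · rw [hpre, measure_preimage_add_right]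
  · have h0 := lintegral_add_right_eq_self (μ := (volume : Measure E3))
      (fun y => (tube δ a ω).indicator g y) τ
    rw [← lintegral_indicator hm', ← lintegral_indicator hm, ← h0]
    refine lintegral_congr fun y => ?_
    by_cases hy : y + τ ∈ tube δ a ω
    · rw [Set.indicator_of_mem hy, Set.indicator_of_mem (mem_tube_sub.2 hy)]
    · rw [Set.indicator_of_notMem hy, Set.indicator_of_notMem (fun h => hy (mem_tube_sub.1 h))]

/-- integer vector -/
noncomputable def iv (n : Fin 3 → ℤ) : E3 := WithLp.toLp 2 (fun i => (n i : ℝ))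

@[simp] theorem iv_apply (n : Fin 3 → ℤ) (i : Fin 3) : iv n i = n i := rfl

/-- bounded overlap -/
theorem overlap_B0 (N : Finset (Fin 3 → ℤ)) (y : E3) :
    ∑ n ∈ N, B0.indicator (fun _ => (1 : ℝ≥0∞)) (y - iv n) ≤ 1331 := by
  classical
  have e : ∑ n ∈ N, B0.indicator (fun _ => (1 : ℝ≥0∞)) (y - iv n) =
      ((N.filter fun n => y - iv n ∈ B0).card : ℝ≥0∞) := by
    rw [Finset.card_filter]
    push_cast
    refine Finset.sum_congr rfl fun n _ => ?_
    by_cases h : y - iv n ∈ B0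
    · rw [Set.indicator_of_mem h, if_pos h]
    · rw [Set.indicator_of_notMem h, if_neg h]
  have hsub : (N.filter fun n => y - iv n ∈ B0) ⊆
      Fintype.piFinset (fun i => Finset.Icc (⌊y i⌋ - 5) (⌊y i⌋ + 5)) := by
    intro n hn
    have hB := (Finset.mem_filter.1 hn).2
    have hc : ∀ i, |y i - n i| ≤ 5 := by
      intro i
      have h2 : |(y - iv n) 2| ≤ 5 := hB.1
      have h3 := hB.2
      fin_cases i
      · exact (abs_coord_le (pr (y - iv n)) 0).trans h3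
      · exact (abs_coord_le (pr (y - iv n)) 1).trans h3
      · exact h2
    rw [Fintype.mem_piFinset]
    intro i
    have h4 := abs_le.1 (hc i)
    have a1 := Int.floor_le (y i)
    have a2 := Int.lt_floor_add_one (y i)
    rw [Finset.mem_Icc]
    have b1 : (n i : ℝ) < ⌊y i⌋ + 6 := by linarith [h4.1]
    have b2 : (⌊y i⌋ : ℝ) - 5 ≤ n i := by linarith [h4.2]
    have b1' : n i < ⌊y i⌋ + 6 := by exact_mod_cast b1
    have b2' : ⌊y i⌋ - 5 ≤ n i := by exact_mod_cast b2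
    omega
  have hcard : (N.filter fun n => y - iv n ∈ B0).card ≤ 1331 := by
    refine (Finset.card_le_card hsub).trans ?_
    rw [Fintype.card_piFinset]
    simp only [Int.card_Icc, Fin.prod_univ_three]
    have e5 : ∀ m : ℤ, (m + 5 + 1 - (m - 5)).toNat = 11 := fun m => by omega
    rw [e5, e5, e5]
    norm_num
  rw [e]
  exact_mod_cast hcard

/-- **global estimate**. -/
theorem glob (hKM : ∀ V : ℝ, KM32 V) (ε : ℝ) (hε : 0 < ε) : ∃ C : ℝ, 0 ≤ C ∧
    ∀ δ : ℝ, 0 < δ → δ < 1 → ∀ (K : Finset (ℤ × ℤ)) (ω a : ℤ × ℤ → E3),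
      (∀ k ∈ K, ‖ω k‖ = 1 ∧ 1 / 2 ≤ ω k 2 ∧ Sq δ k (vel (ω k))) →
      ∀ g : E3 → ℝ≥0∞, Measurable g →
      ∑ k ∈ K, avg δ g (a k) (ω k) ^ 3 * ENNReal.ofReal (δ ^ 2) ≤
        ENNReal.ofReal (C * δ ^ (-ε)) * ∫⁻ y, g y ^ 3 := by
  classical
  obtain ⟨C, hC, h⟩ := local_bound hKM ε hε
  refine ⟨C * 1331, by positivity, ?_⟩
  intro δ hδ hδ1 K ω a hω g hg
  set nk : ℤ × ℤ → (Fin 3 → ℤ) := fun k i => ⌊a k i⌋ with hnk
  set N := K.image nk with hN
  have h1 : ∀ n ∈ N, ∑ k ∈ K.filter (fun k => nk k = n),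
      avg δ g (a k) (ω k) ^ 3 * ENNReal.ofReal (δ ^ 2) ≤
      ENNReal.ofReal (C * δ ^ (-ε)) * ∫⁻ y, B0.indicator (fun _ => (1 : ℝ≥0∞)) (y - iv n) * g y ^ 3 := by
    intro n _
    have h2 := h δ hδ hδ1 (K.filter (fun k => nk k = n)) ω (fun k => a k - iv n)
      (fun k hk => hω k (Finset.mem_filter.1 hk).1)
      (fun k hk i => by
        have h3 : ⌊a k i⌋ = n i := congrFun (Finset.mem_filter.1 hk).2 i
        have e : (a k - iv n) i = a k i - n i := rfl
        rw [e, ← h3]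
        exact ⟨by linarith [Int.floor_le (a k i)], by linarith [Int.lt_floor_add_one (a k i)]⟩)
      (fun y => g (y + iv n)) (hg.comp (measurable_id.add_const _))
    have e1 : ∑ k ∈ K.filter (fun k => nk k = n),
        avg δ (fun y => g (y + iv n)) (a k - iv n) (ω k) ^ 3 * ENNReal.ofReal (δ ^ 2) =
        ∑ k ∈ K.filter (fun k => nk k = n), avg δ g (a k) (ω k) ^ 3 * ENNReal.ofReal (δ ^ 2) :=
      Finset.sum_congr rfl fun k hk => by
        rw [avg_sub δ g (a k) (ω k) (iv n) (hω k (Finset.mem_filter.1 hk).1).1]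
    rw [← e1]
    refine h2.trans (le_of_eq ?_)
    congr 1
    have h0 := lintegral_add_right_eq_self (μ := (volume : Measure E3))
      (fun y => B0.indicator (fun _ => (1 : ℝ≥0∞)) (y - iv n) * g y ^ 3) (iv n)
    rw [← lintegral_indicator measurableSet_B0, ← h0]
    refine lintegral_congr fun y => ?_
    rw [add_sub_cancel_right]
    by_cases hy : y ∈ B0
    · rw [Set.indicator_of_mem hy, Set.indicator_of_mem hy, one_mul]
    · rw [Set.indicator_of_notMem hy, Set.indicator_of_notMem hy, zero_mul]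
  have hmeas : ∀ n ∈ N, Measurable (fun y : E3 =>
      B0.indicator (fun _ => (1 : ℝ≥0∞)) (y - iv n) * g y ^ 3) := fun n _ =>
    ((measurable_const.indicator measurableSet_B0).comp (measurable_id.sub_const _)).mul
      (hg.pow_const 3)
  calc ∑ k ∈ K, avg δ g (a k) (ω k) ^ 3 * ENNReal.ofReal (δ ^ 2)
      = ∑ n ∈ N, ∑ k ∈ K.filter (fun k => nk k = n),
          avg δ g (a k) (ω k) ^ 3 * ENNReal.ofReal (δ ^ 2) :=
        (Finset.sum_fiberwise_of_maps_to (fun k hk => Finset.mem_image_of_mem _ hk) _).symm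
    _ ≤ ∑ n ∈ N, ENNReal.ofReal (C * δ ^ (-ε)) *
          ∫⁻ y, B0.indicator (fun _ => (1 : ℝ≥0∞)) (y - iv n) * g y ^ 3 := Finset.sum_le_sum h1
    _ = ENNReal.ofReal (C * δ ^ (-ε)) *
          ∫⁻ y, (∑ n ∈ N, B0.indicator (fun _ => (1 : ℝ≥0∞)) (y - iv n)) * g y ^ 3 := by
        rw [← Finset.mul_sum, ← lintegral_finsetSum N hmeas]
        simp only [Finset.sum_mul]
    _ ≤ ENNReal.ofReal (C * δ ^ (-ε)) * ∫⁻ y, 1331 * g y ^ 3 := by
        gcongr with y
        exact overlap_B0 N y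
    _ = ENNReal.ofReal (C * 1331 * δ ^ (-ε)) * ∫⁻ y, g y ^ 3 := by
        rw [lintegral_const_mul _ (hg.pow_const 3), ← mul_assoc]
        congr 1
        rw [show C * 1331 * δ ^ (-ε) = (C * δ ^ (-ε)) * 1331 by ring,
          ENNReal.ofReal_mul (by positivity : 0 ≤ C * δ ^ (-ε))]
        norm_num

end Crest.Agent.R136.GR639
end

-- ▼ part R136/Mx5_639
section

/-!
# R136 / S0186, part 5 (helper639): the sphere
-/

set_option autoImplicit false

open MeasureTheory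
open scoped ENNReal NNReal

namespace Crest.Agent.R136.GR639

open Crest.Agent.R138.Tub70 Crest.AnalysisR.Kakeya

/-! ### invariance under isometries -/

theorem mem_tube_map (M : E3 ≃ₗᵢ[ℝ] E3) {δ : ℝ} {a ω y : E3} :
    M y ∈ tube δ (M a) (M ω) ↔ y ∈ tube δ a ω := by
  constructor
  · rintro ⟨t, u, ht, hu, hun, h⟩
    refine ⟨t, M.symm u, ht, ?_, ?_, ?_⟩
    · rw [← M.inner_map_map, M.apply_symm_apply]; exact hu
    · rw [M.symm.norm_map]; exact hun
    · apply M.injective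
      rw [h, map_add, map_add, map_smul, M.apply_symm_apply]
  · rintro ⟨t, u, ht, hu, hun, rfl⟩
    refine ⟨t, M u, ht, ?_, ?_, ?_⟩
    · rw [M.inner_map_map]; exact hu
    · rw [M.norm_map]; exact hun
    · rw [map_add, map_add, map_smul]

theorem avg_map (M : E3 ≃ₗᵢ[ℝ] E3) (δ : ℝ) (g : E3 → ℝ≥0∞) (a ω : E3) :
    avg δ g (M a) (M ω) = avg δ (fun y => g (M y)) a ω := by
  have hpre : M ⁻¹' tube δ (M a) (M ω) = tube δ a ω := by
    ext y; exact mem_tube_map M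
  have hmp := M.measurePreserving
  have hemb : MeasurableEmbedding M := M.toHomeomorph.measurableEmbedding
  unfold avg
  congr 1
  · rw [← hpre, hmp.measure_preimage_emb hemb]
  · rw [← hpre, hmp.setLIntegral_comp_preimage_emb hemb]

theorem maximalFn_eq (δ : ℝ) (f : E3 → ℝ) (ω : E3) :
    maximalFn δ f ω = ⨆ a, avg δ (fun y => ‖f y‖ₑ) a ω := rfl

theorem maximalFn_map (M : E3 ≃ₗᵢ[ℝ] E3) (δ : ℝ) (f : E3 → ℝ) (ω : E3) :
    maximalFn δ f (M ω) = maximalFn δ (fun y => f (M y)) ω := by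
  rw [maximalFn_eq, maximalFn_eq]
  exact (M.toEquiv.iSup_congr (fun a => avg_map M δ (fun y => ‖f y‖ₑ) a ω)).symm

/-! ### the chart -/

/-- the part of the sphere in the chart. -/
def Dc : Set E3 := {ω | ‖ω‖ = 1 ∧ 1 / 2 ≤ ω 2}

/-- a cell of the chart -/
def Dk (δ : ℝ) (k : ℤ × ℤ) : Set E3 := {ω | ω ∈ Dc ∧ Sq δ k (vel ω)}

theorem measurable_vel (i : Fin 2) : Measurable (fun ω : E3 => vel ω i) := by
  have h0 : Measurable (fun ω : E3 => ω 2) := (by fun_prop : Continuous (fun ω : E3 => ω 2)).measurable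
  have h1 : Measurable (fun ω : E3 => pr ω i) := by
    have : Continuous (fun ω : E3 => pr ω i) := by
      fin_cases i
      · show Continuous (fun ω : E3 => ω 0); fun_prop
      · show Continuous (fun ω : E3 => ω 1); fun_prop
    exact this.measurable
  exact h0.inv.mul h1

theorem measurableSet_Dc : MeasurableSet Dc := by
  have c1 : Continuous (fun ω : E3 => ω 2) := by fun_prop
  exact ((isClosed_eq continuous_norm continuous_const).measurableSet).inter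
    ((isClosed_le continuous_const c1).measurableSet)

theorem measurableSet_Dk (δ : ℝ) (k : ℤ × ℤ) : MeasurableSet (Dk δ k) := by
  refine measurableSet_Dc.inter (MeasurableSet.inter ?_ ?_)
  · exact measurableSet_eq_fun (((measurable_vel 0).div_const δ).floor) measurable_const
  · exact measurableSet_eq_fun (((measurable_vel 1).div_const δ).floor) measurable_const

/-- unnormalised parametrisation -/
noncomputable def mv (v : Fin 2 → ℝ) : E3 := !₂[v 0, v 1, 1]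

/-- parametrisation of the sphere -/
noncomputable def psi (v : Fin 2 → ℝ) : E3 := (‖mv v‖)⁻¹ • mv v

theorem norm_mv (v : Fin 2 → ℝ) : 1 ≤ ‖mv v‖ := by
  have h := abs_2_le (mv v)
  have : (mv v) 2 = 1 := rfl
  rw [this] at h
  simpa using h

theorem mv_dist (v w : Fin 2 → ℝ) : ‖mv v - mv w‖ ≤ 3 / 2 * dist v w := by
  have h0 : |v 0 - w 0| ≤ dist v w := by rw [← Real.dist_eq]; exact dist_le_pi_dist v w 0
  have h1 : |v 1 - w 1| ≤ dist v w := by rw [← Real.dist_eq]; exact dist_le_pi_dist v w 1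
  have h2 : ‖mv v - mv w‖ ^ 2 ≤ (3 / 2 * dist v w) ^ 2 := by
    rw [EuclideanSpace.norm_sq_eq, Fin.sum_univ_three]
    have e0 : (mv v - mv w) 0 = v 0 - w 0 := rfl
    have e1 : (mv v - mv w) 1 = v 1 - w 1 := rfl
    have e2 : (mv v - mv w) 2 = 1 - 1 := rfl
    rw [e0, e1, e2]
    simp only [Real.norm_eq_abs]
    have a0 : |v 0 - w 0| ^ 2 ≤ dist v w ^ 2 := by gcongr
    have a1 : |v 1 - w 1| ^ 2 ≤ dist v w ^ 2 := by gcongr
    simp only [sub_self, abs_zero]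
    nlinarith [sq_nonneg (dist v w)]
  exact abs_le_of_sq_le_sq' h2 (by positivity) |>.2

theorem psi_lip : LipschitzWith 3 psi := by
  apply LipschitzWith.of_dist_le_mul
  intro v w
  have hv := norm_mv v
  have hw := norm_mv w
  have hd := mv_dist v w
  rw [dist_eq_norm]
  have e : psi v - psi w = (‖mv v‖)⁻¹ • (mv v - mv w) + ((‖mv v‖)⁻¹ - (‖mv w‖)⁻¹) • mv w := by
    unfold psi
    rw [smul_sub, sub_smul]; abel
  have h1 : ‖(‖mv v‖)⁻¹ • (mv v - mv w)‖ ≤ ‖mv v - mv w‖ := by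
    rw [norm_smul, norm_inv, norm_norm]
    exact mul_le_of_le_one_left (norm_nonneg _) (inv_le_one_of_one_le₀ hv)
  have h2 : ‖((‖mv v‖)⁻¹ - (‖mv w‖)⁻¹) • mv w‖ ≤ ‖mv v - mv w‖ := by
    rw [norm_smul, Real.norm_eq_abs]
    have e3 : (‖mv v‖)⁻¹ - (‖mv w‖)⁻¹ = (‖mv w‖ - ‖mv v‖) * ((‖mv v‖)⁻¹ * (‖mv w‖)⁻¹) := by
      field_simp
    rw [e3, abs_mul]
    have h3 : |‖mv w‖ - ‖mv v‖| ≤ ‖mv v - mv w‖ := by
      rw [norm_sub_rev]; exact abs_norm_sub_norm_le _ _
    have h4 : |(‖mv v‖)⁻¹ * (‖mv w‖)⁻¹| * ‖mv w‖ ≤ 1 := by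
      rw [abs_of_nonneg (by positivity), mul_assoc, inv_mul_cancel₀ (by linarith), mul_one]
      exact inv_le_one_of_one_le₀ hv
    calc |‖mv w‖ - ‖mv v‖| * |(‖mv v‖)⁻¹ * (‖mv w‖)⁻¹| * ‖mv w‖
        = |‖mv w‖ - ‖mv v‖| * (|(‖mv v‖)⁻¹ * (‖mv w‖)⁻¹| * ‖mv w‖) := by ring
      _ ≤ ‖mv v - mv w‖ * 1 := mul_le_mul h3 h4 (by positivity) (norm_nonneg _)
      _ = _ := mul_one _
  rw [e]
  refine (norm_add_le _ _).trans ?_
  have : ((3 : ℝ≥0) : ℝ) = 3 := rfl
  rw [this]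
  linarith

/-- measure of a cell -/
theorem meas_Dk {δ : ℝ} (hδ : 0 < δ) (k : ℤ × ℤ) :
    (Measure.hausdorffMeasure 2 : Measure E3) (Dk δ k) ≤ ENNReal.ofReal (9 * δ ^ 2) := by
  set kk : Fin 2 → ℤ := ![k.1, k.2] with hkk
  set S : Set (Fin 2 → ℝ) := Set.Icc (fun i => (kk i : ℝ) * δ) (fun i => ((kk i : ℝ) + 1) * δ) with hS
  have hsub : Dk δ k ⊆ psi '' S := by
    intro ω hω
    obtain ⟨⟨h1, h2⟩, h3, h4⟩ := hω
    have h0 : (0 : ℝ) < ω 2 := by linarith
    refine ⟨fun i => vel ω i, ?_, ?_⟩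
    · rw [hS, Set.mem_Icc]
      have hf : ∀ (x : ℝ) (m : ℤ), ⌊x / δ⌋ = m → (m : ℝ) * δ ≤ x ∧ x ≤ ((m : ℝ) + 1) * δ := by
        intro x m hm
        have a1 := Int.floor_le (x / δ)
        have a2 := Int.lt_floor_add_one (x / δ)
        rw [hm] at a1 a2
        rw [le_div_iff₀ hδ] at a1
        rw [div_lt_iff₀ hδ] at a2
        exact ⟨a1, a2.le⟩
      constructor
      · intro i
        fin_cases i
        · exact (hf _ _ h3).1
        · exact (hf _ _ h4).1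
      · intro i
        fin_cases i
        · exact (hf _ _ h3).2
        · exact (hf _ _ h4).2
    · have e : mv (fun i => vel ω i) = (ω 2)⁻¹ • ω := by
        ext i
        fin_cases i
        · rfl
        · rfl
        · show (1 : ℝ) = (ω 2)⁻¹ * ω 2
          rw [inv_mul_cancel₀ h0.ne']
      unfold psi
      rw [e, norm_smul, h1, mul_one, norm_inv, Real.norm_eq_abs, abs_of_pos h0, inv_inv, smul_smul,
        mul_inv_cancel₀ h0.ne', one_smul]
  have hvol : (Measure.hausdorffMeasure 2 : Measure (Fin 2 → ℝ)) S = ENNReal.ofReal (δ ^ 2) := by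
    have h2 : (Measure.hausdorffMeasure 2 : Measure (Fin 2 → ℝ)) = volume := by
      have := hausdorffMeasure_pi_real (ι := Fin 2)
      simpa using this
    rw [h2, hS, Real.volume_Icc_pi]
    simp only [Fin.prod_univ_two]
    rw [← ENNReal.ofReal_mul (by nlinarith)]
    congr 1
    ring
  calc (Measure.hausdorffMeasure 2 : Measure E3) (Dk δ k)
      ≤ (Measure.hausdorffMeasure 2 : Measure E3) (psi '' S) := measure_mono hsub
    _ ≤ ((3 : ℝ≥0) : ℝ≥0∞) ^ (2 : ℝ) * (Measure.hausdorffMeasure 2 : Measure (Fin 2 → ℝ)) S :=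
        psi_lip.hausdorffMeasure_image_le (by norm_num) S
    _ = ENNReal.ofReal (9 * δ ^ 2) := by
        rw [hvol, ENNReal.ofReal_mul (by norm_num)]
        congr 1
        rw [show ((2 : ℝ)) = ((2 : ℕ) : ℝ) by norm_num, ENNReal.rpow_natCast]
        norm_num

theorem lintegral_biUnion_le {X ι : Type*} [MeasurableSpace X] (μ : Measure X) (K : Finset ι)
    (s : ι → Set X) (f : X → ℝ≥0∞) :
    ∫⁻ x in ⋃ k ∈ K, s k, f x ∂μ ≤ ∑ k ∈ K, ∫⁻ x in s k, f x ∂μ := by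
  classical
  induction K using Finset.induction_on with
  | empty => simp
  | insert a K ha ih =>
    rw [Finset.set_biUnion_insert, Finset.sum_insert ha]
    exact (lintegral_union_le f _ _).trans (by gcongr)

/-- **the maximal function on the chart**. -/
theorem chart_bound (hKM : ∀ V : ℝ, KM32 V) (ε : ℝ) (hε : 0 < ε) : ∃ C : ℝ, 1 ≤ C ∧
    ∀ δ : ℝ, 0 < δ → δ < 1 → ∀ f : E3 → ℝ, Measurable f →
      ∫⁻ ω in Dc, maximalFn δ f ω ^ 3 ∂(Measure.hausdorffMeasure 2) ≤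
        ENNReal.ofReal (C * δ ^ (-ε)) * ∫⁻ x, ‖f x‖ₑ ^ 3 := by
  classical
  obtain ⟨C, hC, h⟩ := glob hKM ε hε
  refine ⟨72 * C + 1, by linarith, ?_⟩
  intro δ hδ hδ1 f hf
  set g : E3 → ℝ≥0∞ := fun y => ‖f y‖ₑ with hg
  have hgm : Measurable g := hf.enorm
  set I := ∫⁻ x, g x ^ 3 with hI
  have hδε : 0 < δ ^ (-ε) := Real.rpow_pos_of_pos hδ _
  by_cases hIt : I = ⊤
  · have : ENNReal.ofReal ((72 * C + 1) * δ ^ (-ε)) * I = ⊤ := by
      rw [hIt]
      apply ENNReal.mul_top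
      simp only [ne_eq, ENNReal.ofReal_eq_zero, not_le]
      positivity
    show _ ≤ ENNReal.ofReal ((72 * C + 1) * δ ^ (-ε)) * I
    rw [this]; exact le_top
  -- the suprema
  set H : ℤ × ℤ → ℝ≥0∞ := fun k => ⨆ ω ∈ Dk δ k, ⨆ a, avg δ g a ω with hH
  have hsingle : ∀ k, ∀ ω ∈ Dk δ k, ∀ a, avg δ g a ω ^ 3 * ENNReal.ofReal (δ ^ 2) ≤
      ENNReal.ofReal (C * δ ^ (-ε)) * I := by
    intro k ω hω a
    have := h δ hδ hδ1 {k} (fun _ => ω) (fun _ => a) (fun k' hk' => by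
      rw [Finset.mem_singleton] at hk'
      subst hk'
      exact ⟨hω.1.1, hω.1.2, hω.2⟩) g hgm
    simpa using this
  have hδ2 : ENNReal.ofReal (δ ^ 2) ≠ 0 := by
    simp only [ne_eq, ENNReal.ofReal_eq_zero, not_le]; positivity
  set Z : ℝ≥0∞ := (ENNReal.ofReal (C * δ ^ (-ε)) * I / ENNReal.ofReal (δ ^ 2)) ^ (1/3 : ℝ) with hZ
  have hZt : Z ≠ ⊤ := by
    apply ENNReal.rpow_ne_top_of_nonneg (by norm_num)
    apply ENNReal.div_ne_top _ hδ2
    exact ENNReal.mul_ne_top ENNReal.ofReal_ne_top hIt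
  have hHt : ∀ k, H k ≠ ⊤ := by
    intro k
    apply ne_top_of_le_ne_top hZt
    refine iSup₂_le fun ω hω => iSup_le fun a => ?_
    have h1 := hsingle k ω hω a
    rw [← ENNReal.le_div_iff_mul_le (Or.inl hδ2) (Or.inl ENNReal.ofReal_ne_top)] at h1
    have h2 : avg δ g a ω = (avg δ g a ω ^ 3) ^ (1/3 : ℝ) := by
      rw [← ENNReal.rpow_natCast, ← ENNReal.rpow_mul]; norm_num
    rw [h2, hZ]
    exact ENNReal.rpow_le_rpow h1 (by norm_num)
  have hchoice : ∀ k, ∃ ω a : E3, H k ≠ 0 → (ω ∈ Dk δ k ∧ H k ≤ 2 * avg δ g a ω) := by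
    intro k
    by_cases h0 : H k = 0
    · exact ⟨0, 0, fun hc => absurd h0 hc⟩
    · have hlt : H k / 2 < H k := ENNReal.half_lt_self h0 (hHt k)
      have h1 : H k / 2 < ⨆ ω ∈ Dk δ k, ⨆ a, avg δ g a ω := hlt
      rw [lt_iSup_iff] at h1
      obtain ⟨ω, h1⟩ := h1
      rw [lt_iSup_iff] at h1
      obtain ⟨hω, h1⟩ := h1
      rw [lt_iSup_iff] at h1
      obtain ⟨a, h1⟩ := h1
      refine ⟨ω, a, fun _ => ⟨hω, ?_⟩⟩
      have h2 := h1.le
      rw [ENNReal.div_le_iff (by norm_num) (by norm_num)] at h2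
      rw [mul_comm]; exact h2
  choose ω a hωa using hchoice
  -- the cells
  set J : Finset ℤ := Finset.Icc ⌊-(2 / δ)⌋ ⌊2 / δ⌋ with hJ
  set K0 : Finset (ℤ × ℤ) := J ×ˢ J with hK0
  have hcover : Dc ⊆ ⋃ k ∈ K0, Dk δ k := by
    intro ω hω
    rw [Set.mem_iUnion₂]
    refine ⟨(⌊vel ω 0 / δ⌋, ⌊vel ω 1 / δ⌋), ?_, hω, rfl, rfl⟩
    have hv := norm_vel_le hω.1 hω.2
    have key : ∀ i, ⌊vel ω i / δ⌋ ∈ J := by
      intro i
      have h1 := abs_le.1 ((abs_coord_le (vel ω) i).trans hv)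
      rw [hJ, Finset.mem_Icc]
      constructor
      · apply Int.floor_le_floor
        rw [← neg_div]; exact div_le_div_of_nonneg_right h1.1 hδ.le
      · exact Int.floor_le_floor (div_le_div_of_nonneg_right h1.2 hδ.le)
    rw [hK0, Finset.mem_product]
    exact ⟨key 0, key 1⟩
  set K1 := K0.filter (fun k => H k ≠ 0) with hK1
  have hfin := h δ hδ hδ1 K1 ω a (fun k hk => by
    have := (hωa k (Finset.mem_filter.1 hk).2).1
    exact ⟨this.1.1, this.1.2, this.2⟩) g hgm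
  have hcell : ∀ k, ∫⁻ ω in Dk δ k, maximalFn δ f ω ^ 3 ∂(Measure.hausdorffMeasure 2) ≤
      H k ^ 3 * ENNReal.ofReal (9 * δ ^ 2) := by
    intro k
    calc ∫⁻ ω in Dk δ k, maximalFn δ f ω ^ 3 ∂(Measure.hausdorffMeasure 2)
        ≤ ∫⁻ _ in Dk δ k, H k ^ 3 ∂(Measure.hausdorffMeasure 2) := by
          refine setLIntegral_mono' (measurableSet_Dk δ k) fun ω hω => ?_
          gcongr
          exact le_iSup₂ (f := fun ω _ => ⨆ a, avg δ g a ω) ω hω
      _ = H k ^ 3 * (Measure.hausdorffMeasure 2 : Measure E3) (Dk δ k) := by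
          rw [setLIntegral_const]
      _ ≤ _ := by gcongr; exact meas_Dk hδ k
  calc ∫⁻ ω in Dc, maximalFn δ f ω ^ 3 ∂(Measure.hausdorffMeasure 2)
      ≤ ∫⁻ ω in ⋃ k ∈ K0, Dk δ k, maximalFn δ f ω ^ 3 ∂(Measure.hausdorffMeasure 2) :=
        lintegral_mono_set hcover
    _ ≤ ∑ k ∈ K0, ∫⁻ ω in Dk δ k, maximalFn δ f ω ^ 3 ∂(Measure.hausdorffMeasure 2) :=
        lintegral_biUnion_le _ K0 _ _
    _ ≤ ∑ k ∈ K0, H k ^ 3 * ENNReal.ofReal (9 * δ ^ 2) := Finset.sum_le_sum fun k _ => hcell k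
    _ = ∑ k ∈ K1, H k ^ 3 * ENNReal.ofReal (9 * δ ^ 2) := by
        rw [hK1]
        refine (Finset.sum_subset (Finset.filter_subset _ _) fun k hk hk' => ?_).symm
        have : H k = 0 := by
          by_contra hc
          exact hk' (Finset.mem_filter.2 ⟨hk, hc⟩)
        rw [this]; simp
    _ ≤ ∑ k ∈ K1, ENNReal.ofReal 72 * (avg δ g (a k) (ω k) ^ 3 * ENNReal.ofReal (δ ^ 2)) := by
        refine Finset.sum_le_sum fun k hk => ?_
        have h1 := (hωa k (Finset.mem_filter.1 hk).2).2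
        calc H k ^ 3 * ENNReal.ofReal (9 * δ ^ 2)
            ≤ (2 * avg δ g (a k) (ω k)) ^ 3 * ENNReal.ofReal (9 * δ ^ 2) := by gcongr
          _ = _ := by
              rw [ENNReal.ofReal_mul (by norm_num : (0:ℝ) ≤ 9), mul_pow]
              have e72 : ENNReal.ofReal 72 = 2 ^ 3 * ENNReal.ofReal 9 := by
                rw [show (72 : ℝ) = 2 ^ 3 * 9 by norm_num, ENNReal.ofReal_mul (by norm_num),
                  ENNReal.ofReal_pow (by norm_num)]
                norm_num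
              rw [e72]; ring
    _ = ENNReal.ofReal 72 * ∑ k ∈ K1, avg δ g (a k) (ω k) ^ 3 * ENNReal.ofReal (δ ^ 2) := by
        rw [Finset.mul_sum]
    _ ≤ ENNReal.ofReal 72 * (ENNReal.ofReal (C * δ ^ (-ε)) * I) := by gcongr
    _ = ENNReal.ofReal (72 * C * δ ^ (-ε)) * I := by
        rw [← mul_assoc, ← ENNReal.ofReal_mul (by norm_num), mul_assoc 72 C]
    _ ≤ ENNReal.ofReal ((72 * C + 1) * δ ^ (-ε)) * I := by
        gcongr
        linarith

end Crest.Agent.R136.GR639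
end

-- ▼ part R136/Mx6_639

/-!
# R136 / S0186, part 6 (helper639): all directions, final form from `KM32`
-/

set_option autoImplicit false

open MeasureTheory
open scoped ENNReal NNReal

namespace Crest.Agent.R136.GR639

open Crest.Agent.R138.Tub70 Crest.AnalysisR.Kakeya

/-- coordinate exchange with sign -/
noncomputable def Lm (j : Fin 3 × Bool) : E3 ≃ₗᵢ[ℝ] E3 :=
  (LinearIsometryEquiv.piLpCongrLeft 2 ℝ ℝ (Equiv.swap j.1 2)).trans
    (if j.2 then LinearIsometryEquiv.refl ℝ E3 else LinearIsometryEquiv.neg ℝ)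

theorem Lm_true (i : Fin 3) (ω : E3) : (Lm (i, true) ω) 2 = ω i := by
  unfold Lm
  simp [LinearIsometryEquiv.piLpCongrLeft_apply, Equiv.piCongrLeft'_apply]

theorem Lm_false (i : Fin 3) (ω : E3) : (Lm (i, false) ω) 2 = - ω i := by
  unfold Lm
  simp [LinearIsometryEquiv.piLpCongrLeft_apply, Equiv.piCongrLeft'_apply]

theorem sphere_cover : Metric.sphere (0 : E3) 1 ⊆ ⋃ j : Fin 3 × Bool, (Lm j) ⁻¹' Dc := by
  intro ω hω
  have h1 : ‖ω‖ = 1 := by simpa using hω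
  have hsum : ω 0 ^ 2 + ω 1 ^ 2 + ω 2 ^ 2 = 1 := by
    have := EuclideanSpace.norm_sq_eq ω
    rw [h1, Fin.sum_univ_three] at this
    simp only [Real.norm_eq_abs, sq_abs] at this
    linarith
  have hex : ∃ i : Fin 3, 1 / 4 ≤ ω i ^ 2 := by
    by_contra hc
    push Not at hc
    have a0 := hc 0
    have a1 := hc 1
    have a2 := hc 2
    linarith
  obtain ⟨i, hi⟩ := hex
  rw [Set.mem_iUnion]
  rcases le_total 0 (ω i) with h | h
  · refine ⟨(i, true), ?_, ?_⟩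
    · rw [LinearIsometryEquiv.norm_map]; exact h1
    · rw [Lm_true]; nlinarith
  · refine ⟨(i, false), ?_, ?_⟩
    · rw [LinearIsometryEquiv.norm_map]; exact h1
    · rw [Lm_false]; nlinarith

theorem piece (hKM : ∀ V : ℝ, KM32 V) (ε : ℝ) (hε : 0 < ε) : ∃ C : ℝ, 1 ≤ C ∧
    ∀ δ : ℝ, 0 < δ → δ < 1 → ∀ f : E3 → ℝ, Measurable f → ∀ M : E3 ≃ₗᵢ[ℝ] E3,
      ∫⁻ ω in M ⁻¹' Dc, maximalFn δ f ω ^ 3 ∂(Measure.hausdorffMeasure 2) ≤
        ENNReal.ofReal (C * δ ^ (-ε)) * ∫⁻ x, ‖f x‖ₑ ^ 3 := by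
  obtain ⟨C, hC, h⟩ := chart_bound hKM ε hε
  refine ⟨C, hC, ?_⟩
  intro δ hδ hδ1 f hf M
  have hmp : MeasurePreserving M (Measure.hausdorffMeasure 2 : Measure E3)
      (Measure.hausdorffMeasure 2 : Measure E3) :=
    M.toIsometryEquiv.measurePreserving_hausdorffMeasure 2
  have hemb : MeasurableEmbedding M := M.toHomeomorph.measurableEmbedding
  have h1 := hmp.setLIntegral_comp_preimage_emb hemb
    (fun ω => maximalFn δ f (M.symm ω) ^ 3) Dc
  simp only [LinearIsometryEquiv.symm_apply_apply] at h1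
  rw [h1]
  have h2 := h δ hδ hδ1 (fun y => f (M.symm y)) (hf.comp M.symm.continuous.measurable)
  have h3 : ∫⁻ x, ‖f (M.symm x)‖ₑ ^ 3 = ∫⁻ x, ‖f x‖ₑ ^ 3 :=
    (M.symm.measurePreserving).lintegral_comp (hf.enorm.pow_const 3)
  rw [h3] at h2
  refine le_trans (le_of_eq ?_) h2
  refine lintegral_congr fun ω => ?_
  rw [maximalFn_map]

/-- **S0186 from KM32**. -/
theorem result_of (hKM : ∀ V : ℝ, KM32 V) :
    ∀ ε : ℝ, 0 < ε → ∃ C : NNReal, ∀ δ : ℝ, 0 < δ → δ < 1 →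
      ∀ f : EuclideanSpace ℝ (Fin 3) → ℝ, Measurable f →
        ∫⁻ ω in Metric.sphere (0 : EuclideanSpace ℝ (Fin 3)) 1, maximalFn δ f ω ^ (3 : ℕ) ∂(Measure.hausdorffMeasure 2)
          ≤ ENNReal.ofReal ((C : ℝ) * δ ^ (-ε)) ^ (3 : ℕ) * ∫⁻ x, ‖f x‖ₑ ^ (3 : ℕ) := by
  intro ε hε
  obtain ⟨C, hC, h⟩ := piece hKM (3 * ε) (by positivity)
  refine ⟨Real.toNNReal (6 * C), ?_⟩
  intro δ hδ hδ1 f hf
  rw [Real.coe_toNNReal _ (by positivity : (0 : ℝ) ≤ 6 * C)]
  have hδε : 0 < δ ^ (-ε) := Real.rpow_pos_of_pos hδ _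
  calc ∫⁻ ω in Metric.sphere (0 : E3) 1, maximalFn δ f ω ^ (3 : ℕ) ∂(Measure.hausdorffMeasure 2)
      ≤ ∫⁻ ω in ⋃ j : Fin 3 × Bool, (Lm j) ⁻¹' Dc, maximalFn δ f ω ^ (3 : ℕ)
          ∂(Measure.hausdorffMeasure 2) := lintegral_mono_set sphere_cover
    _ = ∫⁻ ω in ⋃ j ∈ (Finset.univ : Finset (Fin 3 × Bool)), (Lm j) ⁻¹' Dc,
          maximalFn δ f ω ^ (3 : ℕ) ∂(Measure.hausdorffMeasure 2) := by simp
    _ ≤ ∑ j : Fin 3 × Bool, ∫⁻ ω in (Lm j) ⁻¹' Dc, maximalFn δ f ω ^ (3 : ℕ)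
          ∂(Measure.hausdorffMeasure 2) := lintegral_biUnion_le _ _ _ _
    _ ≤ ∑ _j : Fin 3 × Bool, ENNReal.ofReal (C * δ ^ (-(3 * ε))) * ∫⁻ x, ‖f x‖ₑ ^ 3 :=
        Finset.sum_le_sum fun j _ => h δ hδ hδ1 f hf (Lm j)
    _ = ENNReal.ofReal (6 * C * δ ^ (-(3 * ε))) * ∫⁻ x, ‖f x‖ₑ ^ 3 := by
        rw [Finset.sum_const, nsmul_eq_mul]
        have : ((Finset.univ : Finset (Fin 3 × Bool)).card : ℝ≥0∞) = ENNReal.ofReal 6 := by
          simp [Fintype.card_prod]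
        rw [this, ← mul_assoc, ← ENNReal.ofReal_mul (by norm_num), mul_assoc 6 C]
    _ ≤ _ := by
        gcongr
        rw [← ENNReal.ofReal_pow (by positivity)]
        apply ENNReal.ofReal_le_ofReal
        have e1 : δ ^ (-(3 * ε)) = (δ ^ (-ε)) ^ 3 := by
          rw [← Real.rpow_natCast (δ ^ (-ε)) 3, ← Real.rpow_mul hδ.le]
          congr 1; push_cast; ring
        rw [e1, mul_pow]
        have h6 : (1 : ℝ) ≤ 6 * C := by linarith
        have : 6 * C ≤ (6 * C) ^ 3 := le_self_pow₀ h6 (by norm_num)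
        gcongr

end Crest.Agent.R136.GR639
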