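import Mathlib
import Crest.Agent.R136.Adp_876
import Crest.Agent.R136.AlD_601

-- ▼ part R136/Sbl1_57
section

/-!
# R136 (helper57): sublevel sets of functions with non-degenerate Hessian, finite form

`S` = a finite set of integer vectors `n : Fin 3 → ℕ` (grid points `α n` of the unit box),
`F` = values of the function, `G i` = values of the partial derivatives, `H` = the (nearly constant)
Hessian.  If one `2 × 2` minor of `H` is `≥ m`, then

  `#{n ∈ S : |F n| ≤ β} ≤ C (log) K^4 β / (m^2 α^3)`.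

* `card_diam`, `card3`, `card3'` : counting
* `Sb` : the data, (nearly) constant Hessian
* `Sb.win` : two points with small gradient and nearly the same third coordinate are near
* `Sb.low`, `Sb.level`, `Sb.total`
* `Sc`, `Sc.total` : variable Hessian, points of large gradient or with a large `2 × 2` minor
-/

set_option autoImplicit false

open Finset

namespace Crest.Agent.R136.Sbl57

/-! ### counting -/

/-- a finite set of naturals of diameter `≤ D` -/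
theorem card_diam {A : Finset ℕ} {D : ℝ} (hD : 0 ≤ D)
    (h : ∀ a ∈ A, ∀ b ∈ A, |(a : ℝ) - b| ≤ D) : (A.card : ℝ) ≤ D + 1 := by
  rcases A.eq_empty_or_nonempty with rfl | hne
  · simp; linarith
  · obtain ⟨m, hm, hmin⟩ := A.exists_min_image id hne
    have hsub : A ⊆ Finset.Icc m (m + ⌊D⌋₊) := by
      intro a ha
      have h1 : m ≤ a := hmin a ha
      have h2 := h a ha m hm
      rw [mem_Icc]
      refine ⟨h1, ?_⟩
      have h3 : ((a - m : ℕ) : ℝ) ≤ D := by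
        rw [Nat.cast_sub h1]; exact (le_abs_self _).trans h2
      have h4 : a - m ≤ ⌊D⌋₊ := Nat.le_floor h3
      omega
    have h6 := card_le_card hsub
    rw [Nat.card_Icc] at h6
    have h5 : (A.card : ℝ) ≤ (⌊D⌋₊ : ℝ) + 1 := by
      have : A.card ≤ ⌊D⌋₊ + 1 := by omega
      exact_mod_cast this
    linarith [Nat.floor_le hD]

/-- a finite set of triples: few values of the coordinate `o`, bounded windows in `k`, `l` -/
theorem card3 {A : Finset (Fin 3 → ℕ)} {k l o : Fin 3} (hp : ∀ j, j = k ∨ j = l ∨ j = o)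
    {X D1 D2 : ℝ} (hX : ((A.image fun a => a o).card : ℝ) ≤ X) (h1 : 0 ≤ D1) (h2 : 0 ≤ D2)
    (hk : ∀ a ∈ A, ∀ b ∈ A, a o = b o → |(a k : ℝ) - b k| ≤ D1)
    (hl : ∀ a ∈ A, ∀ b ∈ A, a o = b o → |(a l : ℝ) - b l| ≤ D2) :
    (A.card : ℝ) ≤ X * ((D1 + 1) * (D2 + 1)) := by
  classical
  have hfib : ∀ z ∈ A.image fun a => a o,
      ((A.filter fun a => a o = z).card : ℝ) ≤ (D1 + 1) * (D2 + 1) := by
    intro z _
    set Az := A.filter fun a => a o = z with hAz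
    have hinj : (Az.card : ℝ) ≤ ((Az.image fun a => a k) ×ˢ (Az.image fun a => a l)).card := by
      have : Az.card ≤ ((Az.image fun a => a k) ×ˢ (Az.image fun a => a l)).card := by
        refine card_le_card_of_injOn (fun a => (a k, a l)) (fun a ha => ?_) ?_
        · have ha' : a ∈ Az := ha
          exact mem_coe.2 (mem_product.2 ⟨mem_image_of_mem _ ha', mem_image_of_mem _ ha'⟩)
        · intro a ha b hb hab
          have ha' := (mem_filter.1 (mem_coe.1 ha)).2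
          have hb' := (mem_filter.1 (mem_coe.1 hb)).2
          simp only [Prod.mk.injEq] at hab
          funext j
          rcases hp j with rfl | rfl | rfl
          · exact hab.1
          · exact hab.2
          · rw [ha', hb']
      exact_mod_cast this
    rw [card_product, Nat.cast_mul] at hinj
    refine hinj.trans ?_
    have c1 : ((Az.image fun a => a k).card : ℝ) ≤ D1 + 1 := by
      refine card_diam h1 ?_
      intro u hu v hv
      obtain ⟨a, ha, rfl⟩ := mem_image.1 hu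
      obtain ⟨b, hb, rfl⟩ := mem_image.1 hv
      have ha' := mem_filter.1 ha
      have hb' := mem_filter.1 hb
      exact hk a ha'.1 b hb'.1 (by rw [ha'.2, hb'.2])
    have c2 : ((Az.image fun a => a l).card : ℝ) ≤ D2 + 1 := by
      refine card_diam h2 ?_
      intro u hu v hv
      obtain ⟨a, ha, rfl⟩ := mem_image.1 hu
      obtain ⟨b, hb, rfl⟩ := mem_image.1 hv
      have ha' := mem_filter.1 ha
      have hb' := mem_filter.1 hb
      exact hl a ha'.1 b hb'.1 (by rw [ha'.2, hb'.2])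
    exact mul_le_mul c1 c2 (Nat.cast_nonneg _) (by linarith)
  have hsum : (A.card : ℝ) = ∑ z ∈ A.image (fun a => a o), ((A.filter fun a => a o = z).card : ℝ) := by
    have := card_eq_sum_card_image (fun a : Fin 3 → ℕ => a o) A
    exact_mod_cast this
  rw [hsum]
  refine (sum_le_sum hfib).trans ?_
  rw [sum_const, nsmul_eq_mul]
  exact mul_le_mul_of_nonneg_right hX (by positivity)

/-- a finite set of triples: few values of two coordinates, bounded windows in the third -/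
theorem card3' {A : Finset (Fin 3 → ℕ)} {j1 j2 i : Fin 3} (hp : ∀ j, j = j1 ∨ j = j2 ∨ j = i)
    {X Y D : ℝ} (hX : ((A.image fun a => a j1).card : ℝ) ≤ X)
    (hY : ((A.image fun a => a j2).card : ℝ) ≤ Y) (hX0 : 0 ≤ X) (hD : 0 ≤ D)
    (h : ∀ a ∈ A, ∀ b ∈ A, a j1 = b j1 → a j2 = b j2 → |(a i : ℝ) - b i| ≤ D) :
    (A.card : ℝ) ≤ X * Y * (D + 1) := by
  classical
  set I := (A.image fun a => a j1) ×ˢ (A.image fun a => a j2) with hI
  have hmap : ∀ a ∈ A, ((a j1, a j2) : ℕ × ℕ) ∈ I := fun a ha =>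
    mem_product.2 ⟨mem_image_of_mem _ ha, mem_image_of_mem _ ha⟩
  have hsum : (A.card : ℝ) =
      ∑ z ∈ I, ((A.filter fun a => ((a j1, a j2) : ℕ × ℕ) = z).card : ℝ) := by
    have := card_eq_sum_card_fiberwise (f := fun a : Fin 3 → ℕ => ((a j1, a j2) : ℕ × ℕ))
      (s := A) (t := I) hmap
    exact_mod_cast this
  have hfib : ∀ z ∈ I, ((A.filter fun a => ((a j1, a j2) : ℕ × ℕ) = z).card : ℝ) ≤ D + 1 := by
    intro z _
    set Az := A.filter fun a => ((a j1, a j2) : ℕ × ℕ) = z with hAz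
    have hinj : Az.card = (Az.image fun a => a i).card := by
      rw [card_image_of_injOn]
      intro a ha b hb hab
      have ha' := (mem_filter.1 (mem_coe.1 ha)).2
      have hb' := (mem_filter.1 (mem_coe.1 hb)).2
      rw [← hb', Prod.mk.injEq] at ha'
      funext j
      rcases hp j with rfl | rfl | rfl
      · exact ha'.1
      · exact ha'.2
      · exact hab
    rw [hinj]
    refine card_diam hD ?_
    intro u hu v hv
    obtain ⟨a, ha, rfl⟩ := mem_image.1 hu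
    obtain ⟨b, hb, rfl⟩ := mem_image.1 hv
    have ha' := mem_filter.1 ha
    have hb' := mem_filter.1 hb
    have e := ha'.2.trans hb'.2.symm
    rw [Prod.mk.injEq] at e
    exact h a ha'.1 b hb'.1 e.1 e.2
  rw [hsum]
  refine (sum_le_sum hfib).trans ?_
  rw [sum_const, nsmul_eq_mul, hI, card_product, Nat.cast_mul]
  refine mul_le_mul_of_nonneg_right ?_ (by linarith)
  exact mul_le_mul hX hY (Nat.cast_nonneg _) hX0

/-- number of values of `n j / b` when `n j` runs in a window -/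
theorem card_div {A : Finset (Fin 3 → ℕ)} {j : Fin 3} {b : ℕ} (hb : 0 < b) {D : ℝ} (hD : 0 ≤ D)
    (h : ∀ n ∈ A, ∀ n' ∈ A, |(n j : ℝ) - n' j| ≤ D) :
    ((A.image fun n => n j / b).card : ℝ) ≤ D / b + 2 := by
  have hb' : (0 : ℝ) < b := by exact_mod_cast hb
  have hdiv : ∀ x : ℕ, (x : ℝ) / b - 1 ≤ ((x / b : ℕ) : ℝ) ∧ ((x / b : ℕ) : ℝ) ≤ (x : ℝ) / b := by
    intro x
    constructor
    · have h1 : x < (x / b + 1) * b := Nat.lt_mul_of_div_lt (Nat.lt_succ_self _) hb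
      have h2 : (x : ℝ) ≤ ((x / b : ℕ) + 1) * b := by exact_mod_cast h1.le
      rw [sub_le_iff_le_add, div_le_iff₀ hb']
      exact h2
    · exact Nat.cast_div_le
  have := card_diam (A := A.image fun n => n j / b) (D := D / b + 1) (by positivity) (by
    intro u hu v hv
    obtain ⟨x, hx, rfl⟩ := mem_image.1 hu
    obtain ⟨y, hy, rfl⟩ := mem_image.1 hv
    have h1 := h x hx y hy
    have a1 := hdiv (x j)
    have a2 := hdiv (y j)
    have h2 : |(x j : ℝ) / b - (y j : ℝ) / b| ≤ D / b := by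
      rw [← sub_div, abs_div, abs_of_pos hb']
      exact div_le_div_of_nonneg_right h1 hb'.le
    rw [abs_le] at h2 ⊢
    constructor <;> linarith [a1.1, a1.2, a2.1, a2.2, h2.1, h2.2])
  linarith

/-! ### the data -/

/-- first order data on grid points of the unit box -/
structure Sa (S : Finset (Fin 3 → ℕ)) (α K : ℝ) (F : (Fin 3 → ℕ) → ℝ)
    (G : Fin 3 → (Fin 3 → ℕ) → ℝ) : Prop where
  α0 : 0 < α
  α1 : α ≤ 1
  K1 : 1 ≤ K
  box : ∀ n ∈ S, ∀ j, α * (n j : ℝ) ≤ 1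
  gb : ∀ n ∈ S, ∀ i, |G i n| ≤ K
  t1 : ∀ n ∈ S, ∀ n' ∈ S, ∀ i, (∀ j, j ≠ i → n j = n' j) →
    |F n' - F n - α * ((n' i : ℝ) - n i) * G i n| ≤ K * ((α * ((n' i : ℝ) - n i)) ^ 2 + α)

/-- values of a function with nearly constant Hessian on grid points of the unit box -/
structure Sb (S : Finset (Fin 3 → ℕ)) (α K ε : ℝ) (F : (Fin 3 → ℕ) → ℝ)
    (G : Fin 3 → (Fin 3 → ℕ) → ℝ) (H : Fin 3 → Fin 3 → ℝ) : Prop extends Sa S α K F G where
  ε0 : 0 ≤ ε
  εK : ε ≤ K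
  hb : ∀ i j, |H i j| ≤ K
  t2 : ∀ n ∈ S, ∀ n' ∈ S, ∀ i, ∀ r : ℝ, (∀ j, |α * ((n' j : ℝ) - n j)| ≤ r) →
    |G i n' - G i n - ∑ j, H i j * (α * ((n' j : ℝ) - n j))| ≤ ε * r + K * α

/-- `m ≤` a `2 × 2` minor of `H`, rows `i j`, columns `k l` -/
structure Mn (H : Fin 3 → Fin 3 → ℝ) (m : ℝ) (i j k l o : Fin 3) : Prop where
  m0 : 0 < m
  m1 : m ≤ 1
  perm : ∀ f : Fin 3 → ℝ, ∑ s, f s = f k + f l + f o
  cov : ∀ s, s = k ∨ s = l ∨ s = o
  minor : m ≤ |H i k * H j l - H i l * H j k|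

theorem cramer {a b c d x y p q m K M : ℝ} (hm : m ≤ |a * d - b * c|) (ha : |a| ≤ K)
    (hb : |b| ≤ K) (hc : |c| ≤ K) (hd : |d| ≤ K) (h1 : a * x + b * y = p)
    (h2 : c * x + d * y = q) (hp : |p| ≤ M) (hq : |q| ≤ M) :
    m * |x| ≤ 2 * K * M ∧ m * |y| ≤ 2 * K * M := by
  have hK : 0 ≤ K := (abs_nonneg a).trans ha
  have e1 : (a * d - b * c) * x = p * d - q * b := by rw [← h1, ← h2]; ring
  have e2 : (a * d - b * c) * y = q * a - p * c := by rw [← h1, ← h2]; ring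
  constructor
  · calc m * |x| ≤ |a * d - b * c| * |x| := mul_le_mul_of_nonneg_right hm (abs_nonneg _)
      _ = |p * d - q * b| := by rw [← abs_mul, e1]
      _ ≤ |p| * |d| + |q| * |b| := by
          have := abs_sub (p * d) (q * b)
          rw [abs_mul, abs_mul] at this; exact this
      _ ≤ M * K + M * K := add_le_add
          (mul_le_mul hp hd (abs_nonneg _) ((abs_nonneg _).trans hp))
          (mul_le_mul hq hb (abs_nonneg _) ((abs_nonneg _).trans hq))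
      _ = 2 * K * M := by ring
  · calc m * |y| ≤ |a * d - b * c| * |y| := mul_le_mul_of_nonneg_right hm (abs_nonneg _)
      _ = |q * a - p * c| := by rw [← abs_mul, e2]
      _ ≤ |q| * |a| + |p| * |c| := by
          have := abs_sub (q * a) (p * c)
          rw [abs_mul, abs_mul] at this; exact this
      _ ≤ M * K + M * K := add_le_add
          (mul_le_mul hq ha (abs_nonneg _) ((abs_nonneg _).trans hq))
          (mul_le_mul hp hc (abs_nonneg _) ((abs_nonneg _).trans hp))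
      _ = 2 * K * M := by ring

section

variable {S : Finset (Fin 3 → ℕ)} {α K ε : ℝ} {F : (Fin 3 → ℕ) → ℝ}
  {G : Fin 3 → (Fin 3 → ℕ) → ℝ} {H : Fin 3 → Fin 3 → ℝ} {m : ℝ} {i j k l o : Fin 3}

/-- **window of the gradient** -/
theorem Sb.win (h : Sb S α K ε F G H) (hM : Mn H m i j k l o) (hε : 4 * K * ε ≤ m)
    {n n' : Fin 3 → ℕ} (hn : n ∈ S) (hn' : n' ∈ S) {μ ℓ R : ℝ}
    (g1 : ∀ s, |G s n| ≤ μ) (g2 : ∀ s, |G s n'| ≤ μ) (ho : |α * ((n' o : ℝ) - n o)| ≤ ℓ)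
    (hR : 2 * μ + 2 * K * ℓ + K * α ≤ R) :
    |α * ((n' k : ℝ) - n k)| ≤ 4 * K * R / m ∧ |α * ((n' l : ℝ) - n l)| ≤ 4 * K * R / m := by
  have hK := h.K1
  have hm := hM.m0
  have hε0 := h.ε0
  have hεK := h.εK
  set x := α * ((n' k : ℝ) - n k) with hx
  set y := α * ((n' l : ℝ) - n l) with hy
  set w := α * ((n' o : ℝ) - n o) with hw
  have hℓ : 0 ≤ ℓ := (abs_nonneg _).trans ho
  set V := max |x| |y| with hV
  have hV0 : 0 ≤ V := (abs_nonneg x).trans (le_max_left _ _)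
  have hr : ∀ s, |α * ((n' s : ℝ) - n s)| ≤ V + ℓ := by
    intro s
    rcases hM.cov s with rfl | rfl | rfl
    · exact (le_max_left _ _).trans (by linarith)
    · exact (le_max_right _ _).trans (by linarith)
    · exact ho.trans (by linarith)
  have key : ∀ s, |H s k * x + H s l * y| ≤ 2 * μ + K * ℓ + ε * (V + ℓ) + K * α := by
    intro s
    have t := h.t2 n hn n' hn' s (V + ℓ) hr
    rw [hM.perm fun r => H s r * (α * ((n' r : ℝ) - n r))] at t
    rw [← hx, ← hy, ← hw] at t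
    have a1 := g1 s
    have a2 := g2 s
    have a3 : |H s o * w| ≤ K * ℓ := by
      rw [abs_mul]
      exact mul_le_mul (h.hb s o) ho (abs_nonneg _) (by linarith)
    rw [abs_le] at t a1 a2 a3 ⊢
    constructor <;> linarith [t.1, t.2, a1.1, a1.2, a2.1, a2.2, a3.1, a3.2]
  obtain ⟨c1, c2⟩ := cramer hM.minor (h.hb i k) (h.hb i l) (h.hb j k) (h.hb j l)
    rfl rfl (key i) (key j)
  have c3 : m * V ≤ 2 * K * (2 * μ + K * ℓ + ε * (V + ℓ) + K * α) := by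
    rcases max_cases |x| |y| with h1 | h1
    · rw [hV, h1.1]; rw [hV, h1.1] at c1; exact c1
    · rw [hV, h1.1]; rw [hV, h1.1] at c2; exact c2
  have c4 : V ≤ 4 * K * R / m := by
    rw [le_div_iff₀ hm]
    have e1 : 4 * K * ε * V ≤ m * V := mul_le_mul_of_nonneg_right hε hV0
    have e2 : ε * ℓ ≤ K * ℓ := mul_le_mul_of_nonneg_right hεK hℓ
    have e3 : K * (ε * ℓ) ≤ K * (K * ℓ) := mul_le_mul_of_nonneg_left e2 (by linarith)
    have e4 : K * (2 * μ + 2 * K * ℓ + K * α) ≤ K * R := mul_le_mul_of_nonneg_left hR (by linarith)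
    nlinarith
  exact ⟨(le_max_left _ _).trans c4, (le_max_right _ _).trans c4⟩

/-- differences of one coordinate -/
theorem Sa.dif (h : Sa S α K F G) {a b : Fin 3 → ℕ} (ha : a ∈ S) (hb : b ∈ S) (o : Fin 3) :
    |(a o : ℝ) - b o| ≤ 1 / α := by
  have hα := h.α0
  have h1 := h.box a ha o
  have h2 := h.box b hb o
  have h3 : (0 : ℝ) ≤ a o := Nat.cast_nonneg _
  have h4 : (0 : ℝ) ≤ b o := Nat.cast_nonneg _
  rw [mul_comm, ← le_div_iff₀ hα] at h1 h2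
  rw [abs_le]
  constructor <;> linarith

/-- number of values of one coordinate -/
theorem Sa.vals (h : Sa S α K F G) {A : Finset (Fin 3 → ℕ)} (hA : A ⊆ S) (o : Fin 3) :
    ((A.image fun a => a o).card : ℝ) ≤ 1 / α + 1 := by
  have hα := h.α0
  refine card_diam (by positivity) ?_
  intro u hu v hv
  obtain ⟨a, ha, rfl⟩ := mem_image.1 hu
  obtain ⟨b, hb, rfl⟩ := mem_image.1 hv
  exact h.dif (hA ha) (hA hb) o

/-- **points of small gradient** -/
theorem Sb.low (h : Sb S α K ε F G H) (hM : Mn H m i j k l o) (hε : 4 * K * ε ≤ m)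
    {A : Finset (Fin 3 → ℕ)} (hA : A ⊆ S) {μ : ℝ} (hμ : α ≤ μ)
    (hG : ∀ n ∈ A, ∀ s, |G s n| ≤ μ) :
    (A.card : ℝ) ≤ 338 * K ^ 4 * μ ^ 2 / (m ^ 2 * α ^ 3) := by
  have hα0 := h.α0
  have hα := h.α1
  have hK := h.K1
  have hm := hM.m0
  have hm1 := hM.m1
  have hμ0 : 0 < μ := hα0.trans_le hμ
  obtain ⟨D, hD⟩ : ∃ D, D = 12 * K ^ 2 * μ / (m * α) := ⟨_, rfl⟩
  have hD0 : 0 ≤ D := by rw [hD]; positivity
  have hdiff : ∀ a ∈ A, ∀ b ∈ A, a o = b o → |(a k : ℝ) - b k| ≤ D ∧ |(a l : ℝ) - b l| ≤ D := by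
    intro a ha b hb hab
    have := h.win hM hε (hA hb) (hA ha) (μ := μ) (ℓ := 0) (R := 3 * K * μ) (hG b hb) (hG a ha) (by
      rw [hab, sub_self, mul_zero, abs_zero]) (by nlinarith)
    rw [abs_mul, abs_mul, abs_of_pos hα0] at this
    have e : 4 * K * (3 * K * μ) / m = α * D := by rw [hD]; field_simp; ring
    rw [e] at this
    exact ⟨le_of_mul_le_mul_left this.1 hα0, le_of_mul_le_mul_left this.2 hα0⟩
  have hc := card3 (A := A) hM.cov (X := 1 / α + 1) (h.vals hA o) hD0 hD0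
    (fun a ha b hb hab => (hdiff a ha b hb hab).1) (fun a ha b hb hab => (hdiff a ha b hb hab).2)
  refine hc.trans ?_
  have e1 : D + 1 ≤ 13 * K ^ 2 * μ / (m * α) := by
    have : 1 ≤ K ^ 2 * μ / (m * α) := by
      rw [le_div_iff₀ (by positivity)]
      have h1 : m * α ≤ 1 * μ := mul_le_mul hm1 hμ hα0.le zero_le_one
      have h2 : 1 * μ ≤ K ^ 2 * μ := mul_le_mul_of_nonneg_right (by nlinarith) hμ0.le
      linarith
    rw [hD]
    have e : 13 * K ^ 2 * μ / (m * α) = 12 * K ^ 2 * μ / (m * α) + K ^ 2 * μ / (m * α) := by ring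
    linarith
  have e2 : 1 / α + 1 ≤ 2 / α := by
    have : 1 ≤ 1 / α := by rw [le_div_iff₀ hα0]; linarith
    have e : 2 / α = 1 / α + 1 / α := by ring
    linarith
  calc (1 / α + 1) * ((D + 1) * (D + 1)) ≤
      2 / α * ((13 * K ^ 2 * μ / (m * α)) * (13 * K ^ 2 * μ / (m * α))) := by
        refine mul_le_mul e2 (mul_le_mul e1 e1 (by linarith) (by positivity)) (by positivity)
          (by positivity)
    _ = 338 * K ^ 4 * μ ^ 2 / (m ^ 2 * α ^ 3) := by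
        field_simp; ring

/-- **one cell**: a set of diameter `≤ ℓ` on which the `i`-th derivative is `≥ γ` -/
theorem Sa.cell (h : Sa S α K F G) {j1 j2 : Fin 3} (hp : ∀ j, j = j1 ∨ j = j2 ∨ j = i)
    (h1i : j1 ≠ i) (h2i : j2 ≠ i)
    {A : Finset (Fin 3 → ℕ)} (hA : A ⊆ S) {γ ℓ β : ℝ} (hγ : 0 < γ) (hγK : γ ≤ K)
    (hℓ : α ≤ ℓ) (hℓγ : 16 * K * ℓ ≤ γ) (hαβ : α ≤ β)
    (hd : ∀ n ∈ A, ∀ n' ∈ A, ∀ j, |α * ((n' j : ℝ) - n j)| ≤ ℓ)
    (hG : ∀ n ∈ A, γ ≤ |G i n|) (hF : ∀ n ∈ A, |F n| ≤ β) :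
    (A.card : ℝ) ≤ 20 * K * ℓ ^ 2 * β / (γ * α ^ 3) := by
  have hα0 := h.α0
  have hK := h.K1
  have hℓ0 : 0 < ℓ := hα0.trans_le hℓ
  have hβ0 : 0 < β := hα0.trans_le hαβ
  have hv : ∀ j, ((A.image fun a => a j).card : ℝ) ≤ ℓ / α + 1 := by
    intro j
    refine card_diam (by positivity) ?_
    intro u hu v hv
    obtain ⟨a, ha, rfl⟩ := mem_image.1 hu
    obtain ⟨b, hb, rfl⟩ := mem_image.1 hv
    have := hd b hb a ha j
    rw [abs_mul, abs_of_pos hα0, mul_comm, ← le_div_iff₀ hα0] at this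
    exact this
  have hX : ℓ / α + 1 ≤ 2 * ℓ / α := by
    have : 1 ≤ ℓ / α := by rw [le_div_iff₀ hα0]; linarith
    have e : 2 * ℓ / α = ℓ / α + ℓ / α := by ring
    linarith
  have hc := card3' (A := A) (i := i) hp (X := 2 * ℓ / α) (Y := 2 * ℓ / α)
    (D := 4 * K * β / (γ * α)) ((hv j1).trans hX) ((hv j2).trans hX) (by positivity)
    (by positivity) (by
      intro a ha b hb e1 e2
      have t := h.t1 b (hA hb) a (hA ha) i (by
        intro s hs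
        rcases hp s with rfl | rfl | rfl
        · exact e1.symm
        · exact e2.symm
        · exact absurd rfl hs)
      have hxl := hd b hb a ha i
      obtain ⟨x, hx⟩ : ∃ x, x = α * ((a i : ℝ) - b i) := ⟨_, rfl⟩
      rw [← hx] at t hxl
      have g1 := hG b hb
      have f1 := hF a ha
      have f2 := hF b hb
      have k1 : |x| * γ ≤ |x * G i b| := by
        rw [abs_mul]; exact mul_le_mul_of_nonneg_left g1 (abs_nonneg _)
      have k2 : |x * G i b| ≤ 2 * β + K * (x ^ 2 + α) := by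
        rw [abs_le] at t f1 f2 ⊢
        constructor <;> linarith [t.1, t.2, f1.1, f1.2, f2.1, f2.2]
      have k3 : x ^ 2 ≤ ℓ * |x| := by
        rw [← sq_abs, sq]; exact mul_le_mul_of_nonneg_right hxl (abs_nonneg _)
      have k4 : 16 * K * ℓ * |x| ≤ γ * |x| := mul_le_mul_of_nonneg_right hℓγ (abs_nonneg _)
      have k5 : K * x ^ 2 ≤ K * (ℓ * |x|) := mul_le_mul_of_nonneg_left k3 (by linarith)
      have k6 : K * α ≤ K * β := mul_le_mul_of_nonneg_left hαβ (by linarith)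
      have k7 : 2 * β ≤ 2 * (K * β) := by nlinarith
      have k8 : |x| * γ ≤ 4 * (K * β) := by nlinarith [abs_nonneg x]
      rw [hx, abs_mul, abs_of_pos hα0] at k8
      rw [le_div_iff₀ (by positivity)]
      nlinarith [k8])
  refine hc.trans ?_
  have e3 : 4 * K * β / (γ * α) + 1 ≤ 5 * K * β / (γ * α) := by
    have : 1 ≤ K * β / (γ * α) := by
      rw [le_div_iff₀ (by positivity), one_mul]
      exact mul_le_mul hγK hαβ hα0.le (by linarith)
    have e : 5 * K * β / (γ * α) = 4 * K * β / (γ * α) + K * β / (γ * α) := by ring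
    linarith
  calc 2 * ℓ / α * (2 * ℓ / α) * (4 * K * β / (γ * α) + 1) ≤
      2 * ℓ / α * (2 * ℓ / α) * (5 * K * β / (γ * α)) :=
        mul_le_mul_of_nonneg_left e3 (by positivity)
    _ = 20 * K * ℓ ^ 2 * β / (γ * α ^ 3) := by field_simp; ring

/-- the scale of the cells -/
theorem exists_b {α γ K : ℝ} (hα : 0 < α) (hγ : 0 < γ) (hK : 1 ≤ K) (h : 16 * K * α ≤ γ) :
    ∃ b : ℕ, 0 < b ∧ 16 * K * (α * b) ≤ γ ∧ γ ≤ 32 * K * (α * b) := by
  have hc : 0 < 16 * K * α := by positivity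
  have h1 : 1 ≤ γ / (16 * K * α) := by rw [le_div_iff₀ hc]; linarith
  refine ⟨⌊γ / (16 * K * α)⌋₊, Nat.floor_pos.2 h1, ?_, ?_⟩
  · have := Nat.floor_le (show 0 ≤ γ / (16 * K * α) by positivity)
    rw [le_div_iff₀ hc] at this
    linarith
  · have h2 := Nat.lt_floor_add_one (γ / (16 * K * α))
    have h3 : (1 : ℝ) ≤ (⌊γ / (16 * K * α)⌋₊ : ℝ) := by exact_mod_cast Nat.floor_pos.2 h1
    have h4 : γ / (16 * K * α) ≤ 2 * (⌊γ / (16 * K * α)⌋₊ : ℝ) := by linarith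
    rw [div_le_iff₀ hc] at h4
    linarith

/-- points of one `b`-cell are near -/
theorem near_of_div {b : ℕ} (hb : 0 < b) {x y : ℕ} (h : x / b = y / b) {α : ℝ} (hα : 0 < α) :
    |α * ((x : ℝ) - y)| ≤ α * b := by
  rw [abs_mul, abs_of_pos hα]
  refine mul_le_mul_of_nonneg_left ?_ hα.le
  have h1 : x < (x / b + 1) * b := Nat.lt_mul_of_div_lt (Nat.lt_succ_self _) hb
  have h2 : y < (y / b + 1) * b := Nat.lt_mul_of_div_lt (Nat.lt_succ_self _) hb
  have h3 : x / b * b ≤ x := Nat.div_mul_le_self x b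
  have h4 : y / b * b ≤ y := Nat.div_mul_le_self y b
  rw [h] at h1 h3
  have h1' : (x : ℝ) ≤ ((y / b : ℕ) + 1) * b := by exact_mod_cast h1.le
  have h2' : (y : ℝ) ≤ ((y / b : ℕ) + 1) * b := by exact_mod_cast h2.le
  have h3' : ((y / b : ℕ) : ℝ) * b ≤ x := by exact_mod_cast h3
  have h4' : ((y / b : ℕ) : ℝ) * b ≤ y := by exact_mod_cast h4
  rw [abs_le]
  constructor <;> nlinarith

/-- sum over the cells -/
theorem card_cells {A : Finset (Fin 3 → ℕ)} {b : ℕ} {N C : ℝ} (hC : 0 ≤ C)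
    (hN : ((A.image fun n => fun j => n j / b).card : ℝ) ≤ N)
    (h : ∀ c : Fin 3 → ℕ, ((A.filter fun n => (fun j => n j / b) = c).card : ℝ) ≤ C) :
    (A.card : ℝ) ≤ N * C := by
  classical
  have hsum : (A.card : ℝ) = ∑ c ∈ A.image (fun n => fun j => n j / b),
      ((A.filter fun n => (fun j => n j / b) = c).card : ℝ) := by
    have := card_eq_sum_card_image (fun n : Fin 3 → ℕ => fun j => n j / b) A
    exact_mod_cast this
  rw [hsum]
  refine (sum_le_sum fun c _ => h c).trans ?_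
  rw [sum_const, nsmul_eq_mul]
  exact mul_le_mul_of_nonneg_right hN hC

/-- cells are determined by three indices -/
theorem card_cells3 {A : Finset (Fin 3 → ℕ)} {b : ℕ} {k l o : Fin 3}
    (hp : ∀ j, j = k ∨ j = l ∨ j = o) {X D1 D2 : ℝ}
    (hX : ((A.image fun a => a o / b).card : ℝ) ≤ X) (h1 : 0 ≤ D1) (h2 : 0 ≤ D2)
    (hk : ∀ a ∈ A, ∀ c ∈ A, a o / b = c o / b → |((a k / b : ℕ) : ℝ) - (c k / b : ℕ)| ≤ D1)
    (hl : ∀ a ∈ A, ∀ c ∈ A, a o / b = c o / b → |((a l / b : ℕ) : ℝ) - (c l / b : ℕ)| ≤ D2) :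
    ((A.image fun n => fun j => n j / b).card : ℝ) ≤ X * ((D1 + 1) * (D2 + 1)) := by
  classical
  have hX0 : 0 ≤ X := (Nat.cast_nonneg _).trans hX
  refine card3 (A := A.image fun n => fun j => n j / b) hp (X := X) ?_ h1 h2 ?_ ?_
  · rw [image_image]; exact hX
  · intro u hu v hv
    obtain ⟨a, ha, rfl⟩ := mem_image.1 hu
    obtain ⟨c, hc, rfl⟩ := mem_image.1 hv
    exact hk a ha c hc
  · intro u hu v hv
    obtain ⟨a, ha, rfl⟩ := mem_image.1 hu
    obtain ⟨c, hc, rfl⟩ := mem_image.1 hv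
    exact hl a ha c hc

/-- **points of large gradient**, no Hessian -/
theorem Sa.grad (h : Sa S α K F G) {j1 j2 : Fin 3} (hp : ∀ j, j = j1 ∨ j = j2 ∨ j = i)
    (h1i : j1 ≠ i) (h2i : j2 ≠ i)
    {A : Finset (Fin 3 → ℕ)} (hA : A ⊆ S) {γ β : ℝ} (hγ : 16 * K * α ≤ γ) (hγK : γ ≤ K)
    (hαβ : α ≤ β) (hG : ∀ n ∈ A, γ ≤ |G i n|) (hF : ∀ n ∈ A, |F n| ≤ β) :
    (A.card : ℝ) ≤ 90000 * K ^ 2 * β / (γ ^ 2 * α ^ 3) := by
  classical
  have hα0 := h.α0
  have hK := h.K1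
  have hβ0 : 0 < β := hα0.trans_le hαβ
  have hγ0 : 0 < γ := by
    have : 0 < 16 * K * α := by positivity
    linarith
  obtain ⟨b, hb, b1, b2⟩ := exists_b hα0 hγ0 hK hγ
  have hb' : (0 : ℝ) < b := by exact_mod_cast hb
  have hb1 : (1 : ℝ) ≤ b := by exact_mod_cast hb
  obtain ⟨ℓ, hℓ⟩ : ∃ ℓ, ℓ = α * b := ⟨_, rfl⟩
  have hℓα : α ≤ ℓ := by rw [hℓ]; nlinarith
  have hℓ0 : 0 < ℓ := hα0.trans_le hℓα
  rw [← hℓ] at b1 b2
  have hval : ∀ j, ((A.image fun n => n j / b).card : ℝ) ≤ 1 / ℓ + 2 := by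
    intro j
    have := card_div (A := A) (j := j) hb (D := 1 / α) (by positivity)
      (fun n hn n' hn' => h.dif (hA hn) (hA hn') j)
    rw [hℓ]
    have e : 1 / α / b = 1 / (α * b) := by field_simp
    rwa [e] at this
  have hq : 1 / ℓ + 3 ≤ 66 * K / γ := by
    have h1 : 1 / ℓ ≤ 32 * K / γ := by
      rw [div_le_div_iff₀ hℓ0 hγ0]; linarith
    have h2 : 3 ≤ 34 * K / γ := by
      rw [le_div_iff₀ hγ0]; linarith
    have e : 66 * K / γ = 32 * K / γ + 34 * K / γ := by ring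
    linarith
  have hN : ((A.image fun n => fun j => n j / b).card : ℝ) ≤ (66 * K / γ) ^ 3 := by
    have hdif : ∀ j, ∀ a ∈ A, ∀ c ∈ A, |((a j / b : ℕ) : ℝ) - (c j / b : ℕ)| ≤ 1 / ℓ + 1 := by
      intro j a ha c hc
      have h1 := h.dif (hA ha) (hA hc) j
      have hdiv : ∀ x : ℕ, (x : ℝ) / b - 1 ≤ ((x / b : ℕ) : ℝ) ∧
          ((x / b : ℕ) : ℝ) ≤ (x : ℝ) / b := by
        intro x
        constructor
        · have h1 : x < (x / b + 1) * b := Nat.lt_mul_of_div_lt (Nat.lt_succ_self _) hb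
          have h2 : (x : ℝ) ≤ ((x / b : ℕ) + 1) * b := by exact_mod_cast h1.le
          rw [sub_le_iff_le_add, div_le_iff₀ hb']
          exact h2
        · exact Nat.cast_div_le
      have a1 := hdiv (a j)
      have a2 := hdiv (c j)
      have h2 : |(a j : ℝ) / b - (c j : ℝ) / b| ≤ 1 / ℓ := by
        rw [← sub_div, abs_div, abs_of_pos hb', hℓ]
        have e : 1 / (α * b) = 1 / α / b := by field_simp
        rw [e]
        exact div_le_div_of_nonneg_right h1 hb'.le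
      rw [abs_le] at h2 ⊢
      constructor <;> linarith [a1.1, a1.2, a2.1, a2.2, h2.1, h2.2]
    have := card_cells3 (A := A) (b := b) (k := j1) (l := j2) (o := i) hp (X := 66 * K / γ)
      (D1 := 1 / ℓ + 1) (D2 := 1 / ℓ + 1) ((hval i).trans (by linarith)) (by positivity)
      (by positivity) (fun a ha c hc _ => hdif _ a ha c hc) (fun a ha c hc _ => hdif _ a ha c hc)
    refine this.trans ?_
    have e1 : 1 / ℓ + 1 + 1 ≤ 66 * K / γ := by linarith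
    calc 66 * K / γ * ((1 / ℓ + 1 + 1) * (1 / ℓ + 1 + 1)) ≤
        66 * K / γ * ((66 * K / γ) * (66 * K / γ)) :=
          mul_le_mul_of_nonneg_left (mul_le_mul e1 e1 (by positivity) (by positivity))
            (by positivity)
      _ = (66 * K / γ) ^ 3 := by ring
  have hcell : ∀ c : Fin 3 → ℕ, ((A.filter fun n => (fun j => n j / b) = c).card : ℝ) ≤
      20 * K * ℓ ^ 2 * β / (γ * α ^ 3) := by
    intro c
    refine h.cell hp h1i h2i ((filter_subset _ _).trans hA) hγ0 hγK hℓα (by linarith) hαβ ?_ ?_ ?_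
    · intro n hn n' hn' j
      rw [hℓ]
      refine near_of_div hb ?_ hα0
      have e1 := congrFun (mem_filter.1 hn).2 j
      have e2 := congrFun (mem_filter.1 hn').2 j
      exact e2.trans e1.symm
    · intro n hn; exact hG n (mem_filter.1 hn).1
    · intro n hn; exact hF n (mem_filter.1 hn).1
  refine (card_cells (by positivity) hN hcell).trans ?_
  have hl2 : ℓ ^ 2 ≤ (γ / (16 * K)) ^ 2 := by
    have : ℓ ≤ γ / (16 * K) := by rw [le_div_iff₀ (by positivity)]; linarith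
    exact pow_le_pow_left₀ hℓ0.le this 2
  calc (66 * K / γ) ^ 3 * (20 * K * ℓ ^ 2 * β / (γ * α ^ 3)) =
      66 ^ 3 * 20 * K ^ 4 * β / (γ ^ 4 * α ^ 3) * ℓ ^ 2 := by field_simp
    _ ≤ 66 ^ 3 * 20 * K ^ 4 * β / (γ ^ 4 * α ^ 3) * (γ / (16 * K)) ^ 2 :=
        mul_le_mul_of_nonneg_left hl2 (by positivity)
    _ = 66 ^ 3 * 20 / 256 * (K ^ 2 * β / (γ ^ 2 * α ^ 3)) := by field_simp; ring
    _ ≤ 90000 * (K ^ 2 * β / (γ ^ 2 * α ^ 3)) :=
        mul_le_mul_of_nonneg_right (by norm_num) (by positivity)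
    _ = 90000 * K ^ 2 * β / (γ ^ 2 * α ^ 3) := by ring

/-- **points of gradient `~ μ`** -/
theorem Sb.level (h : Sb S α K ε F G H) (hM : Mn H m i j k l o) (hε : 4 * K * ε ≤ m)
    {r j1 j2 : Fin 3} (hp : ∀ j, j = j1 ∨ j = j2 ∨ j = r) (h1i : j1 ≠ r) (h2i : j2 ≠ r)
    {A : Finset (Fin 3 → ℕ)} (hA : A ⊆ S) {μ β : ℝ} (hμ : 32 * K * α ≤ μ) (hμK : μ ≤ 2 * K)
    (hαβ : α ≤ β) (hG : ∀ n ∈ A, μ / 2 ≤ |G r n|) (hG' : ∀ n ∈ A, ∀ s, |G s n| ≤ μ)
    (hF : ∀ n ∈ A, |F n| ≤ β) :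
    (A.card : ℝ) ≤ 3 * 10 ^ 6 * K ^ 4 * β / (m ^ 2 * α ^ 3) := by
  classical
  have hα0 := h.α0
  have hK := h.K1
  have hm := hM.m0
  have hm1 := hM.m1
  have hβ0 : 0 < β := hα0.trans_le hαβ
  have hμ0 : 0 < μ := by
    have : 0 < 32 * K * α := by positivity
    linarith
  obtain ⟨b, hb, b1, b2⟩ := exists_b (γ := μ / 2) hα0 (by linarith) hK (by linarith)
  have hb' : (0 : ℝ) < b := by exact_mod_cast hb
  have hb1 : (1 : ℝ) ≤ b := by exact_mod_cast hb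
  obtain ⟨ℓ, hℓ⟩ : ∃ ℓ, ℓ = α * b := ⟨_, rfl⟩
  have hℓα : α ≤ ℓ := by rw [hℓ]; nlinarith
  have hℓ0 : 0 < ℓ := hα0.trans_le hℓα
  rw [← hℓ] at b1 b2
  have hdiv : ∀ x : ℕ, (x : ℝ) / b - 1 ≤ ((x / b : ℕ) : ℝ) ∧
      ((x / b : ℕ) : ℝ) ≤ (x : ℝ) / b := by
    intro x
    constructor
    · have h1 : x < (x / b + 1) * b := Nat.lt_mul_of_div_lt (Nat.lt_succ_self _) hb
      have h2 : (x : ℝ) ≤ ((x / b : ℕ) + 1) * b := by exact_mod_cast h1.le
      rw [sub_le_iff_le_add, div_le_iff₀ hb']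
      exact h2
    · exact Nat.cast_div_le
  have hdif : ∀ (D : ℝ) (x y : ℕ), |α * ((x : ℝ) - y)| ≤ D →
      |((x / b : ℕ) : ℝ) - (y / b : ℕ)| ≤ D / ℓ + 1 := by
    intro D x y hxy
    have a1 := hdiv x
    have a2 := hdiv y
    have h2 : |(x : ℝ) / b - (y : ℝ) / b| ≤ D / ℓ := by
      rw [← sub_div, abs_div, abs_of_pos hb', hℓ]
      rw [abs_mul, abs_of_pos hα0] at hxy
      rw [div_le_div_iff₀ hb' (by positivity)]
      calc |(x : ℝ) - y| * (α * b) = (α * |(x : ℝ) - y|) * b := by ring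
        _ ≤ D * b := mul_le_mul_of_nonneg_right hxy hb'.le
    rw [abs_le] at h2 ⊢
    constructor <;> linarith [a1.1, a1.2, a2.1, a2.2, h2.1, h2.2]
  have hval : ((A.image fun n => n o / b).card : ℝ) ≤ 1 / ℓ + 2 := by
    have := card_div (A := A) (j := o) hb (D := 1 / α) (by positivity)
      (fun n hn n' hn' => h.dif (hA hn) (hA hn') o)
    rw [hℓ]
    have e : 1 / α / b = 1 / (α * b) := by field_simp
    rwa [e] at this
  have hq : 1 / ℓ + 2 ≤ 68 * K / μ := by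
    have h1 : 1 / ℓ ≤ 64 * K / μ := by
      rw [div_le_div_iff₀ hℓ0 hμ0]; linarith
    have h2 : 2 ≤ 4 * K / μ := by
      rw [le_div_iff₀ hμ0]; linarith
    have e : 68 * K / μ = 64 * K / μ + 4 * K / μ := by ring
    linarith
  have hwin : ∀ a ∈ A, ∀ c ∈ A, a o / b = c o / b →
      |α * ((a k : ℝ) - c k)| ≤ 12 * K * μ / m ∧ |α * ((a l : ℝ) - c l)| ≤ 12 * K * μ / m := by
    intro a ha c hc hac
    have ho : |α * ((a o : ℝ) - c o)| ≤ ℓ := by rw [hℓ]; exact near_of_div hb hac hα0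
    have := h.win hM hε (hA hc) (hA ha) (μ := μ) (ℓ := ℓ) (R := 3 * μ) (hG' c hc) (hG' a ha) ho
      (by nlinarith)
    have e : 4 * K * (3 * μ) / m = 12 * K * μ / m := by ring
    rw [e] at this
    exact this
  obtain ⟨D, hD⟩ : ∃ D, D = 12 * K * μ / m := ⟨_, rfl⟩
  rw [← hD] at hwin
  have hD0 : 0 ≤ D := by rw [hD]; positivity
  have hD1 : D / ℓ + 1 + 1 ≤ 770 * K ^ 2 / m := by
    have h1 : D / ℓ ≤ 768 * K ^ 2 / m := by
      rw [hD, div_div, div_le_div_iff₀ (by positivity) hm]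
      have : 12 * K * μ * m ≤ 12 * K * (64 * K * ℓ) * m := by
        refine mul_le_mul_of_nonneg_right ?_ hm.le
        exact mul_le_mul_of_nonneg_left (by linarith) (by positivity)
      nlinarith
    have h2 : 2 ≤ 2 * K ^ 2 / m := by
      rw [le_div_iff₀ hm]; nlinarith
    have e : 770 * K ^ 2 / m = 768 * K ^ 2 / m + 2 * K ^ 2 / m := by ring
    linarith
  have hN : ((A.image fun n => fun j => n j / b).card : ℝ) ≤
      68 * K / μ * ((770 * K ^ 2 / m) * (770 * K ^ 2 / m)) := by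
    have := card_cells3 (A := A) (b := b) (k := k) (l := l) (o := o) hM.cov (X := 68 * K / μ)
      (D1 := D / ℓ + 1) (D2 := D / ℓ + 1) (hval.trans hq) (by positivity)
      (by positivity) (fun a ha c hc e => hdif D _ _ (hwin a ha c hc e).1)
      (fun a ha c hc e => hdif D _ _ (hwin a ha c hc e).2)
    refine this.trans ?_
    exact mul_le_mul_of_nonneg_left (mul_le_mul hD1 hD1 (by positivity) (by positivity))
      (by positivity)
  have hcell : ∀ c : Fin 3 → ℕ, ((A.filter fun n => (fun j => n j / b) = c).card : ℝ) ≤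
      20 * K * ℓ ^ 2 * β / (μ / 2 * α ^ 3) := by
    intro c
    refine h.toSa.cell hp h1i h2i ((filter_subset _ _).trans hA) (by linarith) (by linarith) hℓα
      (by linarith) hαβ ?_ ?_ ?_
    · intro n hn n' hn' j
      rw [hℓ]
      refine near_of_div hb ?_ hα0
      have e1 := congrFun (mem_filter.1 hn).2 j
      have e2 := congrFun (mem_filter.1 hn').2 j
      exact e2.trans e1.symm
    · intro n hn; exact hG n (mem_filter.1 hn).1
    · intro n hn; exact hF n (mem_filter.1 hn).1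
  refine (card_cells (by positivity) hN hcell).trans ?_
  have hl2 : ℓ ^ 2 ≤ (μ / (32 * K)) ^ 2 := by
    have : ℓ ≤ μ / (32 * K) := by rw [le_div_iff₀ (by positivity)]; linarith
    exact pow_le_pow_left₀ hℓ0.le this 2
  calc 68 * K / μ * ((770 * K ^ 2 / m) * (770 * K ^ 2 / m)) *
        (20 * K * ℓ ^ 2 * β / (μ / 2 * α ^ 3)) =
      68 * 770 ^ 2 * 40 * K ^ 6 * β / (m ^ 2 * μ ^ 2 * α ^ 3) * ℓ ^ 2 := by field_simp; ring
    _ ≤ 68 * 770 ^ 2 * 40 * K ^ 6 * β / (m ^ 2 * μ ^ 2 * α ^ 3) * (μ / (32 * K)) ^ 2 :=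
        mul_le_mul_of_nonneg_left hl2 (by positivity)
    _ = 68 * 770 ^ 2 * 40 / 1024 * (K ^ 4 * β / (m ^ 2 * α ^ 3)) := by field_simp; ring
    _ ≤ 3 * 10 ^ 6 * (K ^ 4 * β / (m ^ 2 * α ^ 3)) :=
        mul_le_mul_of_nonneg_right (by norm_num) (by positivity)
    _ = 3 * 10 ^ 6 * K ^ 4 * β / (m ^ 2 * α ^ 3) := by ring

end

end Crest.Agent.R136.Sbl57
end

-- ▼ part R136/Sbl2_57
section

/-!
# R136 (helper57): sublevel sets, totals

* `Sb.total` : (nearly) constant Hessian with a large `2 × 2` minor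
* `Sc`, `Sc.total0`, `Sc.total` : variable Hessian, points of large gradient or with a large minor
-/

set_option autoImplicit false

open Finset

namespace Crest.Agent.R136.Sbl57

section

variable {S : Finset (Fin 3 → ℕ)} {α K ε : ℝ} {F : (Fin 3 → ℕ) → ℝ}
  {G : Fin 3 → (Fin 3 → ℕ) → ℝ} {m : ℝ}

theorem dir3 : ∀ r j : Fin 3, j = r + 1 ∨ j = r + 2 ∨ j = r := by decide

theorem dir3' : ∀ r : Fin 3, r + 1 ≠ r ∧ r + 2 ≠ r := by decide

theorem exists_o : ∀ k l : Fin 3, k ≠ l → ∃ o : Fin 3, o ≠ k ∧ o ≠ l ∧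
    ∀ s, s = k ∨ s = l ∨ s = o := by decide

theorem perm_of {k l o : Fin 3} (h : k ≠ l) (h1 : o ≠ k) (h2 : o ≠ l) (f : Fin 3 → ℝ) :
    ∑ s, f s = f k + f l + f o := by
  rw [Fin.sum_univ_three]
  fin_cases k <;> fin_cases l <;> fin_cases o <;>
    first
      | exact absurd rfl h
      | exact absurd rfl h1
      | exact absurd rfl h2
      | (simp only [Fin.zero_eta, Fin.mk_one, Fin.reduceFinMk]; done)
      | (simp only [Fin.zero_eta, Fin.mk_one, Fin.reduceFinMk]; ring)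

/-- the trivial bound -/
theorem Sa.triv (h : Sa S α K F G) {A : Finset (Fin 3 → ℕ)} (hA : A ⊆ S) :
    (A.card : ℝ) ≤ 8 / α ^ 3 := by
  have hα := h.α0
  have hα1 := h.α1
  have h0 : (1 : ℝ) ≤ 1 / α := by rw [le_div_iff₀ hα]; linarith
  have hc := card3 (A := A) (dir3 0) (X := 1 / α + 1) (D1 := 1 / α) (D2 := 1 / α)
    (h.vals hA 0) (by positivity) (by positivity)
    (fun a ha b hb _ => h.dif (hA ha) (hA hb) _) (fun a ha b hb _ => h.dif (hA ha) (hA hb) _)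
  refine hc.trans ?_
  have e1 : 1 / α + 1 ≤ 2 * (1 / α) := by linarith
  calc (1 / α + 1) * ((1 / α + 1) * (1 / α + 1)) ≤
      (2 * (1 / α)) * ((2 * (1 / α)) * (2 * (1 / α))) :=
        mul_le_mul e1 (mul_le_mul e1 e1 (by positivity) (by positivity)) (by positivity)
          (by positivity)
    _ = 8 / α ^ 3 := by field_simp; ring

variable {H : Fin 3 → Fin 3 → ℝ} {i j k l o : Fin 3}

/-- **total, nearly constant Hessian** -/
theorem Sb.total (h : Sb S α K ε F G H) (hM : Mn H m i j k l o) (hε : 4 * K * ε ≤ m)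
    {A : Finset (Fin 3 → ℕ)} (hA : A ⊆ S) {β : ℝ} (hαβ : α ≤ β) (hβ : β ≤ 1)
    (hα : 1024 * K ^ 2 * α ≤ 1) {N : ℕ} (hN : 2 * K ≤ 2 ^ N * √β)
    (hF : ∀ n ∈ A, |F n| ≤ β) :
    (A.card : ℝ) ≤ 10 ^ 7 * N * K ^ 4 * β / (m ^ 2 * α ^ 3) := by
  classical
  have hα0 := h.α0
  have hK := h.K1
  have hm := hM.m0
  have hβ0 : 0 < β := hα0.trans_le hαβ
  obtain ⟨x, hx⟩ : ∃ x, x = √β := ⟨_, rfl⟩
  have hx0 : 0 < x := by rw [hx]; exact Real.sqrt_pos.2 hβ0
  have hxx : x ^ 2 = β := by rw [hx]; exact Real.sq_sqrt hβ0.le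
  have hx1 : x ≤ 1 := by
    rw [hx]; exact Real.sqrt_le_one.2 hβ
  rw [← hx] at hN
  have hαx : 32 * K * α ≤ x := by
    have h1 : (32 * K * α) ^ 2 ≤ x ^ 2 := by
      rw [hxx]
      calc (32 * K * α) ^ 2 = 1024 * K ^ 2 * α * α := by ring
        _ ≤ 1 * α := mul_le_mul_of_nonneg_right hα hα0.le
        _ ≤ β := by linarith
    exact le_of_sq_le_sq h1 hx0.le
  have hN1 : 1 ≤ N := by
    rcases Nat.eq_zero_or_pos N with h0 | h0
    · rw [h0, pow_zero, one_mul] at hN; linarith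
    · exact h0
  obtain ⟨X, hX⟩ : ∃ X, X = K ^ 4 * β / (m ^ 2 * α ^ 3) := ⟨_, rfl⟩
  have hX0 : 0 ≤ X := by rw [hX]; positivity
  set A0 := A.filter fun n => ∀ s, |G s n| ≤ x with hA0
  set Ak : ℕ → Fin 3 → Finset (Fin 3 → ℕ) := fun k r =>
    A.filter fun n => (∀ s, |G s n| ≤ 2 ^ k * x) ∧ 2 ^ k * x / 2 ≤ |G r n| with hAk
  have c0 : (A0.card : ℝ) ≤ 338 * X := by
    have := h.low hM hε ((filter_subset _ _).trans hA) (A := A0) (μ := x)
      (by nlinarith) (fun n hn => (mem_filter.1 hn).2)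
    rw [hxx] at this
    refine this.trans (le_of_eq ?_)
    rw [hX]; ring
  have ck : ∀ k ∈ Finset.Icc 1 N, ∀ r : Fin 3, ((Ak k r).card : ℝ) ≤ 3 * 10 ^ 6 * X := by
    intro k hk r
    rcases (Ak k r).eq_empty_or_nonempty with he | ⟨n, hn⟩
    · rw [he, card_empty, Nat.cast_zero]; positivity
    · have h1 := (mem_filter.1 hn).2
      have h2 := h.gb n (hA (mem_filter.1 hn).1) r
      have h3 : (1 : ℝ) ≤ 2 ^ k := one_le_pow₀ (by norm_num)
      have := h.level hM hε (dir3 r) (dir3' r).1 (dir3' r).2 ((filter_subset _ _).trans hA)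
        (A := Ak k r) (μ := 2 ^ k * x) (β := β) (by nlinarith) (by linarith [h1.2]) hαβ
        (fun n hn => (mem_filter.1 hn).2.2) (fun n hn => (mem_filter.1 hn).2.1)
        (fun n hn => hF n (mem_filter.1 hn).1)
      refine this.trans (le_of_eq ?_)
      rw [hX]; ring
  have hcov : A ⊆ A0 ∪ (Finset.Icc 1 N).biUnion fun k => (univ : Finset (Fin 3)).biUnion (Ak k) := by
    intro n hn
    have hex : ∃ k : ℕ, ∀ s, |G s n| ≤ 2 ^ k * x := by
      refine ⟨N, fun s => ?_⟩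
      have := h.gb n (hA hn) s
      linarith
    by_cases h0 : Nat.find hex = 0
    · refine mem_union_left _ (mem_filter.2 ⟨hn, fun s => ?_⟩)
      have := Nat.find_spec hex s
      rwa [h0, pow_zero, one_mul] at this
    · have h1 : 1 ≤ Nat.find hex := Nat.one_le_iff_ne_zero.2 h0
      have h2 : Nat.find hex ≤ N := Nat.find_min' hex fun s => by
        have := h.gb n (hA hn) s
        linarith
      have h3 := Nat.find_min hex (m := Nat.find hex - 1) (by omega)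
      simp only [not_forall, not_le] at h3
      obtain ⟨r, hr⟩ := h3
      refine mem_union_right _ (mem_biUnion.2 ⟨Nat.find hex, mem_Icc.2 ⟨h1, h2⟩,
        mem_biUnion.2 ⟨r, mem_univ _, mem_filter.2 ⟨hn, Nat.find_spec hex, ?_⟩⟩⟩)
      have e : (2 : ℝ) ^ (Nat.find hex) = 2 * 2 ^ (Nat.find hex - 1) := by
        rw [← pow_succ']; congr 1; omega
      rw [e]
      linarith
  have hcard : A.card ≤ A0.card + ∑ k ∈ Finset.Icc 1 N, ∑ r : Fin 3, (Ak k r).card := by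
    refine (card_le_card hcov).trans ((card_union_le _ _).trans (Nat.add_le_add_left ?_ _))
    refine card_biUnion_le.trans (sum_le_sum fun k _ => card_biUnion_le)
  have hcard' : (A.card : ℝ) ≤ A0.card + ∑ k ∈ Finset.Icc 1 N, ∑ r : Fin 3, ((Ak k r).card : ℝ) := by
    exact_mod_cast hcard
  have hs : ∑ k ∈ Finset.Icc 1 N, ∑ r : Fin 3, ((Ak k r).card : ℝ) ≤ N * (3 * (3 * 10 ^ 6 * X)) := by
    calc ∑ k ∈ Finset.Icc 1 N, ∑ r : Fin 3, ((Ak k r).card : ℝ) ≤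
        ∑ k ∈ Finset.Icc 1 N, 3 * (3 * 10 ^ 6 * X) := by
          refine sum_le_sum fun k hk => ?_
          calc ∑ r : Fin 3, ((Ak k r).card : ℝ) ≤ ∑ r : Fin 3, 3 * 10 ^ 6 * X :=
                sum_le_sum fun r _ => ck k hk r
            _ = 3 * (3 * 10 ^ 6 * X) := by simp
      _ = N * (3 * (3 * 10 ^ 6 * X)) := by
          rw [sum_const, Nat.card_Icc, nsmul_eq_mul]
          congr 2
  have hNr : (1 : ℝ) ≤ N := by exact_mod_cast hN1
  have : (A.card : ℝ) ≤ 10 ^ 7 * N * X := by nlinarith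
  refine this.trans (le_of_eq ?_)
  rw [hX]; ring

/-! ### variable Hessian -/

/-- second order data with a variable Hessian -/
structure Sc (S : Finset (Fin 3 → ℕ)) (α K : ℝ) (F : (Fin 3 → ℕ) → ℝ)
    (G : Fin 3 → (Fin 3 → ℕ) → ℝ) (Q : (Fin 3 → ℕ) → Fin 3 → Fin 3 → ℝ) : Prop
    extends Sa S α K F G where
  hb : ∀ n ∈ S, ∀ i j, |Q n i j| ≤ K
  t2 : ∀ n ∈ S, ∀ n' ∈ S, ∀ i, ∀ r : ℝ, (∀ j, |α * ((n' j : ℝ) - n j)| ≤ r) →
    |G i n' - G i n - ∑ j, Q n i j * (α * ((n' j : ℝ) - n j))| ≤ K * (r ^ 2 + α)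
  t3 : ∀ n ∈ S, ∀ n' ∈ S, ∀ r : ℝ, (∀ j, |α * ((n' j : ℝ) - n j)| ≤ r) →
    ∀ i j, |Q n' i j - Q n i j| ≤ K * (r + α)

variable {Q : (Fin 3 → ℕ) → Fin 3 → Fin 3 → ℝ}

/-- freezing the Hessian in a small cube -/
theorem Sc.freeze (h : Sc S α K F G Q) {s : ℝ} (hs : α ≤ s) (hs1 : 7 * s ≤ 1)
    {T : Finset (Fin 3 → ℕ)} (hT : T ⊆ S)
    (hd : ∀ n ∈ T, ∀ n' ∈ T, ∀ j, |α * ((n' j : ℝ) - n j)| ≤ s) {n0 : Fin 3 → ℕ}
    (hn0 : n0 ∈ T) : Sb T α K (7 * K * s) F G (Q n0) where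
  α0 := h.α0
  α1 := h.α1
  K1 := h.K1
  box n hn := h.box n (hT hn)
  gb n hn := h.gb n (hT hn)
  t1 n hn n' hn' := h.t1 n (hT hn) n' (hT hn')
  ε0 := by
    have h1 : 0 < s := h.α0.trans_le hs
    have h2 := h.K1
    positivity
  εK := by nlinarith [h.K1]
  hb := h.hb n0 (hT hn0)
  t2 := by
    intro n hn n' hn' i r hr
    have hα0 := h.α0
    have hK := h.K1
    have hs0 : 0 < s := hα0.trans_le hs
    set r' := min r s with hr'
    have hr1 : ∀ j, |α * ((n' j : ℝ) - n j)| ≤ r' := fun j => le_min (hr j) (hd n hn n' hn' j)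
    have hr0 : 0 ≤ r' := (abs_nonneg _).trans (hr1 0)
    have h1 : r' ≤ r := min_le_left _ _
    have h2 : r' ≤ s := min_le_right _ _
    have t := h.t2 n (hT hn) n' (hT hn') i r' hr1
    have t3 := h.t3 n0 (hT hn0) n (hT hn) s (hd n0 hn0 n hn)
    have e : G i n' - G i n - ∑ j, Q n0 i j * (α * ((n' j : ℝ) - n j)) =
        (G i n' - G i n - ∑ j, Q n i j * (α * ((n' j : ℝ) - n j))) +
        ∑ j, (Q n i j - Q n0 i j) * (α * ((n' j : ℝ) - n j)) := by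
      have : ∑ j, (Q n i j - Q n0 i j) * (α * ((n' j : ℝ) - n j)) =
          ∑ j, Q n i j * (α * ((n' j : ℝ) - n j)) - ∑ j, Q n0 i j * (α * ((n' j : ℝ) - n j)) := by
        rw [← sum_sub_distrib]
        exact sum_congr rfl fun j _ => by ring
      rw [this]; ring
    rw [e]
    have h3 : |∑ j, (Q n i j - Q n0 i j) * (α * ((n' j : ℝ) - n j))| ≤
        3 * (K * (s + α) * r') := by
      calc |∑ j, (Q n i j - Q n0 i j) * (α * ((n' j : ℝ) - n j))| ≤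
          ∑ j, |(Q n i j - Q n0 i j) * (α * ((n' j : ℝ) - n j))| := abs_sum_le_sum_abs _ _
        _ ≤ ∑ _j : Fin 3, K * (s + α) * r' := by
            refine sum_le_sum fun j _ => ?_
            rw [abs_mul]
            exact mul_le_mul (t3 i j) (hr1 j) (abs_nonneg _) (by positivity)
        _ = 3 * (K * (s + α) * r') := by simp
    refine (abs_add_le _ _).trans ((add_le_add t h3).trans ?_)
    have h4 : K * (s + α) * r' ≤ K * (2 * s) * r := by
      refine mul_le_mul (mul_le_mul_of_nonneg_left (by linarith) (by linarith)) h1 hr0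
        (by positivity)
    have h5 : r' ^ 2 ≤ s * r := by
      rw [sq]; exact mul_le_mul h2 h1 hr0 hs0.le
    have h6 : K * r' ^ 2 ≤ K * (s * r) := mul_le_mul_of_nonneg_left h5 (by linarith)
    nlinarith

/-- **points with a given large minor, variable Hessian** -/
theorem Sc.minor (h : Sc S α K F G Q) {A : Finset (Fin 3 → ℕ)} (hA : A ⊆ S) (hm : 0 < m)
    (hm1 : m ≤ 1) {k l : Fin 3} (hkl : k ≠ l) (i j : Fin 3)
    (hQ : ∀ n ∈ A, m ≤ |Q n i k * Q n j l - Q n i l * Q n j k|) {β : ℝ} (hαβ : α ≤ β)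
    (hβ : β ≤ 1) (hα : 1024 * K ^ 2 * α ≤ 1) (hα' : 28 * K ^ 2 * α ≤ m) {N : ℕ}
    (hN : 2 * K ≤ 2 ^ N * √β) (hF : ∀ n ∈ A, |F n| ≤ β) :
    (A.card : ℝ) ≤ 2 * 10 ^ 13 * N * K ^ 10 * β / (m ^ 5 * α ^ 3) := by
  classical
  have hα0 := h.α0
  have hK := h.K1
  have hβ0 : 0 < β := hα0.trans_le hαβ
  obtain ⟨o, o1, o2, ho⟩ := exists_o k l hkl
  obtain ⟨s0, hs0⟩ : ∃ s0, s0 = m / (28 * K ^ 2) := ⟨_, rfl⟩
  have hs0p : 0 < s0 := by rw [hs0]; positivity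
  have hαs0 : α ≤ s0 := by rw [hs0, le_div_iff₀ (by positivity)]; linarith
  have hs01 : s0 ≤ 1 / 28 := by
    rw [hs0]
    refine div_le_div₀ (by norm_num) hm1 (by norm_num) ?_
    nlinarith
  -- the side of the cubes
  obtain ⟨b, hb⟩ : ∃ b, b = ⌊s0 / α⌋₊ := ⟨_, rfl⟩
  have hb1 : 1 ≤ b := by
    rw [hb]; exact Nat.le_floor (by rw [Nat.cast_one, le_div_iff₀ hα0]; linarith)
  have hbp : 0 < b := hb1
  have hb' : (0 : ℝ) < b := by exact_mod_cast hbp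
  have hb2 : α * b ≤ s0 := by
    have : (b : ℝ) ≤ s0 / α := by rw [hb]; exact Nat.floor_le (by positivity)
    rw [le_div_iff₀ hα0] at this
    linarith
  have hb3 : s0 ≤ 2 * (α * b) := by
    have h1 : s0 / α < b + 1 := by rw [hb]; exact Nat.lt_floor_add_one _
    have h2 : (1 : ℝ) ≤ b := by exact_mod_cast hb1
    rw [div_lt_iff₀ hα0] at h1
    nlinarith
  have hαb : α ≤ α * b := by
    have h2 : (1 : ℝ) ≤ b := by exact_mod_cast hb1
    nlinarith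
  obtain ⟨X, hX⟩ : ∃ X, X = 10 ^ 7 * N * K ^ 4 * β / (m ^ 2 * α ^ 3) := ⟨_, rfl⟩
  have hX0 : 0 ≤ X := by rw [hX]; positivity
  -- one cube
  have hcell : ∀ c : Fin 3 → ℕ, ((A.filter fun n => (fun j => n j / b) = c).card : ℝ) ≤ X := by
    intro c
    rcases (A.filter fun n => (fun j => n j / b) = c).eq_empty_or_nonempty with he | ⟨n0, hn0⟩
    · rw [he, card_empty, Nat.cast_zero]; exact hX0
    · set T := A.filter fun n => (fun j => n j / b) = c with hT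
      have hd : ∀ n ∈ T, ∀ n' ∈ T, ∀ j, |α * ((n' j : ℝ) - n j)| ≤ α * b := by
        intro n hn n' hn' j
        have e1 := congrFun (mem_filter.1 hn).2 j
        have e2 := congrFun (mem_filter.1 hn').2 j
        exact near_of_div hbp (e2.trans e1.symm) hα0
      have hz := h.freeze hαb (by linarith) ((filter_subset _ _).trans hA) hd hn0
      have hM : Mn (Q n0) m i j k l o := ⟨hm, hm1, perm_of hkl o1 o2, ho,
        hQ n0 (mem_filter.1 hn0).1⟩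
      have hε : 4 * K * (7 * K * (α * b)) ≤ m := by
        have h1 : α * b ≤ m / (28 * K ^ 2) := by rw [← hs0]; exact hb2
        rw [le_div_iff₀ (by positivity)] at h1
        linarith
      have := hz.total hM hε (Subset.refl T) hαβ hβ hα hN
        (fun n hn => hF n (mem_filter.1 hn).1)
      rw [hX]; exact this
  -- number of cubes
  have hval : ∀ q : Fin 3, ((A.image fun n => n q / b).card : ℝ) ≤ 3 / s0 := by
    intro q
    have := card_div (A := A) (j := q) hbp (D := 1 / α) (by positivity)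
      (fun n hn n' hn' => h.dif (hA hn) (hA hn') q)
    have e : 1 / α / b = 1 / (α * b) := by field_simp
    rw [e] at this
    have h1 : 1 / (α * b) ≤ 2 / s0 := by
      rw [div_le_div_iff₀ (by positivity) hs0p]; linarith
    have h2 : 2 ≤ 1 / s0 := by rw [le_div_iff₀ hs0p]; linarith
    have e3 : 3 / s0 = 2 / s0 + 1 / s0 := by ring
    linarith
  have hval' : ∀ q : Fin 3, ∀ a ∈ A, ∀ c ∈ A, |((a q / b : ℕ) : ℝ) - (c q / b : ℕ)| ≤ 3 / s0 := by
    intro q a ha c hc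
    have hdiv : ∀ x : ℕ, (x : ℝ) / b - 1 ≤ ((x / b : ℕ) : ℝ) ∧
        ((x / b : ℕ) : ℝ) ≤ (x : ℝ) / b := by
      intro x
      constructor
      · have h1 : x < (x / b + 1) * b := Nat.lt_mul_of_div_lt (Nat.lt_succ_self _) hbp
        have h2 : (x : ℝ) ≤ ((x / b : ℕ) + 1) * b := by exact_mod_cast h1.le
        rw [sub_le_iff_le_add, div_le_iff₀ hb']
        exact h2
      · exact Nat.cast_div_le
    have a1 := hdiv (a q)
    have a2 := hdiv (c q)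
    have h2 : |(a q : ℝ) / b - (c q : ℝ) / b| ≤ 1 / (α * b) := by
      rw [← sub_div, abs_div, abs_of_pos hb', ← div_div]
      exact div_le_div_of_nonneg_right (h.dif (hA ha) (hA hc) q) hb'.le
    have h1 : 1 / (α * b) ≤ 2 / s0 := by
      rw [div_le_div_iff₀ (by positivity) hs0p]; linarith
    have h3 : 2 ≤ 1 / s0 := by rw [le_div_iff₀ hs0p]; linarith
    have e3 : 3 / s0 = 2 / s0 + 1 / s0 := by ring
    rw [abs_le] at h2 ⊢
    constructor <;> linarith [a1.1, a1.2, a2.1, a2.2, h2.1, h2.2]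
  have hNc : ((A.image fun n => fun j => n j / b).card : ℝ) ≤ 64 / s0 ^ 3 := by
    have := card_cells3 (A := A) (b := b) (k := 0 + 1) (l := 0 + 2) (o := 0) (dir3 0)
      (X := 3 / s0) (D1 := 3 / s0) (D2 := 3 / s0) (hval 0) (by positivity)
      (by positivity) (fun a ha c hc _ => hval' _ a ha c hc) (fun a ha c hc _ => hval' _ a ha c hc)
    refine this.trans ?_
    have h3 : 1 ≤ 1 / s0 := by rw [le_div_iff₀ hs0p]; linarith
    have e1 : 3 / s0 ≤ 4 / s0 := div_le_div_of_nonneg_right (by norm_num) hs0p.le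
    have e2 : 3 / s0 + 1 ≤ 4 / s0 := by
      have e3 : 4 / s0 = 3 / s0 + 1 / s0 := by ring
      linarith
    calc 3 / s0 * ((3 / s0 + 1) * (3 / s0 + 1)) ≤ 4 / s0 * ((4 / s0) * (4 / s0)) :=
          mul_le_mul e1 (mul_le_mul e2 e2 (by positivity) (by positivity)) (by positivity)
            (by positivity)
      _ = 64 / s0 ^ 3 := by field_simp; ring
  refine (card_cells hX0 hNc hcell).trans ?_
  rw [hX, hs0]
  have e : 64 / (m / (28 * K ^ 2)) ^ 3 * (10 ^ 7 * N * K ^ 4 * β / (m ^ 2 * α ^ 3)) =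
      (64 * 28 ^ 3 * 10 ^ 7) * (N * K ^ 10 * β / (m ^ 5 * α ^ 3)) := by
    field_simp
  rw [e]
  calc (64 * 28 ^ 3 * 10 ^ 7 : ℝ) * (N * K ^ 10 * β / (m ^ 5 * α ^ 3)) ≤
      (2 * 10 ^ 13) * (N * K ^ 10 * β / (m ^ 5 * α ^ 3)) :=
        mul_le_mul_of_nonneg_right (by norm_num) (by positivity)
    _ = 2 * 10 ^ 13 * N * K ^ 10 * β / (m ^ 5 * α ^ 3) := by ring

/-- points with a given large minor, unconditional -/
theorem Sc.minor' (h : Sc S α K F G Q) {A : Finset (Fin 3 → ℕ)} (hA : A ⊆ S) (hm : 0 < m)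
    (hm1 : m ≤ 1) (i k j l : Fin 3)
    (hQ : ∀ n ∈ A, m ≤ |Q n i k * Q n j l - Q n i l * Q n j k|) {β : ℝ} (hαβ : α ≤ β)
    {N : ℕ} (hN1 : 1 ≤ N) (hN : 2 * K ≤ 2 ^ N * √β) (hF : ∀ n ∈ A, |F n| ≤ β) :
    (A.card : ℝ) ≤ 2 * 10 ^ 13 * N * K ^ 10 * β / (m ^ 5 * α ^ 3) := by
  have hα0 := h.α0
  have hK := h.K1
  have hβ0 : 0 < β := hα0.trans_le hαβ
  have hNr : (1 : ℝ) ≤ N := by exact_mod_cast hN1
  have hK10 : (1 : ℝ) ≤ K ^ 8 := one_le_pow₀ hK
  have hK2 : (1 : ℝ) ≤ K ^ 2 := one_le_pow₀ hK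
  have hm4 : m ^ 4 ≤ 1 := pow_le_one₀ hm.le hm1
  rcases A.eq_empty_or_nonempty with he | ⟨n1, hn1⟩
  · rw [he, card_empty, Nat.cast_zero]; positivity
  have hkl : k ≠ l := by
    intro e
    have := hQ n1 hn1
    rw [e, sub_self, abs_zero] at this
    linarith
  have htriv : m ≤ 28 * 1024 * K ^ 2 * β →
      (A.card : ℝ) ≤ 2 * 10 ^ 13 * N * K ^ 10 * β / (m ^ 5 * α ^ 3) := by
    intro hb
    refine (h.toSa.triv hA).trans ?_
    rw [div_le_div_iff₀ (by positivity) (by positivity)]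
    have h1 : m ^ 5 ≤ 28 * 1024 * K ^ 2 * β := by
      calc m ^ 5 = m ^ 4 * m := by ring
        _ ≤ 1 * m := mul_le_mul_of_nonneg_right hm4 hm.le
        _ ≤ _ := by linarith
    have h2 : K ^ 2 * β ≤ N * K ^ 10 * β := by
      refine mul_le_mul_of_nonneg_right ?_ hβ0.le
      calc K ^ 2 = 1 * (1 * K ^ 2) := by ring
        _ ≤ N * (K ^ 8 * K ^ 2) := mul_le_mul hNr
            (mul_le_mul_of_nonneg_right hK10 (by positivity)) (by positivity) (by positivity)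
        _ = N * K ^ 10 := by ring
    have h3 : 8 * m ^ 5 ≤ 2 * 10 ^ 13 * N * K ^ 10 * β := by linarith
    have h4 : 0 ≤ α ^ 3 := by positivity
    nlinarith
  by_cases hβ : β ≤ 1
  swap
  · refine htriv ?_
    nlinarith
  by_cases hα : 1024 * K ^ 2 * α ≤ 1
  swap
  · refine htriv ?_
    have h1 : 1024 * K ^ 2 * α ≤ 1024 * K ^ 2 * β :=
      mul_le_mul_of_nonneg_left hαβ (by positivity)
    linarith
  by_cases hα' : 28 * K ^ 2 * α ≤ m
  swap
  · refine htriv ?_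
    have h1 : 28 * K ^ 2 * α ≤ 28 * K ^ 2 * β :=
      mul_le_mul_of_nonneg_left hαβ (by positivity)
    have h2 : 0 ≤ K ^ 2 * β := by positivity
    linarith
  exact h.minor hA hm hm1 hkl i j hQ hαβ hβ hα hα' hN hF

/-- points with a given large derivative, unconditional -/
theorem Sa.grad' (h : Sa S α K F G) {A : Finset (Fin 3 → ℕ)} (hA : A ⊆ S) (i : Fin 3)
    {β γ : ℝ} (hγ : 0 < γ) (hαβ : α ≤ β) (hG : ∀ n ∈ A, γ ≤ |G i n|)
    (hF : ∀ n ∈ A, |F n| ≤ β) :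
    (A.card : ℝ) ≤ 90000 * K ^ 2 * β / (γ ^ 2 * α ^ 3) := by
  have hα0 := h.α0
  have hK := h.K1
  have hβ0 : 0 < β := hα0.trans_le hαβ
  rcases A.eq_empty_or_nonempty with he | ⟨n1, hn1⟩
  · rw [he, card_empty, Nat.cast_zero]; positivity
  have hγK : γ ≤ K := (hG n1 hn1).trans (h.gb n1 (hA hn1) i)
  by_cases h1 : 16 * K * α ≤ γ
  · exact h.grad (dir3 i) (dir3' i).1 (dir3' i).2 hA h1 hγK hαβ hG hF
  · refine (h.triv hA).trans ?_
    rw [div_le_div_iff₀ (by positivity) (by positivity)]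
    have h2 : γ ^ 2 ≤ 16 * K * β * K := by
      rw [sq]
      refine mul_le_mul ?_ hγK hγ.le (by positivity)
      have : 16 * K * α ≤ 16 * K * β := mul_le_mul_of_nonneg_left hαβ (by positivity)
      linarith
    have h4 : 0 ≤ α ^ 3 := by positivity
    have h5 : 0 ≤ K ^ 2 * β := by positivity
    have h6 : 8 * γ ^ 2 ≤ 90000 * K ^ 2 * β := by nlinarith
    nlinarith

/-- **V3: the volume lemma.**  `α = 1 / H`; points where `|F| ≤ β` and either the gradient is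
`≥ γ` or some `2 × 2` minor of the Hessian is `≥ m`. -/
theorem Sc.total (h : Sc S α K F G Q) {A : Finset (Fin 3 → ℕ)} (hA : A ⊆ S) {β γ m : ℝ}
    (hγ : 0 < γ) (hm : 0 < m) (hm1 : m ≤ 1) (hαβ : α ≤ β) {N : ℕ} (hN1 : 1 ≤ N)
    (hN : 2 * K ≤ 2 ^ N * √β) (hF : ∀ n ∈ A, |F n| ≤ β)
    (hnd : ∀ n ∈ A, (∃ i, γ ≤ |G i n|) ∨
      ∃ i j k l, m ≤ |Q n i j * Q n k l - Q n i l * Q n k j|) :
    (A.card : ℝ) ≤ 10 ^ 16 * N * K ^ 10 * (1 / γ ^ 2 + 1 / m ^ 5) * β / α ^ 3 := by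
  classical
  have hα0 := h.α0
  have hK := h.K1
  have hβ0 : 0 < β := hα0.trans_le hαβ
  have hNr : (1 : ℝ) ≤ N := by exact_mod_cast hN1
  set Ag : Fin 3 → Finset (Fin 3 → ℕ) := fun i => A.filter fun n => γ ≤ |G i n| with hAg
  set Am : (Fin 3 × Fin 3) × (Fin 3 × Fin 3) → Finset (Fin 3 → ℕ) := fun p =>
    A.filter fun n => m ≤ |Q n p.1.1 p.1.2 * Q n p.2.1 p.2.2 - Q n p.1.1 p.2.2 * Q n p.2.1 p.1.2|
    with hAm
  have c1 : ∀ i, ((Ag i).card : ℝ) ≤ 90000 * K ^ 2 * β / (γ ^ 2 * α ^ 3) := fun i =>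
    h.toSa.grad' ((filter_subset _ _).trans hA) i hγ hαβ (fun n hn => (mem_filter.1 hn).2)
      (fun n hn => hF n (mem_filter.1 hn).1)
  have c2 : ∀ p, ((Am p).card : ℝ) ≤ 2 * 10 ^ 13 * N * K ^ 10 * β / (m ^ 5 * α ^ 3) := fun p =>
    h.minor' ((filter_subset _ _).trans hA) hm hm1 p.1.1 p.1.2 p.2.1 p.2.2
      (fun n hn => (mem_filter.1 hn).2) hαβ hN1 hN (fun n hn => hF n (mem_filter.1 hn).1)
  have hcov : A ⊆ (univ : Finset (Fin 3)).biUnion Ag ∪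
      (univ : Finset ((Fin 3 × Fin 3) × (Fin 3 × Fin 3))).biUnion Am := by
    intro n hn
    rcases hnd n hn with ⟨i, hi⟩ | ⟨i, j, k, l, hi⟩
    · exact mem_union_left _ (mem_biUnion.2 ⟨i, mem_univ _, mem_filter.2 ⟨hn, hi⟩⟩)
    · exact mem_union_right _ (mem_biUnion.2 ⟨((i, j), (k, l)), mem_univ _,
        mem_filter.2 ⟨hn, hi⟩⟩)
  have hcard : A.card ≤ ∑ i, (Ag i).card + ∑ p, (Am p).card :=
    (card_le_card hcov).trans ((card_union_le _ _).trans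
      (Nat.add_le_add card_biUnion_le card_biUnion_le))
  have hcard' : (A.card : ℝ) ≤ ∑ i, ((Ag i).card : ℝ) + ∑ p, ((Am p).card : ℝ) := by
    exact_mod_cast hcard
  have s1 : ∑ i, ((Ag i).card : ℝ) ≤ 3 * (90000 * K ^ 2 * β / (γ ^ 2 * α ^ 3)) := by
    refine (sum_le_sum fun i _ => c1 i).trans (le_of_eq ?_)
    rw [sum_const, card_univ, Fintype.card_fin, nsmul_eq_mul]
    norm_num
  have s2 : ∑ p, ((Am p).card : ℝ) ≤
      81 * (2 * 10 ^ 13 * N * K ^ 10 * β / (m ^ 5 * α ^ 3)) := by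
    refine (sum_le_sum fun i _ => c2 i).trans (le_of_eq ?_)
    rw [sum_const, card_univ, Fintype.card_prod, Fintype.card_prod, Fintype.card_fin,
      nsmul_eq_mul]
    norm_num
  obtain ⟨u, hu⟩ : ∃ u, u = β / α ^ 3 := ⟨_, rfl⟩
  have hu0 : 0 ≤ u := by rw [hu]; positivity
  have e1 : 90000 * K ^ 2 * β / (γ ^ 2 * α ^ 3) = 90000 * (K ^ 2 * (1 / γ ^ 2) * u) := by
    rw [hu]; field_simp
  have e2 : 2 * 10 ^ 13 * N * K ^ 10 * β / (m ^ 5 * α ^ 3) =
      2 * 10 ^ 13 * (N * K ^ 10 * (1 / m ^ 5) * u) := by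
    rw [hu]; field_simp
  have e3 : 10 ^ 16 * N * K ^ 10 * (1 / γ ^ 2 + 1 / m ^ 5) * β / α ^ 3 =
      10 ^ 16 * (N * K ^ 10 * (1 / γ ^ 2) * u) + 10 ^ 16 * (N * K ^ 10 * (1 / m ^ 5) * u) := by
    rw [hu]; ring
  have h1 : K ^ 2 * (1 / γ ^ 2) * u ≤ N * K ^ 10 * (1 / γ ^ 2) * u := by
    refine mul_le_mul_of_nonneg_right (mul_le_mul_of_nonneg_right ?_ (by positivity)) hu0
    calc K ^ 2 = 1 * (1 * K ^ 2) := by ring
      _ ≤ N * (K ^ 8 * K ^ 2) := mul_le_mul hNr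
          (mul_le_mul_of_nonneg_right (one_le_pow₀ hK) (by positivity)) (by positivity)
            (by positivity)
      _ = N * K ^ 10 := by ring
  have h2 : 0 ≤ N * K ^ 10 * (1 / γ ^ 2) * u := by positivity
  have h3 : 0 ≤ N * K ^ 10 * (1 / m ^ 5) * u := by positivity
  rw [e1] at s1
  rw [e2] at s2
  rw [e3]
  refine hcard'.trans (add_le_add (s1.trans ?_) (s2.trans ?_))
  · calc 3 * (90000 * (K ^ 2 * (1 / γ ^ 2) * u)) ≤ 3 * (90000 * (N * K ^ 10 * (1 / γ ^ 2) * u)) := by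
          linarith
      _ = 270000 * (N * K ^ 10 * (1 / γ ^ 2) * u) := by ring
      _ ≤ 10 ^ 16 * (N * K ^ 10 * (1 / γ ^ 2) * u) :=
          mul_le_mul_of_nonneg_right (by norm_num) h2
  · calc 81 * (2 * 10 ^ 13 * (N * K ^ 10 * (1 / m ^ 5) * u)) =
        (81 * (2 * 10 ^ 13)) * (N * K ^ 10 * (1 / m ^ 5) * u) := (mul_assoc _ _ _).symm
      _ ≤ 10 ^ 16 * (N * K ^ 10 * (1 / m ^ 5) * u) :=
          mul_le_mul_of_nonneg_right (by norm_num) h3

end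

end Crest.Agent.R136.Sbl57
end

-- ▼ part R136/Sbl3_57
section

/-!
# R136 (helper57): the volume lemma over box labels `((b₁, b₂), j)`

* `Sd` : the data at arbitrary labels, box of side `B`; `Sd.total`
* `count_boxes` : the data at real base points of the met boxes
-/

set_option autoImplicit false

open Finset

namespace Crest.Agent.R136.Sbl57

/-- second order data, base box of side `B` -/
structure Sd (S : Finset (Fin 3 → ℕ)) (α K B : ℝ) (F : (Fin 3 → ℕ) → ℝ)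
    (G : Fin 3 → (Fin 3 → ℕ) → ℝ) (Q : (Fin 3 → ℕ) → Fin 3 → Fin 3 → ℝ) : Prop where
  α0 : 0 < α
  α1 : α ≤ 1
  K1 : 1 ≤ K
  B1 : 1 ≤ B
  box : ∀ n ∈ S, ∀ j, α * (n j : ℝ) ≤ B
  gb : ∀ n ∈ S, ∀ i, |G i n| ≤ K
  hb : ∀ n ∈ S, ∀ i j, |Q n i j| ≤ K
  t1 : ∀ n ∈ S, ∀ n' ∈ S, ∀ i, (∀ j, j ≠ i → n j = n' j) →
    |F n' - F n - α * ((n' i : ℝ) - n i) * G i n| ≤ K * ((α * ((n' i : ℝ) - n i)) ^ 2 + α)
  t2 : ∀ n ∈ S, ∀ n' ∈ S, ∀ i, ∀ r : ℝ, (∀ j, |α * ((n' j : ℝ) - n j)| ≤ r) →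
    |G i n' - G i n - ∑ j, Q n i j * (α * ((n' j : ℝ) - n j))| ≤ K * (r ^ 2 + α)
  t3 : ∀ n ∈ S, ∀ n' ∈ S, ∀ r : ℝ, (∀ j, |α * ((n' j : ℝ) - n j)| ≤ r) →
    ∀ i j, |Q n' i j - Q n i j| ≤ K * (r + α)

section

variable {S : Finset (Fin 3 → ℕ)} {α K B : ℝ} {F : (Fin 3 → ℕ) → ℝ}
  {G : Fin 3 → (Fin 3 → ℕ) → ℝ} {Q : (Fin 3 → ℕ) → Fin 3 → Fin 3 → ℝ}

/-- rescaling of the base box -/
theorem Sd.toSc (h : Sd S α K B F G Q) :
    Sc S (α / B) (K * B ^ 3) F (fun i n => B * G i n) (fun n i j => B ^ 2 * Q n i j) := by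
  have hα0 := h.α0
  have hα1 := h.α1
  have hK := h.K1
  have hB := h.B1
  have hB0 : 0 < B := by linarith
  have hB2 : (1 : ℝ) ≤ B ^ 2 := one_le_pow₀ hB
  have hB3 : (1 : ℝ) ≤ B ^ 3 := one_le_pow₀ hB
  have hB13 : B ≤ B ^ 3 := by nlinarith
  have hB23 : B ^ 2 ≤ B ^ 3 := by nlinarith
  have eα : ∀ x : ℝ, α * x = B * (α / B * x) := by intro x; field_simp
  have hr : ∀ n n' : Fin 3 → ℕ, ∀ r : ℝ, (∀ j, |α / B * ((n' j : ℝ) - n j)| ≤ r) →
      ∀ j, |α * ((n' j : ℝ) - n j)| ≤ B * r := by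
    intro n n' r h1 j
    rw [eα, abs_mul, abs_of_pos hB0]
    exact mul_le_mul_of_nonneg_left (h1 j) hB0.le
  have hr0 : ∀ n n' : Fin 3 → ℕ, ∀ r : ℝ, (∀ j, |α / B * ((n' j : ℝ) - n j)| ≤ r) → 0 ≤ r :=
    fun n n' r h1 => (abs_nonneg _).trans (h1 0)
  refine
    { α0 := by positivity
      α1 := by rw [div_le_one hB0]; linarith
      K1 := by nlinarith
      box := fun n hn j => ?_
      gb := fun n hn i => ?_
      t1 := fun n hn n' hn' i hi => ?_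
      hb := fun n hn i j => ?_
      t2 := fun n hn n' hn' i r h1 => ?_
      t3 := fun n hn n' hn' r h1 i j => ?_ }
  · have := h.box n hn j
    rw [div_mul_eq_mul_div, div_le_one hB0]
    exact this
  · rw [abs_mul, abs_of_pos hB0]
    have := h.gb n hn i
    calc B * |G i n| ≤ B ^ 3 * K := mul_le_mul hB13 this (abs_nonneg _) (by positivity)
      _ = K * B ^ 3 := by ring
  · have := h.t1 n hn n' hn' i hi
    have e : F n' - F n - α / B * ((n' i : ℝ) - n i) * (B * G i n) =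
        F n' - F n - α * ((n' i : ℝ) - n i) * G i n := by field_simp
    rw [e]
    refine this.trans ?_
    rw [eα]
    have e2 : α = B * (α / B) := by field_simp
    obtain ⟨w, hw⟩ : ∃ w, w = α / B * ((n' i : ℝ) - n i) := ⟨_, rfl⟩
    obtain ⟨a, ha⟩ : ∃ a, a = α / B := ⟨_, rfl⟩
    have ha0 : 0 ≤ a := by rw [ha]; positivity
    rw [← hw, ← ha]
    rw [← ha] at e2
    rw [e2]
    have h1 : B ^ 2 * w ^ 2 ≤ B ^ 3 * w ^ 2 := mul_le_mul_of_nonneg_right hB23 (sq_nonneg _)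
    have h2 : B * a ≤ B ^ 3 * a := mul_le_mul_of_nonneg_right hB13 ha0
    have h3 : K * ((B * w) ^ 2 + B * a) ≤ K * (B ^ 3 * (w ^ 2 + a)) :=
      mul_le_mul_of_nonneg_left (by linarith [mul_pow B w 2]) (by linarith)
    linarith
  · rw [abs_mul, abs_of_pos (by positivity : (0 : ℝ) < B ^ 2)]
    have := h.hb n hn i j
    calc B ^ 2 * |Q n i j| ≤ B ^ 3 * K := mul_le_mul hB23 this (abs_nonneg _) (by positivity)
      _ = K * B ^ 3 := by ring
  · have := h.t2 n hn n' hn' i (B * r) (hr n n' r h1)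
    have hr0' := hr0 n n' r h1
    have e : B * G i n' - B * G i n - ∑ j, B ^ 2 * Q n i j * (α / B * ((n' j : ℝ) - n j)) =
        B * (G i n' - G i n - ∑ j, Q n i j * (α * ((n' j : ℝ) - n j))) := by
      rw [mul_sub, mul_sub, mul_sum]
      congr 1
      refine sum_congr rfl fun j _ => ?_
      rw [eα]; ring
    have e' : (fun i n => B * G i n) i n' - (fun i n => B * G i n) i n -
        ∑ j, (fun n i j => B ^ 2 * Q n i j) n i j * (α / B * ((n' j : ℝ) - n j)) =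
        B * (G i n' - G i n - ∑ j, Q n i j * (α * ((n' j : ℝ) - n j))) := e
    rw [e', abs_mul, abs_of_pos hB0]
    have e2 : α = B * (α / B) := by field_simp
    obtain ⟨a, ha⟩ : ∃ a, a = α / B := ⟨_, rfl⟩
    have ha0 : 0 ≤ a := by rw [ha]; positivity
    refine (mul_le_mul_of_nonneg_left this hB0.le).trans ?_
    rw [← ha]
    rw [← ha] at e2
    rw [e2]
    have h2 : B ^ 2 * a ≤ B ^ 3 * a := mul_le_mul_of_nonneg_right hB23 ha0
    have h3 : K * (B ^ 3 * r ^ 2 + B ^ 2 * a) ≤ K * (B ^ 3 * (r ^ 2 + a)) :=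
      mul_le_mul_of_nonneg_left (by linarith) (by linarith)
    calc B * (K * ((B * r) ^ 2 + B * a)) = K * (B ^ 3 * r ^ 2 + B ^ 2 * a) := by ring
      _ ≤ K * (B ^ 3 * (r ^ 2 + a)) := h3
      _ = K * B ^ 3 * (r ^ 2 + a) := by ring
  · have := h.t3 n hn n' hn' (B * r) (hr n n' r h1) i j
    have e' : (fun n i j => B ^ 2 * Q n i j) n' i j - (fun n i j => B ^ 2 * Q n i j) n i j =
        B ^ 2 * (Q n' i j - Q n i j) := by ring
    have e2 : α = B * (α / B) := by field_simp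
    rw [e', abs_mul, abs_of_pos (by positivity : (0 : ℝ) < B ^ 2)]
    refine (mul_le_mul_of_nonneg_left this (by positivity)).trans (le_of_eq ?_)
    nth_rewrite 1 [e2]
    ring

/-- **V3 over a base box of side `B`** -/
theorem Sd.total (h : Sd S α K B F G Q) {A : Finset (Fin 3 → ℕ)} (hA : A ⊆ S) {β γ m : ℝ}
    (hγ : 0 < γ) (hm : 0 < m) (hm1 : m ≤ 1) (hαβ : α ≤ β) {N : ℕ} (hN1 : 1 ≤ N)
    (hN : 2 * (K * B ^ 3) ≤ 2 ^ N * √β) (hF : ∀ n ∈ A, |F n| ≤ β)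
    (hnd : ∀ n ∈ A, (∃ i, γ ≤ |G i n|) ∨
      ∃ i j k l, m ≤ |Q n i j * Q n k l - Q n i l * Q n k j|) :
    (A.card : ℝ) ≤ 10 ^ 16 * N * (K * B ^ 3) ^ 10 * (1 / γ ^ 2 + 1 / m ^ 5) * β * B ^ 3 / α ^ 3 := by
  have hα0 := h.α0
  have hB := h.B1
  have hB0 : 0 < B := by linarith
  have hB4 : (1 : ℝ) ≤ B ^ 4 := one_le_pow₀ hB
  have hαB : α / B ≤ β := (div_le_self hα0.le hB).trans hαβ
  have := h.toSc.total hA hγ hm hm1 hαB hN1 hN hF (fun n hn => by
    rcases hnd n hn with ⟨i, hi⟩ | ⟨i, j, k, l, hi⟩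
    · left
      refine ⟨i, ?_⟩
      show γ ≤ |B * G i n|
      rw [abs_mul, abs_of_pos hB0]
      nlinarith [abs_nonneg (G i n)]
    · right
      refine ⟨i, j, k, l, ?_⟩
      show m ≤ |B ^ 2 * Q n i j * (B ^ 2 * Q n k l) - B ^ 2 * Q n i l * (B ^ 2 * Q n k j)|
      have e : B ^ 2 * Q n i j * (B ^ 2 * Q n k l) - B ^ 2 * Q n i l * (B ^ 2 * Q n k j) =
          B ^ 4 * (Q n i j * Q n k l - Q n i l * Q n k j) := by ring
      rw [e, abs_mul, abs_of_pos (by positivity : (0 : ℝ) < B ^ 4)]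
      nlinarith [abs_nonneg (Q n i j * Q n k l - Q n i l * Q n k j)])
  refine this.trans (le_of_eq ?_)
  rw [div_pow]
  field_simp

/-- the label of a box as a vector of naturals -/
def lab (s : ℕ) (y : (ℤ × ℤ) × ℕ) : Fin 3 → ℕ := ![y.2, (y.1.1 + s).toNat, (y.1.2 + s).toNat]

end

/-- **V3 over the met boxes**, one real base point per box -/
theorem count_boxes {H : ℕ} (hH : 1 ≤ H) {K B β γ m : ℝ} (hK : 1 ≤ K) (hB : 1 ≤ B)
    (T : Finset ((ℤ × ℤ) × ℕ)) (x : (ℤ × ℤ) × ℕ → Fin 3 → ℝ) (F : (ℤ × ℤ) × ℕ → ℝ)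
    (G : (ℤ × ℤ) × ℕ → Fin 3 → ℝ) (Q : (ℤ × ℤ) × ℕ → Fin 3 → Fin 3 → ℝ)
    (x0 : ∀ y ∈ T, x y 0 = y.2 / H) (x1 : ∀ y ∈ T, ⌊H * x y 1⌋ = y.1.1)
    (x2 : ∀ y ∈ T, ⌊H * x y 2⌋ = y.1.2) (xB : ∀ y ∈ T, ∀ i, |x y i| ≤ B)
    (gb : ∀ y ∈ T, ∀ i, |G y i| ≤ K) (hb : ∀ y ∈ T, ∀ i j, |Q y i j| ≤ K)
    (t1 : ∀ y ∈ T, ∀ y' ∈ T, ∀ r : ℝ, (∀ j, |x y' j - x y j| ≤ r) →
      |F y' - F y - ∑ j, G y j * (x y' j - x y j)| ≤ K * (r ^ 2 + 1 / H))
    (t2 : ∀ y ∈ T, ∀ y' ∈ T, ∀ r : ℝ, (∀ j, |x y' j - x y j| ≤ r) →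
      ∀ i, |G y' i - G y i - ∑ j, Q y i j * (x y' j - x y j)| ≤ K * (r ^ 2 + 1 / H))
    (t3 : ∀ y ∈ T, ∀ y' ∈ T, ∀ r : ℝ, (∀ j, |x y' j - x y j| ≤ r) →
      ∀ i j, |Q y' i j - Q y i j| ≤ K * (r + 1 / H))
    (hγ : 0 < γ) (hm : 0 < m) (hm1 : m ≤ 1) (hβ : 1 / (H : ℝ) ≤ β) {N : ℕ} (hN1 : 1 ≤ N)
    (hN : 5000 * (K * B ^ 3) ≤ 2 ^ N * √β) (hF : ∀ y ∈ T, |F y| ≤ β)
    (hnd : ∀ y ∈ T, (∃ i, γ ≤ |G y i|) ∨
      ∃ i j k l, m ≤ |Q y i j * Q y k l - Q y i l * Q y k j|) :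
    (T.card : ℝ) ≤ 10 ^ 52 * N * K ^ 10 * B ^ 33 * (1 / γ ^ 2 + 1 / m ^ 5) * β * (H : ℝ) ^ 3 := by
  classical
  have hH0 : (0 : ℝ) < H := by exact_mod_cast hH
  have hH1 : (1 : ℝ) ≤ H := by exact_mod_cast hH
  -- the shift
  obtain ⟨s, hs⟩ : ∃ s : ℕ, s = ⌈H * B⌉₊ + 1 := ⟨_, rfl⟩
  have hs1 : H * B + 1 ≤ (s : ℝ) := by
    rw [hs]; push_cast; linarith [Nat.le_ceil (H * B)]
  have hs2 : (s : ℝ) ≤ H * B + 2 := by
    rw [hs]; push_cast; linarith [Nat.ceil_lt_add_one (show (0 : ℝ) ≤ H * B by positivity)]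
  -- integer labels near the base points
  have fl : ∀ (t : ℝ) (b : ℤ), ⌊H * t⌋ = b → |t| ≤ B →
      ((b + s).toNat : ℝ) = b + s ∧ |t - (b : ℝ) / H| ≤ 1 / H := by
    intro t b h1 h2
    have a1 : (b : ℝ) ≤ H * t := by rw [← h1]; exact Int.floor_le _
    have a2 : H * t < (b : ℝ) + 1 := by rw [← h1]; exact Int.lt_floor_add_one _
    rw [abs_le] at h2
    constructor
    · have h3 : (0 : ℝ) ≤ (b : ℝ) + s := by nlinarith
      have h4 : (0 : ℤ) ≤ b + s := by exact_mod_cast h3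
      have h5 : (((b + s).toNat : ℤ) : ℝ) = ((b + s : ℤ) : ℝ) := by rw [Int.toNat_of_nonneg h4]
      push_cast at h5
      exact h5
    · rw [abs_le]
      constructor
      · rw [← sub_nonneg]
        have : t - (b : ℝ) / H - -(1 / H) = (H * t - b + 1) / H := by field_simp; ring
        rw [this]
        exact div_nonneg (by linarith) hH0.le
      · rw [← sub_nonneg]
        have : 1 / (H : ℝ) - (t - (b : ℝ) / H) = (b + 1 - H * t) / H := by field_simp; ring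
        rw [this]
        exact div_nonneg (by linarith) hH0.le
  obtain ⟨w, hw⟩ : ∃ w : (Fin 3 → ℕ) → (ℤ × ℤ) × ℕ,
      w = fun n => (((n 1 : ℤ) - s, (n 2 : ℤ) - s), n 0) := ⟨_, rfl⟩
  have flab : ∀ y ∈ T, ((y.1.1 + s).toNat : ℝ) = y.1.1 + s ∧ ((y.1.2 + s).toNat : ℝ) = y.1.2 + s :=
    fun y hy => ⟨(fl _ _ (x1 y hy) (xB y hy 1)).1, (fl _ _ (x2 y hy) (xB y hy 2)).1⟩
  have hwl : ∀ y ∈ T, w (lab s y) = y := by
    intro y hy
    obtain ⟨a1, a2⟩ := flab y hy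
    have b1 : ((y.1.1 + s).toNat : ℤ) = y.1.1 + s := by exact_mod_cast a1
    have b2 : ((y.1.2 + s).toNat : ℤ) = y.1.2 + s := by exact_mod_cast a2
    rw [hw]
    show (((((y.1.1 + s).toNat : ℕ) : ℤ) - s, (((y.1.2 + s).toNat : ℕ) : ℤ) - s), y.2) = y
    rw [b1, b2, add_sub_cancel_right, add_sub_cancel_right]
  set S : Finset (Fin 3 → ℕ) := T.image (lab s) with hS
  have hSw : ∀ n ∈ S, w n ∈ T ∧ lab s (w n) = n := by
    intro n hn
    obtain ⟨y, hy, rfl⟩ := mem_image.1 hn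
    rw [hwl y hy]
    exact ⟨hy, rfl⟩
  have hcard : T.card = S.card := by
    rw [hS, card_image_of_injOn]
    intro y hy y' hy' h
    rw [← hwl y (mem_coe.1 hy), ← hwl y' (mem_coe.1 hy'), h]
  obtain ⟨α, hα⟩ : ∃ α : ℝ, α = 1 / H := ⟨_, rfl⟩
  have hα0 : 0 < α := by rw [hα]; positivity
  have hα1 : α ≤ 1 := by rw [hα, div_le_one hH0]; exact hH1
  rw [← hα] at t1 t2 t3 hβ
  have hHα : ∀ z : ℝ, z / H = α * z := fun z => by rw [hα]; ring
  -- labels against base points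
  have near : ∀ y ∈ T, ∀ j, |x y j - (α * (lab s y j : ℝ) - (if j = 0 then 0 else α * s))| ≤ α := by
    intro y hy j
    obtain ⟨a1, a2⟩ := flab y hy
    have c1 := (fl _ _ (x1 y hy) (xB y hy 1)).2
    have c2 := (fl _ _ (x2 y hy) (xB y hy 2)).2
    rw [hHα, ← hα] at c1 c2
    fin_cases j
    · show |x y 0 - (α * ((y.2 : ℕ) : ℝ) - (if (0 : Fin 3) = 0 then 0 else α * s))| ≤ α
      rw [if_pos rfl, x0 y hy, hHα, sub_zero, sub_self, abs_zero]
      exact hα0.le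
    · show |x y 1 - (α * (((y.1.1 + s).toNat : ℕ) : ℝ) - (if (1 : Fin 3) = 0 then 0 else α * s))| ≤ α
      rw [if_neg (by decide), a1]
      have : x y 1 - (α * ((y.1.1 : ℝ) + s) - α * s) = x y 1 - α * y.1.1 := by ring
      rw [this]; exact c1
    · show |x y 2 - (α * (((y.1.2 + s).toNat : ℕ) : ℝ) - (if (2 : Fin 3) = 0 then 0 else α * s))| ≤ α
      rw [if_neg (by decide), a2]
      have : x y 2 - (α * ((y.1.2 : ℝ) + s) - α * s) = x y 2 - α * y.1.2 := by ring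
      rw [this]; exact c2
  have dif : ∀ n ∈ S, ∀ n' ∈ S, ∀ j,
      |(x (w n') j - x (w n) j) - α * ((n' j : ℝ) - n j)| ≤ 2 * α := by
    intro n hn n' hn' j
    have a1 := near (w n) (hSw n hn).1 j
    have a2 := near (w n') (hSw n' hn').1 j
    rw [(hSw n hn).2] at a1
    rw [(hSw n' hn').2] at a2
    rw [abs_le] at a1 a2 ⊢
    constructor <;> linarith [a1.1, a1.2, a2.1, a2.2]
  have dif' : ∀ n ∈ S, ∀ n' ∈ S, ∀ r : ℝ, (∀ j, |α * ((n' j : ℝ) - n j)| ≤ r) →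
      ∀ j, |x (w n') j - x (w n) j| ≤ r + 2 * α := by
    intro n hn n' hn' r hr j
    have a1 := dif n hn n' hn' j
    have a2 := hr j
    rw [abs_le] at a1 a2 ⊢
    constructor <;> linarith [a1.1, a1.2, a2.1, a2.2]
  have sumdif : ∀ n ∈ S, ∀ n' ∈ S, ∀ g : Fin 3 → ℝ, (∀ j, |g j| ≤ K) →
      |∑ j, g j * (x (w n') j - x (w n) j) - ∑ j, g j * (α * ((n' j : ℝ) - n j))| ≤
        6 * K * α := by
    intro n hn n' hn' g hg
    rw [← sum_sub_distrib]
    calc |∑ j, (g j * (x (w n') j - x (w n) j) - g j * (α * ((n' j : ℝ) - n j)))| ≤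
        ∑ j, |g j * (x (w n') j - x (w n) j) - g j * (α * ((n' j : ℝ) - n j))| :=
          abs_sum_le_sum_abs _ _
      _ ≤ ∑ _j : Fin 3, K * (2 * α) := by
          refine sum_le_sum fun j _ => ?_
          rw [← mul_sub, abs_mul]
          exact mul_le_mul (hg j) (dif n hn n' hn' j) (abs_nonneg _) (by linarith)
      _ = 6 * K * α := by rw [sum_const, card_univ, Fintype.card_fin, nsmul_eq_mul]; push_cast; ring
  have hd : Sd S α (15 * K) (5 * B) (fun n => F (w n)) (fun i n => G (w n) i) (fun n => Q (w n)) := by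
    refine
      { α0 := hα0
        α1 := hα1
        K1 := by linarith
        B1 := by linarith
        box := fun n hn j => ?_
        gb := fun n hn i => (gb _ (hSw n hn).1 i).trans (by linarith)
        hb := fun n hn i j => (hb _ (hSw n hn).1 i j).trans (by linarith)
        t1 := fun n hn n' hn' i hi => ?_
        t2 := fun n hn n' hn' i r h1 => ?_
        t3 := fun n hn n' hn' r h1 i j => ?_ }
    · have a1 := near (w n) (hSw n hn).1 j
      have a2 := xB (w n) (hSw n hn).1 j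
      rw [(hSw n hn).2] at a1
      rw [abs_le] at a1 a2
      have a3 : (if j = 0 then 0 else α * (s : ℝ)) ≤ B + 2 * α := by
        have : α * (s : ℝ) ≤ B + 2 * α := by
          calc α * (s : ℝ) ≤ α * (H * B + 2) := mul_le_mul_of_nonneg_left hs2 hα0.le
            _ = B + 2 * α := by rw [hα]; field_simp
        split_ifs
        · linarith
        · exact this
      linarith [a1.1, a2.2]
    · have e0 : ∀ j, |α * ((n' j : ℝ) - n j)| ≤ |α * ((n' i : ℝ) - n i)| := by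
        intro j
        by_cases hj : j = i
        · rw [hj]
        · rw [hi j hj, sub_self, mul_zero, abs_zero]; exact abs_nonneg _
      have a1 := t1 (w n) (hSw n hn).1 (w n') (hSw n' hn').1 _ (dif' n hn n' hn' _ e0)
      have a2 := sumdif n hn n' hn' (G (w n)) (gb _ (hSw n hn).1)
      have a3 : ∑ j, G (w n) j * (α * ((n' j : ℝ) - n j)) =
          G (w n) i * (α * ((n' i : ℝ) - n i)) := by
        refine sum_eq_single i (fun j _ hj => ?_) (fun h => absurd (mem_univ _) h)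
        rw [hi j hj, sub_self, mul_zero, mul_zero]
      rw [a3] at a2
      obtain ⟨v, hv⟩ : ∃ v, v = α * ((n' i : ℝ) - n i) := ⟨_, rfl⟩
      rw [← hv] at a1 a2 ⊢
      have a4 : (|v| + 2 * α) ^ 2 ≤ 2 * v ^ 2 + 8 * α := by
        have h1 : 0 ≤ (|v| - 2 * α) ^ 2 := sq_nonneg _
        have h2 : |v| ^ 2 = v ^ 2 := sq_abs v
        have h3 : α ^ 2 ≤ α := by nlinarith
        nlinarith
      have a5 : K * ((|v| + 2 * α) ^ 2 + α) ≤ K * (2 * v ^ 2 + 9 * α) :=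
        mul_le_mul_of_nonneg_left (by linarith) (by linarith)
      have a6 : 0 ≤ K * v ^ 2 := by positivity
      have a7 : 0 ≤ K * α := by positivity
      show |F (w n') - F (w n) - v * G (w n) i| ≤ 15 * K * (v ^ 2 + α)
      rw [abs_le] at a1 a2 ⊢
      constructor <;> nlinarith [a1.1, a1.2, a2.1, a2.2]
    · have a1 := t2 (w n) (hSw n hn).1 (w n') (hSw n' hn').1 _ (dif' n hn n' hn' _ h1) i
      have a2 := sumdif n hn n' hn' (Q (w n) i) (hb _ (hSw n hn).1 i)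
      have hr0 : 0 ≤ r := (abs_nonneg _).trans (h1 0)
      have a4 : (r + 2 * α) ^ 2 ≤ 2 * r ^ 2 + 8 * α := by
        have h1 : 0 ≤ (r - 2 * α) ^ 2 := sq_nonneg _
        have h3 : α ^ 2 ≤ α := by nlinarith
        nlinarith
      have a5 : K * ((r + 2 * α) ^ 2 + α) ≤ K * (2 * r ^ 2 + 9 * α) :=
        mul_le_mul_of_nonneg_left (by linarith) (by linarith)
      have a6 : 0 ≤ K * r ^ 2 := by positivity
      have a7 : 0 ≤ K * α := by positivity
      show |G (w n') i - G (w n) i - ∑ j, Q (w n) i j * (α * ((n' j : ℝ) - n j))| ≤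
        15 * K * (r ^ 2 + α)
      obtain ⟨u1, hu1⟩ : ∃ u1, u1 = ∑ j, Q (w n) i j * (α * ((n' j : ℝ) - n j)) := ⟨_, rfl⟩
      obtain ⟨u2, hu2⟩ : ∃ u2, u2 = ∑ j, Q (w n) i j * (x (w n') j - x (w n) j) := ⟨_, rfl⟩
      rw [← hu1, ← hu2] at a2
      rw [← hu2] at a1
      rw [← hu1]
      rw [abs_le] at a1 a2 ⊢
      constructor <;> nlinarith [a1.1, a1.2, a2.1, a2.2]
    · have a1 := t3 (w n) (hSw n hn).1 (w n') (hSw n' hn').1 _ (dif' n hn n' hn' _ h1) i j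
      have hr0 : 0 ≤ r := (abs_nonneg _).trans (h1 0)
      refine a1.trans ?_
      have a6 : 0 ≤ K * r := by positivity
      have a7 : 0 ≤ K * α := by positivity
      nlinarith
  have hN' : 2 * (15 * K * (5 * B) ^ 3) ≤ 2 ^ N * √β := by
    have : 2 * (15 * K * (5 * B) ^ 3) = 3750 * (K * B ^ 3) := by ring
    have h3 : 0 ≤ K * B ^ 3 := by positivity
    linarith
  have hfin := hd.total (Subset.refl S) hγ hm hm1 hβ hN1 hN'
    (fun n hn => hF _ (hSw n hn).1) (fun n hn => hnd _ (hSw n hn).1)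
  rw [hcard]
  refine hfin.trans ?_
  have hβ0 : 0 < β := hα0.trans_le hβ
  have e : 10 ^ 16 * N * (15 * K * (5 * B) ^ 3) ^ 10 * (1 / γ ^ 2 + 1 / m ^ 5) * β * (5 * B) ^ 3 / α ^ 3
      = (10 ^ 16 * 1875 ^ 10 * 125) * (N * K ^ 10 * B ^ 33 * (1 / γ ^ 2 + 1 / m ^ 5) * β * (H : ℝ) ^ 3) := by
    have : 1 / α ^ 3 = (H : ℝ) ^ 3 := by rw [hα]; field_simp
    rw [div_eq_mul_one_div, this]
    ring
  rw [e]
  calc (10 ^ 16 * 1875 ^ 10 * 125 : ℝ) * (N * K ^ 10 * B ^ 33 * (1 / γ ^ 2 + 1 / m ^ 5) * β * (H : ℝ) ^ 3)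
      ≤ 10 ^ 52 * (N * K ^ 10 * B ^ 33 * (1 / γ ^ 2 + 1 / m ^ 5) * β * (H : ℝ) ^ 3) :=
        mul_le_mul_of_nonneg_right (by norm_num) (by positivity)
    _ = _ := by ring

end Crest.Agent.R136.Sbl57
end

-- ▼ part R136/Ndb_876
section

/-!
# R136 (U4, PLAN 2 (AL), leaf (D)): change of the base coordinates, count (helper876)

* `bc α β N J` : jet after the change `y' = α y + β·x`, `x' = N x`; `tg_bc`, `th_bc`.
* `sm k J` : multiple of a jet.
* `count_chg` : 57's count of boxes for the data of the adapter after a linear change of the base.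
-/

set_option autoImplicit false
set_option linter.unusedVariables false

namespace Crest.Agent.R136.Adp876

open Crest.Agent.R136.Rk601

/-- jet of `J` composed with `y' = α y + β·x`, `x' = N x` -/
def bc (α : ℝ) (β : Fin 3 → ℝ) (N : Fin 3 → Fin 3 → ℝ) (J : Jt) : Jt where
  a0 := α * J.a0
  a := fun i => (∑ k, N k i * J.a k) + β i * J.a0
  h00 := α ^ 2 * J.h00
  h0 := fun i => α * ((∑ k, N k i * J.h0 k) + β i * J.h00)
  h := fun i j => (∑ k, ∑ l, N k i * N l j * J.h k l) + (∑ k, N k i * J.h0 k) * β j +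
    β i * (∑ k, N k j * J.h0 k) + β i * β j * J.h00

theorem bc_ev (α : ℝ) (β : Fin 3 → ℝ) (N : Fin 3 → Fin 3 → ℝ) (J : Jt) (y : ℝ) (x : Fin 3 → ℝ) :
    ev (bc α β N J) y x = ev J (α * y + ∑ i, β i * x i) (fun k => ∑ i, N k i * x i) := by
  simp only [ev, bc, Fin.sum_univ_three]
  ring

theorem bc_sym {α : ℝ} {β : Fin 3 → ℝ} {N : Fin 3 → Fin 3 → ℝ} {J : Jt} (h : J.Sym) :
    (bc α β N J).Sym := by
  intro i j
  simp only [bc, Fin.sum_univ_three]
  rw [h 1 0, h 2 0, h 2 1]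
  ring

theorem sl_bc {α : ℝ} {β : Fin 3 → ℝ} {N : Fin 3 → Fin 3 → ℝ} {q : Jt} (hα : α ≠ 0)
    (h0 : q.a0 ≠ 0) (i : Fin 3) : sl (bc α β N q) i = ((∑ k, N k i * sl q k) - β i) / α := by
  have e : ∑ k, N k i * sl q k = -(∑ k, N k i * q.a k) / q.a0 := by
    simp only [sl, Fin.sum_univ_three]
    field_simp
    ring
  rw [e]
  simp only [sl, bc]
  field_simp
  ring

theorem tg_bc {α : ℝ} {β : Fin 3 → ℝ} {N : Fin 3 → Fin 3 → ℝ} {q P : Jt} (hα : α ≠ 0)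
    (h0 : q.a0 ≠ 0) (i : Fin 3) :
    tg (bc α β N q) (bc α β N P) i = ∑ k, N k i * tg q P k := by
  have e : (α * P.a0) / (α * q.a0) = P.a0 / q.a0 := mul_div_mul_left _ _ hα
  simp only [tg, bc, Fin.sum_univ_three]
  rw [e]
  field_simp
  ring

theorem lf_bc {α : ℝ} {β : Fin 3 → ℝ} {N : Fin 3 → Fin 3 → ℝ} {P : Jt} {s : Fin 3 → ℝ}
    (hα : α ≠ 0) (i j : Fin 3) :
    lf (bc α β N P) (fun i => ((∑ k, N k i * s k) - β i) / α) i j =
      ∑ k, ∑ l, N k i * N l j * lf P s k l := by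
  have e : ∑ k, ∑ l, N k i * N l j * lf P s k l = (∑ k, ∑ l, N k i * N l j * P.h k l) +
      (∑ k, N k i * P.h0 k) * (∑ k, N k j * s k) + (∑ k, N k j * P.h0 k) * (∑ k, N k i * s k) +
      P.h00 * ((∑ k, N k i * s k) * (∑ k, N k j * s k)) := by
    simp only [lf, Fin.sum_univ_three]
    ring
  rw [e]
  simp only [lf, bc]
  generalize (∑ k, ∑ l, N k i * N l j * P.h k l) = A1
  generalize (∑ k, N k i * P.h0 k) = A2
  generalize (∑ k, N k j * P.h0 k) = A3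
  generalize (∑ k, N k i * s k) = A4
  generalize (∑ k, N k j * s k) = A5
  field_simp
  ring

theorem th_bc {α : ℝ} {β : Fin 3 → ℝ} {N : Fin 3 → Fin 3 → ℝ} {q P : Jt} (hα : α ≠ 0)
    (h0 : q.a0 ≠ 0) (i j : Fin 3) :
    th (bc α β N q) (bc α β N P) i j = ∑ k, ∑ l, N k i * N l j * th q P k l := by
  have e : (α * P.a0) / (α * q.a0) = P.a0 / q.a0 := mul_div_mul_left _ _ hα
  have es : sl (bc α β N q) = fun i => ((∑ k, N k i * sl q k) - β i) / α := by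
    funext i; exact sl_bc hα h0 i
  have e1 : th (bc α β N q) (bc α β N P) i j = lf (bc α β N P) (sl (bc α β N q)) i j -
      P.a0 / q.a0 * lf (bc α β N q) (sl (bc α β N q)) i j := by
    unfold th
    show _ - (α * P.a0) / (α * q.a0) * _ = _
    rw [e]
  rw [e1, es, lf_bc hα, lf_bc hα]
  simp only [th, Fin.sum_univ_three]
  ring

/-- multiple of a jet -/
def sm (k : ℝ) (J : Jt) : Jt where
  a0 := k * J.a0
  a := fun i => k * J.a i
  h00 := k * J.h00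
  h0 := fun i => k * J.h0 i
  h := fun i j => k * J.h i j

theorem sm_ev (k : ℝ) (J : Jt) (y : ℝ) (x : Fin 3 → ℝ) : ev (sm k J) y x = k * ev J y x := by
  simp only [ev, sm, Fin.sum_univ_three]; ring

theorem sm_sym {k : ℝ} {J : Jt} (h : J.Sym) : (sm k J).Sym := fun i j => by
  show k * J.h i j = k * J.h j i
  rw [h i j]

theorem tg_sm {k l : ℝ} {q P : Jt} (hk : k ≠ 0) (h0 : q.a0 ≠ 0) (i : Fin 3) :
    tg (sm k q) (sm l P) i = l * tg q P i := by
  simp only [tg, sm]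
  field_simp

theorem th_sm {k l : ℝ} {q P : Jt} (hk : k ≠ 0) (h0 : q.a0 ≠ 0) (i j : Fin 3) :
    th (sm k q) (sm l P) i j = l * th q P i j := by
  have e : sl (sm k q) = sl q := by
    funext i; simp only [sl, sm]; field_simp
  simp only [th, e]
  simp only [lf, sm]
  field_simp

theorem addm_ev (P : Jt) (k : ℝ) (q : Jt) (y : ℝ) (x : Fin 3 → ℝ) :
    ev (P.addm k q) y x = ev P y x + k * ev q y x := by
  simp only [ev, Jt.addm, Fin.sum_univ_three]; ring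

theorem addm_sym {P q : Jt} {k : ℝ} (h : P.Sym) (h' : q.Sym) : (P.addm k q).Sym := fun i j => by
  show P.h i j + k * q.h i j = P.h j i + k * q.h j i
  rw [h i j, h' i j]


/-! ### the count -/

theorem mdot_le {M : Fin 3 → Fin 3 → ℝ} {v : Fin 3 → ℝ} {L B : ℝ} (hM : ∀ k j, |M k j| ≤ L)
    (hv : ∀ j, |v j| ≤ B) (k : Fin 3) : |∑ j, M k j * v j| ≤ 3 * (L * B) := dot_le (hM k) hv

theorem mtdot_le {M : Fin 3 → Fin 3 → ℝ} {v : Fin 3 → ℝ} {L B : ℝ} (hM : ∀ k j, |M k j| ≤ L)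
    (hv : ∀ j, |v j| ≤ B) (i : Fin 3) : |∑ k, M k i * v k| ≤ 3 * (L * B) :=
  dot_le (fun k => hM k i) hv

theorem mtm_le {M A : Fin 3 → Fin 3 → ℝ} {L B : ℝ} (hM : ∀ k j, |M k j| ≤ L)
    (hA : ∀ k l, |A k l| ≤ B) (i j : Fin 3) : |∑ k, ∑ l, M k i * M l j * A k l| ≤ 9 * (L ^ 2 * B) := by
  have hL : 0 ≤ L := (abs_nonneg _).trans (hM 0 0)
  have e : ∀ k l, |M k i * M l j * A k l| ≤ L ^ 2 * B := fun k l => by
    rw [abs_mul, abs_mul, sq]
    exact mul_le_mul (mul_le_mul (hM k i) (hM l j) (abs_nonneg _) hL) (hA k l) (abs_nonneg _)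
      (by positivity)
  calc |∑ k, ∑ l, M k i * M l j * A k l| ≤ ∑ k, ∑ l, |M k i * M l j * A k l| :=
        (Finset.abs_sum_le_sum_abs _ _).trans
          (Finset.sum_le_sum fun i _ => Finset.abs_sum_le_sum_abs _ _)
    _ ≤ ∑ _k : Fin 3, ∑ _l : Fin 3, L ^ 2 * B :=
        Finset.sum_le_sum fun i _ => Finset.sum_le_sum fun j _ => e i j
    _ = 9 * (L ^ 2 * B) := by simp; ring

/-- constant of the count -/
noncomputable def KC (K L : ℝ) : ℝ := 27 * L ^ 3 * CK K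

/-- **count of the boxes after a linear change of the base coordinates.** -/
theorem count_chg {H : ℕ} (hH : 1 ≤ H) {T : Finset ((ℤ × ℤ) × ℕ)} {cq cP : ℝ} {q P : Jt}
    {y : (ℤ × ℤ) × ℕ → ℝ} {X : (ℤ × ℤ) × ℕ → Fin 3 → ℝ} {K L B : ℝ}
    (D : Data (T : Set ((ℤ × ℤ) × ℕ)) cq q P y X K (1 / H)) {M : Fin 3 → Fin 3 → ℝ}
    (hL : 1 ≤ L) (hM : ∀ k j, |M k j| ≤ L) (hB : 1 ≤ B) (x : (ℤ × ℤ) × ℕ → Fin 3 → ℝ)
    (hx : ∀ b ∈ T, ∀ b' ∈ T, ∀ k, X b' k - X b k = ∑ j, M k j * (x b' j - x b j))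
    (x0 : ∀ y ∈ T, x y 0 = y.2 / H) (x1 : ∀ y ∈ T, ⌊H * x y 1⌋ = y.1.1)
    (x2 : ∀ y ∈ T, ⌊H * x y 2⌋ = y.1.2) (xB : ∀ y ∈ T, ∀ i, |x y i| ≤ B) {β γ m : ℝ}
    (hγ : 0 < γ) (hm : 0 < m) (hm1 : m ≤ 1) (hβ : 1 / (H : ℝ) ≤ β) {N : ℕ} (hN1 : 1 ≤ N)
    (hN : 5000 * (KC K L * B ^ 3) ≤ 2 ^ N * √β) (hF : ∀ b ∈ T, |FF cP P y X b| ≤ β)
    (hnd : ∀ b ∈ T, (∃ i, γ ≤ |∑ k, M k i * GG q P y X b k|) ∨ ∃ i j k l,
      m ≤ |mn (fun i j => ∑ k, ∑ l, M k i * M l j * HH q P y X b k l) i j k l|) :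
    (T.card : ℝ) ≤
      10 ^ 52 * N * (KC K L) ^ 10 * B ^ 33 * (1 / γ ^ 2 + 1 / m ^ 5) * β * (H : ℝ) ^ 3 := by
  have hC := CK_one D.K1
  have hC0 : (0:ℝ) < CK K := by linarith
  have hL0 : (0:ℝ) < L := by linarith
  have hL2 : (1:ℝ) ≤ L ^ 2 := one_le_pow₀ hL
  have hL3 : (1:ℝ) ≤ L ^ 3 := one_le_pow₀ hL
  have h23 : L ^ 2 ≤ L ^ 3 := pow_le_pow_right₀ hL (by norm_num)
  have h13 : L ≤ L ^ 3 := le_self_pow₀ hL (by norm_num)
  have hHr : (0:ℝ) < H := by exact_mod_cast hH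
  have hH0 : (0:ℝ) ≤ 1 / H := by positivity
  have hKC1 : 1 ≤ KC K L := by
    unfold KC
    have : (1:ℝ) * 1 ≤ L ^ 3 * CK K := mul_le_mul hL3 hC (by norm_num) (by positivity)
    linarith
  have hrr : ∀ b ∈ T, ∀ b' ∈ T, ∀ r : ℝ, (∀ j, |x b' j - x b j| ≤ r) →
      ∀ j, |X b' j - X b j| ≤ 3 * (L * r) := by
    intro b hb b' hb' r hr j
    rw [hx b hb b' hb']
    exact mdot_le hM hr j
  have hKCe : KC K L = 27 * (L ^ 3 * CK K) := by unfold KC; ring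
  refine Sbl57.count_boxes hH hKC1 hB T x (FF cP P y X)
    (fun b i => ∑ k, M k i * GG q P y X b k)
    (fun b i j => ∑ k, ∑ l, M k i * M l j * HH q P y X b k l) x0 x1 x2 xB ?_ ?_ ?_ ?_ ?_ hγ hm hm1
    hβ hN1 hN hF ?_
  · intro b hb i
    refine (mtdot_le hM (fun k => D.GG_le hb k) i).trans ?_
    rw [hKCe]
    have : L * CK K ≤ L ^ 3 * CK K := mul_le_mul_of_nonneg_right h13 hC0.le
    have h0 : 0 ≤ L ^ 3 * CK K := by positivity
    linarith
  · intro b hb i j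
    refine (mtm_le hM (fun k l => D.HH_le hb k l) i j).trans ?_
    rw [hKCe]
    have : L ^ 2 * CK K ≤ L ^ 3 * CK K := mul_le_mul_of_nonneg_right h23 hC0.le
    have h0 : 0 ≤ L ^ 3 * CK K := by positivity
    linarith
  · intro b hb b' hb' r hr
    have h1 := D.t1 cP hb hb' (hrr b hb b' hb' r hr)
    have e1 : ∑ j, (∑ k, M k j * GG q P y X b k) * (x b' j - x b j) =
        ∑ j, GG q P y X b j * (X b' j - X b j) := by
      simp only [hx b hb b' hb', Fin.sum_univ_three]; ring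
    show |FF cP P y X b' - FF cP P y X b -
      ∑ j, (∑ k, M k j * GG q P y X b k) * (x b' j - x b j)| ≤ _
    rw [e1]
    refine h1.trans ?_
    have h2 : L ^ 2 * CK K * r ^ 2 ≤ L ^ 3 * CK K * r ^ 2 :=
      mul_le_mul_of_nonneg_right (mul_le_mul_of_nonneg_right h23 hC0.le) (sq_nonneg r)
    have h3 : 1 * (CK K * (1 / (H:ℝ))) ≤ L ^ 3 * (CK K * (1 / H)) :=
      mul_le_mul_of_nonneg_right hL3 (by positivity)
    have h4 : 0 ≤ L ^ 3 * CK K * r ^ 2 := by positivity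
    have h5 : 0 ≤ L ^ 3 * (CK K * (1 / (H:ℝ))) := by positivity
    rw [hKCe]
    have e2 : CK K * ((3 * (L * r)) ^ 2 + 1 / H) = 9 * (L ^ 2 * CK K * r ^ 2) +
        1 * (CK K * (1 / H)) := by ring
    have e3 : 27 * (L ^ 3 * CK K) * (r ^ 2 + 1 / H) = 27 * (L ^ 3 * CK K * r ^ 2) +
        27 * (L ^ 3 * (CK K * (1 / H))) := by ring
    rw [e2, e3]
    linarith
  · intro b hb b' hb' r hr i
    have h1 := fun k => D.t2 hb hb' (hrr b hb b' hb' r hr) k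
    have e1 : (∑ k, M k i * GG q P y X b' k) - (∑ k, M k i * GG q P y X b k) -
        ∑ j, (∑ k, ∑ l, M k i * M l j * HH q P y X b k l) * (x b' j - x b j) =
        ∑ k, M k i * (GG q P y X b' k - GG q P y X b k -
          ∑ j, HH q P y X b k j * (X b' j - X b j)) := by
      simp only [hx b hb b' hb', Fin.sum_univ_three]; ring
    show |(∑ k, M k i * GG q P y X b' k) - (∑ k, M k i * GG q P y X b k) -
        ∑ j, (∑ k, ∑ l, M k i * M l j * HH q P y X b k l) * (x b' j - x b j)| ≤ _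
    rw [e1]
    refine (mtdot_le hM h1 i).trans ?_
    have h3 : L * (CK K * (1 / (H:ℝ))) ≤ L ^ 3 * (CK K * (1 / H)) :=
      mul_le_mul_of_nonneg_right h13 (by positivity)
    have h5 : 0 ≤ L ^ 3 * (CK K * (1 / (H:ℝ))) := by positivity
    rw [hKCe]
    have e2 : 3 * (L * (CK K * ((3 * (L * r)) ^ 2 + 1 / H))) = 27 * (L ^ 3 * CK K * r ^ 2) +
        3 * (L * (CK K * (1 / H))) := by ring
    have e3 : 27 * (L ^ 3 * CK K) * (r ^ 2 + 1 / H) = 27 * (L ^ 3 * CK K * r ^ 2) +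
        27 * (L ^ 3 * (CK K * (1 / H))) := by ring
    rw [e2, e3]
    linarith
  · intro b hb b' hb' r hr i j
    have h1 := fun k l => D.t3 hb hb' (hrr b hb b' hb' r hr) k l
    have e1 : (∑ k, ∑ l, M k i * M l j * HH q P y X b' k l) -
        (∑ k, ∑ l, M k i * M l j * HH q P y X b k l) =
        ∑ k, ∑ l, M k i * M l j * (HH q P y X b' k l - HH q P y X b k l) := by
      simp only [Fin.sum_univ_three]; ring
    show |(∑ k, ∑ l, M k i * M l j * HH q P y X b' k l) -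
        (∑ k, ∑ l, M k i * M l j * HH q P y X b k l)| ≤ _
    rw [e1]
    refine (mtm_le hM h1 i j).trans ?_
    have h3 : L ^ 2 * (CK K * (1 / (H:ℝ))) ≤ L ^ 3 * (CK K * (1 / H)) :=
      mul_le_mul_of_nonneg_right h23 (by positivity)
    have h5 : 0 ≤ L ^ 3 * (CK K * (1 / (H:ℝ))) := by positivity
    rw [hKCe]
    have e2 : 9 * (L ^ 2 * (CK K * (3 * (L * r) + 1 / H))) = 27 * (L ^ 3 * CK K * r) +
        9 * (L ^ 2 * (CK K * (1 / H))) := by ring
    have e3 : 27 * (L ^ 3 * CK K) * (r + 1 / H) = 27 * (L ^ 3 * CK K * r) +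
        27 * (L ^ 3 * (CK K * (1 / H))) := by ring
    rw [e2, e3]
    linarith
  · exact hnd

end Crest.Agent.R136.Adp876
end

-- ▼ part R136/Ndc_876

/-!
# R136 (U4, PLAN 2 (AL), leaf (D)): count of the nondegenerate boxes (helper876)

`cg` : chart around a line `T0` (frame `fr S.e S.w`, sheared and scaled, helper214's `cx`).
`jS_chart` : the jets of `AlD601` in terms of the jets of the chart.
`nd_count` : number of boxes of a sheet with a nondegenerate point of `q'`.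
-/

set_option autoImplicit false
set_option linter.unusedVariables false

namespace Crest.Agent.R136.Adp876

open Crest.Agent.R136.Rk601 Crest.Agent.R136.Sh605
open Crest.Agent.R136.Tl102 (cmb fr)
open Crest.Agent.R136.K4 (Plk4)
open Crest.Agent.R136.Gbx862 (zj gb lc)
open Crest.Agent.R136.AlD601

/-- chart around the line `T0` -/
def cg (f : Fin 3 → V3) (T0 : Ln4) (z0 ρ σ s1 s2 r : ℝ) (ζ y u v : ℝ) : V3 :=
  T0.pos (z0 + ρ * ζ) + cmb f ![σ * y - s1 * (r * u) - s2 * (r * v), r * u, r * v]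

/-- relative velocity of `T0` in the frame -/
noncomputable def gv (S : Plk4) (ρ : ℝ) (T0 : Ln4) (k : Fin 3) : ℝ :=
  ρ * dt (S.e k) (T0.v - S.c.v) / S.w k

/-- `α` of the change chart of `S` → chart around `T0` -/
noncomputable def cα (σ : ℝ) : ℝ := 1 / σ

/-- `β` -/
noncomputable def cβ (g : Fin 3 → ℝ) (σ s1 s2 : ℝ) : Fin 3 → ℝ :=
  ![-(g 0 + s1 * g 1 + s2 * g 2) / σ, s1 / σ, s2 / σ]

/-- base matrix -/
noncomputable def cN (g : Fin 3 → ℝ) (r : ℝ) : Fin 3 → Fin 3 → ℝ :=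
  ![![1, 0, 0], ![-g 1 / r, 1 / r, 0], ![-g 2 / r, 0, 1 / r]]

theorem vel_frame {S : Plk4} (hO : Ortho S.e) (hw : ∀ k, 0 < S.w k) (ρ : ℝ) (T0 : Ln4) :
    (fun i => ρ * (T0.v i - S.c.v i)) = cmb (fr S.e S.w) (gv S ρ T0) := by
  funext i
  have h := hO.expand (T0.v - S.c.v) i
  have h0 := (hw 0).ne'
  have h1 := (hw 1).ne'
  have h2 := (hw 2).ne'
  simp only [Pi.sub_apply] at h
  simp only [cmb, fr, gv, Pi.smul_apply, smul_eq_mul]
  rw [h]
  field_simp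

/-- **change of the chart at a point** -/
theorem cg_shift {S : Plk4} (hO : Ortho S.e) (hw : ∀ k, 0 < S.w k) {z0 ρ : ℝ} {T0 : Ln4}
    {σ s1 s2 r : ℝ} (hσ : σ ≠ 0) (hr : r ≠ 0) (ζ0 y0 u0 v0 y ζ u v : ℝ) :
    cg (fr S.e S.w) T0 z0 ρ σ s1 s2 r ζ0 y0 u0 v0 + (ρ * ζ) • S.c.v +
      cmb (fr S.e S.w) ![y, u, v] =
    cg (fr S.e S.w) T0 z0 ρ σ s1 s2 r (ζ0 + ∑ i, cN (gv S ρ T0) r 0 i * ![ζ, u, v] i)
      (y0 + (cα σ * y + ∑ i, cβ (gv S ρ T0) σ s1 s2 i * ![ζ, u, v] i))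
      (u0 + ∑ i, cN (gv S ρ T0) r 1 i * ![ζ, u, v] i)
      (v0 + ∑ i, cN (gv S ρ T0) r 2 i * ![ζ, u, v] i) := by
  have hv := vel_frame hO hw ρ T0
  funext i
  have hvi := congrFun hv i
  simp only [cmb] at hvi
  simp only [cg, cmb, Ln4.pos, Pi.add_apply, Pi.smul_apply, smul_eq_mul, Fin.sum_univ_three, cN,
    cβ, cα, Matrix.cons_val]
  have e : T0.v i = S.c.v i + (T0.v i - S.c.v i) := by ring
  have e2 : ρ * ζ * T0.v i = ρ * ζ * S.c.v i + ζ * (ρ * (T0.v i - S.c.v i)) := by ring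
  have e3 : (z0 + ρ * (ζ0 + (1 * ζ + 0 * u + 0 * v))) * T0.v i =
      (z0 + ρ * ζ0) * T0.v i + ρ * ζ * T0.v i := by ring
  rw [e3, e2, hvi]
  field_simp
  ring

theorem vec3 (a b c : ℝ) (x : Fin 3 → ℝ) (h0 : x 0 = a) (h1 : x 1 = b) (h2 : x 2 = c) :
    x = ![a, b, c] := by
  funext i; fin_cases i
  · exact h0
  · exact h1
  · exact h2

/-- **the jets in the chart of `S`** of a function which is quadratic in the chart `cg` -/
theorem jS_of {S : Plk4} (hO : Ortho S.e) (hw : ∀ k, 0 < S.w k) {z0 ρ : ℝ} {T0 : Ln4}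
    {σ s1 s2 r : ℝ} (hσ : σ ≠ 0) (hr : r ≠ 0) {q' : ℝ → V3 → ℝ} {c : ℝ} {J : Jt} (hs : J.Sym)
    (hq : ∀ ζ y u v, q' (z0 + ρ * ζ) (cg (fr S.e S.w) T0 z0 ρ σ s1 s2 r ζ y u v) =
      c + ev J y ![ζ, u, v]) {H j : ℕ} {T : Ln4} {y0 u0 v0 : ℝ}
    (pt : T.pos (zj z0 ρ H j) = cg (fr S.e S.w) T0 z0 ρ σ s1 s2 r ((j : ℝ) / H) y0 u0 v0) :
    jS S q' z0 ρ H j T =
      bc (cα σ) (cβ (gv S ρ T0) σ s1 s2) (cN (gv S ρ T0) r) (sh J y0 ![(j : ℝ) / H, u0, v0]) := by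
  have hs' : (sh J y0 ![(j : ℝ) / H, u0, v0]).Sym := hs
  refine jt_eq ?_ (bc_sym hs')
  intro y ζ u v
  have e0 : zj z0 ρ H j = z0 + ρ * ((j : ℝ) / H) := rfl
  have e1 : zj z0 ρ H j + ρ * ζ = z0 + ρ * ((j : ℝ) / H + ∑ i, cN (gv S ρ T0) r 0 i * ![ζ, u, v] i)
      := by
    simp only [cN, Fin.sum_univ_three, Matrix.cons_val, e0]; ring
  rw [pt, cg_shift hO hw hσ hr, e1, hq, e0, hq]
  have key := ev_add (J := J) hs y0
    (cα σ * y + ∑ i, cβ (gv S ρ T0) σ s1 s2 i * ![ζ, u, v] i) ![(j : ℝ) / H, u0, v0]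
    (fun k => ∑ i, cN (gv S ρ T0) r k i * ![ζ, u, v] i)
  have e2 : (fun i => (![(j : ℝ) / H, u0, v0] : Fin 3 → ℝ) i +
      ∑ i_1, cN (gv S ρ T0) r i i_1 * ![ζ, u, v] i_1) =
      ![(j : ℝ) / H + ∑ i, cN (gv S ρ T0) r 0 i * ![ζ, u, v] i,
        u0 + ∑ i, cN (gv S ρ T0) r 1 i * ![ζ, u, v] i,
        v0 + ∑ i, cN (gv S ρ T0) r 2 i * ![ζ, u, v] i] :=
    vec3 _ _ _ _ rfl rfl rfl
  rw [e2] at key
  rw [key, ← bc_ev, ev_eq (bc (cα σ) (cβ (gv S ρ T0) σ s1 s2) (cN (gv S ρ T0) r)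
    (sh J y0 ![(j : ℝ) / H, u0, v0]))]
  ring

theorem sh_sm (k : ℝ) (J : Jt) (y : ℝ) (x : Fin 3 → ℝ) : sh (sm k J) y x = sm k (sh J y x) := by
  simp only [sh, sm, Fin.sum_univ_three, Jt.mk.injEq, and_true]
  refine ⟨by ring, ?_⟩
  funext i; ring

theorem sh_addm (P : Jt) (k : ℝ) (q : Jt) (y : ℝ) (x : Fin 3 → ℝ) :
    sh (P.addm k q) y x = (sh P y x).addm k (sh q y x) := by
  simp only [sh, Jt.addm, Fin.sum_univ_three, Jt.mk.injEq, and_true]
  refine ⟨by ring, ?_⟩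
  funext i; ring

section

variable {S : Plk4} {q' : ℝ → V3 → ℝ} {z0 ρ : ℝ} {T0 : Ln4} {σ s1 s2 r k0 μ Λ cq cP : ℝ}
  {Jq JP : Jt}

/-- tangential gradient and Hessian of `AlD601` in the chart -/
theorem tg_th (hO : Ortho S.e) (hw : ∀ k, 0 < S.w k) (hσ : σ ≠ 0) (hr : r ≠ 0) (hk0 : k0 ≠ 0)
    (hq : ∀ ζ y u v, S.q (z0 + ρ * ζ) (cg (fr S.e S.w) T0 z0 ρ σ s1 s2 r ζ y u v) =
      k0 * (cq + ev Jq y ![ζ, u, v]))
    (hP : ∀ ζ y u v, q' (z0 + ρ * ζ) (cg (fr S.e S.w) T0 z0 ρ σ s1 s2 r ζ y u v) -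
      μ * S.q (z0 + ρ * ζ) (cg (fr S.e S.w) T0 z0 ρ σ s1 s2 r ζ y u v) =
      Λ * (cP + ev JP y ![ζ, u, v])) (sq : Jq.Sym) (sP : JP.Sym) {H j : ℕ} {T : Ln4}
    {y0 u0 v0 : ℝ}
    (pt : T.pos (zj z0 ρ H j) = cg (fr S.e S.w) T0 z0 ρ σ s1 s2 r ((j : ℝ) / H) y0 u0 v0)
    (h0 : (sh Jq y0 ![(j : ℝ) / H, u0, v0]).a0 ≠ 0) :
    (∀ i, tg (jS S S.q z0 ρ H j T) (jS S q' z0 ρ H j T) i = Λ * ∑ k, cN (gv S ρ T0) r k i *
      tg (sh Jq y0 ![(j : ℝ) / H, u0, v0]) (sh JP y0 ![(j : ℝ) / H, u0, v0]) k) ∧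
    ∀ i i', th (jS S S.q z0 ρ H j T) (jS S q' z0 ρ H j T) i i' =
      Λ * ∑ k, ∑ l, cN (gv S ρ T0) r k i * cN (gv S ρ T0) r l i' *
      th (sh Jq y0 ![(j : ℝ) / H, u0, v0]) (sh JP y0 ![(j : ℝ) / H, u0, v0]) k l := by
  have q1 : ∀ ζ y u v, S.q (z0 + ρ * ζ) (cg (fr S.e S.w) T0 z0 ρ σ s1 s2 r ζ y u v) =
      k0 * cq + ev (sm k0 Jq) y ![ζ, u, v] := fun ζ y u v => by
    rw [hq, sm_ev]; ring
  have q2 : ∀ ζ y u v, q' (z0 + ρ * ζ) (cg (fr S.e S.w) T0 z0 ρ σ s1 s2 r ζ y u v) =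
      (Λ * cP + μ * (k0 * cq)) + ev ((sm Λ JP).addm μ (sm k0 Jq)) y ![ζ, u, v] := fun ζ y u v => by
    have h1 := hP ζ y u v
    rw [hq] at h1
    rw [addm_ev, sm_ev, sm_ev]
    linarith
  have j1 := jS_of hO hw hσ hr (sm_sym (k := k0) sq) q1 pt
  have j2 := jS_of hO hw hσ hr (addm_sym (k := μ) (sm_sym (k := Λ) sP) (sm_sym (k := k0) sq)) q2 pt
  rw [sh_sm] at j1
  rw [sh_addm, sh_sm, sh_sm] at j2
  set Q := sh Jq y0 ![(j : ℝ) / H, u0, v0] with hQ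
  set P := sh JP y0 ![(j : ℝ) / H, u0, v0] with hPd
  have hα : cα σ ≠ 0 := by unfold cα; exact one_div_ne_zero hσ
  have h1 : (sm k0 Q).a0 ≠ 0 := mul_ne_zero hk0 h0
  rw [j1, j2]
  constructor
  · intro i
    rw [tg_bc hα h1, Finset.mul_sum]
    refine Finset.sum_congr rfl fun k _ => ?_
    rw [tg_addm h1, tg_sm hk0 h0]; ring
  · intro i i'
    rw [th_bc hα h1, Finset.mul_sum]
    refine Finset.sum_congr rfl fun k _ => ?_
    rw [Finset.mul_sum]
    refine Finset.sum_congr rfl fun l _ => ?_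
    rw [th_addm h1, th_sm hk0 h0]; ring

end

/-- lateral coordinates of a point of the chart -/
theorem lc_cg {S : Plk4} (hO : Ortho S.e) (hw : ∀ k, 0 < S.w k) {z0 ρ : ℝ} {T0 : Ln4}
    {σ s1 s2 r : ℝ} {H j : ℕ} {T : Ln4} {y0 u0 v0 : ℝ}
    (pt : T.pos (zj z0 ρ H j) = cg (fr S.e S.w) T0 z0 ρ σ s1 s2 r ((j : ℝ) / H) y0 u0 v0) :
    lc S.e S.c 1 T (zj z0 ρ H j) =
      lc S.e S.c 1 T0 z0 + S.w 1 * (gv S ρ T0 1 * ((j : ℝ) / H) + r * u0) ∧
    lc S.e S.c 2 T (zj z0 ρ H j) =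
      lc S.e S.c 2 T0 z0 + S.w 2 * (gv S ρ T0 2 * ((j : ℝ) / H) + r * v0) := by
  have hd := fun k => Tl102.dt_cmb_fr hO S.w
    ![σ * y0 - s1 * (r * u0) - s2 * (r * v0), r * u0, r * v0] k
  have hd1 := hd 1
  have hd2 := hd 2
  simp only [Matrix.cons_val] at hd1 hd2
  have h1 := (hw 1).ne'
  have h2 := (hw 2).ne'
  have e : ∀ k, lc S.e S.c k T (zj z0 ρ H j) = lc S.e S.c k T0 z0 +
      ρ * ((j : ℝ) / H) * dt (S.e k) (T0.v - S.c.v) + dt (S.e k) (cmb (fr S.e S.w)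
        ![σ * y0 - s1 * (r * u0) - s2 * (r * v0), r * u0, r * v0]) := fun k => by
    unfold lc
    rw [pt]
    simp only [cg, dt, Ln4.pos, Pi.add_apply, Pi.sub_apply, zj]
    ring
  constructor
  · rw [e 1, hd1]
    unfold gv; field_simp; ring
  · rw [e 2, hd2]
    unfold gv; field_simp; ring

section

variable {S : Plk4} {q' : ℝ → V3 → ℝ} {z0 ρ : ℝ} {T0 : Ln4} {σ s1 s2 r k0 μ Λ cq cP : ℝ}
  {Jq JP : Jt}

/-- ratios of the label coordinates and the chart coordinates of `S` -/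
noncomputable def dD (S : Plk4) (w1 w2 : ℝ) : Fin 3 → ℝ := ![1, S.w 1 / w1, S.w 2 / w2]

/-- matrix label coordinates → chart coordinates -/
noncomputable def cM (S : Plk4) (ρ : ℝ) (T0 : Ln4) (r w1 w2 : ℝ) (k j : Fin 3) : ℝ :=
  cN (gv S ρ T0) r k j / dD S w1 w2 j

/-- **count of the boxes of the sheet `S` at which `q'` is nondegenerate** (raw form: the chart is an
input) -/
theorem nd_count {K W w1 w2 l m β : ℝ} {H N : ℕ} (hO : Ortho S.e) (hw : ∀ k, 0 < S.w k)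
    (hσ : σ ≠ 0) (hr : 0 < r) (hrW : 1 / r ≤ W) (hW : 1 ≤ W) (hk0 : k0 ≠ 0) (hΛ : 0 < Λ)
    (hH : 1 ≤ H) (hw1 : 0 < w1) (hw2 : 0 < w2) (d1 : S.w 1 ≤ W * w1 ∧ w1 ≤ W * S.w 1)
    (d2 : S.w 2 ≤ W * w2 ∧ w2 ≤ W * S.w 2) (hg1 : |gv S ρ T0 1| ≤ W) (hg2 : |gv S ρ T0 2| ≤ W)
    (hq : ∀ ζ y u v, S.q (z0 + ρ * ζ) (cg (fr S.e S.w) T0 z0 ρ σ s1 s2 r ζ y u v) =
      k0 * (cq + ev Jq y ![ζ, u, v]))
    (hP : ∀ ζ y u v, q' (z0 + ρ * ζ) (cg (fr S.e S.w) T0 z0 ρ σ s1 s2 r ζ y u v) -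
      μ * S.q (z0 + ρ * ζ) (cg (fr S.e S.w) T0 z0 ρ σ s1 s2 r ζ y u v) =
      Λ * (cP + ev JP y ![ζ, u, v]))
    (hK : 1 ≤ K) (bq : Bd Jq K) (bP : Bd JP K)
    (st : ∀ (y : ℝ) (x : Fin 3 → ℝ), |y| ≤ 1 → (∀ i, |x i| ≤ 1) → 0 ≤ x 0 →
      1 / K ≤ |(sh Jq y x).a0|)
    (T : Finset ((ℤ × ℤ) × ℕ)) (Tb : (ℤ × ℤ) × ℕ → Ln4) (yb ub vb : (ℤ × ℤ) × ℕ → ℝ)
    (hj : ∀ b ∈ T, b.2 ≤ H)
    (pt : ∀ b ∈ T, (Tb b).pos (zj z0 ρ H b.2) =
      cg (fr S.e S.w) T0 z0 ρ σ s1 s2 r ((b.2 : ℝ) / H) (yb b) (ub b) (vb b))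
    (p1 : ∀ b ∈ T, |yb b| ≤ 1 ∧ |ub b| ≤ 1 ∧ |vb b| ≤ 1)
    (on : ∀ b ∈ T, |S.q (zj z0 ρ H b.2) ((Tb b).pos (zj z0 ρ H b.2))| ≤ |k0| * (K * (1 / H)))
    (onP : ∀ b ∈ T, |q' (zj z0 ρ H b.2) ((Tb b).pos (zj z0 ρ H b.2)) -
      μ * S.q (zj z0 ρ H b.2) ((Tb b).pos (zj z0 ρ H b.2))| ≤ Λ * β)
    (lab : ∀ b ∈ T, gb S.e S.c w1 w2 z0 ρ H (Tb b) b.2 = b.1)
    (box : ∀ b ∈ T, ∀ k, |lc S.e S.c k (Tb b) (zj z0 ρ H b.2)| ≤ S.w k)
    (hl : 0 < l) (hm : 0 < m) (hm1 : m ≤ 1) (hβ : 1 / (H : ℝ) ≤ β) (hN1 : 1 ≤ N)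
    (hN : 5000 * (KC K (W ^ 3) * W ^ 3) ≤ 2 ^ N * √β)
    (nd : ∀ b ∈ T, Nd S q' z0 ρ H b.2 (Tb b) l m Λ) :
    (T.card : ℝ) ≤ 10 ^ 52 * N * (KC K (W ^ 3)) ^ 10 * W ^ 33 *
      (1 / (l / W) ^ 2 + 1 / (m / W ^ 4) ^ 5) * β * (H : ℝ) ^ 3 := by
  have hW0 : (0:ℝ) < W := by linarith
  have hHr : (0:ℝ) < H := by exact_mod_cast hH
  have hH1 : (1:ℝ) ≤ H := by exact_mod_cast hH
  have hS1 := hw 1
  have hS2 := hw 2
  have hW2 : W ≤ W ^ 2 := le_self_pow₀ hW (by norm_num)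
  have hW3 : W ≤ W ^ 3 := le_self_pow₀ hW (by norm_num)
  have hW13 : (1:ℝ) ≤ W ^ 3 := one_le_pow₀ hW
  have hW12 : (1:ℝ) ≤ W ^ 2 := one_le_pow₀ hW
  have hW23 : W ^ 2 ≤ W ^ 3 := pow_le_pow_right₀ hW (by norm_num)
  set X : (ℤ × ℤ) × ℕ → Fin 3 → ℝ := fun b => ![(b.2 : ℝ) / H, ub b, vb b] with hX
  set x : (ℤ × ℤ) × ℕ → Fin 3 → ℝ := fun b => ![(b.2 : ℝ) / H,
    lc S.e S.c 1 (Tb b) (zj z0 ρ H b.2) / w1, lc S.e S.c 2 (Tb b) (zj z0 ρ H b.2) / w2] with hx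
  have hζ : ∀ b ∈ T, 0 ≤ (b.2 : ℝ) / H ∧ (b.2 : ℝ) / H ≤ 1 := fun b hb => by
    refine ⟨by positivity, ?_⟩
    rw [div_le_one hHr]; exact_mod_cast hj b hb
  -- the diagonal
  have hD : ∀ j, 0 < dD S w1 w2 j ∧ dD S w1 w2 j ≤ W ∧ 1 / dD S w1 w2 j ≤ W := by
    intro j
    fin_cases j
    · refine ⟨by simp [dD], by simpa [dD] using hW, by simpa [dD] using hW⟩
    · show 0 < S.w 1 / w1 ∧ S.w 1 / w1 ≤ W ∧ 1 / (S.w 1 / w1) ≤ W
      refine ⟨by positivity, ?_, ?_⟩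
      · rw [div_le_iff₀ hw1]; exact d1.1
      · rw [one_div_div, div_le_iff₀ hS1]; exact d1.2
    · show 0 < S.w 2 / w2 ∧ S.w 2 / w2 ≤ W ∧ 1 / (S.w 2 / w2) ≤ W
      refine ⟨by positivity, ?_, ?_⟩
      · rw [div_le_iff₀ hw2]; exact d2.1
      · rw [one_div_div, div_le_iff₀ hS2]; exact d2.2
  have hNle : ∀ k j, |cN (gv S ρ T0) r k j| ≤ W ^ 2 := by
    have h1 : |1 / r| ≤ W ^ 2 := by
      rw [abs_of_pos (by positivity)]; linarith
    have h0 : |(0:ℝ)| ≤ W ^ 2 := by rw [abs_zero]; positivity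
    have h11 : |(1:ℝ)| ≤ W ^ 2 := by rw [abs_one]; exact hW12
    have hgr : ∀ g : ℝ, |g| ≤ W → |-g / r| ≤ W ^ 2 := fun g hg => by
      rw [abs_div, abs_neg, abs_of_pos hr, div_eq_mul_one_div, sq]
      exact mul_le_mul hg hrW (by positivity) hW0.le
    intro k j
    fin_cases k <;> fin_cases j
    · exact h11
    · exact h0
    · exact h0
    · exact hgr _ hg1
    · exact h1
    · exact h0
    · exact hgr _ hg2
    · exact h0
    · exact h1
  have hM : ∀ k j, |cM S ρ T0 r w1 w2 k j| ≤ W ^ 3 := by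
    intro k j
    obtain ⟨a1, a2, a3⟩ := hD j
    unfold cM
    rw [abs_div, abs_of_pos a1, div_eq_mul_one_div]
    calc |cN (gv S ρ T0) r k j| * (1 / dD S w1 w2 j) ≤ W ^ 2 * W :=
          mul_le_mul (hNle k j) a3 (by positivity) (by positivity)
      _ = W ^ 3 := by ring
  have DT : Data (T : Set ((ℤ × ℤ) × ℕ)) cq Jq JP yb X K (1 / H) :=
    { K1 := hK
      α0 := by positivity
      α1 := by rw [div_le_one hHr]; exact hH1
      bq := bq
      bP := bP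
      st := st
      y1 := fun b hb => (p1 b hb).1
      X1 := by
        intro b hb i
        fin_cases i
        · show |(b.2 : ℝ) / H| ≤ 1
          rw [abs_of_nonneg (hζ b hb).1]; exact (hζ b hb).2
        · exact (p1 b hb).2.1
        · exact (p1 b hb).2.2
      X0 := fun b hb => (hζ b hb).1
      on := by
        intro b hb
        have h1 := on b hb
        rw [pt b hb] at h1
        have e0 : zj z0 ρ H b.2 = z0 + ρ * ((b.2 : ℝ) / H) := rfl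
        rw [e0, hq, abs_mul] at h1
        exact le_of_mul_le_mul_left h1 (abs_pos.2 hk0) }
  have hxX : ∀ b ∈ T, ∀ b' ∈ T, ∀ k, X b' k - X b k =
      ∑ j, cM S ρ T0 r w1 w2 k j * (x b' j - x b j) := by
    intro b hb b' hb' k
    obtain ⟨e1, e2⟩ := lc_cg hO hw (pt b hb)
    obtain ⟨f1, f2⟩ := lc_cg hO hw (pt b' hb')
    rw [Fin.sum_univ_three]
    fin_cases k
    · show (b'.2 : ℝ) / H - (b.2 : ℝ) / H = 1 / 1 * ((b'.2 : ℝ) / H - (b.2 : ℝ) / H) +
        0 / (S.w 1 / w1) * _ + 0 / (S.w 2 / w2) * _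
      ring
    · show ub b' - ub b = (-gv S ρ T0 1 / r) / 1 * ((b'.2 : ℝ) / H - (b.2 : ℝ) / H) +
        (1 / r) / (S.w 1 / w1) * (lc S.e S.c 1 (Tb b') (zj z0 ρ H b'.2) / w1 -
          lc S.e S.c 1 (Tb b) (zj z0 ρ H b.2) / w1) + 0 / (S.w 2 / w2) * _
      rw [e1, f1]
      field_simp
      ring
    · show vb b' - vb b = (-gv S ρ T0 2 / r) / 1 * ((b'.2 : ℝ) / H - (b.2 : ℝ) / H) +
        0 / (S.w 1 / w1) * _ + (1 / r) / (S.w 2 / w2) *
          (lc S.e S.c 2 (Tb b') (zj z0 ρ H b'.2) / w2 -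
          lc S.e S.c 2 (Tb b) (zj z0 ρ H b.2) / w2)
      rw [e2, f2]
      field_simp
      ring
  have hl' : 0 < l / W := by positivity
  have hm' : 0 < m / W ^ 4 := by positivity
  have hm1' : m / W ^ 4 ≤ 1 := by
    rw [div_le_one (by positivity)]
    exact hm1.trans (one_le_pow₀ hW)
  refine count_chg (cP := cP) hH DT (M := cM S ρ T0 r w1 w2) hW13 hM hW x hxX ?_ ?_ ?_ ?_ hl' hm'
    hm1' hβ hN1 hN ?_ ?_
  · intro b hb; rfl
  · intro b hb
    have h1 := lab b hb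
    unfold gb at h1
    have h2 := congrArg Prod.fst h1
    simp only at h2
    show ⌊(H : ℝ) * (lc S.e S.c 1 (Tb b) (zj z0 ρ H b.2) / w1)⌋ = b.1.1
    rw [← mul_div_assoc]; exact h2
  · intro b hb
    have h1 := lab b hb
    unfold gb at h1
    have h2 := congrArg Prod.snd h1
    simp only at h2
    show ⌊(H : ℝ) * (lc S.e S.c 2 (Tb b) (zj z0 ρ H b.2) / w2)⌋ = b.1.2
    rw [← mul_div_assoc]; exact h2
  · intro b hb i
    fin_cases i
    · show |(b.2 : ℝ) / H| ≤ W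
      rw [abs_of_nonneg (hζ b hb).1]; exact (hζ b hb).2.trans hW
    · show |lc S.e S.c 1 (Tb b) (zj z0 ρ H b.2) / w1| ≤ W
      rw [abs_div, abs_of_pos hw1, div_le_iff₀ hw1]
      exact (box b hb 1).trans d1.1
    · show |lc S.e S.c 2 (Tb b) (zj z0 ρ H b.2) / w2| ≤ W
      rw [abs_div, abs_of_pos hw2, div_le_iff₀ hw2]
      exact (box b hb 2).trans d2.1
  · intro b hb
    have h1 := onP b hb
    rw [pt b hb] at h1
    have e0 : zj z0 ρ H b.2 = z0 + ρ * ((b.2 : ℝ) / H) := rfl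
    rw [e0, hP, abs_mul, abs_of_pos hΛ] at h1
    exact le_of_mul_le_mul_left h1 hΛ
  · intro b hb
    have hXv : X b = ![(b.2 : ℝ) / H, ub b, vb b] := rfl
    have h0 : (sh Jq (yb b) ![(b.2 : ℝ) / H, ub b, vb b]).a0 ≠ 0 := by
      have h1 := DT.st5 hb
      rw [hXv] at h1
      have h2 : 0 < |(sh Jq (yb b) ![(b.2 : ℝ) / H, ub b, vb b]).a0| :=
        lt_of_lt_of_le (by positivity) h1
      exact abs_pos.1 h2
    obtain ⟨g1, g2⟩ := tg_th hO hw hσ hr.ne' hk0 hq hP bq.s bP.s (pt b hb) h0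
    have eG : ∀ i, ∑ k, cM S ρ T0 r w1 w2 k i * GG Jq JP yb X b k =
        tg (jS S S.q z0 ρ H b.2 (Tb b)) (jS S q' z0 ρ H b.2 (Tb b)) i / (Λ * dD S w1 w2 i) := by
      intro i
      have hd := (hD i).1.ne'
      rw [g1 i]
      unfold GG cM
      rw [hXv]
      simp only [Fin.sum_univ_three]
      field_simp
    have eH : ∀ i i', ∑ k, ∑ l, cM S ρ T0 r w1 w2 k i * cM S ρ T0 r w1 w2 l i' *
        HH Jq JP yb X b k l =
        th (jS S S.q z0 ρ H b.2 (Tb b)) (jS S q' z0 ρ H b.2 (Tb b)) i i' /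
          (Λ * (dD S w1 w2 i * dD S w1 w2 i')) := by
      intro i i'
      have hd := (hD i).1.ne'
      have hd' := (hD i').1.ne'
      rw [g2 i i']
      unfold HH cM
      rw [hXv]
      simp only [Fin.sum_univ_three]
      field_simp
    rcases nd b hb with ⟨i, hi⟩ | ⟨i, j, k, k', hi⟩
    · left
      refine ⟨i, ?_⟩
      rw [eG i]
      obtain ⟨a1, a2, a3⟩ := hD i
      rw [abs_div, abs_of_pos (mul_pos hΛ a1), le_div_iff₀ (mul_pos hΛ a1)]
      have e1 : l / W * (Λ * dD S w1 w2 i) ≤ l / W * (Λ * W) :=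
        mul_le_mul_of_nonneg_left (mul_le_mul_of_nonneg_left a2 hΛ.le) hl'.le
      have e2 : l / W * (Λ * W) = l * Λ := by field_simp
      linarith
    · right
      refine ⟨i, j, k, k', ?_⟩
      have hdi := hD i
      have hdj := hD j
      have hdk := hD k
      have hdk' := hD k'
      have e3 : mn (fun i j => ∑ k, ∑ l, cM S ρ T0 r w1 w2 k i * cM S ρ T0 r w1 w2 l j *
          HH Jq JP yb X b k l) i j k k' =
          mn (th (jS S S.q z0 ρ H b.2 (Tb b)) (jS S q' z0 ρ H b.2 (Tb b))) i j k k' /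
            (Λ ^ 2 * ((dD S w1 w2 i * dD S w1 w2 j) * (dD S w1 w2 k * dD S w1 w2 k'))) := by
        unfold mn
        simp only [eH]
        have n1 := hdi.1.ne'
        have n2 := hdj.1.ne'
        have n3 := hdk.1.ne'
        have n4 := hdk'.1.ne'
        field_simp
      rw [e3]
      have hp : 0 < (dD S w1 w2 i * dD S w1 w2 j) * (dD S w1 w2 k * dD S w1 w2 k') :=
        mul_pos (mul_pos hdi.1 hdj.1) (mul_pos hdk.1 hdk'.1)
      have hp2 : 0 < Λ ^ 2 * ((dD S w1 w2 i * dD S w1 w2 j) * (dD S w1 w2 k * dD S w1 w2 k')) :=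
        by positivity
      rw [abs_div, abs_of_pos hp2, le_div_iff₀ hp2]
      have hle : (dD S w1 w2 i * dD S w1 w2 j) * (dD S w1 w2 k * dD S w1 w2 k') ≤ (W * W) * (W * W) :=
        mul_le_mul (mul_le_mul hdi.2.1 hdj.2.1 hdj.1.le hW0.le)
          (mul_le_mul hdk.2.1 hdk'.2.1 hdk'.1.le hW0.le) (mul_pos hdk.1 hdk'.1).le
          (by positivity)
      have e1 : m / W ^ 4 * (Λ ^ 2 * ((dD S w1 w2 i * dD S w1 w2 j) *
          (dD S w1 w2 k * dD S w1 w2 k'))) ≤ m / W ^ 4 * (Λ ^ 2 * ((W * W) * (W * W))) :=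
        mul_le_mul_of_nonneg_left (mul_le_mul_of_nonneg_left hle (by positivity)) hm'.le
      have e2 : m / W ^ 4 * (Λ ^ 2 * ((W * W) * (W * W))) = m * Λ ^ 2 := by field_simp
      linarith

end

end Crest.Agent.R136.Adp876
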