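import Crest.Agent.R136.Cmd_113
import Crest.Agent.R136.Cbx3_140
import Crest.Agent.R136.Ndl_372
import Crest.Agent.R136.Pl2Def_860
import Crest.Agent.R136.Hl4_706

-- ▼ part R136/Cmt_113
section

/-!
# R136 (S0187), PLAN 2, (C3): `meetU`, `meetV` of `Ndl372` over `TCore`
-/

set_option autoImplicit false
set_option linter.unusedVariables false

open Finset

namespace Crest.Agent.R136.Cmd113

open Crest.Agent.R136.Sh605 Crest.Agent.R136.Fl808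
open Crest.Agent.R136.Hl706 (det3)
open Crest.Agent.R136.Cbx140 (Tb Tb.symm tb_of_dy place_dy inB_sub)
open Crest.Agent.R136.Ndl372 (join)
open Crest.Agent.R136.Pl2

open Classical in
theorem mem_join {ι κ κ' : Type*} {P : Finset ι} {u : ι → κ} {v : ι → κ'} {cv : ι → ι → Prop}
    {av : ι → ι → ℝ} {y : ℝ} {c c'' : κ} {t : ι} :
    t ∈ join P u v cv av y c c'' ↔
      t ∈ P ∧ u t = c ∧ ∃ t'' ∈ P, u t'' = c'' ∧ v t'' = v t ∧ cv t t'' ∧ y < av t t'' := by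
  unfold join
  exact mem_filter

/-- an affine function which is small at both ends is small inside -/
theorem dt_affine (n : V3) (s t : Ln4) {z0 ρ m : ℝ} (hρ : 0 < ρ)
    (h0 : |dt n (s.pos z0 - t.pos z0)| ≤ m) (h1 : |dt n (s.pos (z0 + ρ) - t.pos (z0 + ρ))| ≤ m) :
    ∀ z, z0 ≤ z → z ≤ z0 + ρ → |dt n (s.pos z - t.pos z)| ≤ m := by
  intro z hz hz'
  have key : ρ * dt n (s.pos z - t.pos z) =
      (z0 + ρ - z) * dt n (s.pos z0 - t.pos z0) + (z - z0) *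
        dt n (s.pos (z0 + ρ) - t.pos (z0 + ρ)) := by
    simp only [dt, Ln4.pos, Pi.sub_apply]; ring
  rw [abs_le] at h0 h1 ⊢
  have a1 : 0 ≤ z0 + ρ - z := by linarith
  have a2 : 0 ≤ z - z0 := by linarith
  constructor
  · nlinarith [mul_le_mul_of_nonneg_left h0.1 a1, mul_le_mul_of_nonneg_left h1.1 a2]
  · nlinarith [mul_le_mul_of_nonneg_left h0.2 a1, mul_le_mul_of_nonneg_left h1.2 a2]

open Classical in
/-- a class is covered by four tubes of width `w1` -/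
theorem size_of {L : ℕ → Ln4} {P : Finset ℕ} {u : ℕ → ℕ} {bu : ℕ → Ln4} {eu : ℕ → Fin 3 → V3}
    {Y w1 w2 z0 ρ G : ℝ} (hρ : 0 < ρ) (hw : 0 < w1)
    (hm : ∀ t ∈ P, InB (L t) (bu (u t)) (eu (u t)) ![Y, w1, w2] z0 ρ)
    (ht : ∀ t ∈ P, ((P.filter fun s => u s = u t ∧ ∀ z, z0 ≤ z → z ≤ z0 + ρ →
      |dt (eu (u t) 1) ((L s).pos z - (L t).pos z)| ≤ w1).card : ℝ) ≤ G) (hG : 0 ≤ G) :
    ∀ c, ((P.filter fun s => u s = c).card : ℝ) ≤ 4 * G := by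
  intro c
  -- the quadrant of a line
  set f : ℕ → Bool × Bool := fun s =>
    (decide (0 ≤ dt (eu c 1) ((L s).pos z0 - (bu c).pos z0)),
      decide (0 ≤ dt (eu c 1) ((L s).pos (z0 + ρ) - (bu c).pos (z0 + ρ)))) with hf
  have key : ∀ q : Bool × Bool,
      (((P.filter fun s => u s = c).filter fun s => f s = q).card : ℝ) ≤ G := by
    intro q
    rcases ((P.filter fun s => u s = c).filter fun s => f s = q).eq_empty_or_nonempty with h | h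
    · rw [h]; simpa using hG
    obtain ⟨t, ht0⟩ := h
    rw [mem_filter, mem_filter] at ht0
    obtain ⟨⟨htP, htc⟩, htq⟩ := ht0
    refine le_trans (Nat.cast_le.2 (card_le_card ?_)) (ht t htP)
    intro s hs
    rw [mem_filter, mem_filter] at hs
    obtain ⟨⟨hsP, hsc⟩, hsq⟩ := hs
    rw [mem_filter]
    refine ⟨hsP, hsc.trans htc.symm, ?_⟩
    rw [htc]
    have hh : f s = f t := hsq.trans htq.symm
    rw [hf] at hh
    simp only [Prod.mk.injEq, decide_eq_decide] at hh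
    have ms := hm s hsP
    have mt := hm t htP
    rw [hsc] at ms
    rw [htc] at mt
    have small : ∀ z, z0 ≤ z → z ≤ z0 + ρ →
        (0 ≤ dt (eu c 1) ((L s).pos z - (bu c).pos z) ↔
          0 ≤ dt (eu c 1) ((L t).pos z - (bu c).pos z)) →
        |dt (eu c 1) ((L s).pos z - (L t).pos z)| ≤ w1 := by
      intro z hz hz' hi
      have e1 : dt (eu c 1) ((L s).pos z - (L t).pos z) =
          dt (eu c 1) ((L s).pos z - (bu c).pos z) - dt (eu c 1) ((L t).pos z - (bu c).pos z) := by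
        simp only [dt, Pi.sub_apply]; ring
      have m1 := ms z hz hz' 1
      have m2 := mt z hz hz' 1
      simp only [Matrix.cons_val_one, Matrix.cons_val_zero] at m1 m2
      rw [e1]
      rw [abs_le] at m1 m2 ⊢
      by_cases hp : 0 ≤ dt (eu c 1) ((L s).pos z - (bu c).pos z)
      · have hp' := hi.1 hp
        constructor <;> linarith [m1.1, m1.2, m2.1, m2.2]
      · have hp' : ¬ 0 ≤ dt (eu c 1) ((L t).pos z - (bu c).pos z) := fun h => hp (hi.2 h)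
        rw [not_le] at hp hp'
        constructor <;> linarith [m1.1, m1.2, m2.1, m2.2]
    exact dt_affine _ _ _ hρ (small z0 le_rfl (by linarith) hh.1)
      (small (z0 + ρ) (by linarith) le_rfl hh.2)
  have h1 : (P.filter fun s => u s = c).card =
      ∑ q : Bool × Bool, ((P.filter fun s => u s = c).filter fun s => f s = q).card :=
    card_eq_sum_card_fiberwise fun _ _ => mem_univ _
  rw [h1]; push_cast
  calc ∑ q : Bool × Bool, (((P.filter fun s => u s = c).filter fun s => f s = q).card : ℝ)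
      ≤ ∑ _q : Bool × Bool, G := sum_le_sum fun q _ => key q
    _ = 4 * G := by
        rw [sum_const, nsmul_eq_mul]
        simp

open Classical in
/-- the count, generic form -/
theorem meet_of {L : ℕ → Ln4} {P : Finset ℕ} {u v : ℕ → ℕ} {bu bv : ℕ → Ln4}
    {eu ev : ℕ → Fin 3 → V3} {M Y w1 w2 z0 ρ B θ S : ℝ} {j k' : ℕ}
    (hM : 0 < M) (hρ : 0 < ρ) (hY : 0 < Y) (hYw : Y ≤ w2) (hw : w2 ≤ w1)
    (ou : ∀ t ∈ P, Ortho (eu (u t))) (ov : ∀ t ∈ P, Ortho (ev (v t)))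
    (mu : ∀ t ∈ P, InB (L t) (bu (u t)) (eu (u t)) ![Y, w1, w2] z0 ρ)
    (mv : ∀ t ∈ P, InB (L t) (bv (v t)) (ev (v t)) ![Y, w1, w2] z0 ρ)
    (tb : ∀ t ∈ P, Tb (eu (u t)) (ev (v t)) Y w1 w2 (2 ^ j) (2 ^ k'))
    (hlw : (2:ℝ) ^ j * w2 ≤ 2 * w1)
    (hS : ∀ c, ((P.filter fun s => u s = c).card : ℝ) ≤ S * M) (hS0 : 0 ≤ S)
    (hB : 0 ≤ B) (hθ : 0 < θ) (hθ1 : θ ≤ 1) :
    ∀ (c c'' : ℕ) (y : ℝ), 0 < y → y ≤ 16 →
      ((join P u v (CrV L P u v eu ev w1 z0 ρ M (2 ^ j) B θ)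
        (aV u v eu ev Y w1 w2 (2 ^ j) (2 ^ k')) y c c'').card : ℝ) ≤
        (B + S) * (12800000 / (θ * y * 2 ^ j)) * M := by
  intro c c'' y hy hy16
  have hw2 : 0 < w2 := hY.trans_le hYw
  have hw1 : 0 < w1 := hw2.trans_le hw
  have hj : (1:ℝ) ≤ 2 ^ j := one_le_pow₀ (by norm_num)
  have hj0 : (0:ℝ) < 2 ^ j := by positivity
  have hk0 : (0:ℝ) < 2 ^ k' := by positivity
  have hD : 0 < ((2:ℝ) ^ j) ^ 2 * 2 ^ k' * Y * w2 := by positivity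
  have hden : 0 < θ * y * 2 ^ j := by positivity
  set r : ℝ := 12800000 / (θ * y * 2 ^ j) with hr
  have hr0 : 0 < r := by rw [hr]; positivity
  have hBS : 0 ≤ B + S := by linarith
  rcases (join P u v (CrV L P u v eu ev w1 z0 ρ M (2 ^ j) B θ)
        (aV u v eu ev Y w1 w2 (2 ^ j) (2 ^ k')) y c c'').eq_empty_or_nonempty with hE | hE
  · rw [hE, card_empty, Nat.cast_zero]; positivity
  obtain ⟨T, hT⟩ := hE
  rw [mem_join] at hT
  obtain ⟨hTP, hTc, T2, hT2P, hT2c, hT2v, hcr, hdet⟩ := hT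
  obtain ⟨hvv, zs, hzs0, hzs1, hx1, hx2, hgT, -⟩ := hcr
  -- the determinant
  have detl : ∀ s t : ℕ, v s = v t → y < aV u v eu ev Y w1 w2 (2 ^ j) (2 ^ k') s t →
      y * ((2 ^ j) ^ 2 * 2 ^ k' * Y * w2) ≤
        |det3 (eu (u s) 1) (ev (v t) 1) (eu (u t) 1)| * w1 ^ 2 := by
    intro s t hst h
    rw [aV, if_pos hst, lt_div_iff₀ hD] at h
    exact h.le
  have hle : ∀ t ∈ join P u v (CrV L P u v eu ev w1 z0 ρ M (2 ^ j) B θ)
        (aV u v eu ev Y w1 w2 (2 ^ j) (2 ^ k')) y c c'',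
      t ∈ P ∧ u t = c ∧ |dt (eu c 1) ((L t).pos zs - (L T).pos zs)| ≤ r * w1 := by
    intro t ht
    rw [mem_join] at ht
    obtain ⟨htP, htc, t2, ht2P, ht2c, ht2v, htcr, -⟩ := ht
    obtain ⟨htvv, z1, hz10, hz11, hy1, hy2, -, -⟩ := htcr
    refine ⟨htP, htc, ?_⟩
    have e1 := (place_dy (e := eu c) (f := ev (v T)) (g := eu c'') (f' := ev (v t))
      (T := L T) (T2 := L T2) (T1 := L t) (T12 := L t2) (bS := bu c) (bv := bv (v T))
      (bS2 := bu c'') (bv' := bv (v t)) (Y := Y) (w1 := w1) (w2 := w2) (θ := θ) (η := y)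
      (c := 4) (z0 := z0) (ρ := ρ) (zs := zs) (z1 := z1) (j := j) (k' := k')
      (hTc ▸ ou T hTP) (ov T hTP) (hT2c ▸ ou T2 hT2P) (ov t htP) hY hYw hw hρ (by norm_num) hθ
      (by linarith) hy (hTc ▸ tb T hTP) (by have := tb T2 hT2P; rwa [hT2c, hT2v] at this)
      (htc ▸ tb t htP) hlw (hTc ▸ mu T hTP) (htc ▸ mu t htP) (mv T hTP)
      (by have := mv T2 hT2P; rwa [hT2v] at this) (hT2c ▸ mu T2 hT2P) (ht2c ▸ mu t2 ht2P)
      (mv t htP) (by have := mv t2 ht2P; rwa [ht2v] at this) ⟨hzs0, hzs1⟩ ⟨hz10, hz11⟩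
      (by rw [dt_sub_abs, ← hT2v]; exact hx1)
      (by rw [dt_sub_abs, ← hT2v]; exact hx2)
      (by rw [dt_sub_abs, ← ht2v]; exact hy1)
      (by have := detl T T2 hvv hdet; rwa [hTc, hT2c, hT2v] at this)).2
    have e2 : (3200000:ℝ) * (4 / (θ * y * 2 ^ j)) = r := by rw [hr]; ring
    rw [e2] at e1
    exact e1
  rcases le_or_gt r 1 with h1 | h1
  · have hrΛ : 1 ≤ r * 2 ^ j := by
      have : r * 2 ^ j = 12800000 / (θ * y) := by
        rw [hr]; field_simp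
      rw [this, le_div_iff₀ (by positivity)]
      nlinarith
    have h2 := hgT r hrΛ h1
    calc ((join P u v (CrV L P u v eu ev w1 z0 ρ M (2 ^ j) B θ)
        (aV u v eu ev Y w1 w2 (2 ^ j) (2 ^ k')) y c c'').card : ℝ)
        ≤ ((P.filter fun s => u s = u T ∧
            |dt (eu (u T) 1) ((L s).pos zs - (L T).pos zs)| ≤ r * w1).card : ℝ) := by
          refine Nat.cast_le.2 (card_le_card fun t ht => ?_)
          obtain ⟨a1, a2, a3⟩ := hle t ht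
          rw [mem_filter, hTc]
          exact ⟨a1, a2, a3⟩
      _ ≤ B * r * M := h2
      _ ≤ (B + S) * r * M := by gcongr; linarith
  · calc ((join P u v (CrV L P u v eu ev w1 z0 ρ M (2 ^ j) B θ)
        (aV u v eu ev Y w1 w2 (2 ^ j) (2 ^ k')) y c c'').card : ℝ)
        ≤ ((P.filter fun s => u s = c).card : ℝ) := by
          refine Nat.cast_le.2 (card_le_card fun t ht => ?_)
          obtain ⟨a1, a2, a3⟩ := hle t ht
          rw [mem_filter]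
          exact ⟨a1, a2⟩
      _ ≤ S * M := hS c
      _ = S * 1 * M := by ring
      _ ≤ (B + S) * r * M := by
          have : S * 1 ≤ (B + S) * r := by
            calc S * 1 ≤ (B + S) * 1 := by linarith
              _ ≤ (B + S) * r := by gcongr
          gcongr

section core

variable {qm qp : Fin 3 → ℝ} {L : ℕ → Ln4} {P : Finset ℕ} {u v : ℕ → ℕ} {bu bv : ℕ → Ln4}
  {eu ev : ℕ → Fin 3 → V3} {W M a Y w1 w2 z0 ρ : ℝ}

open Classical in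
/-- class sizes, first system -/
theorem core_size (h : TCore qm qp L P u v bu bv eu ev W M a Y w1 w2 z0 ρ) :
    ∀ c, ((P.filter fun s => u s = c).card : ℝ) ≤ 4 * (W * M) := by
  have hw2 : 0 < w2 := (h.a0.trans_le h.aY).trans_le h.Yw
  have hw1 : 0 < w1 := hw2.trans_le h.ww
  have hWM : 0 ≤ W * M := mul_nonneg (by linarith [h.W1]) h.M0.le
  refine size_of h.ρ0 hw1 h.mu (fun t ht => ?_) hWM
  have h1 := h.tubeu t ht 1 (by linarith [h.ww]) le_rfl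
  simpa using h1

open Classical in
/-- class sizes, second system -/
theorem core_size' (h : TCore qm qp L P u v bu bv eu ev W M a Y w1 w2 z0 ρ) :
    ∀ c, ((P.filter fun s => v s = c).card : ℝ) ≤ 4 * (W * M) := by
  have hw2 : 0 < w2 := (h.a0.trans_le h.aY).trans_le h.Yw
  have hw1 : 0 < w1 := hw2.trans_le h.ww
  have hWM : 0 ≤ W * M := mul_nonneg (by linarith [h.W1]) h.M0.le
  refine size_of h.ρ0 hw1 h.mv (fun t ht => ?_) hWM
  have h1 := h.tubev t ht 1 (by linarith [h.ww]) le_rfl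
  simpa using h1

open Classical in
/-- **`meetU`** -/
theorem core_meet (h : TCore qm qp L P u v bu bv eu ev W M a Y w1 w2 z0 ρ) {j k' : ℕ}
    (hd : ∀ t ∈ P, Dy (eu (u t)) (ev (v t)) Y w1 w2 j k') {B θ : ℝ} (hB : 0 ≤ B) (hθ : 0 < θ)
    (hθ1 : θ ≤ 1) :
    ∀ (c c'' : ℕ) (y : ℝ), 0 < y → y ≤ 16 →
      ((join P u v (CrV L P u v eu ev w1 z0 ρ M (2 ^ j) B θ)
        (aV u v eu ev Y w1 w2 (2 ^ j) (2 ^ k')) y c c'').card : ℝ) ≤
        (B + 4 * W) * (12800000 / (θ * y * 2 ^ j)) * M := by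
  intro c c'' y hy hy16
  rcases P.eq_empty_or_nonempty with hP | ⟨t0, ht0⟩
  · have hW : 0 ≤ W := by linarith [h.W1]
    have hM := h.M0
    have : join P u v (CrV L P u v eu ev w1 z0 ρ M (2 ^ j) B θ)
        (aV u v eu ev Y w1 w2 (2 ^ j) (2 ^ k')) y c c'' = ∅ := by
      rw [eq_empty_iff_forall_notMem]
      intro t ht
      rw [mem_join, hP] at ht
      exact absurd ht.1 (notMem_empty t)
    rw [this, card_empty, Nat.cast_zero]
    positivity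
  · have hY : 0 < Y := h.a0.trans_le h.aY
    have hw2 : 0 < w2 := hY.trans_le h.Yw
    have hlw := (hd t0 ht0).hlw (h.ou t0 ht0) (h.ov t0 ht0) hY h.Yw h.ww
    exact meet_of h.M0 h.ρ0 hY h.Yw h.ww h.ou h.ov h.mu h.mv
      (fun t ht => tb_of_dy (hd t ht) (h.ou t ht) (h.ov t ht) hY h.Yw h.ww) hlw
      (fun c => by have := core_size h c; linarith) (by linarith [h.W1]) hB hθ hθ1 c c'' y hy hy16

open Classical in
/-- **`meetV`** -/
theorem core_meet' (h : TCore qm qp L P u v bu bv eu ev W M a Y w1 w2 z0 ρ) {j k' : ℕ}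
    (hd : ∀ t ∈ P, Dy (eu (u t)) (ev (v t)) Y w1 w2 j k') {B θ : ℝ} (hB : 0 ≤ B) (hθ : 0 < θ)
    (hθ1 : θ ≤ 1) :
    ∀ (c c'' : ℕ) (y : ℝ), 0 < y → y ≤ 16 →
      ((join P v u (CrV L P v u ev eu w1 z0 ρ M (2 ^ j) B θ)
        (aV v u ev eu Y w1 w2 (2 ^ j) (2 ^ k')) y c c'').card : ℝ) ≤
        (B + 4 * W) * (12800000 / (θ * y * 2 ^ j)) * M := by
  intro c c'' y hy hy16
  rcases P.eq_empty_or_nonempty with hP | ⟨t0, ht0⟩
  · have hW : 0 ≤ W := by linarith [h.W1]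
    have hM := h.M0
    have : join P v u (CrV L P v u ev eu w1 z0 ρ M (2 ^ j) B θ)
        (aV v u ev eu Y w1 w2 (2 ^ j) (2 ^ k')) y c c'' = ∅ := by
      rw [eq_empty_iff_forall_notMem]
      intro t ht
      rw [mem_join, hP] at ht
      exact absurd ht.1 (notMem_empty t)
    rw [this, card_empty, Nat.cast_zero]
    positivity
  · have hY : 0 < Y := h.a0.trans_le h.aY
    have hw2 : 0 < w2 := hY.trans_le h.Yw
    have hlw := (hd t0 ht0).hlw (h.ou t0 ht0) (h.ov t0 ht0) hY h.Yw h.ww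
    exact meet_of h.M0 h.ρ0 hY h.Yw h.ww h.ov h.ou h.mv h.mu
      (fun t ht => (tb_of_dy (hd t ht) (h.ou t ht) (h.ov t ht) hY h.Yw h.ww).symm) hlw
      (fun c => by have := core_size' h c; linarith) (by linarith [h.W1]) hB hθ hθ1 c c'' y hy hy16

end core

end Crest.Agent.R136.Cmd113
end

-- ▼ part R136/Chl_89
section

/-!
# R136 (S0187), PLAN 2, leaf (C4) `core_hull` (helper89)

From the hull box of a path `S - v - S''` (`hull_dy`, helper706) and the hull D-max of `TCore` to the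
fields `hullU`, `hullV`, `hull1` of `Ndl372.Nd`, with the determinants `aV` of helper113.
-/

set_option autoImplicit false
set_option linter.unusedVariables false
set_option linter.unusedSectionVars false

open Finset

namespace Crest.Agent.R136.Chl89

open Crest.Agent.R136.Sh605 Crest.Agent.R136.Fl808 Crest.Agent.R136.Hl706 Crest.Agent.R136.Pl2

/-- both systems, in a symmetric form -/
structure SC (qp : Fin 3 → ℝ) (L : ℕ → Ln4) (P : Finset ℕ) (u v : ℕ → ℕ) (bu bv : ℕ → Ln4)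
    (eu ev : ℕ → Fin 3 → V3) (W M a Y w1 w2 z0 ρ : ℝ) (j k' : ℕ) : Prop where
  W1 : 1 ≤ W
  M0 : 0 < M
  a0 : 0 < a
  aY : a ≤ Y
  Yw : Y ≤ w2
  ww : w2 ≤ w1
  ou : ∀ t ∈ P, Ortho (eu (u t))
  ov : ∀ t ∈ P, Ortho (ev (v t))
  mu : ∀ t ∈ P, InB (L t) (bu (u t)) (eu (u t)) ![Y, w1, w2] z0 ρ
  mv : ∀ t ∈ P, InB (L t) (bv (v t)) (ev (v t)) ![Y, w1, w2] z0 ρ
  fu : ∀ t ∈ P, M ≤ W * ((P.filter fun s => u s = u t).card : ℝ)
  fv : ∀ t ∈ P, M ≤ W * ((P.filter fun s => v s = v t).card : ℝ)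
  hull : ∀ (b : Ln4) (f : Fin 3 → V3) (X0 X2 : ℝ), Ortho f → a ≤ X0 → w2 ≤ X2 → X0 ≤ X2 →
    X2 ≤ 10 ^ 6 * w1 →
    ∀ B ⊆ P, (∀ t ∈ B, InB (L t) b f ![X0, 10 ^ 6 * w1, X2] z0 ρ) → (B.card : ℝ) ≤
      W * M * ((X0 / a) ^ (1 + qp 0) * (X2 / w2) ^ (1 + qp 2))
  dd : ∀ t ∈ P, Dys (eu (u t)) (ev (v t)) Y w1 w2 j k'

section

variable {qm qp : Fin 3 → ℝ} {L : ℕ → Ln4} {P : Finset ℕ} {u v : ℕ → ℕ} {bu bv : ℕ → Ln4}
  {eu ev : ℕ → Fin 3 → V3} {W M a Y w1 w2 z0 ρ : ℝ} {j k' : ℕ}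

theorem SC.swap (H : SC qp L P u v bu bv eu ev W M a Y w1 w2 z0 ρ j k') :
    SC qp L P v u bv bu ev eu W M a Y w1 w2 z0 ρ j k' :=
  ⟨H.W1, H.M0, H.a0, H.aY, H.Yw, H.ww, H.ov, H.ou, H.mv, H.mu, H.fv, H.fu, H.hull,
    fun t ht => (H.dd t ht).symm⟩

theorem of_core (H : TCore qm qp L P u v bu bv eu ev W M a Y w1 w2 z0 ρ)
    (hD : ∀ t ∈ P, Dy (eu (u t)) (ev (v t)) Y w1 w2 j k') :
    SC qp L P u v bu bv eu ev W M a Y w1 w2 z0 ρ j k' := by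
  classical
  refine ⟨H.W1, H.M0, H.a0, H.aY, H.Yw, H.ww, H.ou, H.ov, H.mu, H.mv, H.fu, H.fv, ?_,
    fun t ht => Or.inl (hD t ht)⟩
  intro b f X0 X2 hf h1 h2 h3 h4 B hB hI
  refine le_trans (Nat.cast_le.2 (card_le_card fun t ht => ?_)) (H.hull b f X0 X2 hf h1 h2 h3 h4)
  exact mem_filter.2 ⟨hB ht, hI t ht⟩

/-- number of classes all of whose lines are in `B` -/
theorem num_classes {N B : Finset ℕ} (hW : 0 < W)
    (fu : ∀ c ∈ N, M ≤ W * ((P.filter fun s => u s = c).card : ℝ))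
    (h : ∀ c ∈ N, ∀ s ∈ P, u s = c → s ∈ B) : (N.card : ℝ) * M ≤ W * (B.card : ℝ) := by
  have h1 : (∑ c ∈ N, (P.filter fun s => u s = c).card) ≤ B.card := by
    rw [← card_biUnion]
    · refine card_le_card fun s hs => ?_
      rw [mem_biUnion] at hs
      obtain ⟨c, hc, hs⟩ := hs
      rw [mem_filter] at hs
      exact h c hc s hs.1 hs.2
    · intro c _ c' _ hcc
      rw [Function.onFun, disjoint_left]
      intro s hs hs'
      exact hcc ((mem_filter.1 hs).2.symm.trans (mem_filter.1 hs').2)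
  have h2 : (∑ c ∈ N, ((P.filter fun s => u s = c).card : ℝ)) ≤ (B.card : ℝ) := by
    exact_mod_cast h1
  calc (N.card : ℝ) * M = ∑ _c ∈ N, M := by rw [sum_const, nsmul_eq_mul]
    _ ≤ ∑ c ∈ N, W * ((P.filter fun s => u s = c).card : ℝ) := sum_le_sum fu
    _ = W * ∑ c ∈ N, ((P.filter fun s => u s = c).card : ℝ) := by rw [mul_sum]
    _ ≤ _ := by gcongr

/-- from the box to the number of classes -/
theorem SC.num (H : SC qp L P u v bu bv eu ev W M a Y w1 w2 z0 ρ j k')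
    {x : ℝ} (hx : 1 ≤ x * 2 ^ j) (hlw : (2:ℝ) ^ j * w2 ≤ 2 * w1)
    (q0 : 0 ≤ qp 0) (q2 : 0 ≤ qp 2) (q0' : qp 0 ≤ 1) (q2' : qp 2 ≤ 1)
    {N : Finset ℕ} {w : ℕ → ℕ} (fw : ∀ c ∈ N, M ≤ W * ((P.filter fun s => w s = c).card : ℝ))
    {b : Ln4} {f : Fin 3 → V3} (hf : Ortho f)
    (hI : ∀ c ∈ N, ∀ s ∈ P, w s = c → InB (L s) b f
      ![tH Y w2 (2 ^ j) (2 ^ k') x, 260000 * w1, 130000 * (2 ^ j * w2)] z0 ρ) :
    (N.card : ℝ) ≤ 10 ^ 18 * W ^ 2 *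
      ((x * (2 ^ j * 2 ^ k') * (Y / a)) ^ (1 + qp 0) * ((2:ℝ) ^ j) ^ (1 + qp 2)) := by
  classical
  have hW0 : 0 < W := by have := H.W1; linarith
  have ha := H.a0
  have hY0 : 0 < Y := ha.trans_le H.aY
  have hw2 : 0 < w2 := hY0.trans_le H.Yw
  have hw1 : 0 < w1 := hw2.trans_le H.ww
  have hj : (1:ℝ) ≤ 2 ^ j := one_le_pow₀ (by norm_num)
  have hk : (1:ℝ) ≤ 2 ^ k' := one_le_pow₀ (by norm_num)
  have hj0 : (0:ℝ) < 2 ^ j := by positivity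
  have hk0 : (0:ℝ) < 2 ^ k' := by positivity
  have hx0 : 0 < x := by
    by_contra hc
    have : x * 2 ^ j ≤ 0 := mul_nonpos_of_nonpos_of_nonneg (not_lt.1 hc) hj0.le
    linarith
  set X0 : ℝ := tH Y w2 (2 ^ j) (2 ^ k') x with hX0
  set X2 : ℝ := 130000 * (2 ^ j * w2) with hX2
  have c1 : a ≤ X0 := H.aY.trans (tH_ge hY0 H.Yw hj hk hx0.le)
  have c2 : w2 ≤ X2 := by
    have h1 : w2 ≤ 2 ^ j * w2 := le_mul_of_one_le_left hw2.le hj
    rw [hX2]; linarith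
  have c3 : X0 ≤ X2 := tH_le2 _ _ _ _ _
  have c4 : X2 ≤ 10 ^ 6 * w1 := by rw [hX2]; linarith
  have hX01 : X0 ≤ 4896 * (x * (2 ^ j * 2 ^ k') * Y) := by
    refine (tH_le1 _ _ _ _ _).trans ?_
    have e1 : (x + 1 / (2:ℝ) ^ j) * (2 ^ j * 2 ^ k' * Y) =
        (x * 2 ^ j + 1) * (2 ^ k' * Y) := by field_simp
    have e2 : 4896 * (x * (2 ^ j * 2 ^ k') * Y) = 2448 * ((2 * (x * 2 ^ j)) * (2 ^ k' * Y)) := by
      ring
    rw [e1, e2]
    have h3 : (0:ℝ) < 2 ^ k' * Y := by positivity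
    have h4 : (x * 2 ^ j + 1) * (2 ^ k' * Y) ≤ (2 * (x * 2 ^ j)) * (2 ^ k' * Y) := by
      apply mul_le_mul_of_nonneg_right _ h3.le
      linarith
    linarith
  set B : Finset ℕ := P.filter fun s => w s ∈ N with hB
  have hIn : ∀ t ∈ B, InB (L t) b f ![X0, 10 ^ 6 * w1, X2] z0 ρ := by
    intro t ht z hz hz' i
    rw [hB, mem_filter] at ht
    have h1 := hI (w t) ht.2 t ht.1 rfl z hz hz'
    fin_cases i
    · exact h1 0
    · have h10 : |dt (f 1) ((L t).pos z - b.pos z)| ≤ 260000 * w1 := h1 1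
      show |dt (f 1) ((L t).pos z - b.pos z)| ≤ 10 ^ 6 * w1
      linarith
    · exact h1 2
  have hcap := H.hull b f X0 X2 hf c1 c2 c3 c4 B (filter_subset _ _) hIn
  have hnum := num_classes (u := w) (N := N) (B := B) hW0 fw (fun c hc s hs hsc =>
    mem_filter.2 ⟨hs, by rw [hsc]; exact hc⟩)
  have hX0p : 0 ≤ X0 := ha.le.trans c1
  have hX2p : 0 ≤ X2 := hw2.le.trans c2
  -- sizes
  have d0 : (X0 / a) ^ (1 + qp 0) ≤
      4896 ^ (2:ℕ) * (x * (2 ^ j * 2 ^ k') * (Y / a)) ^ (1 + qp 0) := by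
    have e1 : X0 / a ≤ 4896 * (x * (2 ^ j * 2 ^ k') * (Y / a)) := by
      rw [div_le_iff₀ ha]
      have : 4896 * (x * (2 ^ j * 2 ^ k') * (Y / a)) * a = 4896 * (x * (2 ^ j * 2 ^ k') * Y) := by
        field_simp
      rw [this]; exact hX01
    calc (X0 / a) ^ (1 + qp 0) ≤ (4896 * (x * (2 ^ j * 2 ^ k') * (Y / a))) ^ (1 + qp 0) :=
          Real.rpow_le_rpow (by positivity) e1 (by linarith)
      _ = 4896 ^ (1 + qp 0) * (x * (2 ^ j * 2 ^ k') * (Y / a)) ^ (1 + qp 0) :=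
          Real.mul_rpow (by positivity) (by positivity)
      _ ≤ _ := by
          apply mul_le_mul_of_nonneg_right _ (by positivity)
          rw [← Real.rpow_natCast]
          apply Real.rpow_le_rpow_of_exponent_le (by norm_num)
          push_cast; linarith
  have d2 : (X2 / w2) ^ (1 + qp 2) ≤ 130000 ^ (2:ℕ) * ((2:ℝ) ^ j) ^ (1 + qp 2) := by
    have e1 : X2 / w2 ≤ 130000 * 2 ^ j := by
      rw [div_le_iff₀ hw2]
      rw [hX2]; linarith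
    calc (X2 / w2) ^ (1 + qp 2) ≤ (130000 * 2 ^ j) ^ (1 + qp 2) :=
          Real.rpow_le_rpow (by positivity) e1 (by linarith)
      _ = 130000 ^ (1 + qp 2) * ((2:ℝ) ^ j) ^ (1 + qp 2) :=
          Real.mul_rpow (by positivity) (by positivity)
      _ ≤ _ := by
          apply mul_le_mul_of_nonneg_right _ (by positivity)
          rw [← Real.rpow_natCast]
          apply Real.rpow_le_rpow_of_exponent_le (by norm_num)
          push_cast; linarith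
  set n0 : ℝ := (x * (2 ^ j * 2 ^ k') * (Y / a)) ^ (1 + qp 0) with hn0
  set n2 : ℝ := ((2:ℝ) ^ j) ^ (1 + qp 2) with hn2
  have hn0p : 0 ≤ n0 := by rw [hn0]; positivity
  have hn2p : 0 ≤ n2 := by rw [hn2]; positivity
  have hM := H.M0
  have d3 : (X0 / a) ^ (1 + qp 0) * (X2 / w2) ^ (1 + qp 2) ≤ 10 ^ 18 * (n0 * n2) := by
    calc (X0 / a) ^ (1 + qp 0) * (X2 / w2) ^ (1 + qp 2) ≤
        (4896 ^ (2:ℕ) * n0) * (130000 ^ (2:ℕ) * n2) := by gcongr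
      _ = (4896 ^ 2 * 130000 ^ 2) * (n0 * n2) := by ring
      _ ≤ _ := by gcongr; norm_num
  have hfin : (N.card : ℝ) * M ≤ (10 ^ 18 * W ^ 2 * (n0 * n2)) * M := by
    calc (N.card : ℝ) * M ≤ W * (B.card : ℝ) := hnum
      _ ≤ W * (W * M * ((X0 / a) ^ (1 + qp 0) * (X2 / w2) ^ (1 + qp 2))) := by gcongr
      _ ≤ W * (W * M * (10 ^ 18 * (n0 * n2))) := by gcongr
      _ = _ := by ring
  exact le_of_mul_le_mul_right hfin hM

theorem mem_reach {cu cv : ℕ → ℕ → Prop} {au av : ℕ → ℕ → ℝ} {x : ℝ} {t0 c'' : ℕ}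
    (h : c'' ∈ Ndl372.reach P u v cu cv au av x t0) : ∃ t'' ∈ P, (∃ t ∈ P, u t0 = u t ∧
      cu t0 t ∧ au t0 t ≤ x ∧ v t'' = v t ∧ cv t t'' ∧ av t t'' ≤ x) ∧ u t'' = c'' := by
  unfold Ndl372.reach at h
  simp only [mem_image, mem_filter] at h
  obtain ⟨t'', ⟨h1, h2⟩, h3⟩ := h
  exact ⟨t'', h1, h2, h3⟩

/-- two steps -/
theorem SC.reach (H : SC qp L P u v bu bv eu ev W M a Y w1 w2 z0 ρ j k')
    {x : ℝ} (hx : 1 ≤ x * 2 ^ j)
    (q0 : 0 ≤ qp 0) (q2 : 0 ≤ qp 2) (q0' : qp 0 ≤ 1) (q2' : qp 2 ≤ 1)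
    {cu cv : ℕ → ℕ → Prop} {au av : ℕ → ℕ → ℝ}
    (hau : ∀ s ∈ P, ∀ t ∈ P, u s = u t →
      |det3 (eu (u s) 1) (ev (v s) 1) (ev (v t) 1)| * (w1 * w1) ≤
        au s t * (((2:ℝ) ^ j) ^ 2 * 2 ^ k' * (Y * w2)))
    (hav : ∀ s ∈ P, ∀ t ∈ P, v s = v t →
      |det3 (eu (u s) 1) (ev (v s) 1) (eu (u t) 1)| * (w1 * w1) ≤
        av s t * (((2:ℝ) ^ j) ^ 2 * 2 ^ k' * (Y * w2)))
    {t0 : ℕ} (ht0 : t0 ∈ P) :
    ((Ndl372.reach P u v cu cv au av x t0).card : ℝ) ≤ 10 ^ 18 * W ^ 2 *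
      ((x * (2 ^ j * 2 ^ k') * (Y / a)) ^ (1 + qp 0) * ((2:ℝ) ^ j) ^ (1 + qp 2)) := by
  classical
  have ha := H.a0
  have hY0 : 0 < Y := ha.trans_le H.aY
  have hw2 : 0 < w2 := hY0.trans_le H.Yw
  have hj0 : (0:ℝ) < 2 ^ j := by positivity
  have hx0 : 0 < x := by
    by_contra hc
    have : x * 2 ^ j ≤ 0 := mul_nonpos_of_nonpos_of_nonneg (not_lt.1 hc) hj0.le
    linarith
  have hU : (0:ℝ) < ((2:ℝ) ^ j) ^ 2 * 2 ^ k' * (Y * w2) := by positivity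
  obtain ⟨n, hn, hbox⟩ := hull_dy (z0 := z0) (ρ := ρ) (H.ou t0 ht0) (H.ov t0 ht0) hY0 H.Yw H.ww
    (H.dd t0 ht0)
  have path : ∀ c'' ∈ Ndl372.reach P u v cu cv au av x t0, ∀ s ∈ P, u s = c'' →
      ∃ t ∈ P, ∃ t'' ∈ P, u t0 = u t ∧ au t0 t ≤ x ∧ v t'' = v t ∧ av t t'' ≤ x ∧ u t'' = u s := by
    intro c'' hc s hs hsc
    obtain ⟨t'', h1, ⟨t, h2, h3, _, h4, h5, _, h6⟩, hu⟩ := mem_reach hc
    exact ⟨t, h2, t'', h1, h3, h4, h5, h6, hu.trans hsc.symm⟩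
  refine H.num (w := u) (b := bu (u t0)) (f := n) hx
    ((H.dd t0 ht0).lw (H.ou t0 ht0) (H.ov t0 ht0) hY0 H.Yw H.ww) q0 q2 q0' q2' ?_ hn ?_
  · intro c'' hc
    obtain ⟨t'', h1, _, hu⟩ := mem_reach hc
    rw [← hu]
    exact H.fu t'' h1
  · intro c'' hc s' hs' hsc
    obtain ⟨t, ht, t'', ht'', p1, p2, p3, p4, p5⟩ := path c'' hc s' hs' hsc
    have m1 := H.mu t ht
    have m2 := H.mv t ht
    have m3 := H.mv t'' ht''
    have m4 := H.mu t'' ht''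
    have m5 := H.mu s' hs'
    rw [← p1] at m1
    rw [p3] at m3
    rw [← p5] at m5
    have d1 := hau t0 ht0 t ht p1
    have d2 := hav t ht t'' ht'' p3.symm
    rw [← p1] at d2
    have o2 := H.dd t ht
    rw [← p1] at o2
    have o3 := H.dd t'' ht''
    rw [p3] at o3
    exact hbox x (ev (v t)) (eu (u t'')) (bu (u t0)) (bv (v t)) (bu (u t'')) (L t) (L t'') (L s')
      hx0.le (H.ov t ht) (H.ou t'' ht'') o2 o3.symm
      (d1.trans (mul_le_mul_of_nonneg_right p2 hU.le))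
      (d2.trans (mul_le_mul_of_nonneg_right p4 hU.le)) m1 m2 m3 m4 m5

/-- one step -/
theorem SC.one (H : SC qp L P u v bu bv eu ev W M a Y w1 w2 z0 ρ j k')
    {x : ℝ} (hx : 1 ≤ x * 2 ^ j)
    (q0 : 0 ≤ qp 0) (q2 : 0 ≤ qp 2) (q0' : qp 0 ≤ 1) (q2' : qp 2 ≤ 1)
    {cu : ℕ → ℕ → Prop} {au : ℕ → ℕ → ℝ}
    (hau : ∀ s ∈ P, ∀ t ∈ P, u s = u t →
      |det3 (eu (u s) 1) (ev (v s) 1) (ev (v t) 1)| * (w1 * w1) ≤
        au s t * (((2:ℝ) ^ j) ^ 2 * 2 ^ k' * (Y * w2)))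
    {t0 : ℕ} (ht0 : t0 ∈ P) (inst : DecidableEq ℕ)
    (inst' : DecidablePred fun t => u t0 = u t ∧ cu t0 t ∧ au t0 t ≤ x) :
    (((@Finset.image ℕ ℕ inst v (@Finset.filter ℕ
      (fun t => u t0 = u t ∧ cu t0 t ∧ au t0 t ≤ x) inst' P)).card : ℕ) : ℝ) ≤
      10 ^ 18 * W ^ 2 *
      ((x * (2 ^ j * 2 ^ k') * (Y / a)) ^ (1 + qp 0) * ((2:ℝ) ^ j) ^ (1 + qp 2)) := by
  have ha := H.a0
  have hY0 : 0 < Y := ha.trans_le H.aY
  have hw2 : 0 < w2 := hY0.trans_le H.Yw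
  have hj0 : (0:ℝ) < 2 ^ j := by positivity
  have hx0 : 0 < x := by
    by_contra hc
    have : x * 2 ^ j ≤ 0 := mul_nonpos_of_nonpos_of_nonneg (not_lt.1 hc) hj0.le
    linarith
  have hU : (0:ℝ) < ((2:ℝ) ^ j) ^ 2 * 2 ^ k' * (Y * w2) := by positivity
  obtain ⟨n, hn, hbox⟩ := hull_dy1 (z0 := z0) (ρ := ρ) (H.ou t0 ht0) (H.ov t0 ht0) hY0 H.Yw H.ww
    (H.dd t0 ht0)
  have path : ∀ c'' ∈ @Finset.image ℕ ℕ inst v (@Finset.filter ℕ
      (fun t => u t0 = u t ∧ cu t0 t ∧ au t0 t ≤ x) inst' P),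
      ∃ t ∈ P, u t0 = u t ∧ au t0 t ≤ x ∧ v t = c'' := by
    intro c'' hc
    rw [mem_image] at hc
    obtain ⟨t, ht, hu⟩ := hc
    rw [mem_filter] at ht
    obtain ⟨h1, h3, _, h4⟩ := ht
    exact ⟨t, h1, h3, h4, hu⟩
  refine H.num (w := v) (b := bu (u t0)) (f := n) hx
    ((H.dd t0 ht0).lw (H.ou t0 ht0) (H.ov t0 ht0) hY0 H.Yw H.ww) q0 q2 q0' q2' ?_ hn ?_
  · intro c'' hc
    obtain ⟨t, ht, _, _, hu⟩ := path c'' hc
    rw [← hu]
    exact H.fv t ht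
  · intro c'' hc s' hs' hsc
    obtain ⟨t, ht, p1, p2, p3⟩ := path c'' hc
    have p3' : v t = v s' := p3.trans hsc.symm
    have m1 := H.mu t ht
    have m2 := H.mv t ht
    have m5 := H.mv s' hs'
    rw [← p1] at m1
    rw [← p3'] at m5
    have d1 := hau t0 ht0 t ht p1
    have o2 := H.dd t ht
    rw [← p1] at o2
    exact hbox x (ev (v t)) (bu (u t0)) (bv (v t)) (L t) (L s')
      hx0.le (H.ov t ht) o2 (d1.trans (mul_le_mul_of_nonneg_right p2 hU.le)) m1 m2 m5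

/-! ### the determinants of helper113 -/

open Crest.Agent.R136.Cmd113 (aV)

theorem aV_le (hY : 0 < Y) (hw2 : 0 < w2) {s t : ℕ} (h : v s = v t) :
    |det3 (eu (u s) 1) (ev (v s) 1) (eu (u t) 1)| * (w1 * w1) ≤
      aV u v eu ev Y w1 w2 (2 ^ j) (2 ^ k') s t * (((2:ℝ) ^ j) ^ 2 * 2 ^ k' * (Y * w2)) := by
  have hj0 : (0:ℝ) < 2 ^ j := by positivity
  have hk0 : (0:ℝ) < 2 ^ k' := by positivity
  unfold aV
  rw [if_pos h, h]
  refine le_of_eq ?_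
  field_simp

theorem aV_le' (hY : 0 < Y) (hw2 : 0 < w2) {s t : ℕ} (h : u s = u t) :
    |det3 (eu (u s) 1) (ev (v s) 1) (ev (v t) 1)| * (w1 * w1) ≤
      aV v u ev eu Y w1 w2 (2 ^ j) (2 ^ k') s t * (((2:ℝ) ^ j) ^ 2 * 2 ^ k' * (Y * w2)) := by
  have h1 := aV_le (u := v) (v := u) (eu := ev) (ev := eu) (w1 := w1) (j := j) (k' := k') hY hw2 h
  rwa [Hl706.det3_swap] at h1

/-- **(C4)**, `hullU` of `Ndl372.Nd` (with `N x = (x Λ E Y / a)^(1 + qp 0) Λ^(1 + qp 2)`). -/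
theorem hullU (H : TCore qm qp L P u v bu bv eu ev W M a Y w1 w2 z0 ρ)
    (hD : ∀ t ∈ P, Dy (eu (u t)) (ev (v t)) Y w1 w2 j k') {x : ℝ} (hx : 1 ≤ x * 2 ^ j)
    (q0 : 0 ≤ qp 0) (q2 : 0 ≤ qp 2) (q0' : qp 0 ≤ 1) (q2' : qp 2 ≤ 1) (cu cv : ℕ → ℕ → Prop)
    {t0 : ℕ} (ht0 : t0 ∈ P) :
    ((Ndl372.reach P u v cu cv (aV v u ev eu Y w1 w2 (2 ^ j) (2 ^ k'))
      (aV u v eu ev Y w1 w2 (2 ^ j) (2 ^ k')) x t0).card : ℝ) ≤ 10 ^ 18 * W ^ 2 *
      ((x * (2 ^ j * 2 ^ k') * (Y / a)) ^ (1 + qp 0) * ((2:ℝ) ^ j) ^ (1 + qp 2)) := by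
  have hY0 : 0 < Y := H.a0.trans_le H.aY
  have hw2 : 0 < w2 := hY0.trans_le H.Yw
  exact (of_core H hD).reach hx q0 q2 q0' q2' (fun s _ t _ h => aV_le' hY0 hw2 h)
    (fun s _ t _ h => aV_le hY0 hw2 h) ht0

/-- **(C4)**, `hullV` -/
theorem hullV (H : TCore qm qp L P u v bu bv eu ev W M a Y w1 w2 z0 ρ)
    (hD : ∀ t ∈ P, Dy (eu (u t)) (ev (v t)) Y w1 w2 j k') {x : ℝ} (hx : 1 ≤ x * 2 ^ j)
    (q0 : 0 ≤ qp 0) (q2 : 0 ≤ qp 2) (q0' : qp 0 ≤ 1) (q2' : qp 2 ≤ 1) (cu cv : ℕ → ℕ → Prop)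
    {t0 : ℕ} (ht0 : t0 ∈ P) :
    ((Ndl372.reach P v u cv cu (aV u v eu ev Y w1 w2 (2 ^ j) (2 ^ k'))
      (aV v u ev eu Y w1 w2 (2 ^ j) (2 ^ k')) x t0).card : ℝ) ≤ 10 ^ 18 * W ^ 2 *
      ((x * (2 ^ j * 2 ^ k') * (Y / a)) ^ (1 + qp 0) * ((2:ℝ) ^ j) ^ (1 + qp 2)) := by
  have hY0 : 0 < Y := H.a0.trans_le H.aY
  have hw2 : 0 < w2 := hY0.trans_le H.Yw
  exact (of_core H hD).swap.reach hx q0 q2 q0' q2' (fun s _ t _ h => aV_le' hY0 hw2 h)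
    (fun s _ t _ h => aV_le hY0 hw2 h) ht0

/-- **(C4)**, `hull1` (generic instances: `hull1 .. _ _` or `by exact hull1 ..`) -/
theorem hull1 (H : TCore qm qp L P u v bu bv eu ev W M a Y w1 w2 z0 ρ)
    (hD : ∀ t ∈ P, Dy (eu (u t)) (ev (v t)) Y w1 w2 j k') {x : ℝ} (hx : 1 ≤ x * 2 ^ j)
    (q0 : 0 ≤ qp 0) (q2 : 0 ≤ qp 2) (q0' : qp 0 ≤ 1) (q2' : qp 2 ≤ 1) (cu : ℕ → ℕ → Prop)
    {t0 : ℕ} (ht0 : t0 ∈ P) (inst : DecidableEq ℕ) (inst' : DecidablePred fun t =>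
      u t0 = u t ∧ cu t0 t ∧ aV v u ev eu Y w1 w2 (2 ^ j) (2 ^ k') t0 t ≤ x) :
    (((@Finset.image ℕ ℕ inst v (@Finset.filter ℕ (fun t => u t0 = u t ∧ cu t0 t ∧
      aV v u ev eu Y w1 w2 (2 ^ j) (2 ^ k') t0 t ≤ x) inst' P)).card : ℕ) : ℝ) ≤
      10 ^ 18 * W ^ 2 *
      ((x * (2 ^ j * 2 ^ k') * (Y / a)) ^ (1 + qp 0) * ((2:ℝ) ^ j) ^ (1 + qp 2)) := by
  have hY0 : 0 < Y := H.a0.trans_le H.aY
  have hw2 : 0 < w2 := hY0.trans_le H.Yw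
  exact (of_core H hD).one hx q0 q2 q0' q2' (fun s _ t _ h => aV_le' hY0 hw2 h) ht0 inst inst'

end

end Crest.Agent.R136.Chl89
end

-- ▼ part R136/Nde_372

/-!
# R136, U4 (PLAN 2 of helper294), (G4): the end of the two-step count (helper372)

`Ndl372.needle` with the scales `xs Λ K k = Λ^(-k/K)` (from `1` to `1/Λ`), hull
`Nh x = (x Λ E)^(1+p0) Λ^(1+p2)`, meeting place `rs σ x = (Λ x)^-(1-σ)`, share
`sg = W Λ^-(1+m1) E^-(1+m2)`:

* `nd_gen` : `Λ ^ (m1 - p2 - p0 - s - 1/K) * E ^ (m2 - p0) ≤ 6 * 4^K * W^5`;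
* `nd_fin2` : (`8 (p2+p0) ≤ m1`, `2 p0 ≤ m2`, `8 s ≤ m1`, `8 ≤ K m1`)
  `Λ^(m1/2) * E^(m2/2) ≤ 6 * 4^K * W^5`.
-/

set_option autoImplicit false

open Finset

namespace Crest.Agent.R136.Nde372

open Crest.Agent.R136.Ndl372

/-- the scales `Λ^(-k/K)` -/
noncomputable def xs (Λ : ℝ) (K k : ℕ) : ℝ := Λ ^ (-((k : ℝ) / K))

/-- number of classes in the hull at scale `x` -/
noncomputable def Nh (Λ E p0 p2 x : ℝ) : ℝ := (x * Λ * E) ^ (1 + p0) * Λ ^ (1 + p2)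

/-- meeting place at scale `x` -/
noncomputable def rs (Λ σ x : ℝ) : ℝ := (1 / (Λ * x)) ^ (1 - σ)

/-- share -/
noncomputable def sg (W Λ E m1 m2 : ℝ) : ℝ := W * (Λ ^ (-(1 + m1)) * E ^ (-(1 + m2)))

theorem xs_pos {Λ : ℝ} (hΛ : 1 ≤ Λ) (K k : ℕ) : 0 < xs Λ K k :=
  Real.rpow_pos_of_pos (by linarith) _

theorem xs_zero (Λ : ℝ) (K : ℕ) : xs Λ K 0 = 1 := by
  rw [xs]; norm_num

theorem xs_last (Λ : ℝ) {K : ℕ} (hK : 0 < K) : xs Λ K K = Λ⁻¹ := by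
  rw [xs, div_self (by positivity), Real.rpow_neg_one]

theorem xs_le_one {Λ : ℝ} (hΛ : 1 ≤ Λ) (K k : ℕ) : xs Λ K k ≤ 1 :=
  Real.rpow_le_one_of_one_le_of_nonpos hΛ (by
    have : (0:ℝ) ≤ (k : ℝ) / K := by positivity
    linarith)

theorem xs_ge {Λ : ℝ} (hΛ : 1 ≤ Λ) {K k : ℕ} (hK : 0 < K) (hk : k ≤ K) : Λ⁻¹ ≤ xs Λ K k := by
  rw [← xs_last Λ hK, xs, xs]
  refine Real.rpow_le_rpow_of_exponent_le hΛ ?_
  have hK' : (0:ℝ) < K := by exact_mod_cast hK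
  have : (k : ℝ) / K ≤ (K : ℝ) / K := div_le_div_of_nonneg_right (by exact_mod_cast hk) hK'.le
  linarith


theorem Nh_nonneg {Λ E p0 p2 x : ℝ} (hΛ : 1 ≤ Λ) (hE : 1 ≤ E) (hx : 0 ≤ x) :
    0 ≤ Nh Λ E p0 p2 x := by
  have : 0 ≤ Λ := by linarith
  have : 0 ≤ E := by linarith
  unfold Nh; positivity

theorem rs_nonneg {Λ σ x : ℝ} (hΛ : 1 ≤ Λ) (hx : 0 ≤ x) : 0 ≤ rs Λ σ x := by
  have : 0 ≤ Λ := by linarith
  unfold rs; positivity


/-- hull at scale `x_k` as powers -/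
theorem Nh_xs {Λ E p0 p2 : ℝ} (hΛ : 1 ≤ Λ) (hE : 1 ≤ E) (K k : ℕ) :
    Nh Λ E p0 p2 (xs Λ K k) = Λ ^ ((1 - (k : ℝ) / K) * (1 + p0) + (1 + p2)) * E ^ (1 + p0) := by
  have hΛ0 : 0 < Λ := by linarith
  have hE0 : 0 < E := by linarith
  have h1 : xs Λ K k * Λ = Λ ^ (1 - (k : ℝ) / K) := by
    rw [xs]
    nth_rewrite 2 [← Real.rpow_one Λ]
    rw [← Real.rpow_add hΛ0]
    congr 1; ring
  rw [Nh, h1, Real.mul_rpow (by positivity) hE0.le, ← Real.rpow_mul hΛ0.le,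
    Real.rpow_add hΛ0 ((1 - (k : ℝ) / K) * (1 + p0)) (1 + p2)]
  ring

theorem rs_xs {Λ : ℝ} (hΛ : 1 ≤ Λ) (σ : ℝ) (K k : ℕ) :
    rs Λ σ (xs Λ K k) = Λ ^ ((-1 + (k : ℝ) / K) * (1 - σ)) := by
  have hΛ0 : 0 < Λ := by linarith
  have h1 : 1 / (Λ * xs Λ K k) = Λ ^ (-1 + (k : ℝ) / K) := by
    rw [xs, Real.rpow_add hΛ0, Real.rpow_neg_one, Real.rpow_neg hΛ0.le]
    have : 0 < Λ ^ ((k : ℝ) / K) := by positivity
    field_simp
  rw [rs, h1, ← Real.rpow_mul hΛ0.le]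

/-- **the end**: `Λ ^ (m1 - p2 - p0 - s - 1/K) * E ^ (m2 - p0) ≤ 6 * 4^K * W^5`, any scales `x` -/
theorem nd_gen {ι κ κ' : Type*} {P : Finset ι} {u : ι → κ} {v : ι → κ'} {cu cv : ι → ι → Prop}
    {au av : ι → ι → ℝ} {x : ℕ → ℝ} {K : ℕ} {M W σ Λ E p0 p2 m1 m2 s : ℝ} {N r : ℝ → ℝ}
    (hK : 0 < K) (hΛ : 1 ≤ Λ) (hE : 1 ≤ E) (hp0 : 0 ≤ p0) (hs : 0 ≤ s)
    (h : Nd P u v cu cv au av x K M W σ N r)
    (hN : ∀ k, k ≤ K → N (x k) ≤ Nh Λ E p0 p2 (xs Λ K k))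
    (hr : ∀ k, k ≤ K → r (x k) ≤ rs Λ s (xs Λ K k))
    (hσ : σ ≤ sg W Λ E m1 m2) :
    Λ ^ (m1 - p2 - p0 - s - 1 / K) * E ^ (m2 - p0) ≤ 6 * 4 ^ K * W ^ 5 := by
  have hW := h.W1
  have hΛ0 : 0 < Λ := by linarith
  have hE0 : 0 < E := by linarith
  have hW0 : 0 < W := by linarith
  have hK' : (0:ℝ) < K := by exact_mod_cast hK
  have key : 1 ≤ 6 * 4 ^ K * W ^ 5 *
      (Λ ^ (-(m1 - p2 - p0 - s - 1 / K)) * E ^ (-(m2 - p0))) := by
    rcases needle h with ⟨k, hk, h1⟩ | h1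
    · have h0 : 6 * 4 ^ k * W ^ 4 * N (x k) * r (x (k + 1)) * σ ≤
          6 * 4 ^ k * W ^ 4 * Nh Λ E p0 p2 (xs Λ K k) * rs Λ s (xs Λ K (k + 1)) *
            sg W Λ E m1 m2 := by
        have a1 := hN k hk.le
        have a2 := hr (k + 1) hk
        have a3 := h.N0 k
        have a4 := h.r0 (k + 1)
        have a5 := h.σ0
        have a6 := Nh_nonneg (p0 := p0) (p2 := p2) hΛ hE (xs_pos hΛ K k).le
        have a7 := rs_nonneg (σ := s) hΛ (xs_pos hΛ K (k + 1)).le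
        gcongr
      replace h1 := h1.trans h0
      rw [Nh_xs hΛ hE, rs_xs hΛ, sg] at h1
      have e1 : 6 * 4 ^ k * W ^ 4 * (Λ ^ ((1 - (k : ℝ) / K) * (1 + p0) + (1 + p2)) *
          E ^ (1 + p0)) * Λ ^ ((-1 + ((k + 1 : ℕ) : ℝ) / K) * (1 - s)) *
          (W * (Λ ^ (-(1 + m1)) * E ^ (-(1 + m2)))) =
          6 * 4 ^ k * W ^ 5 * (Λ ^ (((1 - (k : ℝ) / K) * (1 + p0) + (1 + p2)) +
            ((-1 + ((k + 1 : ℕ) : ℝ) / K) * (1 - s)) + (-(1 + m1))) *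
            E ^ ((1 + p0) + (-(1 + m2)))) := by
        rw [Real.rpow_add hΛ0 (((1 - (k : ℝ) / K) * (1 + p0) + (1 + p2)) +
            ((-1 + ((k + 1 : ℕ) : ℝ) / K) * (1 - s))) (-(1 + m1)),
          Real.rpow_add hΛ0 ((1 - (k : ℝ) / K) * (1 + p0) + (1 + p2))
            ((-1 + ((k + 1 : ℕ) : ℝ) / K) * (1 - s)),
          Real.rpow_add hE0 (1 + p0) (-(1 + m2))]
        ring
      rw [e1] at h1
      refine h1.trans ?_
      have hkK : (k : ℝ) ≤ K := by exact_mod_cast hk.le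
      have h4 : (4:ℝ) ^ k ≤ 4 ^ K := pow_le_pow_right₀ (by norm_num) hk.le
      have hx : ((1 - (k : ℝ) / K) * (1 + p0) + (1 + p2)) +
            ((-1 + ((k + 1 : ℕ) : ℝ) / K) * (1 - s)) + (-(1 + m1)) ≤
            -(m1 - p2 - p0 - s - 1 / K) := by
        have h5 : 0 ≤ (k : ℝ) / K * p0 := by positivity
        have h5' : 0 ≤ ((k + 1 : ℕ) : ℝ) / K * s := by positivity
        have h6 : ((k + 1 : ℕ) : ℝ) / K = (k : ℝ) / K + 1 / K := by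
          push_cast; ring
        rw [h6] at h5' ⊢; nlinarith
      have h7 : Λ ^ (((1 - (k : ℝ) / K) * (1 + p0) + (1 + p2)) +
            ((-1 + ((k + 1 : ℕ) : ℝ) / K) * (1 - s)) + (-(1 + m1))) ≤
            Λ ^ (-(m1 - p2 - p0 - s - 1 / K)) :=
        Real.rpow_le_rpow_of_exponent_le hΛ hx
      have h8 : (1 + p0) + (-(1 + m2)) = -(m2 - p0) := by ring
      rw [h8]
      gcongr
    · have h0 : 2 * 4 ^ K * W ^ 4 * N (x K) * σ ≤
          2 * 4 ^ K * W ^ 4 * Nh Λ E p0 p2 (xs Λ K K) * sg W Λ E m1 m2 := by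
        have a1 := hN K le_rfl
        have a3 := h.N0 K
        have a5 := h.σ0
        have a6 := Nh_nonneg (p0 := p0) (p2 := p2) hΛ hE (xs_pos hΛ K K).le
        gcongr
      replace h1 := h1.trans h0
      rw [Nh_xs hΛ hE, sg] at h1
      have e1 : 2 * 4 ^ K * W ^ 4 * (Λ ^ ((1 - (K : ℝ) / K) * (1 + p0) + (1 + p2)) *
          E ^ (1 + p0)) * (W * (Λ ^ (-(1 + m1)) * E ^ (-(1 + m2)))) =
          2 * 4 ^ K * W ^ 5 * (Λ ^ (((1 - (K : ℝ) / K) * (1 + p0) + (1 + p2)) +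
            (-(1 + m1))) * E ^ ((1 + p0) + (-(1 + m2)))) := by
        rw [Real.rpow_add hΛ0 ((1 - (K : ℝ) / K) * (1 + p0) + (1 + p2)) (-(1 + m1)),
          Real.rpow_add hE0 (1 + p0) (-(1 + m2))]
        ring
      rw [e1] at h1
      refine h1.trans ?_
      have hx : ((1 - (K : ℝ) / K) * (1 + p0) + (1 + p2)) + (-(1 + m1)) ≤
          -(m1 - p2 - p0 - s - 1 / K) := by
        rw [div_self hK'.ne']
        have : (0:ℝ) < 1 / K := by positivity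
        nlinarith
      have h7 : Λ ^ (((1 - (K : ℝ) / K) * (1 + p0) + (1 + p2)) + (-(1 + m1))) ≤
          Λ ^ (-(m1 - p2 - p0 - s - 1 / K)) :=
        Real.rpow_le_rpow_of_exponent_le hΛ hx
      have h8 : (1 + p0) + (-(1 + m2)) = -(m2 - p0) := by ring
      rw [h8]
      gcongr
      norm_num
  rw [Real.rpow_neg hΛ0.le, Real.rpow_neg hE0.le, ← mul_inv] at key
  have hpos : 0 < Λ ^ (m1 - p2 - p0 - s - 1 / K) * E ^ (m2 - p0) := by positivity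
  rwa [← div_eq_mul_inv, le_div_iff₀ hpos, one_mul] at key

/-- the exponents of `Ex2` -/
theorem nd_fin2 {ι κ κ' : Type*} {P : Finset ι} {u : ι → κ} {v : ι → κ'} {cu cv : ι → ι → Prop}
    {au av : ι → ι → ℝ} {x : ℕ → ℝ} {K : ℕ} {M W σ Λ E p0 p2 m1 m2 s : ℝ} {N r : ℝ → ℝ}
    (hΛ : 1 ≤ Λ) (hE : 1 ≤ E) (hp0 : 0 ≤ p0) (hm1 : 0 < m1) (he1 : 8 * (p2 + p0) ≤ m1)
    (he2 : 2 * p0 ≤ m2) (hs : 0 ≤ s) (hsm : 8 * s ≤ m1) (hKm : 8 ≤ K * m1)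
    (h : Nd P u v cu cv au av x K M W σ N r)
    (hN : ∀ k, k ≤ K → N (x k) ≤ Nh Λ E p0 p2 (xs Λ K k))
    (hr : ∀ k, k ≤ K → r (x k) ≤ rs Λ s (xs Λ K k))
    (hσ : σ ≤ sg W Λ E m1 m2) :
    Λ ^ (m1 / 2) * E ^ (m2 / 2) ≤ 6 * 4 ^ K * W ^ 5 := by
  have hK : 0 < K := by
    rcases Nat.eq_zero_or_pos K with h0 | h0
    · rw [h0] at hKm; norm_num at hKm
    · exact h0
  have hK' : (0:ℝ) < K := by exact_mod_cast hK
  refine le_trans ?_ (nd_gen hK hΛ hE hp0 hs h hN hr hσ)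
  have h1 : (1:ℝ) / K ≤ m1 / 8 := by
    rw [div_le_div_iff₀ hK' (by norm_num)]
    linarith
  have a1 : m1 / 2 ≤ m1 - p2 - p0 - s - 1 / K := by linarith
  have a2 : m2 / 2 ≤ m2 - p0 := by linarith
  have hE0 : 0 ≤ E := by linarith
  have hΛ0 : 0 ≤ Λ := by linarith
  exact mul_le_mul (Real.rpow_le_rpow_of_exponent_le hΛ a1)
    (Real.rpow_le_rpow_of_exponent_le hE a2) (by positivity) (by positivity)

end Crest.Agent.R136.Nde372
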