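import Crest.Agent.R136.Gr2_356
import Crest.Agent.R138.TwA_501
import Crest.Agent.R136.Prn3_779
import Crest.Agent.R136.Rg6_501

-- ▼ part R136/Xd1_272
section

/-!
# R136: heavy functionals and transport, finite lemmas (helper272)

* `kauf_lab` : finite Kaufman inequality with labels of cells, arbitrary near relation;
* `far_pair` : two far heights with many common lines;
* `sep_card` : separated subset.
-/

set_option autoImplicit false
set_option linter.unusedVariables false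
set_option linter.unusedSectionVars false

open Finset Filter Topology

namespace Crest.Agent.R136.Xd272

open Crest.Agent.R138.TwA501 (energy pair_sum_le)
open Crest.Agent.R136.Gf356

open Classical in
/-- the finite Kaufman inequality at one pin, cells given by labels -/
theorem kauf_lab (Z S : Finset ℕ) (al : ℕ → ℕ → Prop) (lab : ℕ → ℕ → ℕ)
    (near : ℕ → ℕ → ℕ → Prop) (D : ℕ → ℕ → ℝ) {J : ℕ} {M m : ℝ} (tt aa bb : ℕ → ℝ)
    (hm : 0 ≤ m) (hM0 : 0 ≤ M)
    (hlab : ∀ k ∈ Z, ∀ i ∈ S, ∀ i' ∈ S, al i k → al i' k → lab k i = lab k i' → near k i i')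
    (hcell : ∀ k ∈ Z, (((S.filter fun i => al i k).image (lab k)).card : ℝ) ≤ M)
    (hal : ∀ i ∈ S, m * (Z.card : ℝ) ≤ ((Z.filter fun k => al i k).card : ℝ))
    (h0 : ∀ i ∈ S, ∀ i' ∈ S, D i i' ≤ tt 0)
    (hb : ∀ j ≤ J, 0 ≤ bb j)
    (h1 : ∀ j < J, ∀ i ∈ S, ∀ i' ∈ S, tt (j + 1) < D i i' →
      ((Z.filter fun k => near k i i').card : ℝ) ≤ bb j * Z.card)
    (h2 : (1 : ℝ) ≤ bb J)
    (hnear : ∀ j ≤ J, ∀ i ∈ S, ((S.filter fun i' => D i i' ≤ tt j).card : ℝ) ≤ aa j * S.card)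
    (hS : S.Nonempty) (hZ : Z.Nonempty) :
    m ^ 2 ≤ M * ∑ j ∈ range (J + 1), aa j * bb j := by
  have hZc : (0 : ℝ) < Z.card := by exact_mod_cast card_pos.2 hZ
  have hSc : (0 : ℝ) < S.card := by exact_mod_cast card_pos.2 hS
  have e1 := energy (S := S) (K := Z) (fun k => S.filter fun i => al i k)
    (fun k _ => filter_subset _ _) (fun k i => ((lab k i : ℕ) : ℤ))
    (fun k i i' => near k i i') M (by
      intro k hk i hi i' hi' hl
      rw [mem_filter] at hi hi'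
      exact hlab k hk i hi.1 i' hi'.1 hi.2 hi'.2 (by exact_mod_cast hl)) (by
      intro k hk
      refine le_trans ?_ (hcell k hk)
      have : (S.filter fun i => al i k).image (fun i => ((lab k i : ℕ) : ℤ)) =
          ((S.filter fun i => al i k).image (lab k)).image fun c : ℕ => (c : ℤ) := by
        rw [image_image]; rfl
      rw [this]
      exact_mod_cast card_image_le)
  have e2 := pair_sum_le (S := S)
    (fun i i' => ((Z.filter fun k => near k i i').card : ℝ))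
    D tt (fun j => bb j * Z.card) J
    (fun j hj => mul_nonneg (hb j hj) hZc.le) h0
    (fun j hj i hi i' hi' hD => h1 j hj i hi i' hi' hD)
    (fun i hi i' hi' => by
      calc ((Z.filter fun k => near k i i').card : ℝ) ≤ Z.card := by
            exact_mod_cast card_le_card (filter_subset _ _)
        _ = 1 * Z.card := (one_mul _).symm
        _ ≤ _ := mul_le_mul_of_nonneg_right h2 hZc.le)
    (fun j => aa j * S.card) hnear
  have e3 : ∑ k ∈ Z, (((S.filter fun i => al i k).card : ℕ) : ℝ) =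
      ∑ i ∈ S, ((Z.filter fun k => al i k).card : ℝ) := by
    have g1 : ∀ k ∈ Z, (((S.filter fun i => al i k).card : ℕ) : ℝ) =
        ∑ i ∈ S, (if al i k then (1 : ℝ) else 0) := by
      intro k _
      rw [card_filter]; push_cast; rfl
    have g2 : ∀ i ∈ S, (((Z.filter fun k => al i k).card : ℕ) : ℝ) =
        ∑ k ∈ Z, (if al i k then (1 : ℝ) else 0) := by
      intro i _
      rw [card_filter]; push_cast; rfl
    rw [sum_congr rfl g1, sum_congr rfl g2, sum_comm]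
  have e4 : m * Z.card * S.card ≤ ∑ k ∈ Z, (((S.filter fun i => al i k).card : ℕ) : ℝ) := by
    rw [e3]
    calc m * Z.card * S.card = ∑ i ∈ S, m * (Z.card : ℝ) := by
          rw [sum_const, nsmul_eq_mul]; ring
      _ ≤ _ := sum_le_sum hal
  have hsum : ∑ j ∈ range (J + 1), aa j * (S.card : ℝ) * (bb j * Z.card) =
      (S.card : ℝ) * Z.card * ∑ j ∈ range (J + 1), (aa j * bb j) := by
    rw [mul_sum]
    refine sum_congr rfl fun j _ => ?_
    ring
  rw [hsum] at e2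
  have e5 : (m * Z.card * S.card) ^ 2 ≤ (Z.card : ℝ) * (M *
      (S.card * ((S.card : ℝ) * Z.card * ∑ j ∈ range (J + 1), (aa j * bb j)))) := by
    refine (pow_le_pow_left₀ (by positivity) e4 2).trans (e1.trans ?_)
    refine mul_le_mul_of_nonneg_left (mul_le_mul_of_nonneg_left e2 hM0) hZc.le
  have e6 : m ^ 2 * ((Z.card : ℝ) * S.card) ^ 2 ≤
      (M * ∑ j ∈ range (J + 1), aa j * bb j) * ((Z.card : ℝ) * S.card) ^ 2 := by
    calc _ = (m * Z.card * S.card) ^ 2 := by ring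
      _ ≤ _ := e5
      _ = _ := by ring
  exact le_of_mul_le_mul_right e6 (by positivity)

/-- the finite Kaufman inequality with labels, in a form without decidability -/
theorem kauf_labT (Z S : Finset ℕ) (al : ℕ → ℕ → Prop) (lab : ℕ → ℕ → ℕ)
    (near : ℕ → ℕ → ℕ → Prop) (D : ℕ → ℕ → ℝ) {J : ℕ} {M m : ℝ} (tt aa bb : ℕ → ℝ)
    (hm : 0 ≤ m) (hM0 : 0 ≤ M)
    (hlab : ∀ k ∈ Z, ∀ i ∈ S, ∀ i' ∈ S, al i k → al i' k → lab k i = lab k i' → near k i i')
    (hcell : ∀ k ∈ Z, ∀ T ⊆ S, (∀ i ∈ T, al i k) → ((T.image (lab k)).card : ℝ) ≤ M)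
    (hal : ∀ i ∈ S, ∀ T ⊆ Z, (∀ k ∈ Z, al i k → k ∈ T) → m * (Z.card : ℝ) ≤ (T.card : ℝ))
    (h0 : ∀ i ∈ S, ∀ i' ∈ S, D i i' ≤ tt 0)
    (hb : ∀ j ≤ J, 0 ≤ bb j)
    (h1 : ∀ j < J, ∀ i ∈ S, ∀ i' ∈ S, tt (j + 1) < D i i' → ∀ T ⊆ Z, (∀ k ∈ T, near k i i') →
      (T.card : ℝ) ≤ bb j * Z.card)
    (h2 : (1 : ℝ) ≤ bb J)
    (hnear : ∀ j ≤ J, ∀ i ∈ S, ∀ T ⊆ S, (∀ i' ∈ T, D i i' ≤ tt j) →
      (T.card : ℝ) ≤ aa j * S.card)
    (hS : S.Nonempty) (hZ : Z.Nonempty) :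
    m ^ 2 ≤ M * ∑ j ∈ range (J + 1), aa j * bb j := by
  classical
  refine kauf_lab Z S al lab near D tt aa bb hm hM0 hlab ?_ ?_ h0 hb ?_ h2 ?_ hS hZ
  · intro k hk
    exact hcell k hk _ (filter_subset _ _) fun i hi => (mem_filter.1 hi).2
  · intro i hi
    exact hal i hi _ (filter_subset _ _) fun k hk h => mem_filter.2 ⟨hk, h⟩
  · intro j hj i hi i' hi' hD
    exact h1 j hj i hi i' hi' hD _ (filter_subset _ _) fun k hk => (mem_filter.1 hk).2
  · intro j hj i hi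
    exact hnear j hj i hi _ (filter_subset _ _) fun k hk => (mem_filter.1 hk).2

/-- the finite Kaufman inequality with labels, without bound for the differences -/
theorem kauf_labF (Z S : Finset ℕ) (al : ℕ → ℕ → Prop) (lab : ℕ → ℕ → ℕ)
    (near : ℕ → ℕ → ℕ → Prop) (D : ℕ → ℕ → ℝ) {J : ℕ} {M m : ℝ} (tt aa bb : ℕ → ℝ)
    (hm : 0 ≤ m) (hM0 : 0 ≤ M)
    (hlab : ∀ k ∈ Z, ∀ i ∈ S, ∀ i' ∈ S, al i k → al i' k → lab k i = lab k i' → near k i i')
    (hcell : ∀ k ∈ Z, ∀ T ⊆ S, (∀ i ∈ T, al i k) → ((T.image (lab k)).card : ℝ) ≤ M)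
    (hal : ∀ i ∈ S, ∀ T ⊆ Z, (∀ k ∈ Z, al i k → k ∈ T) → m * (Z.card : ℝ) ≤ (T.card : ℝ))
    (hD : ∀ i ∈ S, ∀ i' ∈ S, 0 ≤ D i i')
    (hb : ∀ j ≤ J, 0 ≤ bb j)
    (h1 : ∀ j < J, ∀ i ∈ S, ∀ i' ∈ S, tt (j + 1) < D i i' → ∀ T ⊆ Z, (∀ k ∈ T, near k i i') →
      (T.card : ℝ) ≤ bb j * Z.card)
    (h2 : (1 : ℝ) ≤ bb J) (ha : (1 : ℝ) ≤ aa 0)
    (hnear : ∀ j, 1 ≤ j → j ≤ J → ∀ i ∈ S, ∀ T ⊆ S, (∀ i' ∈ T, D i i' ≤ tt j) →
      (T.card : ℝ) ≤ aa j * S.card)
    (hS : S.Nonempty) (hZ : Z.Nonempty) :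
    m ^ 2 ≤ M * ∑ j ∈ range (J + 1), aa j * bb j := by
  classical
  refine kauf_labT Z S al lab near D
    (fun j => if j = 0 then ∑ i ∈ S, ∑ i' ∈ S, D i i' else tt j) aa bb hm hM0 hlab hcell hal ?_ hb
    ?_ h2 ?_ hS hZ
  · intro i hi i' hi'
    simp only [if_true]
    calc D i i' ≤ ∑ i' ∈ S, D i i' := single_le_sum (f := fun i' => D i i') (hD i hi) hi'
      _ ≤ _ := single_le_sum (f := fun i => ∑ i' ∈ S, D i i')
        (fun i hi => sum_nonneg (hD i hi)) hi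
  · intro j hj i hi i' hi' h
    simp only [Nat.add_eq_zero_iff, one_ne_zero, and_false, if_false] at h
    exact h1 j hj i hi i' hi' h
  · intro j hj i hi T hT hTD
    rcases Nat.eq_zero_or_pos j with h0 | h0
    · subst h0
      have h3 : (T.card : ℝ) ≤ 1 * S.card := by
        rw [one_mul]; exact_mod_cast card_le_card hT
      exact h3.trans (mul_le_mul_of_nonneg_right ha (Nat.cast_nonneg _))
    · have hne : j ≠ 0 := by omega
      simp only [if_neg hne] at hTD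
      exact hnear j h0 hj i hi T hT hTD

open Classical in
/-- two far heights with many common lines -/
theorem far_pair (L Z : Finset ℕ) (J : Finset (ℕ × ℕ)) (z : ℕ → ℝ) {θ s : ℝ} (hθ : 0 < θ)
    (hL : L.Nonempty) (hZ : Z.Nonempty) (hJ : J ⊆ L ×ˢ Z)
    (hc : θ * ((L.card : ℝ) * Z.card) ≤ (J.card : ℝ))
    (hfr : ∀ k ∈ Z, ((Z.filter fun k' => |z k' - z k| ≤ s).card : ℝ) ≤ θ ^ 2 / 4 * Z.card) :
    ∃ k ∈ Z, ∃ k' ∈ Z, s < |z k' - z k| ∧
      θ ^ 2 / 2 * (L.card : ℝ) ≤ ((L.filter fun i => (i, k) ∈ J ∧ (i, k') ∈ J).card : ℝ) := by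
  by_contra hcon
  push Not at hcon
  have hZ0 : (0 : ℝ) < Z.card := by exact_mod_cast hZ.card_pos
  have hL0 : (0 : ℝ) < L.card := by exact_mod_cast hL.card_pos
  have hJc : (J.card : ℝ) = ∑ i ∈ L, ((Z.filter fun k => (i, k) ∈ J).card : ℝ) := by
    have h1 : J = (L ×ˢ Z).filter fun q => q ∈ J := by
      ext q
      rw [mem_filter]
      exact ⟨fun h => ⟨hJ h, h⟩, fun h => h.2⟩
    conv_lhs => rw [h1]
    rw [card_filter, sum_product]
    push_cast
    refine sum_congr rfl fun i _ => ?_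
    rw [card_filter]; push_cast; rfl
  have h1 : (J.card : ℝ) ^ 2 ≤ L.card * ∑ i ∈ L, ((Z.filter fun k => (i, k) ∈ J).card : ℝ) ^ 2 := by
    rw [hJc]
    exact sq_sum_le_card_mul_sum_sq
  have h2 : ∑ i ∈ L, ((Z.filter fun k => (i, k) ∈ J).card : ℝ) ^ 2 =
      ∑ k ∈ Z, ∑ k' ∈ Z, ((L.filter fun i => (i, k) ∈ J ∧ (i, k') ∈ J).card : ℝ) := by
    have g1 : ∀ i ∈ L, ((Z.filter fun k => (i, k) ∈ J).card : ℝ) ^ 2 =
        ∑ k ∈ Z, ∑ k' ∈ Z, (if (i, k) ∈ J ∧ (i, k') ∈ J then (1 : ℝ) else 0) := by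
      intro i _
      have : ((Z.filter fun k => (i, k) ∈ J).card : ℝ) =
          ∑ k ∈ Z, (if (i, k) ∈ J then (1 : ℝ) else 0) := by
        rw [card_filter]; push_cast; rfl
      rw [this, sq, sum_mul_sum]
      refine sum_congr rfl fun k _ => sum_congr rfl fun k' _ => ?_
      by_cases a1 : (i, k) ∈ J <;> by_cases a2 : (i, k') ∈ J <;> simp [a1, a2]
    rw [sum_congr rfl g1, sum_comm]
    refine sum_congr rfl fun k _ => ?_
    rw [sum_comm]
    refine sum_congr rfl fun k' _ => ?_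
    rw [card_filter]; push_cast; rfl
  have h3 : ∀ k ∈ Z, ∑ k' ∈ Z, ((L.filter fun i => (i, k) ∈ J ∧ (i, k') ∈ J).card : ℝ) ≤
      θ ^ 2 / 2 * L.card * Z.card + θ ^ 2 / 4 * Z.card * L.card := by
    intro k hk
    rw [← sum_filter_add_sum_filter_not Z (fun k' => |z k' - z k| ≤ s)]
    have a1 : ∑ k' ∈ Z.filter (fun k' => |z k' - z k| ≤ s),
        ((L.filter fun i => (i, k) ∈ J ∧ (i, k') ∈ J).card : ℝ) ≤ θ ^ 2 / 4 * Z.card * L.card := by
      calc _ ≤ ∑ k' ∈ Z.filter (fun k' => |z k' - z k| ≤ s), (L.card : ℝ) :=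
            sum_le_sum fun k' _ => by exact_mod_cast card_le_card (filter_subset _ _)
        _ = ((Z.filter fun k' => |z k' - z k| ≤ s).card : ℝ) * L.card := by
            rw [sum_const, nsmul_eq_mul]
        _ ≤ _ := mul_le_mul_of_nonneg_right (hfr k hk) hL0.le
    have a2 : ∑ k' ∈ Z.filter (fun k' => ¬ |z k' - z k| ≤ s),
        ((L.filter fun i => (i, k) ∈ J ∧ (i, k') ∈ J).card : ℝ) ≤
          θ ^ 2 / 2 * L.card * Z.card := by
      calc _ ≤ ∑ k' ∈ Z.filter (fun k' => ¬ |z k' - z k| ≤ s), (θ ^ 2 / 2 * L.card) := by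
            refine sum_le_sum fun k' hk' => ?_
            rw [mem_filter, not_le] at hk'
            exact (hcon k hk k' hk'.1 hk'.2).le
        _ = ((Z.filter fun k' => ¬ |z k' - z k| ≤ s).card : ℝ) * (θ ^ 2 / 2 * L.card) := by
            rw [sum_const, nsmul_eq_mul]
        _ ≤ (Z.card : ℝ) * (θ ^ 2 / 2 * L.card) :=
            mul_le_mul_of_nonneg_right (by exact_mod_cast card_le_card (filter_subset _ _))
              (by positivity)
        _ = _ := by ring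
    linarith
  have h4 : (J.card : ℝ) ^ 2 ≤ L.card * (Z.card *
      (θ ^ 2 / 2 * L.card * Z.card + θ ^ 2 / 4 * Z.card * L.card)) := by
    refine h1.trans ?_
    rw [h2]
    refine mul_le_mul_of_nonneg_left ?_ hL0.le
    calc _ ≤ ∑ k ∈ Z, (θ ^ 2 / 2 * L.card * Z.card + θ ^ 2 / 4 * Z.card * L.card) :=
          sum_le_sum h3
      _ = _ := by rw [sum_const, nsmul_eq_mul]
  have h5 : (θ * ((L.card : ℝ) * Z.card)) ^ 2 ≤ (J.card : ℝ) ^ 2 :=
    pow_le_pow_left₀ (by positivity) hc 2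
  have h6 : 0 < θ ^ 2 * ((L.card : ℝ) * Z.card) ^ 2 := by positivity
  nlinarith

open Classical in
/-- a separated subset with few elements forces large classes -/
theorem sep_card (T : Finset ℕ) (v : ℕ → ℕ → ℝ) {s M : ℝ}
    (hM : ∀ t ∈ T, ((T.filter fun t' => |v t t'| ≤ s ∨ |v t' t| ≤ s).card : ℝ) ≤ M)
    (hself : ∀ t ∈ T, |v t t| ≤ s) :
    ∃ E ⊆ T, (∀ e ∈ E, ∀ e' ∈ E, e ≠ e' → s < |v e e'|) ∧ (T.card : ℝ) ≤ E.card * M := by
  obtain ⟨E, hET, h1, h2⟩ := exists_indep T (fun e t => |v e t| ≤ s)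
  refine ⟨E, hET, fun e he e' he' hne => not_le.1 (h1 e he e' he' hne), ?_⟩
  have hsub : T ⊆ E.biUnion fun e => T.filter fun t' => |v e t'| ≤ s ∨ |v t' e| ≤ s := by
    intro t ht
    rw [mem_biUnion]
    by_cases htE : t ∈ E
    · exact ⟨t, htE, mem_filter.2 ⟨ht, Or.inl (hself t ht)⟩⟩
    · obtain ⟨e, he, h⟩ := h2 t ht htE
      exact ⟨e, he, mem_filter.2 ⟨ht, h⟩⟩
  calc (T.card : ℝ) ≤ ((E.biUnion fun e => T.filter fun t' => |v e t'| ≤ s ∨ |v t' e| ≤ s).card : ℝ) := by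
        exact_mod_cast card_le_card hsub
    _ ≤ ∑ e ∈ E, ((T.filter fun t' => |v e t'| ≤ s ∨ |v t' e| ≤ s).card : ℝ) := by
        exact_mod_cast card_biUnion_le
    _ ≤ ∑ e ∈ E, M := sum_le_sum fun e he => hM e (hET he)
    _ = _ := by rw [sum_const, nsmul_eq_mul]

end Crest.Agent.R136.Xd272
end

-- ▼ part R136/Xd2_272
section

/-!
# R136: few values of a heavy functional (helper272)

* `dense_fibre` : a dense part of a slice is dense in some box;
* `few_vals` : lines which own a heavy level set of the functional `dn` in their box `qH` take few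
  different values.
-/

set_option autoImplicit false
set_option linter.unusedVariables false
set_option linter.unusedSectionVars false

open Finset Filter Topology

namespace Crest.Agent.R136.Xd272

open Crest.Agent.R138.Ex926 (Base U)
open Crest.Agent.R136.Gf356
open Crest.Agent.R136.Prn779 (OneBox)

variable {κ : Type} {B : Base} {G : ℕ → RCfg κ} {Leg : Set (κ → ℝ)} {ν : (κ → ℝ) → ℝ}
  {σ R D : ℝ}

open Classical in
/-- a dense part of a slice is dense in some box -/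
theorem dense_fibre (H : RUnif B G Leg ν D) {p : κ → ℝ} (hp : p ∈ Leg) {ε : ℝ} (hε : 0 < ε) :
    ∀ᶠ n in (U : Filter ℕ), ∀ k, ∀ W ⊆ (G n).slice k, W.Nonempty → ∀ θ : ℝ, 0 < θ →
      θ * (((G n).slice k).card : ℝ) ≤ (W.card : ℝ) →
      ∃ T ⊆ W, T.Nonempty ∧ (∀ t ∈ T, ∀ t' ∈ T, (G n).loose p (D ^ 5 * ε) k t t') ∧
        θ * B.d n ^ (-ν p + ε) ≤ (T.card : ℝ) := by
  filter_upwards [H.exists_lab p hp hε] with n hn k W hW hWne θ hθ hWc
  obtain ⟨lab, h1, h2⟩ := hn k W hW ((G n).slice k) (fun t _ => RCfg.box_subset_slice)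
  obtain ⟨i0, hi0, h3⟩ := exists_fibre W lab hWne h2
  refine ⟨W.filter fun i => lab i = lab i0, filter_subset _ _, ⟨i0, by simp [hi0]⟩, ?_, ?_⟩
  · intro t ht t' ht'
    rw [mem_filter] at ht ht'
    exact h1 t ht.1 t' ht'.1 (ht.2.trans ht'.2.symm)
  · have hs : (0 : ℝ) < ((G n).slice k).card := by
      obtain ⟨t, ht⟩ := hWne
      exact_mod_cast card_pos.2 ⟨t, hW ht⟩
    have h4 : θ * (((G n).slice k).card : ℝ) ≤ (((G n).slice k).card : ℝ) *
        (B.d n ^ (ν p - ε) * ((W.filter fun i => lab i = lab i0).card : ℝ)) := by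
      refine hWc.trans (h3.trans (le_of_eq (by ring)))
    have h5 : θ ≤ B.d n ^ (ν p - ε) * ((W.filter fun i => lab i = lab i0).card : ℝ) := by
      have : (((G n).slice k).card : ℝ) * θ ≤ (((G n).slice k).card : ℝ) *
        (B.d n ^ (ν p - ε) * ((W.filter fun i => lab i = lab i0).card : ℝ)) := by
        rw [mul_comm]; exact h4
      exact le_of_mul_le_mul_left this hs
    have h6 : B.d n ^ (ν p - ε) * B.d n ^ (-ν p + ε) = 1 := by
      rw [← rpow_add']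
      have : ν p - ε + (-ν p + ε) = 0 := by ring
      rw [this, Real.rpow_zero]
    calc θ * B.d n ^ (-ν p + ε) ≤ B.d n ^ (ν p - ε) *
          ((W.filter fun i => lab i = lab i0).card : ℝ) * B.d n ^ (-ν p + ε) :=
          mul_le_mul_of_nonneg_right h5 (rpos B n _).le
      _ = (B.d n ^ (ν p - ε) * B.d n ^ (-ν p + ε)) *
          ((W.filter fun i => lab i = lab i0).card : ℝ) := by ring
      _ = _ := by rw [h6, one_mul]

open Classical in
/-- lines with a heavy level set take few values -/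
theorem few_vals (H : RUnif B G Leg ν D) {qH r2 qr p0 : κ → ℝ} (hqH : qH ∈ Leg) (hr2 : r2 ∈ Leg)
    (hqr : qr ∈ Leg) (hp0 : p0 ∈ Leg) (h0r : ∀ j, p0 j ≤ r2 j)
    (hmax : ∀ j, qr j ≤ max (qH j) (r2 j)) (hone : OneBox G p0)
    (hsplit : ν p0 - ν r2 ≤ ν qH - ν qr) (dn : ℕ → ℕ → ℕ → ℕ → ℝ) {c c' w εH : ℝ}
    (hεH : 0 < εH) (hcc : c < c')
    (hadd : ∀ᶠ n in (U : Filter ℕ), ∀ k i j l, (i, k) ∈ (G n).I → (j, k) ∈ (G n).I →
      (l, k) ∈ (G n).I → |dn n k i l - dn n k i j - dn n k j l| ≤ B.d n ^ c')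
    (hsm : ∀ᶠ n in (U : Filter ℕ), ∀ k i l, (i, k) ∈ (G n).I → (l, k) ∈ (G n).I →
      (G n).loose r2 (D ^ 5 * εH) k i l → |dn n k i l| ≤ B.d n ^ c') :
    ∀ᶠ n in (U : Filter ℕ), ∀ k, ∀ T ⊆ (G n).slice k,
      (∀ e ∈ T, B.d n ^ (-ν qH + w) ≤
        ((((G n).box qH εH e k).filter fun l => |dn n k e l| ≤ B.d n ^ c').card : ℝ)) →
      (∀ e ∈ T, ∀ e' ∈ T, e ≠ e' → B.d n ^ c < |dn n k e e'|) →
      (T.card : ℝ) ≤ B.d n ^ (-(w + (D ^ 6 + D ^ 2 + 1) * εH)) := by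
  have hD := H.D1
  have hD0 : 0 < D := by linarith
  have hD2 : D ^ 2 ≤ D ^ 5 := pow_le_pow_right₀ hD (by norm_num)
  filter_upwards [hadd, hsm, H.symm qH hqH εH hεH, H.tri qH hqH (D * εH) (by positivity),
    H.up qr hqr (D ^ 5 * εH) (by positivity), H.exists_lab_loose p0 r2 hp0 hr2 h0r hεH,
    hone εH hεH, Crest.Agent.R138.TwA501.ev_const_mul B 7 hcc]
    with n hadd hsm hsymm htri hup hlabs hone h7 k T hT hV hsep
  have hpow : ∀ t : ℝ, 0 < B.d n ^ t := fun t => rpos B n t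
  obtain ⟨lab, l1, l2⟩ := hlabs k ((G n).slice k) (Subset.refl _) (fun i hi i' hi' =>
    hone i i' k (H.memSlice.1 hi) (H.memSlice.1 hi'))
  set V : ℕ → Finset ℕ := fun e =>
    ((G n).box qH εH e k).filter fun l => |dn n k e l| ≤ B.d n ^ c' with hVdef
  have hIT : ∀ e ∈ T, (e, k) ∈ (G n).I := fun e he => H.memSlice.1 (hT he)
  have hVI : ∀ e, ∀ t ∈ V e, (t, k) ∈ (G n).I := by
    intro e t ht
    rw [hVdef] at ht
    exact H.memSlice.1 (RCfg.box_subset_slice (mem_filter.1 ht).1)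
  -- classes of labels inside `V e`
  have hcls : ∀ e ∈ T, ∀ b ∈ (V e).image lab,
      (((V e).filter fun t => lab t = b).card : ℝ) ≤ B.d n ^ (-ν qr - D * (D ^ 5 * εH)) := by
    intro e he b hb
    obtain ⟨t0, ht0, rfl⟩ := mem_image.1 hb
    refine le_trans ?_ (hup t0 k (hVI e t0 ht0))
    refine mod_cast card_le_card ?_
    intro t ht
    obtain ⟨ht1, ht2⟩ := mem_filter.1 ht
    have a0 := (RCfg.mem_box.1 (mem_filter.1 ht0).1).2
    have a1 := (RCfg.mem_box.1 (mem_filter.1 ht1).1).2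
    have a2 := hsymm k e t0 (hIT e he) (hVI e t0 ht0) a0
    have a3 : (G n).loose qH (D * εH) k e t := H.loose_mono (fun _ => le_rfl) (by nlinarith) a1
    have a4 := htri k t0 e t (hVI e t0 ht0) (hIT e he) (hVI e t ht1) a2 a3
    have a5 := l1 t0 (H.memSlice.2 (hVI e t0 ht0)) t (H.memSlice.2 (hVI e t ht1)) ht2.symm
    refine RCfg.mem_box.2 ⟨H.memSlice.2 (hVI e t ht1), fun j => ?_⟩
    have b1 := a4 j
    have b2 := a5 j
    rw [H.base n] at b1 b2 ⊢
    rcases le_total (qH j) (r2 j) with h | h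
    · have h' := hmax j
      rw [max_eq_right h] at h'
      exact b2.trans (rpow_anti B n (by linarith))
    · have h' := hmax j
      rw [max_eq_left h] at h'
      refine b1.trans (rpow_anti B n ?_)
      have : D * (D * εH) ≤ D ^ 5 * εH := by
        calc D * (D * εH) = D ^ 2 * εH := by ring
          _ ≤ _ := mul_le_mul_of_nonneg_right hD2 hεH.le
      linarith
  have hlabV : ∀ e ∈ T, B.d n ^ (-ν qH + w) ≤ (((V e).image lab).card : ℝ) *
      B.d n ^ (-ν qr - D * (D ^ 5 * εH)) := by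
    intro e he
    refine (hV e he).trans ?_
    have h1 : ((V e).card : ℝ) = ∑ b ∈ (V e).image lab, (((V e).filter fun t => lab t = b).card : ℝ) := by
      have := card_eq_sum_card_fiberwise (s := V e) (t := (V e).image lab) (f := lab)
        (fun i hi => mem_image_of_mem _ hi)
      exact_mod_cast this
    change ((V e).card : ℝ) ≤ _
    rw [h1]
    calc _ ≤ ∑ b ∈ (V e).image lab, B.d n ^ (-ν qr - D * (D ^ 5 * εH)) :=
          sum_le_sum fun b hb => hcls e he b hb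
      _ = _ := by rw [sum_const, nsmul_eq_mul]
  -- disjointness
  have hee : ∀ e ∈ T, |dn n k e e| ≤ B.d n ^ c' := by
    intro e he
    have := hadd k e e e (hIT e he) (hIT e he) (hIT e he)
    have e1 : dn n k e e - dn n k e e - dn n k e e = - dn n k e e := by ring
    rwa [e1, abs_neg] at this
  have hdisj : ∀ e ∈ T, ∀ e' ∈ T, e ≠ e' → Disjoint ((V e).image lab) ((V e').image lab) := by
    intro e he e' he' hne
    rw [disjoint_left]
    intro b hb hb'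
    obtain ⟨t, ht, rfl⟩ := mem_image.1 hb
    obtain ⟨t', ht', hl⟩ := mem_image.1 hb'
    have b1 := (mem_filter.1 ht).2
    have b2 := (mem_filter.1 ht').2
    have b3 := hsm k t t' (hVI e t ht) (hVI e' t' ht') (l1 t (H.memSlice.2 (hVI e t ht)) t'
      (H.memSlice.2 (hVI e' t' ht')) hl.symm)
    have b4 := hadd k e t e' (hIT e he) (hVI e t ht) (hIT e' he')
    have b5 := hadd k t t' e' (hVI e t ht) (hVI e' t' ht') (hIT e' he')
    have b6 := hadd k e' t' e' (hIT e' he') (hVI e' t' ht') (hIT e' he')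
    have b7 := hee e' he'
    have b8 := hsep e he e' he' hne
    have b9 : |dn n k e e'| ≤ 7 * B.d n ^ c' := by
      rw [abs_le] at b1 b2 b3 b4 b5 b6 b7 ⊢
      constructor <;> linarith [b1.1, b1.2, b2.1, b2.2, b3.1, b3.2, b4.1, b4.2, b5.1, b5.2,
        b6.1, b6.2, b7.1, b7.2]
    linarith
  have hsum : ∑ e ∈ T, (((V e).image lab).card : ℝ) ≤ ((((G n).slice k).image lab).card : ℝ) := by
    have h1 : ∑ e ∈ T, ((V e).image lab).card = (T.biUnion fun e => (V e).image lab).card :=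
      (card_biUnion fun e he e' he' hne => hdisj e he e' he' hne).symm
    have h2 : (T.biUnion fun e => (V e).image lab) ⊆ ((G n).slice k).image lab := by
      intro b hb
      obtain ⟨e, he, hb⟩ := mem_biUnion.1 hb
      obtain ⟨t, ht, rfl⟩ := mem_image.1 hb
      exact mem_image_of_mem _ (H.memSlice.2 (hVI e t ht))
    have h3 := card_le_card h2
    rw [← h1] at h3
    exact_mod_cast h3
  have hfin : (T.card : ℝ) * B.d n ^ (-ν qH + w) ≤ B.d n ^ (-(ν p0 - ν r2) - (D ^ 2 + 1) * εH) *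
      B.d n ^ (-ν qr - D * (D ^ 5 * εH)) := by
    calc (T.card : ℝ) * B.d n ^ (-ν qH + w) = ∑ e ∈ T, B.d n ^ (-ν qH + w) := by
          rw [sum_const, nsmul_eq_mul]
      _ ≤ ∑ e ∈ T, (((V e).image lab).card : ℝ) * B.d n ^ (-ν qr - D * (D ^ 5 * εH)) :=
          sum_le_sum hlabV
      _ = (∑ e ∈ T, (((V e).image lab).card : ℝ)) * B.d n ^ (-ν qr - D * (D ^ 5 * εH)) := by
          rw [sum_mul]
      _ ≤ _ := mul_le_mul_of_nonneg_right (hsum.trans l2) (hpow _).le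
  have h8 : B.d n ^ (-ν qH + w) * B.d n ^ (ν qH - w) = 1 := by
    rw [← rpow_add']
    have : -ν qH + w + (ν qH - w) = 0 := by ring
    rw [this, Real.rpow_zero]
  calc (T.card : ℝ) = (T.card : ℝ) * B.d n ^ (-ν qH + w) * B.d n ^ (ν qH - w) := by
        rw [mul_assoc, h8, mul_one]
    _ ≤ B.d n ^ (-(ν p0 - ν r2) - (D ^ 2 + 1) * εH) *
      B.d n ^ (-ν qr - D * (D ^ 5 * εH)) * B.d n ^ (ν qH - w) :=
        mul_le_mul_of_nonneg_right hfin (hpow _).le
    _ = B.d n ^ (-(ν p0 - ν r2) - (D ^ 2 + 1) * εH + (-ν qr - D * (D ^ 5 * εH)) +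
        (ν qH - w)) := by rw [rpow_add', rpow_add']
    _ ≤ _ := by
        refine rpow_anti B n ?_
        have : D * (D ^ 5 * εH) = D ^ 6 * εH := by ring
        rw [this]
        linarith

end Crest.Agent.R136.Xd272
end

-- ▼ part R136/Xd3_272
section

/-!
# R136: heavy level sets of the velocity functional (helper272)

`heavy_R` : on a heavy set `Zs` of heights on which `N_k = N + (z k - z k0) n'` for all pairs in the
frozen box `pS`, `a < σ` forces: at least half of the incidences over `Zs` have in their box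
`qH = pS ∪ {N : (1-δ) y}` at least `ρ^(-ν qH + g y)` lines with `|Δ n'| ≤ ρ^((1-δ) y)`.
-/

set_option autoImplicit false
set_option linter.unusedVariables false
set_option linter.unusedSectionVars false

open Finset Filter Topology

namespace Crest.Agent.R136.Xd272

open Crest.Agent.R138.Ex926 (Base U)
open Crest.Agent.R138.TwA501 (ev_const_mul)
open Crest.Agent.R136.Gf356
open Crest.Agent.R136.Prn779 (OneBox)

variable {κ : Type} [DecidableEq κ] {B : Base} {G : ℕ → RCfg κ} {Leg : Set (κ → ℝ)}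
  {ν : (κ → ℝ) → ℝ} {σ R D : ℝ}

open Classical in
/-- number of lines of the box `q` around `(i, k)` with small functional -/
noncomputable def lev (G : RCfg κ) (q : κ → ℝ) (εH c : ℝ) (dn : ℕ → ℕ → ℕ → ℝ) (i k : ℕ) : ℝ :=
  (((G.box q εH i k).filter fun l => |dn k i l| ≤ c).card : ℝ)

open Classical in
/-- choice of a pin and of the set of light lines -/
theorem pick_pin (L Zs : Finset ℕ) (I Jl : Finset (ℕ × ℕ)) {e1 e3 : ℝ} (he1 : 0 < e1)
    (he3 : 0 < e3) (hL : L.Nonempty) (hZ : Zs.Nonempty)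
    (hI : ∀ q ∈ I, q.1 ∈ L) (hJl : Jl ⊆ I.filter fun q => q.2 ∈ Zs)
    (hsl : ∀ k ∈ Zs, e1 * (L.card : ℝ) ≤ ((L.filter fun i => (i, k) ∈ I).card : ℝ))
    (hJc : ((I.filter fun q => q.2 ∈ Zs).card : ℝ) < 2 * (Jl.card : ℝ))
    (h13 : e3 ≤ e1 / 4) :
    ∃ k0 ∈ Zs, ∃ W : Finset ℕ, W.Nonempty ∧ (∀ i ∈ W, (i, k0) ∈ Jl ∧
      ∀ T ⊆ Zs, (∀ k ∈ Zs, (i, k) ∈ I → k ∈ T) → e3 * (Zs.card : ℝ) ≤ (T.card : ℝ)) ∧
      e1 / 4 * (L.card : ℝ) ≤ (W.card : ℝ) := by
  suffices hsuff : ∃ k0 ∈ Zs, ∃ W : Finset ℕ, W.Nonempty ∧ (∀ i ∈ W, (i, k0) ∈ Jl ∧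
      e3 * (Zs.card : ℝ) ≤ ((Zs.filter fun k => (i, k) ∈ I).card : ℝ)) ∧
      e1 / 4 * (L.card : ℝ) ≤ (W.card : ℝ) by
    obtain ⟨k0, hk0, W, h1, h2, h3⟩ := hsuff
    refine ⟨k0, hk0, W, h1, fun i hi => ⟨(h2 i hi).1, fun T hT hTk => (h2 i hi).2.trans ?_⟩, h3⟩
    refine mod_cast card_le_card fun k hk => ?_
    exact hTk k (mem_filter.1 hk).1 (mem_filter.1 hk).2
  have hZ0 : (0 : ℝ) < Zs.card := by exact_mod_cast hZ.card_pos
  have hL0 : (0 : ℝ) < L.card := by exact_mod_cast hL.card_pos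
  by_contra hcon
  push Not at hcon
  -- rows
  have hrow : ∀ (T : Finset (ℕ × ℕ)), (∀ q ∈ T, q.1 ∈ L ∧ q.2 ∈ Zs) →
      (T.card : ℝ) = ∑ k ∈ Zs, ((L.filter fun i => (i, k) ∈ T).card : ℝ) := by
    intro T hT
    have h1 : T = (L ×ˢ Zs).filter fun q => q ∈ T := by
      ext q
      rw [mem_filter, mem_product]
      exact ⟨fun h => ⟨hT q h, h⟩, fun h => h.2⟩
    conv_lhs => rw [h1]
    rw [card_filter, sum_product_right]
    push_cast
    refine sum_congr rfl fun i _ => ?_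
    rw [card_filter]; push_cast; rfl
  have hcol : ∀ (T : Finset (ℕ × ℕ)), (∀ q ∈ T, q.1 ∈ L ∧ q.2 ∈ Zs) →
      (T.card : ℝ) = ∑ i ∈ L, ((Zs.filter fun k => (i, k) ∈ T).card : ℝ) := by
    intro T hT
    have h1 : T = (L ×ˢ Zs).filter fun q => q ∈ T := by
      ext q
      rw [mem_filter, mem_product]
      exact ⟨fun h => ⟨hT q h, h⟩, fun h => h.2⟩
    conv_lhs => rw [h1]
    rw [card_filter, sum_product]
    push_cast
    refine sum_congr rfl fun i _ => ?_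
    rw [card_filter]; push_cast; rfl
  obtain ⟨good, hgood⟩ : ∃ good : ℕ → Prop, ∀ i, good i ↔
      e3 * (Zs.card : ℝ) ≤ ((Zs.filter fun k => (i, k) ∈ I).card : ℝ) := ⟨_, fun _ => Iff.rfl⟩
  have hmemJ : ∀ q ∈ Jl, q.1 ∈ L ∧ q.2 ∈ Zs := by
    intro q hq
    have := mem_filter.1 (hJl hq)
    exact ⟨hI q this.1, this.2⟩
  have hmemI : ∀ q ∈ I.filter (fun q => q.2 ∈ Zs), q.1 ∈ L ∧ q.2 ∈ Zs := by
    intro q hq
    have := mem_filter.1 hq
    exact ⟨hI q this.1, this.2⟩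
  have h1 : e1 * L.card * Zs.card ≤ ((I.filter fun q => q.2 ∈ Zs).card : ℝ) := by
    rw [hrow _ hmemI]
    calc e1 * L.card * Zs.card = ∑ k ∈ Zs, e1 * (L.card : ℝ) := by
          rw [sum_const, nsmul_eq_mul]; ring
      _ ≤ _ := by
          refine sum_le_sum fun k hk => (hsl k hk).trans ?_
          refine mod_cast card_le_card ?_
          intro i hi
          rw [mem_filter] at hi ⊢
          exact ⟨hi.1, mem_filter.2 ⟨hi.2, hk⟩⟩
  have h2 : ((Jl.filter fun q => ¬ good q.1).card : ℝ) ≤ e3 * Zs.card * L.card := by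
    rw [hcol _ (fun q hq => hmemJ q (mem_filter.1 hq).1)]
    calc _ ≤ ∑ i ∈ L, e3 * (Zs.card : ℝ) := by
          refine sum_le_sum fun i hi => ?_
          by_cases hg : good i
          · have : (Zs.filter fun k => (i, k) ∈ Jl.filter fun q => ¬ good q.1) = ∅ := by
              ext k
              simp only [mem_filter, notMem_empty, iff_false]
              intro h
              exact h.2.2 hg
            rw [this]
            simp only [card_empty, Nat.cast_zero]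
            positivity
          · have hg' := not_le.1 fun h => hg ((hgood i).2 h)
            refine le_trans ?_ hg'.le
            refine mod_cast card_le_card ?_
            intro k hk
            rw [mem_filter] at hk ⊢
            exact ⟨hk.1, (mem_filter.1 (hJl (mem_filter.1 hk.2).1)).1⟩
      _ = _ := by rw [sum_const, nsmul_eq_mul]; ring
  have h3 : ((Jl.filter fun q => good q.1).card : ℝ) ≤ e1 / 4 * L.card * Zs.card := by
    rw [hrow _ (fun q hq => hmemJ q (mem_filter.1 hq).1)]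
    calc _ ≤ ∑ k ∈ Zs, e1 / 4 * (L.card : ℝ) := by
          refine sum_le_sum fun k hk => ?_
          rcases (L.filter fun i => (i, k) ∈ Jl.filter fun q => good q.1).eq_empty_or_nonempty
            with he | hne
          · rw [he]
            simp only [card_empty, Nat.cast_zero]
            positivity
          · refine (hcon k hk _ hne ?_).le
            intro i hi
            have := mem_filter.1 (mem_filter.1 hi).2
            exact ⟨this.1, (hgood i).1 this.2⟩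
      _ = _ := by rw [sum_const, nsmul_eq_mul]; ring
  have h4 : (Jl.card : ℝ) = ((Jl.filter fun q => good q.1).card : ℝ) +
      ((Jl.filter fun q => ¬ good q.1).card : ℝ) := by
    have := card_filter_add_card_filter_not (s := Jl) (fun q => good q.1)
    rw [← this, Nat.cast_add]
  have h5 : e3 * Zs.card * L.card ≤ e1 / 4 * L.card * Zs.card := by
    have : 0 ≤ (Zs.card : ℝ) * L.card := by positivity
    nlinarith
  nlinarith [mul_pos (mul_pos he1 hL0) hZ0]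

open Classical in
/-- the near heights of a pair with large difference -/
theorem near_hts0 (Z Zs : Finset ℕ) (z : ℕ → ℝ) (hZs : Zs ⊆ Z) {K A V t r : ℝ} {k0 : ℕ}
    (hk0 : k0 ∈ Z) (hK : 1 ≤ K) (hz : ∀ k ∈ Z, |z k| ≤ K) (ht : 0 < t) (hr : 0 ≤ r)
    (hD : t < max |A| |V|) (hrt : 2 * r ≤ t) {X : ℝ} (hX : 0 ≤ X)
    (hfr : ∀ k ∈ Z, ((Z.filter fun k' => |z k' - z k| ≤ 16 * K * r / t).card : ℝ) ≤ X) :
    ((Zs.filter fun k => |A + (z k - z k0) * V| ≤ r).card : ℝ) ≤ X := by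
  rcases (Zs.filter fun k => |A + (z k - z k0) * V| ≤ r).eq_empty_or_nonempty with he | ⟨k1, hk1⟩
  · rw [he]; simpa using hX
  rw [mem_filter] at hk1
  have hM0 : 0 < max |A| |V| := ht.trans hD
  have hu : ∀ k ∈ Zs, |z k - z k0| ≤ 2 * K := by
    intro k hk
    have h1 := hz k (hZs hk)
    have h2 := hz k0 hk0
    rw [abs_le] at h1 h2 ⊢
    constructor <;> linarith [h1.1, h1.2, h2.1, h2.2]
  have hV : max |A| |V| / (8 * K) ≤ |V| := by
    by_contra hcon
    push Not at hcon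
    rw [lt_div_iff₀ (by positivity)] at hcon
    have h1 : |V| < max |A| |V| := by nlinarith [abs_nonneg V]
    have h2 : max |A| |V| = |A| := by
      rcases max_cases |A| |V| with h | h
      · exact h.1
      · rw [h.1] at h1; exact absurd h1 (lt_irrefl _)
    rw [h2] at hcon hD hM0
    have h3 : |(z k1 - z k0) * V| ≤ |A| / 4 := by
      rw [abs_mul]
      have := hu k1 hk1.1
      have h5 : |z k1 - z k0| * |V| ≤ 2 * K * |V| := mul_le_mul_of_nonneg_right this (abs_nonneg _)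
      nlinarith
    have h4 := hk1.2
    have h6 : |A| ≤ |A + (z k1 - z k0) * V| + |(z k1 - z k0) * V| := by
      have := abs_sub (A + (z k1 - z k0) * V) ((z k1 - z k0) * V)
      rwa [add_sub_cancel_right] at this
    linarith
  refine le_trans ?_ (hfr k1 (hZs hk1.1))
  refine mod_cast card_le_card ?_
  intro k hk
  rw [mem_filter] at hk ⊢
  refine ⟨hZs hk.1, ?_⟩
  rw [le_div_iff₀ ht]
  have h1 : |(z k - z k1) * V| ≤ 2 * r := by
    have e1 : (z k - z k1) * V = (A + (z k - z k0) * V) - (A + (z k1 - z k0) * V) := by ring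
    rw [e1]
    exact (abs_sub _ _).trans (by linarith [hk.2, hk1.2])
  rw [abs_mul] at h1
  rw [div_le_iff₀ (by positivity)] at hV
  have h2 : |z k - z k1| * t ≤ |z k - z k1| * (|V| * (8 * K)) :=
    mul_le_mul_of_nonneg_left (hD.le.trans hV) (abs_nonneg _)
  nlinarith

/-- the near heights of a pair with large difference, form without decidability -/
theorem near_hts (Z Zs : Finset ℕ) (z : ℕ → ℝ) (hZs : Zs ⊆ Z) {K A V t r : ℝ} {k0 : ℕ}
    (hk0 : k0 ∈ Z) (hK : 1 ≤ K) (hz : ∀ k ∈ Z, |z k| ≤ K) (ht : 0 < t) (hr : 0 ≤ r)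
    (hD : t < max |A| |V|) (hrt : 2 * r ≤ t) {X : ℝ} (hX : 0 ≤ X)
    (hfr : ∀ k ∈ Z, ∀ T ⊆ Z, (∀ k' ∈ T, |z k' - z k| ≤ 16 * K * r / t) → (T.card : ℝ) ≤ X)
    (T : Finset ℕ) (hT : T ⊆ Zs) (hTn : ∀ k ∈ T, |A + (z k - z k0) * V| ≤ r) :
    (T.card : ℝ) ≤ X := by
  classical
  refine le_trans ?_ (near_hts0 Z Zs z hZs hk0 hK hz ht hr hD hrt hX fun k hk =>
    hfr k hk _ (filter_subset _ _) fun k' hk' => (mem_filter.1 hk').2)
  refine mod_cast card_le_card fun k hk => mem_filter.2 ⟨hT hk, hTn k hk⟩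

/-- arithmetic of the exponents -/
theorem expo {σ a δ g h y : ℝ} {J j : ℕ} (ha : 0 ≤ a) (hσ1 : σ ≤ 1) (haσ : a < σ) (hy : 0 < y)
    (hδ : 0 < δ) (hδ1 : δ < 1) (hh : 0 ≤ h) (hh1 : h < (σ - a) * δ * y / 8)
    (hh2 : h < (g - a * δ) * y) (hJ0 : 0 < J) (hJ : 4 / ((σ - a) * δ) < J) (hj : j ≤ J) :
    a * y < (if sc y J j < (1 - δ / 2) * y then a * sc y J j else a * ((1 - δ) * y) + g * y) +
      (if j < J then σ * (y - sc y J (j + 1)) - h else 0) := by
  have hJr : (0 : ℝ) < J := by exact_mod_cast hJ0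
  have hsa : 0 < σ - a := sub_pos.2 haσ
  have hyJ : y / J < (σ - a) * δ * y / 4 := by
    rw [div_lt_iff₀ (by positivity)] at hJ
    rw [div_lt_iff₀ hJr]
    nlinarith
  rcases Nat.lt_or_ge j J with hjJ | hjJ
  · rw [if_pos hjJ]
    have h1 : sc y J (j + 1) ≤ y := sc_le hy.le hJ0 hjJ
    rw [sc_succ y hJ0] at h1 ⊢
    set t := sc y J j with ht
    by_cases hc : t < (1 - δ / 2) * y
    · rw [if_pos hc]
      have h2 : (σ - a) * (δ / 2 * y) ≤ (σ - a) * (y - t) :=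
        mul_le_mul_of_nonneg_left (by nlinarith) hsa.le
      have hyJ0 : 0 ≤ y / J := by positivity
      nlinarith
    · rw [if_neg hc]
      have h3 : 0 ≤ σ * (y - (t + y / J)) :=
        mul_nonneg (by linarith) (by linarith)
      nlinarith
  · have hjJ' : j = J := le_antisymm hj hjJ
    subst hjJ'
    rw [if_neg (lt_irrefl _), add_zero]
    have h1 : sc y j j = y := by unfold sc; field_simp
    rw [h1, if_neg (by nlinarith)]
    nlinarith

end Crest.Agent.R136.Xd272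
end

-- ▼ part R136/Xd4_272
section

/-!
# R136: heavy level sets of the velocity functional, the pieces (helper272)
-/

set_option autoImplicit false
set_option linter.unusedVariables false
set_option linter.unusedSectionVars false

open Finset Filter Topology

namespace Crest.Agent.R136.Xd272

open Crest.Agent.R138.Ex926 (Base U)
open Crest.Agent.R138.TwA501 (ev_const_mul)
open Crest.Agent.R136.Gf356
open Crest.Agent.R136.Prn779 (OneBox)

variable {κ : Type} {B : Base} {G : ℕ → RCfg κ} {Leg : Set (κ → ℝ)}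
  {ν : (κ → ℝ) → ℝ} {σ R D : ℝ}

/-- the data of the motion of the slot `sN` on the heights `Zs` -/
structure Mv (B : Base) (G : ℕ → RCfg κ) (Zs : ℕ → Finset ℕ) (sN : κ)
    (dn : ℕ → ℕ → ℕ → ℕ → ℝ) (pS pT : κ → ℝ) (y C1 : ℝ) : Prop where
  C1_ge : 1 ≤ C1
  mv : ∀ ε : ℝ, 0 < ε → ∀ᶠ n in (U : Filter ℕ), ∀ k0 ∈ Zs n, ∀ k ∈ Zs n, ∀ i l,
      (i, k0) ∈ (G n).I → (l, k0) ∈ (G n).I → (i, k) ∈ (G n).I → (l, k) ∈ (G n).I →
      (G n).loose pS ε k0 i l →
      |(G n).rel k i l sN - ((G n).rel k0 i l sN + ((G n).z k - (G n).z k0) * dn n k0 i l)|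
        ≤ B.d n ^ (y - C1 * ε)
  inT : ∀ ε : ℝ, 0 < ε → ∀ᶠ n in (U : Filter ℕ), ∀ k0 ∈ Zs n, ∀ k ∈ Zs n, ∀ i l,
      (i, k0) ∈ (G n).I → (l, k0) ∈ (G n).I → (i, k) ∈ (G n).I → (l, k) ∈ (G n).I →
      (G n).loose pS ε k0 i l → (G n).loose pT (C1 * ε) k i l

/-- piece 1: labels of cells at the heights of `Zs` -/
theorem cells_pin (H : RModel B G σ R Leg ν D) {Zs : ℕ → Finset ℕ} {sN : κ}
    {dn : ℕ → ℕ → ℕ → ℕ → ℝ} {y a C1 : ℝ} {pS pT r : κ → ℝ}
    (hM : Mv B G Zs sN dn pS pT y C1) (hpT : pT ∈ Leg) (hr : r ∈ Leg) (hTr : ∀ j, pT j ≤ r j)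
    (hrN : y ≤ r sN) (hcell : ν pT - ν r ≤ a * y) :
    ∃ C2 : ℝ, 1 ≤ C2 ∧ ∀ ε : ℝ, 0 < ε → ∀ᶠ n in (U : Filter ℕ), ∀ k0 ∈ Zs n, ∀ S : Finset ℕ,
      (∀ i ∈ S, (i, k0) ∈ (G n).I) →
      (∀ i ∈ S, ∀ i' ∈ S, (G n).loose pS (D ^ 5 * ε) k0 i i') → ∀ k ∈ Zs n,
      ∃ lab : ℕ → ℕ, (∀ i ∈ S, ∀ i' ∈ S, (i, k) ∈ (G n).I → (i', k) ∈ (G n).I → lab i = lab i' →
        |(G n).rel k0 i i' sN + ((G n).z k - (G n).z k0) * dn n k0 i i'| ≤
          B.d n ^ (y - C2 * ε)) ∧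
        ∀ T ⊆ S, (∀ i ∈ T, (i, k) ∈ (G n).I) →
          ((T.image lab).card : ℝ) ≤ B.d n ^ (-(a * y) - C2 * ε) := by
  classical
  have hD := H.D1
  have hD0 : 0 < D := by linarith
  have hC1 := hM.C1_ge
  have hC10 : 0 < C1 := by linarith
  refine ⟨C1 * D ^ 10 + (D ^ 2 + 1) * (C1 * D ^ 5) + 1, ?_, ?_⟩
  · have : 0 ≤ C1 * D ^ 10 + (D ^ 2 + 1) * (C1 * D ^ 5) := by positivity
    linarith
  intro ε hε
  filter_upwards [hM.mv (D ^ 5 * ε) (by positivity), hM.inT (D ^ 5 * ε) (by positivity),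
    H.exists_lab_loose pT r hpT hr hTr (ε := C1 * (D ^ 5 * ε)) (by positivity),
    ev_const_le B hε 2] with n hmv hinT hlab h2 k0 hk0 S hSI hSl k hk
  have hpow : ∀ t : ℝ, 0 < B.d n ^ t := fun t => rpos B n t
  obtain ⟨lab, a1, a2⟩ := hlab k (S.filter fun i => (i, k) ∈ (G n).I) (by
    intro i hi
    exact H.toRUnif.memSlice.2 (mem_filter.1 hi).2) (by
    intro i hi i' hi'
    obtain ⟨b1, b2⟩ := mem_filter.1 hi
    obtain ⟨b1', b2'⟩ := mem_filter.1 hi'
    exact hinT k0 hk0 k hk i i' (hSI i b1) (hSI i' b1') b2 b2' (hSl i b1 i' b1'))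
  refine ⟨lab, ?_, ?_⟩
  · intro i hi i' hi' h1 h1' heq
    have b1 := a1 i (mem_filter.2 ⟨hi, h1⟩) i' (mem_filter.2 ⟨hi', h1'⟩) heq sN
    have b2 := hmv k0 hk0 k hk i i' (hSI i hi) (hSI i' hi') h1 h1' (hSl i hi i' hi')
    rw [H.base n] at b1
    have hp : 0 ≤ (D ^ 2 + 1) * (C1 * D ^ 5) * ε := by positivity
    have b3 : |(G n).rel k i i' sN| ≤ B.d n ^ (y - C1 * D ^ 10 * ε) := by
      refine b1.trans (rpow_anti B n ?_)
      have : D ^ 5 * (C1 * (D ^ 5 * ε)) = C1 * D ^ 10 * ε := by ring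
      rw [this]
      linarith
    have b4 : B.d n ^ (y - C1 * (D ^ 5 * ε)) ≤ B.d n ^ (y - C1 * D ^ 10 * ε) := by
      refine rpow_anti B n ?_
      have : D ^ 5 ≤ D ^ 10 := pow_le_pow_right₀ hD (by norm_num)
      have h3 : C1 * (D ^ 5 * ε) ≤ C1 * (D ^ 10 * ε) :=
        mul_le_mul_of_nonneg_left (mul_le_mul_of_nonneg_right this hε.le) hC10.le
      linarith
    have b5 : 2 * B.d n ^ (y - C1 * D ^ 10 * ε) ≤
        B.d n ^ (y - (C1 * D ^ 10 + (D ^ 2 + 1) * (C1 * D ^ 5) + 1) * ε) := by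
      have h3 : B.d n ^ (-ε) * B.d n ^ (y - C1 * D ^ 10 * ε) ≤
          B.d n ^ (y - (C1 * D ^ 10 + (D ^ 2 + 1) * (C1 * D ^ 5) + 1) * ε) := by
        rw [← rpow_add']
        exact rpow_anti B n (by linarith)
      exact (mul_le_mul_of_nonneg_right h2 (hpow _).le).trans h3
    have e1 : (G n).rel k0 i i' sN + ((G n).z k - (G n).z k0) * dn n k0 i i' =
        (G n).rel k i i' sN - ((G n).rel k i i' sN - ((G n).rel k0 i i' sN +
          ((G n).z k - (G n).z k0) * dn n k0 i i')) := by ring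
    rw [e1]
    exact (abs_sub _ _).trans (by linarith)
  · intro T hT hTI
    have h3 : (T.image lab).card ≤ ((S.filter fun i => (i, k) ∈ (G n).I).image lab).card :=
      card_le_card (image_subset_image fun i hi => mem_filter.2 ⟨hT hi, hTI i hi⟩)
    refine le_trans (mod_cast h3) (a2.trans (rpow_anti B n ?_))
    have hp : 0 ≤ C1 * D ^ 10 * ε := by positivity
    have e2 : (D ^ 2 + 1) * (C1 * (D ^ 5 * ε)) = (D ^ 2 + 1) * (C1 * D ^ 5) * ε := by ring
    rw [e2]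
    linarith

/-- piece 2: common heights of a pair -/
theorem near_pin (H : RModel B G σ R Leg ν D) {Zs : ℕ → Finset ℕ} (hZs : ∀ n, Zs n ⊆ (G n).Z)
    {h : ℝ} (hdens : ∀ ε : ℝ, 0 < ε → ∀ᶠ n in (U : Filter ℕ),
      B.d n ^ (h + ε) * ((G n).Z.card : ℝ) ≤ ((Zs n).card : ℝ)) {K : ℝ} (hK : 1 ≤ K)
    (hz : ∀ᶠ n in (U : Filter ℕ), ∀ k ∈ (G n).Z, |(G n).z k| ≤ K) {y C2 : ℝ} (hy : 0 < y)
    (hyR : y ≤ R) {J : ℕ} (hJ0 : 0 < J) :
    ∀ ε : ℝ, 0 < ε → ∀ᶠ n in (U : Filter ℕ), ∀ k0 ∈ (G n).Z, ∀ j < J, ∀ A V : ℝ,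
      B.d n ^ (sc y J (j + 1) - (C2 + 1) * ε) < max |A| |V| → ∀ T ⊆ Zs n,
      (∀ k ∈ T, |A + ((G n).z k - (G n).z k0) * V| ≤ B.d n ^ (y - C2 * ε)) →
      (T.card : ℝ) ≤ B.d n ^ (σ * (y - sc y J (j + 1)) - h - 2 * ε) * ((Zs n).card : ℝ) := by
  classical
  intro ε hε
  have hfrost : ∀ᶠ n in (U : Filter ℕ), ∀ j ∈ range J, ∀ k ∈ (G n).Z,
      (((G n).hbox (y - sc y J (j + 1)) k).card : ℝ) ≤
        B.d n ^ (σ * (y - sc y J (j + 1)) - ε) * ((G n).Z.card : ℝ) := by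
    rw [Filter.eventually_all_finset]
    intro j hj
    have hjJ : j + 1 ≤ J := by simpa using hj
    refine H.frost _ (by linarith [sc_le hy.le hJ0 hjJ]) ?_ ε hε
    linarith [sc_nonneg hy.le J (j + 1)]
  filter_upwards [hfrost, hdens ε hε, hz, ev_const_le B hε (16 * K + 2)]
    with n hfr hdens hz h8 k0 hk0 j hj A V hAV T hT hTn
  have hpow : ∀ t : ℝ, 0 < B.d n ^ t := fun t => rpos B n t
  have hjJ : j + 1 ≤ J := hj
  have ht1 := sc_le hy.le hJ0 hjJ
  refine near_hts (G n).Z (Zs n) (G n).z (hZs n) hk0 hK hz (hpow _) (hpow _).le hAV ?_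
    (mul_nonneg (hpow _).le (Nat.cast_nonneg _)) ?_ T hT hTn
  · have : B.d n ^ (sc y J (j + 1) - (C2 + 1) * ε) =
        B.d n ^ (-ε) * B.d n ^ (sc y J (j + 1) - C2 * ε) := by
      rw [← rpow_add']; congr 1; ring
    rw [this]
    have h3 : B.d n ^ (y - C2 * ε) ≤ B.d n ^ (sc y J (j + 1) - C2 * ε) :=
      rpow_anti B n (by linarith)
    nlinarith [hpow (sc y J (j + 1) - C2 * ε)]
  · intro k hk T' hT' hTn'
    have h3 : 16 * K * B.d n ^ (y - C2 * ε) / B.d n ^ (sc y J (j + 1) - (C2 + 1) * ε) ≤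
        B.d n ^ (y - sc y J (j + 1)) := by
      rw [div_le_iff₀ (hpow _), ← rpow_add']
      have : B.d n ^ (y - sc y J (j + 1) + (sc y J (j + 1) - (C2 + 1) * ε)) =
          B.d n ^ (-ε) * B.d n ^ (y - C2 * ε) := by
        rw [← rpow_add']; congr 1; ring
      rw [this]
      exact mul_le_mul_of_nonneg_right (by linarith) (hpow _).le
    have h4 : (T'.card : ℝ) ≤ (((G n).hbox (y - sc y J (j + 1)) k).card : ℝ) := by
      refine mod_cast card_le_card ?_
      intro k' hk'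
      unfold RCfg.hbox
      rw [mem_filter, H.base n]
      exact ⟨hT' hk', (hTn' k' hk').trans h3⟩
    refine h4.trans ((hfr j (mem_range.2 hj) k hk).trans ?_)
    have h5 : ((G n).Z.card : ℝ) ≤ B.d n ^ (-(h + ε)) * (Zs n).card := by
      have h6 : B.d n ^ (-(h + ε)) * B.d n ^ (h + ε) = 1 := by
        rw [← rpow_add']; simp
      calc ((G n).Z.card : ℝ) = B.d n ^ (-(h + ε)) * (B.d n ^ (h + ε) * (G n).Z.card) := by
            rw [← mul_assoc, h6, one_mul]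
        _ ≤ _ := mul_le_mul_of_nonneg_left hdens (hpow _).le
    calc B.d n ^ (σ * (y - sc y J (j + 1)) - ε) * ((G n).Z.card : ℝ)
        ≤ B.d n ^ (σ * (y - sc y J (j + 1)) - ε) *
          (B.d n ^ (-(h + ε)) * (Zs n).card) := mul_le_mul_of_nonneg_left h5 (hpow _).le
      _ = _ := by
          rw [← mul_assoc, ← rpow_add']
          congr 2
          ring

end Crest.Agent.R136.Xd272
end

-- ▼ part R136/Xd5_272
section

/-!
# R136: heavy level sets of the velocity functional, main theorem (helper272)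

`heavy_R` : on a heavy set `Zs` of heights on which `N_k = N + (z k - z k0) n'` for all pairs in the
frozen box `pS`, `a < σ` forces: at least half of the incidences over `Zs` have in their box
`qH = pS ∪ {N : (1-δ) y}` at least `ρ^(-ν qH + g y)` lines with `|Δ n'| ≤ ρ^((1-δ) y)`.
-/

set_option autoImplicit false
set_option linter.unusedVariables false
set_option linter.unusedSectionVars false

open Finset Filter Topology

namespace Crest.Agent.R136.Xd272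

open Crest.Agent.R138.Ex926 (Base U)
open Crest.Agent.R136.Gf356

variable {κ : Type} [DecidableEq κ] {B : Base} {G : ℕ → RCfg κ} {Leg : Set (κ → ℝ)}
  {ν : (κ → ℝ) → ℝ} {σ R D : ℝ}

/-- the exponents of the close pairs -/
noncomputable def Aj (a g δ y : ℝ) (J j : ℕ) : ℝ :=
  if sc y J j < (1 - δ / 2) * y then a * sc y J j else a * ((1 - δ) * y) + g * y

/-- piece 3: close pairs of light lines -/
theorem cnt_pin (H : RModel B G σ R Leg ν D) {sN : κ} {dn : ℕ → ℕ → ℕ → ℕ → ℝ}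
    {y δ g a C4 εH : ℝ} {pS : κ → ℝ} (hy : 0 < y) (hpS0 : pS sN = 0)
    (hQ : ∀ t : ℝ, 0 ≤ t → t ≤ y → Function.update pS sN t ∈ Leg)
    (hrate : ∀ t : ℝ, 0 ≤ t → t ≤ y → a * t ≤ ν pS - ν (Function.update pS sN t))
    (hδ : 0 < δ) (hδ1 : δ < 1) {J : ℕ} (hJ0 : 0 < J) (hC4 : 1 ≤ C4) (hεH : 0 < εH) :
    ∀ ε : ℝ, 0 < ε → D ^ 5 * ε ≤ εH → C4 * ε ≤ δ * y / 2 → ∀ᶠ n in (U : Filter ℕ), ∀ k0,
      ∀ S : Finset ℕ, (∀ i ∈ S, (i, k0) ∈ (G n).I) →
      (∀ i ∈ S, ∀ i' ∈ S, (G n).loose pS (D ^ 5 * ε) k0 i i') →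
      (∀ i ∈ S, ¬ B.d n ^ (-ν (Function.update pS sN ((1 - δ) * y)) + g * y) ≤
          lev (G n) (Function.update pS sN ((1 - δ) * y)) εH (B.d n ^ ((1 - δ) * y)) (dn n) i k0) →
      B.d n ^ (-ν pS + 3 * ε) ≤ (S.card : ℝ) →
      ∀ j ≤ J, ∀ i ∈ S, ∀ T ⊆ S, (∀ i' ∈ T, max |(G n).rel k0 i i' sN| |dn n k0 i i'| ≤
        B.d n ^ (sc y J j - C4 * ε)) →
      (T.card : ℝ) ≤ B.d n ^ (Aj a g δ y J j - (D * (C4 + D ^ 5) + 3) * ε) * S.card := by
  have hD := H.D1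
  have hD0 : 0 < D := by linarith
  intro ε hε hεa hεb
  have hupQ : ∀ᶠ n in (U : Filter ℕ), ∀ j ∈ range (J + 1), ∀ i k, (i, k) ∈ (G n).I →
      (((G n).box (Function.update pS sN (sc y J j)) ((C4 + D ^ 5) * ε) i k).card : ℝ) ≤
        B.d n ^ (-ν (Function.update pS sN (sc y J j)) - D * ((C4 + D ^ 5) * ε)) := by
    rw [Filter.eventually_all_finset]
    intro j hj
    have hjJ : j ≤ J := by simpa [Nat.lt_succ_iff] using hj
    exact H.up _ (hQ _ (sc_nonneg hy.le J j) (sc_le hy.le hJ0 hjJ)) _ (by positivity)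
  filter_upwards [hupQ] with n hupQ k0 S hSI hSl hlight hSc j hj i hi T hT hTD
  have hpow : ∀ t : ℝ, 0 < B.d n ^ t := fun t => rpos B n t
  have hjr : j ∈ range (J + 1) := mem_range.2 (by omega)
  have hSs : ∀ i ∈ S, i ∈ (G n).slice k0 := fun i hi => H.toRUnif.memSlice.2 (hSI i hi)
  have hD5 : 0 ≤ D ^ 5 * ε := by positivity
  have hC40 : 0 ≤ C4 * ε := by positivity
  by_cases hc : sc y J j < (1 - δ / 2) * y
  · have hAj : Aj a g δ y J j = a * sc y J j := by unfold Aj; exact if_pos hc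
    have hsub : T ⊆ (G n).box (Function.update pS sN (sc y J j)) ((C4 + D ^ 5) * ε) i k0 := by
      intro i' hi'
      have c2 := hTD i' hi'
      refine RCfg.mem_box.2 ⟨hSs i' (hT hi'), fun s => ?_⟩
      rw [H.base n]
      by_cases hs : s = sN
      · subst hs
        rw [Function.update_self]
        refine ((le_max_left _ _).trans c2).trans (rpow_anti B n ?_)
        linarith
      · rw [Function.update_of_ne hs]
        have := hSl i hi i' (hT hi') s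
        rw [H.base n] at this
        exact this.trans (rpow_anti B n (by linarith))
    refine le_trans (mod_cast card_le_card hsub) ((hupQ j hjr i k0 (hSI i hi)).trans ?_)
    have h3 := hrate (sc y J j) (sc_nonneg hy.le J j) (sc_le hy.le hJ0 hj)
    calc B.d n ^ (-ν (Function.update pS sN (sc y J j)) - D * ((C4 + D ^ 5) * ε))
        ≤ B.d n ^ (Aj a g δ y J j - (D * (C4 + D ^ 5) + 3) * ε + (-ν pS + 3 * ε)) := by
          refine rpow_anti B n ?_
          rw [hAj]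
          linarith
      _ = B.d n ^ (Aj a g δ y J j - (D * (C4 + D ^ 5) + 3) * ε) * B.d n ^ (-ν pS + 3 * ε) :=
          rpow_add' B n _ _
      _ ≤ _ := mul_le_mul_of_nonneg_left hSc (hpow _).le
  · have hAj : Aj a g δ y J j = a * ((1 - δ) * y) + g * y := by unfold Aj; exact if_neg hc
    have hl := not_le.1 (hlight i hi)
    have hsub : (T.card : ℝ) ≤ lev (G n) (Function.update pS sN ((1 - δ) * y)) εH
        (B.d n ^ ((1 - δ) * y)) (dn n) i k0 := by
      unfold lev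
      refine mod_cast card_le_card ?_
      intro i' hi'
      have c2 := hTD i' hi'
      have c3 : B.d n ^ (sc y J j - C4 * ε) ≤ B.d n ^ ((1 - δ) * y) := by
        refine rpow_anti B n ?_
        rw [not_lt] at hc
        linarith
      refine mem_filter.2 ⟨RCfg.mem_box.2 ⟨hSs i' (hT hi'), fun s => ?_⟩,
        ((le_max_right _ _).trans c2).trans c3⟩
      rw [H.base n]
      by_cases hs : s = sN
      · subst hs
        rw [Function.update_self]
        refine (((le_max_left _ _).trans c2).trans c3).trans (rpow_anti B n ?_)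
        linarith
      · rw [Function.update_of_ne hs]
        have := hSl i hi i' (hT hi') s
        rw [H.base n] at this
        exact this.trans (rpow_anti B n (by linarith))
    have hδy : 0 ≤ δ * y := by positivity
    have h3 := hrate ((1 - δ) * y) (mul_nonneg (by linarith) hy.le) (by linarith)
    refine hsub.trans (hl.le.trans ?_)
    calc B.d n ^ (-ν (Function.update pS sN ((1 - δ) * y)) + g * y)
        ≤ B.d n ^ (Aj a g δ y J j - (D * (C4 + D ^ 5) + 3) * ε + (-ν pS + 3 * ε)) := by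
          refine rpow_anti B n ?_
          rw [hAj]
          have : 0 ≤ D * (C4 + D ^ 5) * ε := by positivity
          linarith
      _ = B.d n ^ (Aj a g δ y J j - (D * (C4 + D ^ 5) + 3) * ε) * B.d n ^ (-ν pS + 3 * ε) :=
          rpow_add' B n _ _
      _ ≤ _ := mul_le_mul_of_nonneg_left hSc (hpow _).le

theorem sq_le_quarter {t : ℝ} (ht : 0 < t) (h : 8 * t ≤ 1) : t * t ≤ t / 4 := by nlinarith

theorem eight_mul {t s : ℝ} (ht : 0 < t) (h : 8 ≤ s) (h2 : s * t = 1) : 8 * t ≤ 1 := by nlinarith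

open Classical in
set_option maxHeartbeats 1000000 in
/-- **heavy level sets** -/
theorem heavy_R (H : RModel B G σ R Leg ν D) {Zs : ℕ → Finset ℕ} (hZs : ∀ n, Zs n ⊆ (G n).Z)
    {h : ℝ} (hh : 0 ≤ h) (hdens : ∀ ε : ℝ, 0 < ε → ∀ᶠ n in (U : Filter ℕ),
      B.d n ^ (h + ε) * ((G n).Z.card : ℝ) ≤ ((Zs n).card : ℝ))
    {sN : κ} {dn : ℕ → ℕ → ℕ → ℕ → ℝ} {K : ℝ} (hK : 1 ≤ K)
    (hz : ∀ᶠ n in (U : Filter ℕ), ∀ k ∈ (G n).Z, |(G n).z k| ≤ K) {y δ g a C1 : ℝ} (hy : 0 < y)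
    (hyR : y ≤ R) {pS pT r : κ → ℝ} (hM : Mv B G Zs sN dn pS pT y C1) (hpS0 : pS sN = 0)
    (hpT : pT ∈ Leg) (hr : r ∈ Leg) (hTr : ∀ j, pT j ≤ r j) (hrN : y ≤ r sN)
    (hQ : ∀ t : ℝ, 0 ≤ t → t ≤ y → Function.update pS sN t ∈ Leg)
    (hrate : ∀ t : ℝ, 0 ≤ t → t ≤ y → a * t ≤ ν pS - ν (Function.update pS sN t))
    (hcell : ν pT - ν r ≤ a * y) (ha : 0 ≤ a) (haσ : a < σ) (hδ : 0 < δ) (hδ1 : δ < 1)
    (hh1 : h < (σ - a) * δ * y / 8) (hh2 : h < (g - a * δ) * y) {εH : ℝ} (hεH : 0 < εH) :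
    ∀ᶠ n in (U : Filter ℕ), 2 * ((((G n).I.filter fun q => q.2 ∈ Zs n).filter fun q =>
        ¬ B.d n ^ (-ν (Function.update pS sN ((1 - δ) * y)) + g * y) ≤
          lev (G n) (Function.update pS sN ((1 - δ) * y)) εH (B.d n ^ ((1 - δ) * y)) (dn n)
            q.1 q.2).card : ℝ) ≤ (((G n).I.filter fun q => q.2 ∈ Zs n).card : ℝ) := by
  have hD := H.D1
  have hD0 : 0 < D := by linarith
  have hσ1 := H.σ_le
  have hpS : pS ∈ Leg := by
    have := hQ 0 le_rfl hy.le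
    rwa [← hpS0, Function.update_eq_self] at this
  by_contra hcon
  rw [← Ultrafilter.eventually_not] at hcon
  obtain ⟨J, hJ⟩ : ∃ J : ℕ, 4 / ((σ - a) * δ) < J := exists_nat_gt _
  have hJ0 : 0 < J := by
    rcases Nat.eq_zero_or_pos J with h0 | h0
    · rw [h0] at hJ
      have : 0 < 4 / ((σ - a) * δ) := div_pos (by norm_num) (mul_pos (sub_pos.2 haσ) hδ)
      simp at hJ
      linarith
    · exact h0
  obtain ⟨C2, hC2, hcells⟩ := cells_pin H hM hpT hr hTr hrN hcell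
  obtain ⟨C4, hC4, hC42⟩ : ∃ C4 : ℝ, 1 ≤ C4 ∧ C2 + 1 ≤ C4 := ⟨C2 + 1, by linarith, le_rfl⟩
  have hnp := near_pin H hZs hdens hK hz (y := y) (C2 := C4 - 1) hy hyR hJ0
  have hcnt := cnt_pin H (sN := sN) (dn := dn) (g := g) (a := a) (εH := εH) (C4 := C4) hy hpS0 hQ
    hrate hδ hδ1 hJ0 hC4 hεH
  obtain ⟨C, hC, hCa, hCp⟩ : ∃ C : ℝ, C = C4 + (D * (C4 + D ^ 5) + 3) + 8 ∧ 0 ≤ D * (C4 + D ^ 5) ∧
      0 < C := by
    have : 0 ≤ D * (C4 + D ^ 5) := by positivity
    exact ⟨_, rfl, this, by linarith⟩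
  obtain ⟨j, hj, hjle⟩ := exists_le_of_ev B J (fun j => Aj a g δ y J j +
      (if j < J then σ * (y - sc y J (j + 1)) - h else 0)) (a * y) C 1 (by
    intro ε0 hε0
    obtain ⟨ε, hεp, hε00, hεa, hεb⟩ : ∃ ε : ℝ, 0 < ε ∧ ε ≤ ε0 ∧ D ^ 5 * ε ≤ εH ∧
        C4 * ε ≤ δ * y / 2 := by
      refine ⟨min ε0 (min (εH / D ^ 5) (δ * y / (2 * C4))),
        lt_min hε0 (lt_min (by positivity) (by positivity)), min_le_left _ _, ?_, ?_⟩
      · have h1 : min ε0 (min (εH / D ^ 5) (δ * y / (2 * C4))) ≤ εH / D ^ 5 :=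
          (min_le_right _ _).trans (min_le_left _ _)
        rw [le_div_iff₀ (by positivity)] at h1
        linarith
      · have h1 : min ε0 (min (εH / D ^ 5) (δ * y / (2 * C4))) ≤ δ * y / (2 * C4) :=
          (min_le_right _ _).trans (min_le_right _ _)
        rw [le_div_iff₀ (by positivity)] at h1
        linarith
    have key : ∀ᶠ n in (U : Filter ℕ), B.d n ^ (a * y + C * ε) ≤
        ∑ j ∈ range (J + 1), B.d n ^ (Aj a g δ y J j +
          (if j < J then σ * (y - sc y J (j + 1)) - h else 0) - C * ε) := by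
      filter_upwards [hcon, hcells ε hεp, hnp ε hεp, hcnt ε hεp hεa hεb, H.slice ε hεp,
        hdens ε hεp, dense_fibre H.toRUnif hpS hεp, ev_const_le B hεp 8]
        with n hcon hcells hnp hcnt hsl hdens hfib h8
      have hpow : ∀ t : ℝ, 0 < B.d n ^ t := fun t => rpos B n t
      have h8' : 8 * B.d n ^ ε ≤ 1 :=
        eight_mul (hpow ε) h8 (by rw [← rpow_add']; simp)
      have h9 : B.d n ^ ε * B.d n ^ ε ≤ B.d n ^ ε / 4 := sq_le_quarter (hpow ε) h8'
      obtain ⟨⟨i1, k1⟩, hI1⟩ := H.nonempty n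
      have hLne : (G n).L.Nonempty := ⟨i1, H.memL hI1⟩
      have hZne : (G n).Z.Nonempty := ⟨k1, H.memZ hI1⟩
      have hZc : (0 : ℝ) < (G n).Z.card := by exact_mod_cast hZne.card_pos
      have hZsne : (Zs n).Nonempty := by
        rw [← Finset.card_pos]
        have : (0 : ℝ) < (Zs n).card := (mul_pos (hpow _) hZc).trans_le hdens
        exact_mod_cast this
      -- pin
      obtain ⟨k0, hk0, W, hWne, hW, hWc⟩ := pick_pin (G n).L (Zs n) (G n).I
        (((G n).I.filter fun q => q.2 ∈ Zs n).filter fun q =>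
          ¬ B.d n ^ (-ν (Function.update pS sN ((1 - δ) * y)) + g * y) ≤
            lev (G n) (Function.update pS sN ((1 - δ) * y)) εH (B.d n ^ ((1 - δ) * y)) (dn n)
              q.1 q.2)
        (e1 := B.d n ^ ε) (e3 := B.d n ^ (2 * ε)) (hpow _) (hpow _) hLne hZsne
        (fun q hq => H.memL hq) (filter_subset _ _)
        (fun k hk => hsl k (hZs n hk)) (not_le.1 hcon)
        (by
          have e1 : B.d n ^ (2 * ε) = B.d n ^ ε * B.d n ^ ε := by rw [← rpow_add']; congr 1; ring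
          rw [e1]
          exact h9)
      have hk0Z : k0 ∈ (G n).Z := hZs n hk0
      have hWI : ∀ i ∈ W, (i, k0) ∈ (G n).I := fun i hi =>
        (mem_filter.1 (mem_filter.1 (hW i hi).1).1).1
      have hWs : W ⊆ (G n).slice k0 := fun i hi => H.toRUnif.memSlice.2 (hWI i hi)
      have hslL : (((G n).slice k0).card : ℝ) ≤ (G n).L.card := by
        exact_mod_cast card_le_card (filter_subset _ _)
      have hq0 : 0 < B.d n ^ ε / 4 := by have := hpow ε; positivity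
      obtain ⟨S, hSW, hSne, hSl, hSc⟩ := hfib k0 W hWs hWne (B.d n ^ ε / 4) hq0
        ((mul_le_mul_of_nonneg_left hslL hq0.le).trans hWc)
      have hSI : ∀ i ∈ S, (i, k0) ∈ (G n).I := fun i hi => hWI i (hSW hi)
      have hScard : B.d n ^ (-ν pS + 3 * ε) ≤ (S.card : ℝ) := by
        refine le_trans ?_ hSc
        have e1 : B.d n ^ (-ν pS + 3 * ε) = B.d n ^ ε * B.d n ^ ε * B.d n ^ (-ν pS + ε) := by
          rw [← rpow_add', ← rpow_add']; congr 1; ring
        rw [e1]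
        exact mul_le_mul_of_nonneg_right h9 (hpow _).le
      have hlight : ∀ i ∈ S, ¬ B.d n ^ (-ν (Function.update pS sN ((1 - δ) * y)) + g * y) ≤
          lev (G n) (Function.update pS sN ((1 - δ) * y)) εH (B.d n ^ ((1 - δ) * y)) (dn n)
            i k0 := fun i hi => (mem_filter.1 (hW i (hSW hi)).1).2
      have hlabk := hcells k0 hk0 S hSI hSl
      choose! lab hlab1 hlab2 using hlabk
      have kf := kauf_labF (Zs n) S (fun i k => (i, k) ∈ (G n).I) lab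
        (fun k i i' => |(G n).rel k0 i i' sN + ((G n).z k - (G n).z k0) * dn n k0 i i'| ≤
          B.d n ^ (y - C2 * ε))
        (fun i i' => max |(G n).rel k0 i i' sN| |dn n k0 i i'|) (J := J)
        (M := B.d n ^ (-(a * y) - C2 * ε)) (m := B.d n ^ (2 * ε))
        (fun j => B.d n ^ (sc y J j - C4 * ε))
        (fun j => B.d n ^ (Aj a g δ y J j - (D * (C4 + D ^ 5) + 3) * ε))
        (fun j => B.d n ^ ((if j < J then σ * (y - sc y J (j + 1)) - h else 0) - 2 * ε))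
        (hpow _).le (hpow _).le hlab1 hlab2
        (fun i hi => (hW i (hSW hi)).2)
        (fun i _ i' _ => (abs_nonneg _).trans (le_max_left _ _))
        (fun j _ => (hpow _).le)
        (by
          intro j hj i hi i' hi' hDt T hT hTn
          have h5 := hnp k0 hk0Z j hj ((G n).rel k0 i i' sN) (dn n k0 i i') (by
            have : C4 - 1 + 1 = C4 := by ring
            rw [this]
            exact hDt) T hT (fun k hk => (hTn k hk).trans (rpow_anti B n (by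
              have : C2 * ε ≤ (C4 - 1) * ε := mul_le_mul_of_nonneg_right (by linarith) hεp.le
              linarith)))
          simp only [if_pos hj]
          exact h5)
        (by
          simp only [if_neg (lt_irrefl J)]
          apply Real.one_le_rpow_of_pos_of_le_one_of_nonpos (B.pos n) (B.lt n).le
          linarith)
        (by
          have hlt0 : sc y J 0 < (1 - δ / 2) * y := by
            rw [sc_zero]; exact mul_pos (by linarith) hy
          have e0 : Aj a g δ y J 0 = 0 := by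
            unfold Aj
            rw [if_pos hlt0, sc_zero, mul_zero]
          apply Real.one_le_rpow_of_pos_of_le_one_of_nonpos (B.pos n) (B.lt n).le
          rw [e0]
          have : 0 ≤ D * (C4 + D ^ 5) * ε := mul_nonneg hCa hεp.le
          linarith)
        (fun j _ hj i hi T hT hTD => hcnt k0 S hSI hSl hlight hScard j hj i hi T hT hTD)
        hSne hZsne
      -- conclusion
      have e1 : (B.d n ^ (2 * ε)) ^ 2 = B.d n ^ (4 * ε) := by
        rw [sq, ← rpow_add']; congr 1; ring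
      rw [e1] at kf
      have e2 : B.d n ^ (a * y + C * ε) = B.d n ^ (a * y + (C - 4) * ε) * B.d n ^ (4 * ε) := by
        rw [← rpow_add']; congr 1; ring
      rw [e2]
      refine (mul_le_mul_of_nonneg_left kf (hpow _).le).trans ?_
      rw [← mul_assoc, ← rpow_add', mul_sum]
      refine sum_le_sum fun j _ => ?_
      rw [← rpow_add', ← rpow_add']
      refine rpow_anti B n ?_
      have h5 : C2 * ε ≤ (C4 - 1) * ε := mul_le_mul_of_nonneg_right (by linarith) hεp.le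
      have h6 : 0 ≤ D * (C4 + D ^ 5) * ε := mul_nonneg hCa hεp.le
      have h7 : 0 ≤ C4 * ε := mul_nonneg (by linarith) hεp.le
      rw [hC]
      linarith
    filter_upwards [key] with n hn
    have hCε : C * ε ≤ C * ε0 := mul_le_mul_of_nonneg_left hε00 hCp.le
    refine le_trans (rpow_anti B n ?_) (hn.trans ?_)
    · linarith
    · rw [one_mul]
      refine sum_le_sum fun j _ => rpow_anti B n ?_
      linarith)
  have hlt := expo (σ := σ) (a := a) (δ := δ) (g := g) (h := h) (y := y) (J := J) (j := j) ha hσ1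
    haσ hy hδ hδ1 hh hh1 hh2 hJ0 hJ hj
  exact absurd hjle (not_le.2 hlt)

end Crest.Agent.R136.Xd272
end

-- ▼ part R136/Xd6_272
section

/-!
# R136: from [RIG-0] to a strip of exact exponent (helper272)
-/

set_option autoImplicit false
set_option linter.unusedVariables false
set_option linter.unusedSectionVars false

open Finset Filter Topology

namespace Crest.Agent.R136.Xd272

open Crest.Agent.R138.Ex926 (Base U)
open Crest.Agent.R136.Gf356

/-- a heavy set of heights on which `f` is affine in `z` -/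
structure Strip (B : Base) (Z Zs : ℕ → Finset ℕ) (z f : ℕ → ℕ → ℝ) (μ : ℕ → ℝ) (y h c : ℝ) :
    Prop where
  sub : ∀ n, Zs n ⊆ Z n
  dens : ∀ ε : ℝ, 0 < ε → ∀ᶠ n in (U : Filter ℕ),
    B.d n ^ (h + ε) * ((Z n).card : ℝ) ≤ ((Zs n).card : ℝ)
  aff : ∀ ε : ℝ, 0 < ε → ∀ᶠ n in (U : Filter ℕ), ∀ k ∈ Zs n, ∀ k' ∈ Zs n,
    |f n k' - f n k - μ n * (z n k' - z n k)| ≤ B.d n ^ (y - ε)
  mu : ∀ᶠ n in (U : Filter ℕ), |μ n| ≤ B.d n ^ (-(c * y))

/-- exact exponents along the ultrafilter -/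
theorem exists_exp (B : Base) (w : ℕ → ℝ) {a b : ℝ} (hab : ∀ᶠ n in (U : Filter ℕ),
    B.d n ^ b ≤ w n ∧ w n ≤ B.d n ^ a) :
    ∃ y : ℝ, a ≤ y ∧ y ≤ b ∧ ∀ ε : ℝ, 0 < ε → ∀ᶠ n in (U : Filter ℕ),
      B.d n ^ (y + ε) ≤ w n ∧ w n ≤ B.d n ^ (y - ε) := by
  set e : ℕ → ℝ := fun n => Real.log (w n) / Real.log (B.d n) with he
  have hlog : ∀ n, Real.log (B.d n) < 0 := fun n => Real.log_neg (B.pos n) (B.lt n)
  have hw : ∀ n, 0 < w n → w n = B.d n ^ e n := by
    intro n hn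
    rw [he, Real.rpow_def_of_pos (B.pos n)]
    have : Real.log (B.d n) * (Real.log (w n) / Real.log (B.d n)) = Real.log (w n) := by
      have := (hlog n).ne
      field_simp
    rw [this, Real.exp_log hn]
  have hmem : ∀ᶠ n in (U : Filter ℕ), e n ∈ Set.Icc a b := by
    filter_upwards [hab] with n hn
    have hw0 : 0 < w n := (rpos B n b).trans_le hn.1
    have h1 := hn.1
    have h2 := hn.2
    rw [hw n hw0] at h1 h2
    exact ⟨(Real.rpow_le_rpow_left_iff_of_base_lt_one (B.pos n) (B.lt n)).1 h2,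
      (Real.rpow_le_rpow_left_iff_of_base_lt_one (B.pos n) (B.lt n)).1 h1⟩
  have hmem' : Set.Icc a b ∈ Ultrafilter.map e U := hmem
  obtain ⟨y, hy, hle⟩ := isCompact_Icc.ultrafilter_le_nhds' (Ultrafilter.map e U) hmem'
  have htend : Tendsto e U (𝓝 y) := hle
  refine ⟨y, hy.1, hy.2, fun ε hε => ?_⟩
  have h1 : ∀ᶠ n in (U : Filter ℕ), |e n - y| < ε := by
    have := htend (Metric.ball_mem_nhds y hε)
    exact this
  filter_upwards [h1, hab] with n hn hn2
  have hw0 : 0 < w n := (rpos B n b).trans_le hn2.1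
  rw [hw n hw0]
  rw [abs_lt] at hn
  exact ⟨rpow_anti B n (by linarith), rpow_anti B n (by linarith)⟩

/-- **the strip** -/
theorem exists_strip {B : Base} {Z : ℕ → Finset ℕ} {z f : ℕ → ℕ → ℝ} {θ x η σ : ℝ}
    (hθ : 0 < θ) (hx : 0 < x) (hη : 0 < η) (hσ : 0 < σ) (hησ : 2 * η ≤ σ)
    (hbd : ∀ᶠ n in (U : Filter ℕ), (Z n).Nonempty ∧ ∀ k ∈ Z n, |z n k| ≤ 1 ∧ |f n k| ≤ 1)
    (hfr : ∀ y : ℝ, 0 ≤ y → y ≤ x → ∀ ε : ℝ, 0 < ε → ∀ᶠ n in (U : Filter ℕ), ∀ k ∈ Z n,
      ∀ T ⊆ Z n, (∀ k' ∈ T, |z n k' - z n k| ≤ B.d n ^ y) →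
      (T.card : ℝ) ≤ B.d n ^ (σ * y - ε) * ((Z n).card : ℝ))
    (hcon : ∀ᶠ n in (U : Filter ℕ), ∃ w μ : ℝ, B.d n ^ x ≤ w ∧ w ≤ B.d n ^ (θ * x) ∧
        ∃ k₁ ∈ Z n, ∃ Zs ⊆ Z n, (∀ k ∈ Zs, |f n k - f n k₁ - μ * (z n k - z n k₁)| ≤ w) ∧
          w ^ η * ((Z n).card : ℝ) ≤ (Zs.card : ℝ)) :
    ∃ (y : ℝ) (μ : ℕ → ℝ) (Zs : ℕ → Finset ℕ), θ * x ≤ y ∧ y ≤ x ∧
      Strip B Z Zs z f μ y (η * y) (3 * η / σ) := by
  classical
  -- choice
  have hcon' : ∀ n, ∃ (w μ : ℝ) (k₁ : ℕ) (Zs : Finset ℕ), Zs ⊆ Z n ∧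
      ((B.d n ^ x ≤ w ∧ w ≤ B.d n ^ (θ * x) ∧ k₁ ∈ Z n ∧
        (∀ k ∈ Zs, |f n k - f n k₁ - μ * (z n k - z n k₁)| ≤ w) ∧
          w ^ η * ((Z n).card : ℝ) ≤ (Zs.card : ℝ)) ∨
        ¬ (∃ w μ : ℝ, B.d n ^ x ≤ w ∧ w ≤ B.d n ^ (θ * x) ∧
        ∃ k₁ ∈ Z n, ∃ Zs ⊆ Z n, (∀ k ∈ Zs, |f n k - f n k₁ - μ * (z n k - z n k₁)| ≤ w) ∧
          w ^ η * ((Z n).card : ℝ) ≤ (Zs.card : ℝ))) := by
    intro n
    by_cases h : ∃ w μ : ℝ, B.d n ^ x ≤ w ∧ w ≤ B.d n ^ (θ * x) ∧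
        ∃ k₁ ∈ Z n, ∃ Zs ⊆ Z n, (∀ k ∈ Zs, |f n k - f n k₁ - μ * (z n k - z n k₁)| ≤ w) ∧
          w ^ η * ((Z n).card : ℝ) ≤ (Zs.card : ℝ)
    · obtain ⟨w, μ, h1, h2, k₁, h3, Zs, h4, h5, h6⟩ := h
      exact ⟨w, μ, k₁, Zs, h4, Or.inl ⟨h1, h2, h3, h5, h6⟩⟩
    · exact ⟨0, 0, 0, ∅, empty_subset _, Or.inr h⟩
  choose w μ k₁ Zs hsub hch using hcon'
  have hev : ∀ᶠ n in (U : Filter ℕ), B.d n ^ x ≤ w n ∧ w n ≤ B.d n ^ (θ * x) ∧ k₁ n ∈ Z n ∧
        (∀ k ∈ Zs n, |f n k - f n (k₁ n) - μ n * (z n k - z n (k₁ n))| ≤ w n) ∧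
          w n ^ η * ((Z n).card : ℝ) ≤ ((Zs n).card : ℝ) := by
    filter_upwards [hcon] with n hn
    rcases hch n with h | h
    · exact h
    · exact absurd hn h
  obtain ⟨y, hy1, hy2, hyε⟩ := exists_exp B w (a := θ * x) (b := x)
    (hev.mono fun n h => ⟨h.1, h.2.1⟩)
  have hy : 0 < y := (mul_pos hθ hx).trans_le hy1
  have hdens : ∀ ε : ℝ, 0 < ε → ∀ᶠ n in (U : Filter ℕ),
      B.d n ^ (η * y + ε) * ((Z n).card : ℝ) ≤ ((Zs n).card : ℝ) := by
    intro ε hε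
    filter_upwards [hev, hyε (ε / η) (by positivity)] with n h1 h2
    refine le_trans (mul_le_mul_of_nonneg_right ?_ (Nat.cast_nonneg _)) h1.2.2.2.2
    have h3 : B.d n ^ (η * y + ε) = (B.d n ^ (y + ε / η)) ^ η := by
      rw [← Real.rpow_mul (B.pos n).le]
      congr 1
      field_simp
    rw [h3]
    exact Real.rpow_le_rpow (rpos B n _).le h2.1 hη.le
  refine ⟨y, μ, Zs, hy1, hy2, hsub, hdens, ?_, ?_⟩
  · intro ε hε
    filter_upwards [hev, hyε (ε / 2) (by positivity), ev_const_le B (t := ε / 2) (by positivity) 2]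
      with n h1 h2 h3 k hk k' hk'
    have a1 := h1.2.2.2.1 k hk
    have a2 := h1.2.2.2.1 k' hk'
    have e1 : f n k' - f n k - μ n * (z n k' - z n k) =
        (f n k' - f n (k₁ n) - μ n * (z n k' - z n (k₁ n))) -
        (f n k - f n (k₁ n) - μ n * (z n k - z n (k₁ n))) := by ring
    rw [e1]
    refine (abs_sub _ _).trans ?_
    have e2 : B.d n ^ (y - ε) = B.d n ^ (-(ε / 2)) * B.d n ^ (y - ε / 2) := by
      rw [← rpow_add']; congr 1; ring
    rw [e2]
    have h4 : 2 * B.d n ^ (y - ε / 2) ≤ B.d n ^ (-(ε / 2)) * B.d n ^ (y - ε / 2) :=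
      mul_le_mul_of_nonneg_right h3 (rpos B n _).le
    linarith [h2.2]
  · have hc0 : 0 < η / σ := by positivity
    have hε0 : 0 < η * y / 4 := by positivity
    have hle : 2 * η / σ * y ≤ x := by
      have : 2 * η / σ ≤ 1 := by rw [div_le_one hσ]; exact hησ
      nlinarith
    filter_upwards [hev, hdens (η * y / 4) hε0, hfr (2 * η / σ * y) (by positivity) hle
      (η * y / 4) hε0, hbd, ev_const_le B (t := η / σ * y) (by positivity) 3,
      Crest.Agent.R138.TwA501.ev_const_mul B 2 (show η * y + η * y / 4 <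
        σ * (2 * η / σ * y) - η * y / 4 by
          have : σ * (2 * η / σ * y) = 2 * η * y := by field_simp
          rw [this]; linarith)] with n h1 h2 h3 h4 h5 h6
    have hZc : (0 : ℝ) < (Z n).card := by exact_mod_cast h4.1.card_pos
    obtain ⟨k, hk, hzk⟩ : ∃ k ∈ Zs n, B.d n ^ (2 * η / σ * y) < |z n k - z n (k₁ n)| := by
      by_contra hno
      push Not at hno
      have a1 := h3 (k₁ n) h1.2.2.1 (Zs n) (hsub n) hno
      have a2 := h2.trans a1
      have a3 := le_of_mul_le_mul_right a2 hZc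
      have := rpos B n (σ * (2 * η / σ * y) - η * y / 4)
      linarith
    have a1 := h1.2.2.2.1 k hk
    have a2 := (h4.2 k (hsub n hk)).2
    have a3 := (h4.2 (k₁ n) h1.2.2.1).2
    have hw1 : w n ≤ 1 := h1.2.1.trans (Real.rpow_le_one (B.pos n).le (B.lt n).le (by positivity))
    have a4 : |μ n| * |z n k - z n (k₁ n)| ≤ 3 := by
      rw [← abs_mul]
      rw [abs_le] at a1 a2 a3 ⊢
      constructor <;> linarith [a1.1, a1.2, a2.1, a2.2, a3.1, a3.2]
    have hp := rpos B n (2 * η / σ * y)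
    have a5 : |μ n| * B.d n ^ (2 * η / σ * y) ≤ 3 :=
      (mul_le_mul_of_nonneg_left hzk.le (abs_nonneg _)).trans a4
    have e1 : B.d n ^ (-(3 * η / σ * y)) = B.d n ^ (-(η / σ * y)) * B.d n ^ (-(2 * η / σ * y)) := by
      rw [← rpow_add']; congr 1; ring
    have e2 : B.d n ^ (2 * η / σ * y) * B.d n ^ (-(2 * η / σ * y)) = 1 := by
      rw [← rpow_add']; simp
    calc |μ n| = |μ n| * B.d n ^ (2 * η / σ * y) * B.d n ^ (-(2 * η / σ * y)) := by
          rw [mul_assoc, e2, mul_one]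
      _ ≤ 3 * B.d n ^ (-(2 * η / σ * y)) := mul_le_mul_of_nonneg_right a5 (rpos B n _).le
      _ ≤ _ := by
          rw [e1]
          exact mul_le_mul_of_nonneg_right h5 (rpos B n _).le

end Crest.Agent.R136.Xd272
end

-- ▼ part R136/Xd7_272

/-!
# R136: the linear window of case (D) and its strip (helper272)
-/

set_option autoImplicit false
set_option linter.unusedVariables false
set_option linter.unusedSectionVars false

open Finset Filter Topology

namespace Crest.Agent.R136.Xd272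

open Crest.Agent.R138.Ex926 (Base U)
open Crest.Agent.R138.TwA501 (ev_const_mul)
open Crest.Agent.R136.Gf356
open Crest.Agent.R136.Prn779 (OneBox)
open Crest.Agent.R136.Rg6_501

/-- level entries `pb`, entries `C_a, C_b, P, X_a, X_b, N` -/
def bxD (pb : Fin 11 → ℝ) (ca cb p xa xb n : ℝ) : Fin 11 → ℝ :=
  ![pb 0, pb 1, pb 2, pb 3, pb 4, ca, cb, p, xa, xb, n]

/-- the profile splits on the boxes `bxD` -/
structure SplitD (Leg : Set (Fin 11 → ℝ)) (ν : (Fin 11 → ℝ) → ℝ) (pb : Fin 11 → ℝ) (R0 a m : ℝ)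
    (α β : ℝ → ℝ → ℝ) : Prop where
  leg : ∀ ca cb p xa xb n : ℝ, ca ∈ Set.Icc 0 R0 → cb ∈ Set.Icc 0 R0 → p ∈ Set.Icc 0 R0 →
    xa ∈ Set.Icc 0 R0 → xb ∈ Set.Icc 0 R0 → n ∈ Set.Icc 0 R0 → bxD pb ca cb p xa xb n ∈ Leg
  eq : ∀ ca cb p xa xb n : ℝ, ca ∈ Set.Icc 0 R0 → cb ∈ Set.Icc 0 R0 → p ∈ Set.Icc 0 R0 →
    xa ∈ Set.Icc 0 R0 → xb ∈ Set.Icc 0 R0 → n ∈ Set.Icc 0 R0 →
    ν (bxD pb ca cb p xa xb n) = ν (bxD pb 0 0 0 0 0 0) - (a * n + m * ca + α xa cb + β xb p)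
  α0 : α 0 0 = 0
  β0 : β 0 0 = 0

/-- the evolution of the entries `C_a, C_b, P, X_a, X_b, N` with error `E` -/
def EvoL (u δ b a E : ℝ) (v w : Fin 11 → ℝ) : Prop :=
  |w 5 - v 5| ≤ E ∧ |w 6 - (v 6 - δ * v 5)| ≤ E ∧ |w 7 - (v 7 - a * v 5 - b * v 6)| ≤ E ∧
  |w 8 - (v 8 + u * v 5)| ≤ E ∧ |w 9 - (v 9 + u * v 6 - δ * (v 8 + u * v 5))| ≤ E ∧
  |w 10 - (v 10 + u * v 7 - a * (v 8 + u * v 5) - b * (v 9 + u * v 6))| ≤ E

/-- the linear window of case (D) -/
structure LinWin (B : Base) (G : ℕ → RCfg (Fin 11)) (x K : ℝ) (pb : Fin 11 → ℝ)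
    (e fa fb : ℕ → ℕ → ℝ) : Prop where
  K1 : 1 ≤ K
  bd : ∀ᶠ n in (U : Filter ℕ), ∀ k ∈ (G n).Z,
    |(G n).z k| ≤ K ∧ |e n k| ≤ K ∧ |fa n k| ≤ K ∧ |fb n k| ≤ K
  one : OneBox G (bxD pb 0 0 0 0 0 0)
  add : ∀ ε : ℝ, 0 < ε → ∀ᶠ n in (U : Filter ℕ), ∀ i j l k, (i, k) ∈ (G n).I →
    (j, k) ∈ (G n).I → (l, k) ∈ (G n).I → ∀ s : Fin 11, 5 ≤ s →
    |(G n).rel k i l s - (G n).rel k i j s - (G n).rel k j l s| ≤ B.d n ^ (x - ε)
  mv : ∀ ε : ℝ, 0 < ε → ∀ᶠ n in (U : Filter ℕ), ∀ i l k k', (i, k) ∈ (G n).I →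
    (l, k) ∈ (G n).I → (i, k') ∈ (G n).I → (l, k') ∈ (G n).I →
    EvoL ((G n).z k' - (G n).z k) (e n k' - e n k) (fb n k' - fb n k)
      (fa n k' - fa n k + e n k * (fb n k' - fb n k)) (B.d n ^ (x - ε))
      ((G n).rel k i l) ((G n).rel k' i l)

theorem bm {x y X Y : ℝ} (hx : |x| ≤ X) (hy : |y| ≤ Y) : |x * y| ≤ X * Y := by
  rw [abs_mul]
  exact mul_le_mul hx hy (abs_nonneg _) ((abs_nonneg _).trans hx)

theorem abs_diff {x y K : ℝ} (hx : |x| ≤ K) (hy : |y| ≤ K) : |x - y| ≤ 2 * K :=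
  (abs_sub _ _).trans (by linarith)

/-- membership in a box `bxD` -/
theorem loose_bxD {G : RCfg (Fin 11)} {pb : Fin 11 → ℝ} {ca cb p xa xb n ε : ℝ} {k i l : ℕ} :
    G.loose (bxD pb ca cb p xa xb n) ε k i l ↔
      ((∀ j : Fin 11, j < 5 → |G.rel k i l j| ≤ G.ρ ^ (pb j - ε)) ∧
      |G.rel k i l 5| ≤ G.ρ ^ (ca - ε) ∧ |G.rel k i l 6| ≤ G.ρ ^ (cb - ε) ∧
      |G.rel k i l 7| ≤ G.ρ ^ (p - ε) ∧ |G.rel k i l 8| ≤ G.ρ ^ (xa - ε) ∧
      |G.rel k i l 9| ≤ G.ρ ^ (xb - ε) ∧ |G.rel k i l 10| ≤ G.ρ ^ (n - ε)) := by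
  constructor
  · intro h
    refine ⟨?_, h 5, h 6, h 7, h 8, h 9, h 10⟩
    intro j hj
    have := h j
    fin_cases j <;> first | exact this | exact absurd hj (by decide)
  · rintro ⟨h0, h5, h6, h7, h8, h9, h10⟩ j
    fin_cases j
    · exact h0 0 (by decide)
    · exact h0 1 (by decide)
    · exact h0 2 (by decide)
    · exact h0 3 (by decide)
    · exact h0 4 (by decide)
    · exact h5
    · exact h6
    · exact h7
    · exact h8
    · exact h9
    · exact h10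

/-- pairs in one box -/
theorem pair_box {κ : Type} {B : Base} {G : ℕ → RCfg κ} {Leg : Set (κ → ℝ)} {ν : (κ → ℝ) → ℝ}
    {D : ℝ} (H : RUnif B G Leg ν D) {p : κ → ℝ} (hp : p ∈ Leg) {ε : ℝ} (hε : 0 < ε) :
    ∀ᶠ n in (U : Filter ℕ), ∀ i0 k, (i0, k) ∈ (G n).I → ∀ i ∈ (G n).box p ε i0 k,
      ∀ i' ∈ (G n).box p ε i0 k, (G n).loose p (D ^ 2 * ε) k i i' := by
  have hD := H.D1
  filter_upwards [H.symm p hp ε hε, H.tri p hp (D * ε) (by positivity)] with n h1 h2 i0 k hI i hi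
    i' hi'
  obtain ⟨a1, a2⟩ := RCfg.mem_box.1 hi
  obtain ⟨b1, b2⟩ := RCfg.mem_box.1 hi'
  have c1 := H.memSlice.1 a1
  have c2 := H.memSlice.1 b1
  have h3 := h2 k i i0 i' c1 hI c2 (h1 k i0 i hI c1 a2)
    (H.loose_mono (fun _ => le_rfl) (by nlinarith) b2)
  have e1 : D * (D * ε) = D ^ 2 * ε := by ring
  rwa [e1] at h3

/-- bounds of the motion -/
theorem LinWin.mot {B : Base} {G : ℕ → RCfg (Fin 11)} {x K : ℝ} {pb : Fin 11 → ℝ}
    {e fa fb : ℕ → ℕ → ℝ} (hW : LinWin B G x K pb e fa fb) :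
    ∀ᶠ n in (U : Filter ℕ), ∀ k ∈ (G n).Z, ∀ k' ∈ (G n).Z,
      |(G n).z k' - (G n).z k| ≤ 2 * K ∧ |e n k' - e n k| ≤ 2 * K ∧ |fb n k' - fb n k| ≤ 2 * K ∧
      |fa n k' - fa n k + e n k * (fb n k' - fb n k)| ≤ 4 * K ^ 2 := by
  have hK := hW.K1
  filter_upwards [hW.bd] with n hb k hk k' hk'
  obtain ⟨a1, a2, a3, a4⟩ := hb k hk
  obtain ⟨b1, b2, b3, b4⟩ := hb k' hk'
  refine ⟨abs_diff b1 a1, abs_diff b2 a2, abs_diff b4 a4, ?_⟩
  have h1 := bm a2 (abs_diff b4 a4)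
  have h2 := abs_diff b3 a3
  refine (abs_add_le _ _).trans ?_
  nlinarith

/-- frozen boxes travel -/
theorem frozen_inT {B : Base} {G : ℕ → RCfg (Fin 11)} {x K : ℝ} {pb : Fin 11 → ℝ}
    {e fa fb : ℕ → ℕ → ℝ} {Leg : Set (Fin 11 → ℝ)} {ν : (Fin 11 → ℝ) → ℝ} {D : ℝ}
    (H : RUnif B G Leg ν D) (hW : LinWin B G x K pb e fa fb) {y : ℝ} (hyx : y ≤ x) {ε : ℝ}
    (hε : 0 < ε) :
    ∀ᶠ n in (U : Filter ℕ), ∀ k k' i l, (i, k) ∈ (G n).I → (l, k) ∈ (G n).I →
      (i, k') ∈ (G n).I → (l, k') ∈ (G n).I → (G n).loose (bxD pb y y 0 y 0 0) ε k i l →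
      (G n).loose (bxD pb y y 0 y 0 0) (2 * ε) k' i l := by
  have hK := hW.K1
  filter_upwards [hW.mot, hW.mv ε hε, hW.one (2 * ε) (by positivity),
    ev_const_le B hε (2 + 2 * K)] with n hmot hmv hone hc k k' i l h1 h2 h3 h4 hl
  have hk : k ∈ (G n).Z := H.memZ h1
  have hk' : k' ∈ (G n).Z := H.memZ h3
  obtain ⟨m1, m2, m3, m4⟩ := hmot k hk k' hk'
  obtain ⟨e5, e6, e7, e8, e9, e10⟩ := hmv i l k k' h1 h2 h3 h4
  obtain ⟨l0, l5, l6, l7, l8, l9, l10⟩ := loose_bxD.1 hl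
  obtain ⟨o0, o5, o6, o7, o8, o9, o10⟩ := loose_bxD.1 (hone i l k' h3 h4)
  rw [H.base n] at l5 l6 l8
  have hxy : B.d n ^ (x - ε) ≤ B.d n ^ (y - ε) := rpow_anti B n (by linarith)
  have hp : 0 < B.d n ^ (y - ε) := rpos B n _
  have hfin : (2 + 2 * K) * B.d n ^ (y - ε) ≤ (G n).ρ ^ (y - 2 * ε) := by
    rw [H.base n]
    have e1 : B.d n ^ (y - 2 * ε) = B.d n ^ (-ε) * B.d n ^ (y - ε) := by
      rw [← rpow_add']; congr 1; ring
    rw [e1]
    exact mul_le_mul_of_nonneg_right hc hp.le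
  have q1 := bm m2 l5
  have q2 := bm m1 l5
  have hKp : 0 ≤ 2 * K * B.d n ^ (y - ε) := by positivity
  refine loose_bxD.2 ⟨o0, le_trans ?_ hfin, le_trans ?_ hfin, o7, le_trans ?_ hfin, o9, o10⟩
  · rw [abs_le] at e5 l5 ⊢
    constructor <;> linarith [e5.1, e5.2, l5.1, l5.2]
  · rw [abs_le] at e6 l6 q1 ⊢
    constructor <;> linarith [e6.1, e6.2, l6.1, l6.2, q1.1, q1.2]
  · rw [abs_le] at e8 l8 q2 ⊢
    constructor <;> linarith [e8.1, e8.2, l8.1, l8.2, q2.1, q2.2]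

end Crest.Agent.R136.Xd272
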