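import Crest.Agent.R136.Xd12_272
import Crest.Agent.R136.Xb1_403
import Crest.Agent.R136.Aw0_413
import Crest.Agent.R136.NatR_550
import Crest.Agent.R136.C2w_400
import Crest.Agent.R136.Xd7_272
import Crest.Agent.R136.Tb6_628
import Crest.Agent.R136.TopB_550
import Crest.Agent.R136.WinE0_323
import Crest.Agent.R136.LdF5_511

-- ▼ part R136/D2a_272
section

/-!
# R136, row D2 of the thick table (helper272), part 1: the window `DWin` and the rates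
-/

set_option autoImplicit false
set_option linter.unusedVariables false
set_option linter.unusedSectionVars false

open Finset Filter Topology

namespace Crest.Agent.R136.Xd272

open Crest.Agent.R138.Ex926 (Base U)
open Crest.Agent.R138.TwA501 (ev_const_mul)
open Crest.Agent.R136.Gf356
open Crest.Agent.R136.Fe1355 (RawTw shift_R)
open Crest.Agent.R136.Prn779 (OneBox)
open Crest.Agent.R136.Xb403 (NE bw EvE)

/-- **window with level slots `z, E, F_b, F_a`**; `e, fa, fb` = flags of the heights -/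
structure DWin (B : Base) (G : ℕ → RCfg (Fin 11)) (Leg : Set (Fin 11 → ℝ))
    (ν : (Fin 11 → ℝ) → ℝ) (T D : ℝ) (e fa fb : ℕ → ℕ → ℝ) : Prop where
  H : RModel B G 1 T Leg ν D
  T0 : 0 < T
  W : LinWin B G T 1 (fun _ => 0) e fa fb
  leg : ∀ ca cb p xa xb n : ℝ, ca ∈ Set.Icc 0 T → cb ∈ Set.Icc 0 T → p ∈ Set.Icc 0 T →
    xa ∈ Set.Icc 0 T → xb ∈ Set.Icc 0 T → n ∈ Set.Icc 0 T →
    bxD (fun _ => 0) ca cb p xa xb n ∈ Leg
  rb : ∀ᶠ n in (U : Filter ℕ), ∀ k i l, (i, k) ∈ (G n).I → (l, k) ∈ (G n).I → ∀ s,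
    |(G n).rel k i l s| ≤ 1
  twE : RawTw B G fun n k k' => e n k' - e n k
  twF : RawTw B G fun n k k' => fb n k' - fb n k

/-- the box with level entries `0` -/
def b0 (ca cb p xa xb n : ℝ) : Fin 11 → ℝ := bxD (fun _ => 0) ca cb p xa xb n

theorem bw_eq (ca cb xa xb : ℝ) : bw ca cb xa xb = b0 ca cb 0 xa xb 0 := rfl

theorem RawTw.neg {κ : Type} {B : Base} {G : ℕ → RCfg κ} {φ : ℕ → ℕ → ℕ → ℝ}
    (h : RawTw B G φ) : RawTw B G fun n k k' => -(φ n k k') := by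
  intro ε hε
  filter_upwards [h ε hε] with n hn i hi T hT hq
  refine hn i hi T hT fun q hq' => ?_
  have := hq q hq'
  rwa [abs_neg] at this

variable {B : Base} {G : ℕ → RCfg (Fin 11)} {Leg : Set (Fin 11 → ℝ)} {ν : (Fin 11 → ℝ) → ℝ}
  {T D : ℝ} {e fa fb : ℕ → ℕ → ℝ}

namespace DWin

variable (h : DWin B G Leg ν T D e fa fb)

include h

/-- the window of helper403 -/
theorem ne : NE B G Leg ν T D e where
  H := h.H
  T0 := h.T0
  leg := fun ca cb xa xb h1 h2 h3 h4 h5 h6 h7 h8 =>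
    h.leg ca cb 0 xa xb 0 ⟨h1, h2⟩ ⟨h3, h4⟩ ⟨le_rfl, h.T0.le⟩ ⟨h5, h6⟩ ⟨h7, h8⟩ ⟨le_rfl, h.T0.le⟩
  zb := by
    filter_upwards [h.W.bd] with n hn k hk using ⟨(hn k hk).1, (hn k hk).2.1⟩
  rb := h.rb
  ev := fun ε hε => by
    filter_upwards [h.W.mv ε hε] with n hn k k' i l h1 h2 h3 h4
    obtain ⟨e5, e6, e7, e8, e9, e10⟩ := hn i l k k' h1 h2 h3 h4
    exact ⟨e5, e6, e8, e9⟩

theorem leg' {ca cb p xa xb n : ℝ} (h1 : ca ∈ Set.Icc 0 T) (h2 : cb ∈ Set.Icc 0 T)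
    (h3 : p ∈ Set.Icc 0 T) (h4 : xa ∈ Set.Icc 0 T) (h5 : xb ∈ Set.Icc 0 T)
    (h6 : n ∈ Set.Icc 0 T) : b0 ca cb p xa xb n ∈ Leg := h.leg ca cb p xa xb n h1 h2 h3 h4 h5 h6

/-- the boxes `b0` at the other height -/
theorem loose0 {ε : ℝ} (hε : 0 < ε) : ∀ᶠ n in (U : Filter ℕ), ∀ k i l, (i, k) ∈ (G n).I →
    (l, k) ∈ (G n).I → ∀ s, |(G n).rel k i l s| ≤ B.d n ^ (0 - ε) := by
  filter_upwards [h.rb, ev_const_le B hε 1] with n hn h1 k i l h2 h3 s
  rw [zero_sub]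
  exact (hn k i l h2 h3 s).trans h1

/-- **`C_b` costs at least as much as `C_a` given `C_b`** -/
theorem cb_shift {y : ℝ} (hy : 0 ≤ y) (hyT : y ≤ T) :
    ν (b0 0 y 0 0 0 0) - ν (b0 y y 0 0 0 0) ≤ ν (b0 0 0 0 0 0 0) - ν (b0 0 y 0 0 0 0) := by
  have hT := h.T0
  have z0 : (0 : ℝ) ∈ Set.Icc 0 T := ⟨le_rfl, hT.le⟩
  have zy : y ∈ Set.Icc 0 T := ⟨hy, hyT⟩
  refine shift_R h.H _ _ _ _ (h.leg' z0 zy z0 z0 z0 z0) (h.leg' zy zy z0 z0 z0 z0)
    (h.leg' z0 z0 z0 z0 z0 z0) (h.leg' z0 zy z0 z0 z0 z0)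
    (bxD_le le_rfl hy le_rfl le_rfl le_rfl le_rfl) 5 6 (y := y) (le_refl y) ?_ (le_refl y)
    (fun n k k' => -(e n k' - e n k)) (RawTw.neg h.twE) ?_
  · intro j hj
    fin_cases j <;> first | exact absurd rfl hj | exact le_refl (0 : ℝ) | exact le_refl y
  intro C0 hC0
  refine ⟨C0 + 2, by positivity, fun ε hε => ?_⟩
  filter_upwards [h.W.mv ε hε, h.loose0 hε, ev_const_le B hε 2] with n hev hrb h8
    k hk k' hk' i i' hi hi' hl hl' hlo
  have hpow : ∀ t : ℝ, 0 < B.d n ^ t := fun t => rpos B n t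
  obtain ⟨e5, e6, e7, e8, e9, e10⟩ := hev i i' k k' hi hl hi' hl'
  have hC0ε : 0 < C0 * ε := by positivity
  have g6 := hlo 6
  rw [h.H.base n] at g6
  have g6' : |(G n).rel k i i' 6| ≤ B.d n ^ (y - C0 * ε) := g6
  refine ⟨fun j => ?_, ?_⟩
  · rw [h.H.base n]
    refine (hrb k' i i' hi' hl' j).trans (rpow_anti B n ?_)
    have : b0 0 0 0 0 0 0 j = 0 := by fin_cases j <;> rfl
    rw [this]
    linarith
  · have k1 : B.d n ^ (T - ε) ≤ B.d n ^ (y - (C0 + 1) * ε) := rpow_anti B n (by linarith)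
    have k2 : B.d n ^ (y - C0 * ε) ≤ B.d n ^ (y - (C0 + 1) * ε) := rpow_anti B n (by linarith)
    have e1 : B.d n ^ (y - (C0 + 2) * ε) = B.d n ^ (-ε) * B.d n ^ (y - (C0 + 1) * ε) := by
      rw [← rpow_add']; congr 1; ring
    rw [e1]
    refine le_trans ?_ (mul_le_mul_of_nonneg_right h8 (hpow _).le)
    have e2 : (G n).rel k' i i' 6 - -(e n k' - e n k) * (G n).rel k i i' 5 =
        ((G n).rel k' i i' 6 - ((G n).rel k i i' 6 - (e n k' - e n k) * (G n).rel k i i' 5)) +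
        (G n).rel k i i' 6 := by ring
    rw [e2]
    refine (abs_add_le _ _).trans ?_
    linarith

/-- **`P` costs at least as much as `C_b` given `C_a, P`** -/
theorem p_shift {y : ℝ} (hy : 0 ≤ y) (hyT : y ≤ T) :
    ν (b0 y 0 y 0 0 0) - ν (b0 y y y 0 0 0) ≤ ν (b0 y 0 0 0 0 0) - ν (b0 y 0 y 0 0 0) := by
  have hT := h.T0
  have z0 : (0 : ℝ) ∈ Set.Icc 0 T := ⟨le_rfl, hT.le⟩
  have zy : y ∈ Set.Icc 0 T := ⟨hy, hyT⟩
  refine shift_R h.H _ _ _ _ (h.leg' zy z0 zy z0 z0 z0) (h.leg' zy zy zy z0 z0 z0)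
    (h.leg' zy z0 z0 z0 z0 z0) (h.leg' zy z0 zy z0 z0 z0)
    (bxD_le le_rfl le_rfl hy le_rfl le_rfl le_rfl) 6 7 (y := y) (le_refl y) ?_ (le_refl y)
    (fun n k k' => -(fb n k' - fb n k)) (RawTw.neg h.twF) ?_
  · intro j hj
    fin_cases j <;> first | exact absurd rfl hj | exact le_refl (0 : ℝ) | exact le_refl y
  intro C0 hC0
  refine ⟨C0 + 2, by positivity, fun ε hε => ?_⟩
  filter_upwards [h.W.mv ε hε, h.loose0 hε, ev_const_le B hε 6, h.W.mot] with n hev hrb h8 hmot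
    k hk k' hk' i i' hi hi' hl hl' hlo
  have hpow : ∀ t : ℝ, 0 < B.d n ^ t := fun t => rpos B n t
  obtain ⟨e5, e6, e7, e8, e9, e10⟩ := hev i i' k k' hi hl hi' hl'
  obtain ⟨m1, m2, m3, m4⟩ := hmot k hk k' hk'
  have hC0ε : 0 < C0 * ε := by positivity
  have g5 := hlo 5
  have g7 := hlo 7
  rw [h.H.base n] at g5 g7
  have g5' : |(G n).rel k i i' 5| ≤ B.d n ^ (y - C0 * ε) := g5
  have g7' : |(G n).rel k i i' 7| ≤ B.d n ^ (y - C0 * ε) := g7
  have k1 : B.d n ^ (T - ε) ≤ B.d n ^ (y - (C0 + 1) * ε) := rpow_anti B n (by linarith)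
  have k2 : B.d n ^ (y - C0 * ε) ≤ B.d n ^ (y - (C0 + 1) * ε) := rpow_anti B n (by linarith)
  have e1 : B.d n ^ (y - (C0 + 2) * ε) = B.d n ^ (-ε) * B.d n ^ (y - (C0 + 1) * ε) := by
    rw [← rpow_add']; congr 1; ring
  have hfin := mul_le_mul_of_nonneg_right h8 (hpow (y - (C0 + 1) * ε)).le
  rw [← e1] at hfin
  have g5'' := g5'.trans k2
  have g7'' := g7'.trans k2
  have e5' := e5.trans k1
  have e7' := e7.trans k1
  have hX := hpow (y - (C0 + 1) * ε)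
  have q := bm m4 g5''
  refine ⟨fun j => ?_, ?_⟩
  · rw [h.H.base n]
    by_cases hj : j = 5
    · subst hj
      refine le_trans ?_ hfin
      generalize B.d n ^ (y - (C0 + 1) * ε) = X at *
      rw [abs_le] at g5'' e5' ⊢
      constructor <;> linarith [g5''.1, g5''.2, e5'.1, e5'.2]
    · refine (hrb k' i i' hi' hl' j).trans (rpow_anti B n ?_)
      have : b0 y 0 0 0 0 0 j = 0 := by fin_cases j <;> first | exact absurd rfl hj | rfl
      rw [this]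
      linarith
  · refine le_trans ?_ hfin
    have e2 : (G n).rel k' i i' 7 - -(fb n k' - fb n k) * (G n).rel k i i' 6 =
        ((G n).rel k' i i' 7 - ((G n).rel k i i' 7 - (fa n k' - fa n k + e n k *
          (fb n k' - fb n k)) * (G n).rel k i i' 5 - (fb n k' - fb n k) *
          (G n).rel k i i' 6)) + (G n).rel k i i' 7 - (fa n k' - fa n k + e n k *
          (fb n k' - fb n k)) * (G n).rel k i i' 5 := by ring
    rw [e2]
    generalize B.d n ^ (y - (C0 + 1) * ε) = X at *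
    generalize (G n).rel k' i i' 7 - ((G n).rel k i i' 7 - (fa n k' - fa n k + e n k *
          (fb n k' - fb n k)) * (G n).rel k i i' 5 - (fb n k' - fb n k) *
          (G n).rel k i i' 6) = Er at *
    generalize (fa n k' - fa n k + e n k * (fb n k' - fb n k)) * (G n).rel k i i' 5 = Q at *
    rw [abs_le] at g7'' e7' q ⊢
    constructor <;> linarith [g7''.1, g7''.2, e7'.1, e7'.2, q.1, q.2]

/-- **`N` costs at least as much as `X_b` given everything else** -/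
theorem n_shift {y : ℝ} (hy : 0 ≤ y) (hyT : y ≤ T) :
    ν (b0 y y y y 0 y) - ν (b0 y y y y y y) ≤ ν (b0 y y y y 0 0) - ν (b0 y y y y 0 y) := by
  have hT := h.T0
  have z0 : (0 : ℝ) ∈ Set.Icc 0 T := ⟨le_rfl, hT.le⟩
  have zy : y ∈ Set.Icc 0 T := ⟨hy, hyT⟩
  refine shift_R h.H _ _ _ _ (h.leg' zy zy zy zy z0 zy) (h.leg' zy zy zy zy zy zy)
    (h.leg' zy zy zy zy z0 z0) (h.leg' zy zy zy zy z0 zy)
    (bxD_le le_rfl le_rfl le_rfl le_rfl le_rfl hy) 9 10 (y := y) (le_refl y) ?_ (le_refl y)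
    (fun n k k' => -(fb n k' - fb n k)) (RawTw.neg h.twF) ?_
  · intro j hj
    fin_cases j <;> first | exact absurd rfl hj | exact le_refl (0 : ℝ) | exact le_refl y
  intro C0 hC0
  refine ⟨C0 + 2, by positivity, fun ε hε => ?_⟩
  filter_upwards [h.W.mv ε hε, h.loose0 hε, ev_const_le B hε 20, h.W.mot] with n hev hrb h8 hmot
    k hk k' hk' i i' hi hi' hl hl' hlo
  have hpow : ∀ t : ℝ, 0 < B.d n ^ t := fun t => rpos B n t
  obtain ⟨e5, e6, e7, e8, e9, e10⟩ := hev i i' k k' hi hl hi' hl'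
  obtain ⟨m1, m2, m3, m4⟩ := hmot k hk k' hk'
  have hC0ε : 0 < C0 * ε := by positivity
  have g5 := hlo 5
  have g6 := hlo 6
  have g7 := hlo 7
  have g8 := hlo 8
  have g10 := hlo 10
  rw [h.H.base n] at g5 g6 g7 g8 g10
  have g5' : |(G n).rel k i i' 5| ≤ B.d n ^ (y - C0 * ε) := g5
  have g6' : |(G n).rel k i i' 6| ≤ B.d n ^ (y - C0 * ε) := g6
  have g7' : |(G n).rel k i i' 7| ≤ B.d n ^ (y - C0 * ε) := g7
  have g8' : |(G n).rel k i i' 8| ≤ B.d n ^ (y - C0 * ε) := g8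
  have g10' : |(G n).rel k i i' 10| ≤ B.d n ^ (y - C0 * ε) := g10
  have k1 : B.d n ^ (T - ε) ≤ B.d n ^ (y - (C0 + 1) * ε) := rpow_anti B n (by linarith)
  have k2 : B.d n ^ (y - C0 * ε) ≤ B.d n ^ (y - (C0 + 1) * ε) := rpow_anti B n (by linarith)
  have e1 : B.d n ^ (y - (C0 + 2) * ε) = B.d n ^ (-ε) * B.d n ^ (y - (C0 + 1) * ε) := by
    rw [← rpow_add']; congr 1; ring
  have hfin := mul_le_mul_of_nonneg_right h8 (hpow (y - (C0 + 1) * ε)).le
  rw [← e1] at hfin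
  replace g5' := g5'.trans k2
  replace g6' := g6'.trans k2
  replace g7' := g7'.trans k2
  replace g8' := g8'.trans k2
  replace g10' := g10'.trans k2
  replace e5 := e5.trans k1
  replace e6 := e6.trans k1
  replace e7 := e7.trans k1
  replace e8 := e8.trans k1
  replace e10 := e10.trans k1
  have hX := hpow (y - (C0 + 1) * ε)
  clear g5 g6 g7 g8 g10 e9 k1 k2 e1 hC0ε h8
  have q5 := bm m4 g5'
  have r5 := bm m2 g5'
  have u5 := bm m1 g5'
  have b6 := bm m3 g6'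
  have u7 := bm m1 g7'
  have a8 := bm m4 g8'
  have au5 := bm m4 u5
  have bu6 := bm m3 (bm m1 g6')
  refine ⟨fun j => ?_, ?_⟩
  · rw [h.H.base n]
    by_cases hj5 : j = 5
    · subst hj5
      refine le_trans ?_ hfin
      generalize B.d n ^ (y - (C0 + 1) * ε) = X at *
      rw [abs_le] at g5' e5 ⊢
      constructor <;> linarith [g5'.1, g5'.2, e5.1, e5.2]
    by_cases hj6 : j = 6
    · subst hj6
      refine le_trans ?_ hfin
      generalize B.d n ^ (y - (C0 + 1) * ε) = X at *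
      rw [abs_le] at g6' e6 r5 ⊢
      constructor <;> linarith [g6'.1, g6'.2, e6.1, e6.2, r5.1, r5.2]
    by_cases hj7 : j = 7
    · subst hj7
      refine le_trans ?_ hfin
      generalize B.d n ^ (y - (C0 + 1) * ε) = X at *
      rw [abs_le] at g7' e7 q5 b6 ⊢
      constructor <;> linarith [g7'.1, g7'.2, e7.1, e7.2, q5.1, q5.2, b6.1, b6.2]
    by_cases hj8 : j = 8
    · subst hj8
      refine le_trans ?_ hfin
      generalize B.d n ^ (y - (C0 + 1) * ε) = X at *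
      rw [abs_le] at g8' e8 u5 ⊢
      constructor <;> linarith [g8'.1, g8'.2, e8.1, e8.2, u5.1, u5.2]
    · refine (hrb k' i i' hi' hl' j).trans (rpow_anti B n ?_)
      have : b0 y y y y 0 0 j = 0 := by
        fin_cases j <;> first | exact absurd rfl hj5 | exact absurd rfl hj6 |
          exact absurd rfl hj7 | exact absurd rfl hj8 | rfl
      rw [this]
      have : 0 ≤ C0 * ε := by positivity
      linarith
  · refine le_trans ?_ hfin
    have e2 : (G n).rel k' i i' 10 - -(fb n k' - fb n k) * (G n).rel k i i' 9 =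
        ((G n).rel k' i i' 10 - ((G n).rel k i i' 10 + ((G n).z k' - (G n).z k) *
          (G n).rel k i i' 7 - (fa n k' - fa n k + e n k * (fb n k' - fb n k)) *
          ((G n).rel k i i' 8 + ((G n).z k' - (G n).z k) * (G n).rel k i i' 5) -
          (fb n k' - fb n k) * ((G n).rel k i i' 9 + ((G n).z k' - (G n).z k) *
          (G n).rel k i i' 6))) + (G n).rel k i i' 10 + ((G n).z k' - (G n).z k) *
          (G n).rel k i i' 7 - (fa n k' - fa n k + e n k * (fb n k' - fb n k)) *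
          (G n).rel k i i' 8 - (fa n k' - fa n k + e n k * (fb n k' - fb n k)) *
          (((G n).z k' - (G n).z k) * (G n).rel k i i' 5) -
          (fb n k' - fb n k) * (((G n).z k' - (G n).z k) * (G n).rel k i i' 6) := by ring
    rw [e2]
    generalize B.d n ^ (y - (C0 + 1) * ε) = X at *
    generalize (G n).rel k' i i' 10 - ((G n).rel k i i' 10 + ((G n).z k' - (G n).z k) *
          (G n).rel k i i' 7 - (fa n k' - fa n k + e n k * (fb n k' - fb n k)) *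
          ((G n).rel k i i' 8 + ((G n).z k' - (G n).z k) * (G n).rel k i i' 5) -
          (fb n k' - fb n k) * ((G n).rel k i i' 9 + ((G n).z k' - (G n).z k) *
          (G n).rel k i i' 6)) = Er at *
    generalize (fa n k' - fa n k + e n k * (fb n k' - fb n k)) * (G n).rel k i i' 8 = Q8 at *
    generalize (fa n k' - fa n k + e n k * (fb n k' - fb n k)) *
      (((G n).z k' - (G n).z k) * (G n).rel k i i' 5) = Q5 at *
    generalize (fb n k' - fb n k) * (((G n).z k' - (G n).z k) * (G n).rel k i i' 6) = Q6 at *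
    generalize ((G n).z k' - (G n).z k) * (G n).rel k i i' 7 = Q7 at *
    rw [abs_le] at g10' e10 u7 a8 au5 bu6 ⊢
    constructor <;> linarith [g10'.1, g10'.2, e10.1, e10.2, u7.1, u7.2, a8.1, a8.2, au5.1,
      au5.2, bu6.1, bu6.2]

end DWin

end Crest.Agent.R136.Xd272
end

-- ▼ part R136/D2b_272
section

/-!
# R136, row D2 of the thick table (helper272), part 2: the rates `X_a, X_b, N` are full
-/

set_option autoImplicit false
set_option linter.unusedVariables false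
set_option linter.unusedSectionVars false

open Finset Filter Topology

namespace Crest.Agent.R136.Xd272

open Crest.Agent.R138.Ex926 (Base U)
open Crest.Agent.R136.Gf356
open Crest.Agent.R136.Xb403 (NE bw EvE)

variable {B : Base} {G : ℕ → RCfg (Fin 11)} {Leg : Set (Fin 11 → ℝ)} {ν : (Fin 11 → ℝ) → ℝ}
  {T D : ℝ} {e fa fb : ℕ → ℕ → ℝ}

/-- the profile of the window: `C_a` and `N` decoupled, `X_b` linear while `P` is free; and either
`(X_a, C_b)`, `(X_b, P)` decoupled or `X_b` decoupled -/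
structure Spl (ν : (Fin 11 → ℝ) → ℝ) (T m a b : ℝ) (Ψ : ℝ → ℝ → ℝ → ℝ → ℝ) : Prop where
  eq : ∀ ca cb p xa xb n : ℝ, ca ∈ Set.Icc 0 T → cb ∈ Set.Icc 0 T → p ∈ Set.Icc 0 T →
    xa ∈ Set.Icc 0 T → xb ∈ Set.Icc 0 T → n ∈ Set.Icc 0 T →
    ν (b0 ca cb p xa xb n) = ν (b0 0 0 0 0 0 0) - (m * ca + a * n + Ψ cb p xa xb)
  m0 : 0 < m
  a0 : 0 ≤ a
  lipX : ∀ t y : ℝ, 0 ≤ t → t ≤ y → y ≤ T → Ψ 0 0 y 0 - Ψ 0 0 t 0 ≤ y - t
  u1 : ∀ cb xa xb : ℝ, cb ∈ Set.Icc 0 T → xa ∈ Set.Icc 0 T → xb ∈ Set.Icc 0 T →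
    Ψ cb 0 xa xb = b * xb + Ψ cb 0 xa 0
  alt : (∀ cb p xa xb : ℝ, cb ∈ Set.Icc 0 T → p ∈ Set.Icc 0 T → xa ∈ Set.Icc 0 T →
      xb ∈ Set.Icc 0 T → Ψ cb p xa xb = Ψ cb 0 xa 0 + Ψ 0 p 0 xb) ∨
    (∀ cb p xa xb : ℝ, cb ∈ Set.Icc 0 T → p ∈ Set.Icc 0 T → xa ∈ Set.Icc 0 T →
      xb ∈ Set.Icc 0 T → Ψ cb p xa xb = b * xb + Ψ cb p xa 0)

/-- **`X_a`, `X_b`, `N` are full** -/
theorem DWin.rates (h : DWin B G Leg ν T D e fa fb) {m a b : ℝ} {Ψ : ℝ → ℝ → ℝ → ℝ → ℝ}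
    (S : Spl ν T m a b Ψ) :
    (∀ y, 0 ≤ y → y ≤ T → y ≤ Ψ 0 0 y 0) ∧ 1 ≤ b ∧ 1 ≤ a := by
  have hT := h.T0
  have z0 : (0 : ℝ) ∈ Set.Icc 0 T := ⟨le_rfl, hT.le⟩
  have zT : T ∈ Set.Icc 0 T := ⟨hT.le, le_rfl⟩
  have hΨ0 : Ψ 0 0 0 0 = 0 := by
    have := S.eq 0 0 0 0 0 0 z0 z0 z0 z0 z0 z0
    linarith
  have hm := S.m0
  -- `X_a`
  have hX : ∀ y, 0 ≤ y → y ≤ T → y ≤ Ψ 0 0 y 0 := by
    intro y hy hyT
    rcases hy.eq_or_lt with h0 | hy0
    · rw [← h0, hΨ0]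
    have key := h.ne.xa (y := y) (c := m) hy0 hyT hm (by
      intro t h1 h2
      have zt : t ∈ Set.Icc 0 T := ⟨h1, h2.trans hyT⟩
      rw [bw_eq, bw_eq, S.eq 0 0 0 t 0 0 z0 z0 z0 zt z0 z0, S.eq t 0 0 t 0 0 zt z0 z0 zt z0 z0]
      linarith) (by
      intro t h1 h2
      have zt : t ∈ Set.Icc 0 T := ⟨h1, h2.trans hyT⟩
      rw [bw_eq, bw_eq, S.eq 0 0 0 t 0 0 z0 z0 z0 zt z0 z0,
        S.eq 0 0 0 y 0 0 z0 z0 z0 ⟨hy, hyT⟩ z0 z0]
      have := S.lipX t y h1 h2 hyT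
      linarith)
    rw [bw_eq, bw_eq, S.eq 0 0 0 y 0 0 z0 z0 z0 ⟨hy, hyT⟩ z0 z0] at key
    linarith
  -- `X_b`
  have hb : 1 ≤ b := by
    refine h.ne.kappa_one (m := m) (β := fun cb xa => Ψ cb 0 xa 0) (γ := fun ca => m * ca) hm
      h.twE ?_ (fun t h1 h2 => hX t h1 h2) (fun t _ _ => le_rfl)
    intro ca cb xa xb h1 h2 h3 h4 h5 h6 h7 h8
    rw [bw_eq, bw_eq, S.eq ca cb 0 xa xb 0 ⟨h1, h2⟩ ⟨h3, h4⟩ z0 ⟨h5, h6⟩ ⟨h7, h8⟩ z0,
      S.u1 cb xa xb ⟨h3, h4⟩ ⟨h5, h6⟩ ⟨h7, h8⟩]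
    ring
  refine ⟨hX, hb, ?_⟩
  rcases S.alt with hs | hs
  · -- crossed
    by_contra hcon
    push Not at hcon
    have hV : SplitD Leg ν (fun _ => 0) T a m (fun xa cb => Ψ cb 0 xa 0)
        (fun xb p => Ψ 0 p 0 xb) := by
      refine ⟨h.leg, ?_, hΨ0, hΨ0⟩
      intro ca cb p xa xb n h1 h2 h3 h4 h5 h6
      have := S.eq ca cb p xa xb n h1 h2 h3 h4 h5 h6
      rw [hs cb p xa xb h2 h3 h4 h5] at this
      have e1 : ν (bxD (fun _ => 0) ca cb p xa xb n) = ν (b0 ca cb p xa xb n) := rfl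
      have e2 : ν (bxD (fun _ => 0) 0 0 0 0 0 0) = ν (b0 0 0 0 0 0 0) := rfl
      rw [e1, e2, this]
      ring
    have hα : ∀ t, 0 ≤ t → t ≤ T → m * t ≤ Ψ t 0 0 0 := by
      intro t h1 h2
      have zt : t ∈ Set.Icc 0 T := ⟨h1, h2⟩
      have key := h.cb_shift h1 h2
      rw [S.eq 0 t 0 0 0 0 z0 zt z0 z0 z0 z0, S.eq t t 0 0 0 0 zt zt z0 z0 z0 z0] at key
      linarith
    have hβ : ∀ t, 0 ≤ t → t ≤ T → m * t ≤ Ψ 0 t 0 0 := by
      intro t h1 h2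
      have zt : t ∈ Set.Icc 0 T := ⟨h1, h2⟩
      have key := h.p_shift h1 h2
      rw [S.eq t 0 t 0 0 0 zt z0 zt z0 z0 z0, S.eq t t t 0 0 0 zt zt zt z0 z0 z0,
        S.eq t 0 0 0 0 0 zt z0 z0 z0 z0 z0, hs t t 0 0 zt zt z0 z0, hΨ0] at key
      have := hα t h1 h2
      linarith
    have h1 := crossed (x := T) (R := T) h.H h.W hV hT le_rfl le_rfl (γ := m) (s := 1) hm le_rfl
      hα hβ S.a0 hcon (by
        intro t h1 h2
        have zt : t ∈ Set.Icc 0 T := ⟨h1, h2⟩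
        have h3 := h.H.nu_anti (h.leg' z0 z0 z0 z0 zt z0) (h.leg' z0 z0 zt z0 zt z0)
          (bxD_le le_rfl le_rfl h1 le_rfl le_rfl le_rfl)
        rw [S.eq 0 0 0 0 t 0 z0 z0 z0 z0 zt z0, S.eq 0 0 t 0 t 0 z0 z0 zt z0 zt z0,
          S.u1 0 0 t z0 z0 zt, hΨ0] at h3
        have h4 : 1 * t ≤ b * t := mul_le_mul_of_nonneg_right hb h1
        linarith)
    linarith
  · -- shift
    have key := h.n_shift hT.le le_rfl
    rw [S.eq T T T T 0 T zT zT zT zT z0 zT, S.eq T T T T T T zT zT zT zT zT zT,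
      S.eq T T T T 0 0 zT zT zT zT z0 z0, hs T T T T zT zT zT zT] at key
    have h1 : b * T ≤ a * T := by linarith
    exact hb.trans (le_of_mul_le_mul_right h1 hT)

end Crest.Agent.R136.Xd272
end

-- ▼ part R136/D2c_272
section

/-!
# R136, row D2 of the thick table (helper272), part 3: the splitting of the tangent
-/

set_option autoImplicit false
set_option linter.unusedVariables false
set_option linter.unusedSectionVars false

open Finset Filter Topology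

namespace Crest.Agent.R136.Xd272

open Crest.Agent.R136.Net191
open Crest.Agent.R136.NetQ186
open Crest.Agent.R136.NatR550
open Crest.Agent.R136.Dg219
open Crest.Agent.R136.Aw413 (coneM leg_cone)

/-! ### splitting -/

section split

variable {ι : Type*} [Fintype ι] [DecidableEq ι] {grp : ι → ℕ} {L : Set (ι → ℝ)} {dh : ι → ℝ}
  {nn : ℕ → ℝ × ℝ} {lam : (ι → ℝ) → ℝ} {A : ℝ × ℝ} {φ : ℕ → (ι → ℝ) → ℝ} {r : ℕ → ℝ}

/-- increments in a union of groups do not depend on the other slots -/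
theorem inc4 (H : OutS grp L dh nn lam A φ r) (K : ℕ → Prop) {p q p' q' : ι → ℝ} (hp : p ∈ L)
    (hq : q ∈ L) (hp' : p' ∈ L) (hq' : q' ∈ L)
    (h : ∀ i, (K (grp i) ∧ p i = p' i ∧ q i = q' i) ∨ (¬ K (grp i) ∧ p i = q i ∧ p' i = q' i)) :
    lam p - lam q = lam p' - lam q' := by
  rw [H.sum _ hp, H.sum _ hq, H.sum _ hp', H.sum _ hq', ← sum_sub_distrib, ← sum_sub_distrib]
  refine sum_congr rfl fun k _ => ?_
  by_cases hk : K k
  · rw [H.loc k p p' fun i hi => ?_, H.loc k q q' fun i hi => ?_]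
    · rcases h i with h1 | h1
      · exact h1.2.2
      · exact absurd (hi ▸ hk) h1.1
    · rcases h i with h1 | h1
      · exact h1.2.1
      · exact absurd (hi ▸ hk) h1.1
  · rw [H.loc k p q fun i hi => ?_, H.loc k p' q' fun i hi => ?_]
    · ring
    · rcases h i with h1 | h1
      · exact absurd (hi ▸ h1.1) hk
      · exact h1.2.2
    · rcases h i with h1 | h1
      · exact absurd (hi ▸ h1.1) hk
      · exact h1.2.1

/-- increments in one group -/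
theorem inc2 (H : OutS grp L dh nn lam A φ r) (k : ℕ) {p q : ι → ℝ} (hp : p ∈ L)
    (hq : q ∈ L) (h : ∀ i, grp i ≠ k → p i = q i) : lam p - lam q = φ k p - φ k q := by
  rw [H.sum _ hp, H.sum _ hq, ← sum_sub_distrib]
  have h0 : ∀ j, j ≠ k → φ j p - φ j q = 0 := fun j hj => by
    rw [H.loc j p q fun i hi => h i (by rw [hi]; exact hj), sub_self]
  by_cases hk : k ∈ gset grp
  · rw [sum_eq_single_of_mem k hk fun j _ hj => h0 j hj]
  · have h1 : φ k p - φ k q = 0 := by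
      rw [H.loc k p q fun i hi => absurd (hi ▸ mem_image_of_mem _ (mem_univ i)) hk, sub_self]
    rw [h1]
    refine sum_eq_zero fun j hj => h0 j fun hjk => hk (hjk ▸ hj)

end split

/-! ### the groups of the plane of row D2 -/

section groups

variable {κ κ3 : ℝ}



/-- groups -/
structure GF (κ κ3 : ℝ) (g : Fin 11 → ℕ) : Prop where
  g1 : g 1 = 0
  g5 : g 5 = 0
  n : ∀ i : Fin 11, i ≠ 1 → i ≠ 5 → g i ≠ 0
  lev : g 2 = g 0 ∧ g 3 = g 0 ∧ g 4 = g 0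
  l6 : g 0 ≠ g 6
  l7 : g 0 ≠ g 7
  l8 : g 0 ≠ g 8
  l9 : g 0 ≠ g 9
  l10 : g 0 ≠ g 10
  h106 : g 10 ≠ g 6
  h107 : g 10 ≠ g 7
  h108 : g 10 ≠ g 8
  h109 : g 10 ≠ g 9
  h96 : g 9 ≠ g 6
  h98 : g 9 ≠ g 8
  h76 : g 7 ≠ g 6
  h97 : κ3 ≠ 1 + κ → g 9 ≠ g 7
  h78 : κ3 = 1 + κ → g 7 ≠ g 8

theorem gf (hκ : 0 < κ) (hκ3 : κ < κ3) : GF κ κ3 (gC (nL 1 0 κ κ3) (nL 0 1 1 1)) := by
  have hκ30 : 0 < κ3 := hκ.trans hκ3
  set a := nL 1 0 κ κ3 with ha
  set b := nL 0 1 1 1 with hb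
  have a0 : a 0 = 1 := rfl
  have a2 : a 2 = κ := by show κ - 0 = κ; ring
  have a3 : a 3 = κ3 - κ := rfl
  have a4 : a 4 = κ3 := by show κ3 - 0 = κ3; ring
  have a6 : a 6 = κ := rfl
  have a7 : a 7 = κ3 := rfl
  have a8 : a 8 = 1 := by show (1 : ℝ) + 0 = 1; ring
  have a9 : a 9 = 1 + κ := rfl
  have a10 : a 10 = 1 + κ3 := rfl
  have b0 : b 0 = 0 := rfl
  have b2 : b 2 = 0 := by show (1 : ℝ) - 1 = 0; ring
  have b3 : b 3 = 0 := by show (1 : ℝ) - 1 = 0; ring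
  have b4 : b 4 = 0 := by show (1 : ℝ) - 1 = 0; ring
  have b6 : b 6 = 1 := rfl
  have b7 : b 7 = 1 := rfl
  have b8 : b 8 = 1 := by show (0 : ℝ) + 1 = 1; ring
  have b9 : b 9 = 1 := by show (0 : ℝ) + 1 = 1; ring
  have b10 : b 10 = 1 := by show (0 : ℝ) + 1 = 1; ring
  have n0 : a 0 ≠ 0 := by rw [a0]; norm_num
  have n2 : a 2 ≠ 0 := by rw [a2]; exact hκ.ne'
  have n3 : a 3 ≠ 0 := by rw [a3]; linarith
  have n4 : a 4 ≠ 0 := by rw [a4]; exact hκ30.ne'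
  have n6 : a 6 ≠ 0 := by rw [a6]; exact hκ.ne'
  have n7 : a 7 ≠ 0 := by rw [a7]; exact hκ30.ne'
  have n8 : a 8 ≠ 0 := by rw [a8]; norm_num
  have n9 : a 9 ≠ 0 := by rw [a9]; linarith
  have n10 : a 10 ≠ 0 := by rw [a10]; linarith
  have lv : ∀ {i : Fin 11}, a i ≠ 0 → b i = 1 → gC a b 0 ≠ gC a b i := by
    intro i hi hbi h
    have := (gC_eq n0 hi).1 h
    rw [b0, zero_div, hbi] at this
    exact one_div_ne_zero hi this.symm
  have nq : ∀ {i j : Fin 11}, a i ≠ 0 → a j ≠ 0 → b i = 1 → b j = 1 → a i ≠ a j →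
      gC a b i ≠ gC a b j := by
    intro i j hi hj hbi hbj hne h
    have := (gC_eq hi hj).1 h
    rw [hbi, hbj] at this
    rw [one_div, one_div] at this
    exact hne (inv_injective this)
  refine ⟨gC_zero.2 rfl, gC_zero.2 rfl, ?_, ⟨(gC_eq n2 n0).2 ?_, (gC_eq n3 n0).2 ?_,
    (gC_eq n4 n0).2 ?_⟩, lv n6 b6, lv n7 b7, lv n8 b8, lv n9 b9, lv n10 b10,
    nq n10 n6 b10 b6 ?_, nq n10 n7 b10 b7 ?_, nq n10 n8 b10 b8 ?_, nq n10 n9 b10 b9 ?_,
    nq n9 n6 b9 b6 ?_, nq n9 n8 b9 b8 ?_, nq n7 n6 b7 b6 ?_, fun h => nq n9 n7 b9 b7 ?_,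
    fun h => nq n7 n8 b7 b8 ?_⟩
  · intro i h1 h5 h
    have h2 := gC_zero.1 h
    fin_cases i
    · exact n0 h2
    · exact h1 rfl
    · exact n2 h2
    · exact n3 h2
    · exact n4 h2
    · exact h5 rfl
    · exact n6 h2
    · exact n7 h2
    · exact n8 h2
    · exact n9 h2
    · exact n10 h2
  · rw [b2, b0, zero_div, zero_div]
  · rw [b3, b0, zero_div, zero_div]
  · rw [b4, b0, zero_div, zero_div]
  · rw [a10, a6]; intro h; linarith
  · rw [a10, a7]; intro h; linarith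
  · rw [a10, a8]; intro h; linarith
  · rw [a10, a9]; intro h; linarith
  · rw [a9, a6]; intro h; linarith
  · rw [a9, a8]; intro h; linarith
  · rw [a7, a6]; intro h; linarith
  · rw [a9, a7]; intro h'; exact h h'.symm
  · rw [a7, a8]; intro h'; linarith

end groups

/-- the box of the tangent -/
def vT (T ca cb p xa xb n : ℝ) : Fin 11 → ℝ := ![T, 0, T, T, T, ca, cb, p, xa, xb, n]

theorem vT_mem {T ca cb p xa xb n : ℝ}
    (hT : 0 ≤ T) (h5 : ca ∈ Set.Icc 0 T) (h6 : cb ∈ Set.Icc 0 T) (h7 : p ∈ Set.Icc 0 T)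
    (h8 : xa ∈ Set.Icc 0 T) (h9 : xb ∈ Set.Icc 0 T) (h10 : n ∈ Set.Icc 0 T) :
    vT T ca cb p xa xb n ∈ coneN := by
  obtain ⟨a5, b5⟩ := h5
  obtain ⟨a6, b6⟩ := h6
  obtain ⟨a7, b7⟩ := h7
  obtain ⟨a8, b8⟩ := h8
  obtain ⟨a9, b9⟩ := h9
  obtain ⟨a10, b10⟩ := h10
  refine ⟨?_, ?_, ?_, ?_, ?_, ?_, ?_, ?_, ?_, ?_⟩
  · show T ≤ T + T
    linarith
  · show cb ≤ T + ca
    linarith
  · show p ≤ T + ca
    linarith
  · show p ≤ T + cb
    linarith
  · show xa ≤ T + ca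
    linarith
  · show xb ≤ T + cb
    linarith
  · show xb ≤ T + xa
    linarith
  · show n ≤ T + p
    linarith
  · show n ≤ T + xa
    linarith
  · show n ≤ T + xb
    linarith

/-- level part of the slopes -/
def lv1 (κ κ3 : ℝ) : Fin 11 → ℝ := ![1, 0, κ, κ3 - κ, κ3, 0, 0, 0, 0, 0, 0]

theorem lv1_mem {κ κ3 : ℝ} (hκ : 0 ≤ κ) (hκ3 : κ ≤ κ3) : lv1 κ κ3 ∈ coneN := by
  refine ⟨?_, ?_, ?_, ?_, ?_, ?_, ?_, ?_, ?_, ?_⟩
  · show κ3 ≤ κ + (κ3 - κ)
    linarith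
  · show (0 : ℝ) ≤ κ + 0
    linarith
  · show (0 : ℝ) ≤ κ3 + 0
    linarith
  · show (0 : ℝ) ≤ (κ3 - κ) + 0
    linarith
  · show (0 : ℝ) ≤ 1 + 0
    linarith
  · show (0 : ℝ) ≤ 1 + 0
    linarith
  · show (0 : ℝ) ≤ κ + 0
    linarith
  · show (0 : ℝ) ≤ 1 + 0
    linarith
  · show (0 : ℝ) ≤ κ3 + 0
    linarith
  · show (0 : ℝ) ≤ (κ3 - κ) + 0
    linarith

theorem aV_mem {κ κ3 : ℝ} (hκ : 0 ≤ κ) (hκ3 : κ ≤ κ3) : nL 1 0 κ κ3 ∈ coneN := by
  refine ⟨?_, ?_, ?_, ?_, ?_, ?_, ?_, ?_, ?_, ?_⟩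
  · show κ3 - 0 ≤ (κ - 0) + (κ3 - κ)
    linarith
  · show κ ≤ (κ - 0) + 0
    linarith
  · show κ3 ≤ (κ3 - 0) + 0
    linarith
  · show κ3 ≤ (κ3 - κ) + κ
    linarith
  · show 1 + 0 ≤ 1 + (0 : ℝ)
    linarith
  · show 1 + κ ≤ 1 + κ
    linarith
  · show 1 + κ ≤ (κ - 0) + (1 + 0)
    linarith
  · show 1 + κ3 ≤ 1 + κ3
    linarith
  · show 1 + κ3 ≤ (κ3 - 0) + (1 + 0)
    linarith
  · show 1 + κ3 ≤ (κ3 - κ) + (1 + κ)
    linarith

end Crest.Agent.R136.Xd272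
end

-- ▼ part R136/D2d_272
section

/-!
# R136, row D2 of the thick table (helper272), part 4: the F-half
-/

set_option autoImplicit false
set_option linter.unusedVariables false
set_option linter.unusedSectionVars false

open Finset Filter Topology

namespace Crest.Agent.R136.Xd272

open Crest.Agent.R138.Ex926 (Base U)
open Crest.Agent.R136.Gf356
open Crest.Agent.R136.NatR550
open Crest.Agent.R136.Dg219

variable {κ κ3 T : ℝ} {lam : (Fin 11 → ℝ) → ℝ} {A : ℝ × ℝ} {φ : ℕ → (Fin 11 → ℝ) → ℝ} {r : ℕ → ℝ}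

/-! ### components -/

theorem f11 {P : Fin 11 → Prop} (h0 : P 0) (h1 : P 1) (h2 : P 2) (h3 : P 3) (h4 : P 4)
    (h5 : P 5) (h6 : P 6) (h7 : P 7) (h8 : P 8) (h9 : P 9) (h10 : P 10) : ∀ i, P i := by
  intro i
  fin_cases i <;> assumption

section comp

variable {T ca cb p xa xb n κ κ3 : ℝ}

theorem vT_0 : vT T ca cb p xa xb n 0 = T := rfl
theorem vT_1 : vT T ca cb p xa xb n 1 = 0 := rfl
theorem vT_2 : vT T ca cb p xa xb n 2 = T := rfl
theorem vT_3 : vT T ca cb p xa xb n 3 = T := rfl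
theorem vT_4 : vT T ca cb p xa xb n 4 = T := rfl
theorem vT_5 : vT T ca cb p xa xb n 5 = ca := rfl
theorem vT_6 : vT T ca cb p xa xb n 6 = cb := rfl
theorem vT_7 : vT T ca cb p xa xb n 7 = p := rfl
theorem vT_8 : vT T ca cb p xa xb n 8 = xa := rfl
theorem vT_9 : vT T ca cb p xa xb n 9 = xb := rfl
theorem vT_10 : vT T ca cb p xa xb n 10 = n := rfl

theorem lv_0 : lv1 κ κ3 0 = 1 := rfl
theorem lv_1 : lv1 κ κ3 1 = 0 := rfl
theorem lv_2 : lv1 κ κ3 2 = κ := rfl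
theorem lv_3 : lv1 κ κ3 3 = κ3 - κ := rfl
theorem lv_4 : lv1 κ κ3 4 = κ3 := rfl
theorem lv_5 : lv1 κ κ3 5 = 0 := rfl
theorem lv_6 : lv1 κ κ3 6 = 0 := rfl
theorem lv_7 : lv1 κ κ3 7 = 0 := rfl
theorem lv_8 : lv1 κ κ3 8 = 0 := rfl
theorem lv_9 : lv1 κ κ3 9 = 0 := rfl
theorem lv_10 : lv1 κ κ3 10 = 0 := rfl

theorem nL_0 : nL 1 0 κ κ3 0 = 1 := rfl
theorem nL_1 : nL 1 0 κ κ3 1 = 0 := rfl
theorem nL_2 : nL 1 0 κ κ3 2 = κ := by
  show κ - 0 = κ
  ring
theorem nL_3 : nL 1 0 κ κ3 3 = κ3 - κ := rfl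
theorem nL_4 : nL 1 0 κ κ3 4 = κ3 := by
  show κ3 - 0 = κ3
  ring
theorem nL_5 : nL 1 0 κ κ3 5 = 0 := rfl
theorem nL_6 : nL 1 0 κ κ3 6 = κ := rfl
theorem nL_7 : nL 1 0 κ κ3 7 = κ3 := rfl
theorem nL_8 : nL 1 0 κ κ3 8 = 1 := by
  show (1 : ℝ) + 0 = 1
  ring
theorem nL_9 : nL 1 0 κ κ3 9 = 1 + κ := rfl
theorem nL_10 : nL 1 0 κ κ3 10 = 1 + κ3 := rfl

end comp

theorem vT_n {T ca cb p xa xb n n' : ℝ} : ∀ i : Fin 11, i ≠ 10 →
    vT T ca cb p xa xb n i = vT T ca cb p xa xb n' i := by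
  refine f11 ?_ ?_ ?_ ?_ ?_ ?_ ?_ ?_ ?_ ?_ ?_ <;> intro hi
  · rw [vT_0, vT_0]
  · rw [vT_1, vT_1]
  · rw [vT_2, vT_2]
  · rw [vT_3, vT_3]
  · rw [vT_4, vT_4]
  · rw [vT_5, vT_5]
  · rw [vT_6, vT_6]
  · rw [vT_7, vT_7]
  · rw [vT_8, vT_8]
  · rw [vT_9, vT_9]
  · exact absurd rfl hi

theorem vT_ca {T ca cb p xa xb n ca' : ℝ} : ∀ i : Fin 11, i ≠ 5 →
    vT T ca cb p xa xb n i = vT T ca' cb p xa xb n i := by
  refine f11 ?_ ?_ ?_ ?_ ?_ ?_ ?_ ?_ ?_ ?_ ?_ <;> intro hi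
  · rw [vT_0, vT_0]
  · rw [vT_1, vT_1]
  · rw [vT_2, vT_2]
  · rw [vT_3, vT_3]
  · rw [vT_4, vT_4]
  · exact absurd rfl hi
  · rw [vT_6, vT_6]
  · rw [vT_7, vT_7]
  · rw [vT_8, vT_8]
  · rw [vT_9, vT_9]
  · rw [vT_10, vT_10]

theorem vT_xb {T ca cb p xa xb n xb' : ℝ} : ∀ i : Fin 11, i ≠ 9 →
    vT T ca cb p xa xb n i = vT T ca cb p xa xb' n i := by
  refine f11 ?_ ?_ ?_ ?_ ?_ ?_ ?_ ?_ ?_ ?_ ?_ <;> intro hi
  · rw [vT_0, vT_0]
  · rw [vT_1, vT_1]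
  · rw [vT_2, vT_2]
  · rw [vT_3, vT_3]
  · rw [vT_4, vT_4]
  · rw [vT_5, vT_5]
  · rw [vT_6, vT_6]
  · rw [vT_7, vT_7]
  · rw [vT_8, vT_8]
  · exact absurd rfl hi
  · rw [vT_10, vT_10]

theorem vT_le {T ca cb p xa xb n ca' cb' p' xa' xb' n' : ℝ} (h5 : ca ≤ ca') (h6 : cb ≤ cb')
    (h7 : p ≤ p') (h8 : xa ≤ xa') (h9 : xb ≤ xb') (h10 : n ≤ n') :
    vT T ca cb p xa xb n ≤ vT T ca' cb' p' xa' xb' n' := by
  show ∀ i, vT T ca cb p xa xb n i ≤ vT T ca' cb' p' xa' xb' n' i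
  refine f11 ?_ ?_ ?_ ?_ ?_ ?_ ?_ ?_ ?_ ?_ ?_
  · rw [vT_0, vT_0]
  · rw [vT_1, vT_1]
  · rw [vT_2, vT_2]
  · rw [vT_3, vT_3]
  · rw [vT_4, vT_4]
  · rw [vT_5, vT_5]; exact h5
  · rw [vT_6, vT_6]; exact h6
  · rw [vT_7, vT_7]; exact h7
  · rw [vT_8, vT_8]; exact h8
  · rw [vT_9, vT_9]; exact h9
  · rw [vT_10, vT_10]; exact h10

theorem vT_sum {T xa xa' : ℝ} :
    ∑ s, (vT T 0 0 0 xa' 0 0 s - vT T 0 0 0 xa 0 0 s) = xa' - xa := by
  simp only [Fin.sum_univ_succ, Fin.sum_univ_zero]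
  simp [vT]

variable {G : Fin 11 → ℕ} {dh : Fin 11 → ℝ} {nn : ℕ → ℝ × ℝ}

/-- the splitting of the tangent at a point of the plane of row D2 -/
structure TD (κ κ3 T : ℝ) (lam : (Fin 11 → ℝ) → ℝ) (A : ℝ × ℝ) (φ : ℕ → (Fin 11 → ℝ) → ℝ)
    (r : ℕ → ℝ) (G : Fin 11 → ℕ) (dh : Fin 11 → ℝ) (nn : ℕ → ℝ × ℝ) : Prop where
  hκ : 0 < κ
  hκ3 : κ < κ3
  hT : 1 + κ3 ≤ T
  g : GF κ κ3 G
  d1 : dh 1 = 0
  d5 : dh 5 = 1
  dp : ∀ k, k ≠ 0 → ∀ i, G i = k → 0 < dh i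
  out : OutS G coneN dh nn lam A φ r
  hom : ∀ k, (∀ i, G i = k → 0 < dh i) →
    ∀ c ∈ coneN, ∀ s : ℝ, 0 ≤ s → φ k (s • c) = s * φ k c
  sharp : ∀ c ∈ coneN, ∀ c' ∈ coneN, c ≤ c' → lam c - lam c' ≤ ∑ s, (c' s - c s)
  anti : ∀ c ∈ coneN, ∀ c' ∈ coneN, c ≤ c' → lam c' ≤ lam c
  lev : lam (lv1 κ κ3) ≤ -1
  sw : ∃ q : ℝ, 0 < q ∧ q * T ≤ lam (vT T 0 0 0 0 0 0) - lam (vT T T 0 0 0 0 0)
  A_eq : A.1 = lam (nL 1 0 κ κ3)

theorem a_nonneg (hκ : 0 < κ) (hκ3 : κ < κ3) : ∀ i, 0 ≤ nL 1 0 κ κ3 i := by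
  refine f11 ?_ ?_ ?_ ?_ ?_ ?_ ?_ ?_ ?_ ?_ ?_
  · rw [nL_0]; norm_num
  · rw [nL_1]
  · rw [nL_2]; linarith
  · rw [nL_3]; linarith
  · rw [nL_4]; linarith
  · rw [nL_5]
  · rw [nL_6]; linarith
  · rw [nL_7]; linarith
  · rw [nL_8]; norm_num
  · rw [nL_9]; linarith
  · rw [nL_10]; linarith

/-- slope of the profile = value of the tangent at the slopes -/
theorem A_eq_of (hκ : 0 < κ) (hκ3 : κ < κ3)
    (out : OutS (gC (nL 1 0 κ κ3) (nL 0 1 1 1)) coneN (dhC (nL 1 0 κ κ3) (nL 0 1 1 1))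
      (nC (nL 1 0 κ κ3) (nL 0 1 1 1)) lam A φ r) : A.1 = lam (nL 1 0 κ κ3) := by
  have hm : nL 1 0 κ κ3 ∈ coneN := aV_mem hκ.le hκ3.le
  generalize nL 1 0 κ κ3 = a at out hm ⊢
  generalize nL 0 1 1 1 = b at out ⊢
  have h1 := out.total (1, 0)
  rw [out.sum _ hm]
  have e1 : lf A (1, 0) = A.1 := by simp [lf]
  rw [e1] at h1
  rw [h1, ← sum_neg_distrib]
  refine sum_congr rfl fun k hk => ?_
  obtain ⟨i, -, hi⟩ := mem_image.1 hk
  by_cases hk0 : k = 0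
  · subst hk0
    rw [nC_zero]
    have e2 : φ 0 a = -(r 0 * 0) :=
      out.rate 0 _ hm 0 fun i hi => by
        rw [gC_zero.1 hi, zero_mul]
    rw [e2]
    simp [lf]
  · have ha : a i ≠ 0 := fun h0 => hk0 (hi.symm.trans (gC_zero.2 h0))
    have e2 : φ k a = -(r k * 1) :=
      out.rate k _ hm 1 fun j hj => by
        have hj' : a j ≠ 0 := fun h0 => hk0 (hj.symm.trans (gC_zero.2 h0))
        unfold dhC
        rw [if_neg hj', one_mul]
    have e3 : nC a b k = (1, b i / a i) := by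
      rw [← hi]; exact nC_of ha
    rw [e2, e3]
    simp [lf]

theorem TD.mk' (hκ : 0 < κ) (hκ3 : κ < κ3) (hT : 1 + κ3 ≤ T)
    (out : OutS (gC (nL 1 0 κ κ3) (nL 0 1 1 1)) coneN (dhC (nL 1 0 κ κ3) (nL 0 1 1 1))
      (nC (nL 1 0 κ κ3) (nL 0 1 1 1)) lam A φ r)
    (hom : ∀ k, (∀ i, gC (nL 1 0 κ κ3) (nL 0 1 1 1) i = k →
      0 < dhC (nL 1 0 κ κ3) (nL 0 1 1 1) i) →
      ∀ c ∈ coneN, ∀ s : ℝ, 0 ≤ s → φ k (s • c) = s * φ k c)
    (sharp : ∀ c ∈ coneN, ∀ c' ∈ coneN, c ≤ c' → lam c - lam c' ≤ ∑ s, (c' s - c s))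
    (anti : ∀ c ∈ coneN, ∀ c' ∈ coneN, c ≤ c' → lam c' ≤ lam c)
    (lev : lam (lv1 κ κ3) ≤ -1)
    (sw : ∃ q : ℝ, 0 < q ∧ q * T ≤ lam (vT T 0 0 0 0 0 0) - lam (vT T T 0 0 0 0 0)) :
    TD κ κ3 T lam A φ r (gC (nL 1 0 κ κ3) (nL 0 1 1 1)) (dhC (nL 1 0 κ κ3) (nL 0 1 1 1))
      (nC (nL 1 0 κ κ3) (nL 0 1 1 1)) where
  hκ := hκ
  hκ3 := hκ3
  hT := hT
  g := gf hκ hκ3
  d1 := by
    unfold dhC
    rw [if_pos (show nL 1 0 κ κ3 1 = 0 from rfl)]
    rfl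
  d5 := by
    unfold dhC
    rw [if_pos (show nL 1 0 κ κ3 5 = 0 from rfl)]
    rfl
  dp := by
    intro k hk i hi
    have h1 : nL 1 0 κ κ3 i ≠ 0 := fun h0 => hk (hi.symm.trans (gC_zero.2 h0))
    unfold dhC
    rw [if_neg h1]
    exact lt_of_le_of_ne (a_nonneg hκ hκ3 i) (Ne.symm h1)
  out := out
  hom := hom
  sharp := sharp
  anti := anti
  lev := lev
  sw := sw
  A_eq := A_eq_of hκ hκ3 out

namespace TD

variable (h : TD κ κ3 T lam A φ r G dh nn)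

include h

theorem T0 : 0 < T := by linarith [h.hκ, h.hκ3, h.hT]

theorem mem {ca cb p xa xb n : ℝ}
    (h5 : ca ∈ Set.Icc 0 T) (h6 : cb ∈ Set.Icc 0 T) (h7 : p ∈ Set.Icc 0 T)
    (h8 : xa ∈ Set.Icc 0 T) (h9 : xb ∈ Set.Icc 0 T) (h10 : n ∈ Set.Icc 0 T) :
    vT T ca cb p xa xb n ∈ coneN := vT_mem h.T0.le h5 h6 h7 h8 h9 h10

theorem only10 : ∀ i, G i = G 10 →
    i = 10 := by
  have g := h.g
  refine f11 ?_ ?_ ?_ ?_ ?_ ?_ ?_ ?_ ?_ ?_ ?_ <;> intro hi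
  · exact absurd hi g.l10
  · exact absurd (hi.symm.trans g.g1) (g.n 10 (by decide) (by decide))
  · exact absurd (g.lev.1.symm.trans hi) g.l10
  · exact absurd (g.lev.2.1.symm.trans hi) g.l10
  · exact absurd (g.lev.2.2.symm.trans hi) g.l10
  · exact absurd (hi.symm.trans g.g5) (g.n 10 (by decide) (by decide))
  · exact absurd hi.symm g.h106
  · exact absurd hi.symm g.h107
  · exact absurd hi.symm g.h108
  · exact absurd hi.symm g.h109
  · rfl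

theorem only9 : ∀ i, G i = G 9 →
    i = 9 ∨ (i = 7 ∧ κ3 = 1 + κ) := by
  have g := h.g
  refine f11 ?_ ?_ ?_ ?_ ?_ ?_ ?_ ?_ ?_ ?_ ?_ <;> intro hi
  · exact absurd hi g.l9
  · exact absurd (hi.symm.trans g.g1) (g.n 9 (by decide) (by decide))
  · exact absurd (g.lev.1.symm.trans hi) g.l9
  · exact absurd (g.lev.2.1.symm.trans hi) g.l9
  · exact absurd (g.lev.2.2.symm.trans hi) g.l9
  · exact absurd (hi.symm.trans g.g5) (g.n 9 (by decide) (by decide))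
  · exact absurd hi.symm g.h96
  · refine Or.inr ⟨rfl, ?_⟩
    by_contra hc
    exact g.h97 hc hi.symm
  · exact absurd hi.symm g.h98
  · exact Or.inl rfl
  · exact absurd hi g.h109

theorem only0 : ∀ i, G i = 0 → i = 1 ∨ i = 5 := by
  have g := h.g
  intro i hi
  by_contra hc
  push Not at hc
  exact g.n i hc.1 hc.2 hi

/-- group functions are linear on `[0, T]` -/
theorem lin {k : ℕ} (hk : k ≠ 0) {c1 p : Fin 11 → ℝ} (hc : c1 ∈ coneN) {s : ℝ} (hs : 0 ≤ s)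
    (hp : ∀ i, G i = k → p i = s * c1 i) :
    φ k p = s * φ k c1 := by
  rw [← h.hom k (h.dp k hk) c1 hc s hs]
  exact h.out.loc k _ _ fun i hi => by rw [hp i hi, Pi.smul_apply, smul_eq_mul]

/-- rate of `N` -/
noncomputable def aN (T : ℝ) (G : Fin 11 → ℕ) (φ : ℕ → (Fin 11 → ℝ) → ℝ) : ℝ :=
  -φ (G 10) (vT T 0 0 0 0 0 T) / T

/-- rate of `X_b` -/
noncomputable def bX (T : ℝ) (G : Fin 11 → ℕ) (φ : ℕ → (Fin 11 → ℝ) → ℝ) : ℝ :=
  -φ (G 9) (vT T 0 0 0 0 T 0) / T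

theorem stepN {ca cb p xa xb n : ℝ}
    (h5 : ca ∈ Set.Icc 0 T) (h6 : cb ∈ Set.Icc 0 T) (h7 : p ∈ Set.Icc 0 T)
    (h8 : xa ∈ Set.Icc 0 T) (h9 : xb ∈ Set.Icc 0 T) (h10 : n ∈ Set.Icc 0 T) :
    lam (vT T ca cb p xa xb n) = lam (vT T ca cb p xa xb 0) - aN T G φ * n := by
  have hT := h.T0
  have z0 : (0 : ℝ) ∈ Set.Icc 0 T := ⟨le_rfl, hT.le⟩
  have zT : T ∈ Set.Icc 0 T := ⟨hT.le, le_rfl⟩
  have hk : G 10 ≠ 0 := h.g.n 10 (by decide) (by decide)
  have e1 := inc2 h.out (G 10) (h.mem h5 h6 h7 h8 h9 h10)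
    (h.mem h5 h6 h7 h8 h9 z0) fun i hi => vT_n i fun h' => hi (by rw [h'])
  have e2 : φ (G 10) (vT T ca cb p xa xb 0) = 0 :=
    h.out.zero _ _ fun i hi => by rw [h.only10 i hi, vT_10]
  have e3 := h.lin hk (p := vT T ca cb p xa xb n) (h.mem z0 z0 z0 z0 z0 zT)
    (div_nonneg h10.1 hT.le) (s := n / T) fun i hi => by
      rw [h.only10 i hi, vT_10, vT_10, div_mul_cancel₀ n hT.ne']
  rw [e2, e3, sub_zero] at e1
  unfold aN
  have e4 : -φ (G 10) (vT T 0 0 0 0 0 T) / T * n =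
      -(n / T * φ (G 10) (vT T 0 0 0 0 0 T)) := by ring
  rw [e4]
  linarith

theorem stepC {ca cb p xa xb n : ℝ}
    (h5 : ca ∈ Set.Icc 0 T) (h6 : cb ∈ Set.Icc 0 T) (h7 : p ∈ Set.Icc 0 T)
    (h8 : xa ∈ Set.Icc 0 T) (h9 : xb ∈ Set.Icc 0 T) (h10 : n ∈ Set.Icc 0 T) :
    lam (vT T ca cb p xa xb n) = lam (vT T 0 cb p xa xb n) - r 0 * ca := by
  have hT := h.T0
  have z0 : (0 : ℝ) ∈ Set.Icc 0 T := ⟨le_rfl, hT.le⟩
  have e1 := inc2 h.out 0 (h.mem h5 h6 h7 h8 h9 h10) (h.mem z0 h6 h7 h8 h9 h10)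
    fun i hi => vT_ca i fun h' => hi (by rw [h']; exact h.g.g5)
  have e2 : ∀ ca' : ℝ, ca' ∈ Set.Icc 0 T → φ 0 (vT T ca' cb p xa xb n) = -(r 0 * ca') :=
    fun ca' h' => h.out.rate 0 _ (h.mem h' h6 h7 h8 h9 h10) ca' fun i hi => by
      rcases h.only0 i hi with rfl | rfl
      · rw [h.d1, mul_zero, vT_1]
      · rw [h.d5, mul_one, vT_5]
  rw [e2 ca h5, e2 0 z0] at e1
  linarith

theorem stepB {cb p xa xb : ℝ}
    (h6 : cb ∈ Set.Icc 0 T) (h7 : p ∈ Set.Icc 0 T)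
    (h8 : xa ∈ Set.Icc 0 T) (h9 : xb ∈ Set.Icc 0 T) (hp : p = 0 ∨ κ3 ≠ 1 + κ) :
    lam (vT T 0 cb p xa xb 0) = lam (vT T 0 cb p xa 0 0) - bX T G φ * xb := by
  have hT := h.T0
  have z0 : (0 : ℝ) ∈ Set.Icc 0 T := ⟨le_rfl, hT.le⟩
  have zT : T ∈ Set.Icc 0 T := ⟨hT.le, le_rfl⟩
  have hk : G 9 ≠ 0 := h.g.n 9 (by decide) (by decide)
  have e1 := inc2 h.out (G 9) (h.mem z0 h6 h7 h8 h9 z0)
    (h.mem z0 h6 h7 h8 z0 z0) fun i hi => vT_xb i fun h' => hi (by rw [h'])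
  have e2 : φ (G 9) (vT T 0 cb p xa 0 0) = 0 :=
    h.out.zero _ _ fun i hi => by
      rcases h.only9 i hi with rfl | ⟨rfl, h2⟩
      · rw [vT_9]
      · rcases hp with h3 | h3
        · rw [vT_7, h3]
        · exact absurd h2 h3
  have e3 := h.lin hk (p := vT T 0 cb p xa xb 0) (h.mem z0 z0 z0 z0 zT z0)
    (div_nonneg h9.1 hT.le) (s := xb / T) fun i hi => by
      rcases h.only9 i hi with rfl | ⟨rfl, h2⟩
      · rw [vT_9, vT_9, div_mul_cancel₀ xb hT.ne']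
      · rcases hp with h3 | h3
        · rw [vT_7, vT_7, h3, mul_zero]
        · exact absurd h2 h3
  rw [e2, e3, sub_zero] at e1
  unfold bX
  have e4 : -φ (G 9) (vT T 0 0 0 0 T 0) / T * xb =
      -(xb / T * φ (G 9) (vT T 0 0 0 0 T 0)) := by ring
  rw [e4]
  linarith

theorem stepX {cb p xa xb : ℝ} (hc : κ3 = 1 + κ)
    (h6 : cb ∈ Set.Icc 0 T) (h7 : p ∈ Set.Icc 0 T)
    (h8 : xa ∈ Set.Icc 0 T) (h9 : xb ∈ Set.Icc 0 T) :
    lam (vT T 0 cb p xa xb 0) - lam (vT T 0 cb 0 xa 0 0) =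
      lam (vT T 0 0 p 0 xb 0) - lam (vT T 0 0 0 0 0 0) := by
  have hT := h.T0
  have z0 : (0 : ℝ) ∈ Set.Icc 0 T := ⟨le_rfl, hT.le⟩
  have g := h.g
  refine inc4 h.out (fun k => k = G 7 ∨
    k = G 9) (h.mem z0 h6 h7 h8 h9 z0) (h.mem z0 h6 z0 h8 z0 z0)
    (h.mem z0 z0 h7 z0 h9 z0) (h.mem z0 z0 z0 z0 z0 z0) ?_
  have n7 := g.n 7 (by decide) (by decide)
  have n9 := g.n 9 (by decide) (by decide)
  refine f11 ?_ ?_ ?_ ?_ ?_ ?_ ?_ ?_ ?_ ?_ ?_
  · exact Or.inr ⟨fun h => h.elim g.l7 g.l9, by rw [vT_0, vT_0], by rw [vT_0, vT_0]⟩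
  · exact Or.inr ⟨fun h => h.elim (fun h => n7 (h.symm.trans g.g1))
      fun h => n9 (h.symm.trans g.g1), by rw [vT_1, vT_1], by rw [vT_1, vT_1]⟩
  · exact Or.inr ⟨fun h => h.elim (fun h => g.l7 (g.lev.1.symm.trans h))
      fun h => g.l9 (g.lev.1.symm.trans h), by rw [vT_2, vT_2], by rw [vT_2, vT_2]⟩
  · exact Or.inr ⟨fun h => h.elim (fun h => g.l7 (g.lev.2.1.symm.trans h))
      fun h => g.l9 (g.lev.2.1.symm.trans h), by rw [vT_3, vT_3], by rw [vT_3, vT_3]⟩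
  · exact Or.inr ⟨fun h => h.elim (fun h => g.l7 (g.lev.2.2.symm.trans h))
      fun h => g.l9 (g.lev.2.2.symm.trans h), by rw [vT_4, vT_4], by rw [vT_4, vT_4]⟩
  · exact Or.inr ⟨fun h => h.elim (fun h => n7 (h.symm.trans g.g5))
      fun h => n9 (h.symm.trans g.g5), by rw [vT_5, vT_5], by rw [vT_5, vT_5]⟩
  · exact Or.inr ⟨fun h => h.elim (fun h => g.h76 h.symm) fun h => g.h96 h.symm,
      by rw [vT_6, vT_6], by rw [vT_6, vT_6]⟩
  · exact Or.inl ⟨Or.inl rfl, by rw [vT_7, vT_7], by rw [vT_7, vT_7]⟩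
  · exact Or.inr ⟨fun h => h.elim (fun h => g.h78 hc h.symm) fun h => g.h98 h.symm,
      by rw [vT_8, vT_8], by rw [vT_8, vT_8]⟩
  · exact Or.inl ⟨Or.inr rfl, by rw [vT_9, vT_9], by rw [vT_9, vT_9]⟩
  · exact Or.inr ⟨fun h => h.elim g.h107 g.h109, by rw [vT_10, vT_10], by rw [vT_10, vT_10]⟩

/-- the profile of the window splits -/
theorem spl {ν : (Fin 11 → ℝ) → ℝ} {c₀ : ℝ}
    (hν : ∀ ca cb p xa xb n : ℝ, ca ∈ Set.Icc 0 T → cb ∈ Set.Icc 0 T → p ∈ Set.Icc 0 T →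
      xa ∈ Set.Icc 0 T → xb ∈ Set.Icc 0 T → n ∈ Set.Icc 0 T →
      ν (b0 ca cb p xa xb n) = lam (vT T ca cb p xa xb n) - c₀) :
    Spl ν T (r 0) (aN T G φ) (bX T G φ) fun cb p xa xb =>
      lam (vT T 0 0 0 0 0 0) - lam (vT T 0 cb p xa xb 0) := by
  have hT := h.T0
  have z0 : (0 : ℝ) ∈ Set.Icc 0 T := ⟨le_rfl, hT.le⟩
  have zT : T ∈ Set.Icc 0 T := ⟨hT.le, le_rfl⟩
  refine ⟨?_, ?_, ?_, ?_, ?_, ?_⟩
  · intro ca cb p xa xb n h5 h6 h7 h8 h9 h10
    rw [hν _ _ _ _ _ _ h5 h6 h7 h8 h9 h10, hν _ _ _ _ _ _ z0 z0 z0 z0 z0 z0,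
      h.stepN h5 h6 h7 h8 h9 h10, h.stepC h5 h6 h7 h8 h9 z0]
    ring
  · obtain ⟨q, hq, h1⟩ := h.sw
    have h2 := h.stepC zT z0 z0 z0 z0 z0
    have h3 : q * T ≤ r 0 * T := by linarith
    exact hq.trans_le (le_of_mul_le_mul_right h3 hT)
  · have h2 := h.stepN z0 z0 z0 z0 z0 zT
    have h3 := h.anti _ (h.mem z0 z0 z0 z0 z0 z0) _ (h.mem z0 z0 z0 z0 z0 zT)
      (vT_le le_rfl le_rfl le_rfl le_rfl le_rfl hT.le)
    have h4 : 0 * T ≤ aN T G φ * T := by linarith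
    exact le_of_mul_le_mul_right h4 hT
  · intro t y h1 h2 h3
    have h4 := h.sharp _ (h.mem z0 z0 z0 ⟨h1, h2.trans h3⟩ z0 z0) _
      (h.mem z0 z0 z0 ⟨h1.trans h2, h3⟩ z0 z0)
      (vT_le le_rfl le_rfl le_rfl h2 le_rfl le_rfl)
    rw [vT_sum] at h4
    linarith
  · intro cb xa xb h6 h8 h9
    have := h.stepB h6 z0 h8 h9 (Or.inl rfl)
    linarith
  · by_cases hc : κ3 = 1 + κ
    · left
      intro cb p xa xb h6 h7 h8 h9
      have := h.stepX hc h6 h7 h8 h9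
      linarith
    · right
      intro cb p xa xb h6 h7 h8 h9
      have := h.stepB h6 h7 h8 h9 (Or.inr hc)
      linarith

/-- **the F-half of row D2** -/
theorem conc {B : Base} {G₀ : ℕ → RCfg (Fin 11)} {Leg : Set (Fin 11 → ℝ)}
    {ν : (Fin 11 → ℝ) → ℝ} {D c₀ : ℝ} {e fa fb : ℕ → ℕ → ℝ} (hD : DWin B G₀ Leg ν T D e fa fb)
    (hν : ∀ ca cb p xa xb n : ℝ, ca ∈ Set.Icc 0 T → cb ∈ Set.Icc 0 T → p ∈ Set.Icc 0 T →
      xa ∈ Set.Icc 0 T → xb ∈ Set.Icc 0 T → n ∈ Set.Icc 0 T →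
      ν (b0 ca cb p xa xb n) = lam (vT T ca cb p xa xb n) - c₀) :
    A.1 ≤ -(4 + κ + κ3) := by
  have hT := h.T0
  have hκ := h.hκ
  have hκ3 := h.hκ3
  have hTT := h.hT
  obtain ⟨hX, hb, ha⟩ := hD.rates (h.spl hν)
  have z0 : (0 : ℝ) ∈ Set.Icc 0 T := ⟨le_rfl, hT.le⟩
  have i1 : (1 : ℝ) ∈ Set.Icc 0 T := ⟨zero_le_one, by linarith⟩
  have iκ : κ ∈ Set.Icc 0 T := ⟨hκ.le, by linarith⟩
  have iκ3 : κ3 ∈ Set.Icc 0 T := ⟨by linarith, by linarith⟩
  have i1κ : 1 + κ ∈ Set.Icc 0 T := ⟨by linarith, by linarith⟩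
  have i1κ3 : 1 + κ3 ∈ Set.Icc 0 T := ⟨by linarith, hTT⟩
  have g := h.g
  have h1 := inc4 h.out (fun k => k ≠ G 0) (p := nL 1 0 κ κ3)
    (q := lv1 κ κ3) (p' := vT T 0 κ κ3 1 (1 + κ) (1 + κ3)) (q' := vT T 0 0 0 0 0 0)
    (aV_mem hκ.le hκ3.le) (lv1_mem hκ.le hκ3.le) (h.mem z0 iκ iκ3 i1 i1κ i1κ3)
    (h.mem z0 z0 z0 z0 z0 z0) (by
      have n0 := g.n 0 (by decide) (by decide)
      refine f11 ?_ ?_ ?_ ?_ ?_ ?_ ?_ ?_ ?_ ?_ ?_
      · exact Or.inr ⟨fun h => h rfl, by rw [nL_0, lv_0], by rw [vT_0, vT_0]⟩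
      · exact Or.inl ⟨fun h => n0 (h.symm.trans g.g1), by rw [nL_1, vT_1], by rw [lv_1, vT_1]⟩
      · exact Or.inr ⟨fun h => h g.lev.1, by rw [nL_2, lv_2], by rw [vT_2, vT_2]⟩
      · exact Or.inr ⟨fun h => h g.lev.2.1, by rw [nL_3, lv_3], by rw [vT_3, vT_3]⟩
      · exact Or.inr ⟨fun h => h g.lev.2.2, by rw [nL_4, lv_4], by rw [vT_4, vT_4]⟩
      · exact Or.inl ⟨fun h => n0 (h.symm.trans g.g5), by rw [nL_5, vT_5], by rw [lv_5, vT_5]⟩
      · exact Or.inl ⟨fun h => g.l6 h.symm, by rw [nL_6, vT_6], by rw [lv_6, vT_6]⟩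
      · exact Or.inl ⟨fun h => g.l7 h.symm, by rw [nL_7, vT_7], by rw [lv_7, vT_7]⟩
      · exact Or.inl ⟨fun h => g.l8 h.symm, by rw [nL_8, vT_8], by rw [lv_8, vT_8]⟩
      · exact Or.inl ⟨fun h => g.l9 h.symm, by rw [nL_9, vT_9], by rw [lv_9, vT_9]⟩
      · exact Or.inl ⟨fun h => g.l10 h.symm, by rw [nL_10, vT_10], by rw [lv_10, vT_10]⟩)
  rw [← h.A_eq] at h1
  have h2 := h.stepN z0 iκ iκ3 i1 i1κ i1κ3
  have h3 := h.anti _ (h.mem z0 z0 z0 i1 i1κ z0) _ (h.mem z0 iκ iκ3 i1 i1κ z0)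
    (vT_le le_rfl hκ.le (by linarith) le_rfl le_rfl le_rfl)
  have h4 := h.stepB z0 z0 i1 i1κ (Or.inl rfl)
  have h5 := hX 1 zero_le_one i1.2
  have h6 : 1 * (1 + κ3) ≤ aN T G φ * (1 + κ3) :=
    mul_le_mul_of_nonneg_right ha (by linarith)
  have h7 : 1 * (1 + κ) ≤ bX T G φ * (1 + κ) :=
    mul_le_mul_of_nonneg_right hb (by linarith)
  have h8 := h.lev
  linarith

end TD

end Crest.Agent.R136.Xd272
end

-- ▼ part R136/LW1_113
section

/-!
# R136, case (D2): the linear window of helper272 in a window of helper413's `AeW`, level slots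
`{z, E, F_b, F_a}` (helper113)

* `WinL`, `winL_of_wat` : the window; `legW_bxD`, `nu_bxD` : legality and values;
* `lin_of_win` : `LinWin` (evolution and equal-height law); `LinWin.mono_x`;
* `linWin_of_wat` : pruned set, model, `LinWin`, raw twist, from `WAt`, static data
  `stQ {0, 2, 3, 4} K T Ma`;
* `splitD_of_out` : `SplitD` from the splitting into groups.
-/

set_option autoImplicit false
set_option linter.unusedSectionVars false
set_option linter.unusedVariables false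

open Filter Topology

namespace Crest.Agent.R136.LW113

open Finset Crest.Agent.R136.NetQ186 Crest.Agent.R136.Net191 Crest.Agent.R136.Qg926
open Crest.Agent.R136.Gf356 Crest.Agent.R136.Ev356 Crest.Agent.R136.Aw413
open Crest.Agent.R136.Wq400 Crest.Agent.R136.C2355 Crest.Agent.R136.Fe1355
open Crest.Agent.R136.Xd272 Crest.Agent.R136.Dg219
open Crest.Agent.R138.Ex926 (Base U)

/-- the entries of the level slots in `bxD` -/
def pbT (T : ℝ) : Fin 11 → ℝ := ![T, 0, T, T, T, 0, 0, 0, 0, 0, 0]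

/-- the box `bxD` with the level slots at `T` -/
def bxT (T ca cb p xa xb n : ℝ) : Fin 11 → ℝ := ![T, 0, T, T, T, ca, cb, p, xa, xb, n]



theorem bxT_legal {T ca cb p xa xb n : ℝ} (hT : 0 ≤ T) (ca0 : 0 ≤ ca) (ca1 : ca ≤ T)
    (cb0 : 0 ≤ cb) (cb1 : cb ≤ T) (p0 : 0 ≤ p) (p1 : p ≤ T) (xa0 : 0 ≤ xa) (xa1 : xa ≤ T)
    (xb0 : 0 ≤ xb) (xb1 : xb ≤ T) (n0 : 0 ≤ n) (n1 : n ≤ T) :
    Legal monQ (bxT T ca cb p xa xb n) ∧ ∀ s, bxT T ca cb p xa xb n s ≤ T := by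
  refine ⟨legalQ_iff.2 ⟨?_, ?_, ?_, ?_, ?_, ?_, ?_, ?_, ?_, ?_, ?_, ?_⟩, ?_⟩
  · intro s; fin_cases s <;> simp [bxT] <;> assumption
  · simp [bxT]; linarith
  · simp [bxT]; linarith
  · simp [bxT]; linarith
  · simp [bxT]; linarith
  · simp [bxT]; linarith
  · simp [bxT]; linarith
  · simp [bxT]; linarith
  · simp [bxT]; linarith
  · simp [bxT]; linarith
  · simp [bxT]; linarith
  · simp [bxT]; linarith
  · intro s; fin_cases s <;> simp [bxT] <;> assumption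

variable {ι : ℕ → Type*} [∀ n, DecidableEq (ι n)] {W : Wnd 11 ι} {f : ∀ n, ι n → Fq4}
  {E : ∀ n, Finset (ι n)} {T K : ℝ}

/-- a window with level slots `{z, E, F_b, F_a}` in natural position -/
structure WinL (W : Wnd 11 ι) (K T : ℝ) : Prop where
  kz : W.kz = 0
  S : W.S = {0, 2, 3, 4}
  top : W.top = fun _ => T
  R' : W.R' = T
  kap : W.kap = kapQ K
  K0 : W.K0 ≤ K
  T0 : 0 < T
  mons : ∀ k, W.Mw.mon k ⊆ monQ.mon k
  tight : TightQ W



/-- **evolution** -/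
theorem mvL (h : QWnd W f)
    (hc : ∀ᶠ n in (U : Filter ℕ), W.Good n ∧ E n ⊆ W.Cl n ∧ W.cfg E n = W.cfg0 n (E n))
    (hw : WinL W K T) {ε : ℝ} (hε : 0 < ε) :
    ∀ᶠ n in (U : Filter ℕ), ∀ i l k k', (i, k) ∈ (W.cfg E n).I →
      (l, k) ∈ (W.cfg E n).I → (i, k') ∈ (W.cfg E n).I → (l, k') ∈ (W.cfg E n).I →
      EvoL ((W.cfg E n).z k' - (W.cfg E n).z k) (flg W n k' 2 - flg W n k 2)
        (flg W n k' 3 - flg W n k 3)
        (flg W n k' 4 - flg W n k 4 + flg W n k 2 * (flg W n k' 3 - flg W n k 3))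
        (W.B'.d n ^ (T - ε)) ((W.cfg E n).rel k i l) ((W.cfg E n).rel k' i l) := by
  have hK : 0 < K := by linarith [h.ok.K0_one, hw.K0]
  have h0S : (0 : Fin 11) ∈ W.S := by rw [hw.S]; decide
  have h2S : (2 : Fin 11) ∈ W.S := by rw [hw.S]; decide
  have h3S : (3 : Fin 11) ∈ W.S := by rw [hw.S]; decide
  have h4S : (4 : Fin 11) ∈ W.S := by rw [hw.S]; decide
  have ht : ∀ s, T ≤ W.top s := fun s => by rw [hw.top]
  have hM := h.MW_one
  set M := MW W with hMW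
  set Cg : ℝ := W.kap 0 * W.kap 1 / W.kap 7 with hCg
  have hCg0 : 0 ≤ Cg := (div_pos (mul_pos (h.ok.kap 0) (h.ok.kap 1)) (h.ok.kap 7)).le
  set KK : ℝ := CE W + 2 * (Cg * M ^ 3) with hKK
  have hCE0 : 0 ≤ CE W := (h.CE_le 0).2.2
  filter_upwards [hc, h.rel_MW hc, h.mot_eq hc, h.z_eq hw.kz hc, h.evoR hc h0S ht,
    cf01 h hw.tight T, ev_const_le W.B' hε KK] with n hn hrel hmot hz hev hcf01 hKKn
  obtain ⟨g, hE, hcfg⟩ := hn
  obtain ⟨c234, c256, c457, c367, c058, c069, c289, c0710, c4810, c3910⟩ :=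
    cfQ h hw.tight hK hw.kap n
  intro i i' k₀ k hi0 hi0' hi hi'
  have hk0Z : k₀ ∈ (W.cfg E n).Z := by
    rw [hcfg] at hi0 ⊢
    exact mem_image.2 (by obtain ⟨u, hu, -, h6⟩ := mem_cfg0 hi0; exact ⟨u, hu, h6⟩)
  have hkZ : k ∈ (W.cfg E n).Z := by
    rw [hcfg] at hi ⊢
    exact mem_image.2 (by obtain ⟨u, hu, -, h6⟩ := mem_cfg0 hi; exact ⟨u, hu, h6⟩)
  obtain ⟨r1, r2, r3, r4⟩ := hrel
  set d := W.B'.d n with hd
  have hd0 : 0 < d := W.B'.pos n
  have hpow : ∀ t : ℝ, 0 < d ^ t := fun t => Real.rpow_pos_of_pos hd0 t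
  have e2ε : d ^ (-ε) * d ^ T = d ^ (T - ε) := by
    rw [← Real.rpow_add hd0]; congr 1; ring
  have fin : ∀ {x K' : ℝ}, |x| ≤ K' * d ^ T → K' ≤ KK → |x| ≤ d ^ (T - ε) := by
    intro x K' hx hK'
    refine hx.trans ?_
    rw [← e2ε]
    exact mul_le_mul_of_nonneg_right (hK'.trans hKKn) (hpow _).le
  have hM0 : 0 ≤ M := by linarith
  have hCM : 0 ≤ Cg * M ^ 3 := by positivity
  have b1 : ∀ s, |(W.cfg E n).rel k₀ i i' s| ≤ M := r1 k₀ i i' hi0 hi0'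
  have f2 : fsl W n i k₀ 2 = 0 := by unfold fsl; rw [if_pos h2S]
  have f3 : fsl W n i k₀ 3 = 0 := by unfold fsl; rw [if_pos h3S]
  have hmt : ∀ s : Fin 11, s = 0 ∨ s = 2 ∨ s = 3 → mot W n k₀ k s = flg W n k s - flg W n k₀ s := by
    intro s hs
    unfold mot
    rw [if_pos (by rcases hs with rfl | rfl | rfl <;> assumption)]
    exact (hmot k₀ hk0Z k hkZ).1 s hs
  have m0 : own W n k₀ k (fsl W n i k₀ 2) (fsl W n i k₀ 3) 0 =
      (W.cfg E n).z k - (W.cfg E n).z k₀ := by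
    unfold own
    rw [if_neg (by decide), hz k, hz k₀]
    exact hmt 0 (by simp)
  have m2 : own W n k₀ k (fsl W n i k₀ 2) (fsl W n i k₀ 3) 2 = flg W n k 2 - flg W n k₀ 2 := by
    unfold own
    rw [if_neg (by decide)]
    exact hmt 2 (by simp)
  have m3 : own W n k₀ k (fsl W n i k₀ 2) (fsl W n i k₀ 3) 3 = flg W n k 3 - flg W n k₀ 3 := by
    unfold own
    rw [if_neg (by decide)]
    exact hmt 3 (by simp)
  have m4 : own W n k₀ k (fsl W n i k₀ 2) (fsl W n i k₀ 3) 4 =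
      flg W n k 4 - flg W n k₀ 4 + flg W n k₀ 2 * (flg W n k 3 - flg W n k₀ 3) := by
    unfold own
    rw [if_pos rfl, if_pos h4S, f2, f3, (hmot k₀ hk0Z k hkZ).2, hmt 3 (by simp), hmt 2 (by simp),
      (hmot k₀ hk0Z k hkZ).1 3 (by simp), c234]
    ring
  have m0b : |own W n k₀ k (fsl W n i k₀ 2) (fsl W n i k₀ 3) 0| ≤ M := by
    unfold own
    rw [if_neg (by decide)]
    exact r3 k₀ hk0Z k hkZ 0
  rw [← m0, ← m4, ← m2, ← m3]
  set a := own W n k₀ k (fsl W n i k₀ 2) (fsl W n i k₀ 3) with ha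
  set b := (W.cfg E n).rel k₀ i i' with hb
  have hE' : ∀ s, s ∉ W.S → |(W.cfg E n).rel k i i' s - evoG W n a b s| ≤ CE W * d ^ T :=
    fun s hs => hev k₀ k i i' hi0 hi hi0' hi' s hs
  have hcE : CE W ≤ KK := by rw [hKK]; linarith
  have hc01 : |a 0 * b 1 * cf W n 0 1 7| ≤ Cg * M ^ 2 * d ^ T := by
    rw [abs_mul, abs_mul]
    calc |a 0| * |b 1| * |cf W n 0 1 7| ≤ M * M * (Cg * d ^ T) :=
          mul_le_mul (mul_le_mul m0b (b1 1) (abs_nonneg _) hM0) hcf01 (abs_nonneg _)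
            (by positivity)
      _ = Cg * M ^ 2 * d ^ T := by ring
  have hM23 : Cg * M ^ 2 * d ^ T ≤ Cg * M ^ 3 * d ^ T := by
    have : M ^ 2 ≤ M ^ 3 := pow_le_pow_right₀ hM (by norm_num)
    exact mul_le_mul_of_nonneg_right (mul_le_mul_of_nonneg_left this hCg0) (hpow _).le
  refine ⟨?_, ?_, ?_, ?_, ?_, ?_⟩
  · have := hE' 5 (by rw [hw.S]; decide)
    have e : evoG W n a b 5 = b 5 := by simp [evoG, evoN]
    rw [e] at this
    exact fin this hcE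
  · have := hE' 6 (by rw [hw.S]; decide)
    have e : evoG W n a b 6 = b 6 - a 2 * b 5 := by
      simp only [evoG, evoN]
      rw [if_neg (by decide)]
      simp only [Matrix.cons_val]
      rw [c256]; ring
    rw [e] at this
    exact fin this hcE
  · have := hE' 7 (by rw [hw.S]; decide)
    have e : evoG W n a b 7 = b 7 - a 4 * b 5 - a 3 * b 6 + 2 * (a 0 * b 1 * cf W n 0 1 7) := by
      simp only [evoG, evoN]
      rw [if_neg (by decide)]
      simp only [Matrix.cons_val]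
      rw [c457, c367]; ring
    rw [e] at this
    refine fin (K' := CE W + 2 * (Cg * M ^ 3)) ?_ (by rw [hKK])
    have e2 : (W.cfg E n).rel k i i' 7 - (b 7 - a 4 * b 5 - a 3 * b 6) =
      ((W.cfg E n).rel k i i' 7 -
        (b 7 - a 4 * b 5 - a 3 * b 6 + 2 * (a 0 * b 1 * cf W n 0 1 7))) +
        2 * (a 0 * b 1 * cf W n 0 1 7) := by ring
    rw [e2]
    have e3 := abs_add_le ((W.cfg E n).rel k i i' 7 -
      (b 7 - a 4 * b 5 - a 3 * b 6 + 2 * (a 0 * b 1 * cf W n 0 1 7)))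
      (2 * (a 0 * b 1 * cf W n 0 1 7))
    have e4 : |2 * (a 0 * b 1 * cf W n 0 1 7)| = 2 * |a 0 * b 1 * cf W n 0 1 7| := by
      rw [abs_mul, abs_two]
    rw [e4] at e3
    linarith
  · have := hE' 8 (by rw [hw.S]; decide)
    have e : evoG W n a b 8 = b 8 + a 0 * b 5 := by
      simp only [evoG, evoN]
      rw [if_neg (by decide)]
      simp only [Matrix.cons_val]
      rw [c058]; ring
    rw [e] at this
    exact fin this hcE
  · have := hE' 9 (by rw [hw.S]; decide)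
    have e : evoG W n a b 9 = b 9 + a 0 * b 6 - a 2 * (b 8 + a 0 * b 5) := by
      simp only [evoG, evoN]
      rw [if_neg (by decide)]
      simp only [Matrix.cons_val]
      rw [c069, c289, c058]; ring
    rw [e] at this
    exact fin this hcE
  · have := hE' 10 (by rw [hw.S]; decide)
    have e : evoG W n a b 10 = b 10 + a 0 * b 7 - a 4 * (b 8 + a 0 * b 5) -
        a 3 * (b 9 + a 0 * b 6) + a 0 * (a 0 * b 1 * cf W n 0 1 7) := by
      simp only [evoG, evoN]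
      rw [if_neg (by decide)]
      simp only [Matrix.cons_val]
      rw [c0710, c3910, c4810, c069, c058]; ring
    rw [e] at this
    refine fin (K' := CE W + Cg * M ^ 3) ?_ (by rw [hKK]; linarith)
    have e2 : (W.cfg E n).rel k i i' 10 - (b 10 + a 0 * b 7 - a 4 * (b 8 + a 0 * b 5) -
        a 3 * (b 9 + a 0 * b 6)) =
      ((W.cfg E n).rel k i i' 10 - (b 10 + a 0 * b 7 - a 4 * (b 8 + a 0 * b 5) -
        a 3 * (b 9 + a 0 * b 6) + a 0 * (a 0 * b 1 * cf W n 0 1 7))) +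
        a 0 * (a 0 * b 1 * cf W n 0 1 7) := by ring
    rw [e2]
    have e3 := abs_add_le ((W.cfg E n).rel k i i' 10 - (b 10 + a 0 * b 7 -
      a 4 * (b 8 + a 0 * b 5) - a 3 * (b 9 + a 0 * b 6) + a 0 * (a 0 * b 1 * cf W n 0 1 7)))
      (a 0 * (a 0 * b 1 * cf W n 0 1 7))
    have e4 : |a 0 * (a 0 * b 1 * cf W n 0 1 7)| ≤ Cg * M ^ 3 * d ^ T := by
      rw [abs_mul]
      calc |a 0| * |a 0 * b 1 * cf W n 0 1 7| ≤ M * (Cg * M ^ 2 * d ^ T) :=
            mul_le_mul m0b hc01 (abs_nonneg _) hM0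
        _ = Cg * M ^ 3 * d ^ T := by ring
    linarith

/-- **equal-height law**: the chart is additive -/
theorem addL (h : QWnd W f)
    (hc : ∀ᶠ n in (U : Filter ℕ), W.Good n ∧ E n ⊆ W.Cl n ∧ W.cfg E n = W.cfg0 n (E n))
    (hw : WinL W K T) {ε : ℝ} (hε : 0 < ε) :
    ∀ᶠ n in (U : Filter ℕ), ∀ i j l k, (i, k) ∈ (W.cfg E n).I →
      (j, k) ∈ (W.cfg E n).I → (l, k) ∈ (W.cfg E n).I → ∀ s : Fin 11, 5 ≤ s →
      |(W.cfg E n).rel k i l s - (W.cfg E n).rel k i j s - (W.cfg E n).rel k j l s| ≤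
        W.B'.d n ^ (T - ε) := by
  have h0S : (0 : Fin 11) ∈ W.S := by rw [hw.S]; decide
  have h2S : (2 : Fin 11) ∈ W.S := by rw [hw.S]; decide
  have h3S : (3 : Fin 11) ∈ W.S := by rw [hw.S]; decide
  have h4S : (4 : Fin 11) ∈ W.S := by rw [hw.S]; decide
  have ht : ∀ s, T ≤ W.top s := fun s => by rw [hw.top]
  filter_upwards [hc, h.compR hc h0S ht, ev_const_le W.B' hε (CE W)] with n hn hcp hCE
  obtain ⟨g, hE, hcfg⟩ := hn
  intro i j l k h1 h2 h3 s hs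
  have hd0 : 0 < W.B'.d n := W.B'.pos n
  have e2ε : W.B'.d n ^ (-ε) * W.B'.d n ^ T = W.B'.d n ^ (T - ε) := by
    rw [← Real.rpow_add hd0]; congr 1; ring
  have fin : ∀ {x : ℝ}, |x| ≤ CE W * W.B'.d n ^ T → |x| ≤ W.B'.d n ^ (T - ε) := by
    intro x hx
    refine hx.trans ?_
    rw [← e2ε]
    exact mul_le_mul_of_nonneg_right hCE (Real.rpow_nonneg hd0.le _)
  have hzero : ∀ s ∈ W.S, ∀ k i i', (W.cfg E n).rel k i i' s = 0 := by
    intro s hs k i i'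
    rw [hcfg, rel_cfg0, if_pos hs]
  set b := (W.cfg E n).rel k i j with hb
  set c := (W.cfg E n).rel k j l with hcc
  have b2 : b 2 = 0 := hzero 2 h2S k i j
  have b3 : b 3 = 0 := hzero 3 h3S k i j
  have b4 : b 4 = 0 := hzero 4 h4S k i j
  have hsS : s ∉ W.S := by
    rw [hw.S]
    revert hs
    fin_cases s <;> decide
  have key := hcp k i j l h1 h2 h3 s hsS
  have e : compN W n b c s = b s + c s := by
    have hs' : s = 5 ∨ s = 6 ∨ s = 7 ∨ s = 8 ∨ s = 9 ∨ s = 10 := by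
      revert hs
      fin_cases s <;> decide
    rcases hs' with rfl | rfl | rfl | rfl | rfl | rfl
    · simp only [compN, Matrix.cons_val]
    · simp only [compN, Matrix.cons_val]; rw [b2]; ring
    · simp only [compN, Matrix.cons_val]; rw [b2, b3, b4]; ring
    · simp only [compN, Matrix.cons_val]
    · simp only [compN, Matrix.cons_val]; rw [b2]; ring
    · simp only [compN, Matrix.cons_val]; rw [b2, b3, b4]; ring
  rw [e] at key
  rw [sub_sub]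
  exact fin key

/-- **the linear window** -/
theorem lin_of_win (h : QWnd W f)
    (hc : ∀ᶠ n in (U : Filter ℕ), W.Good n ∧ E n ⊆ W.Cl n ∧ W.cfg E n = W.cfg0 n (E n))
    (hw : WinL W K T) {Leg : Set (Fin 11 → ℝ)} {ν : (Fin 11 → ℝ) → ℝ} {D : ℝ}
    (H : RUnif W.B' (W.cfg E) Leg ν D) :
    LinWin W.B' (W.cfg E) T 1 (pbT T) (fun n k => flg W n k 2) (fun n k => flg W n k 4)
      (fun n k => flg W n k 3) where
  K1 := le_rfl
  bd := (bdQ h hc hw.kz hw.K0 hw.kap).mono fun n hn k hk =>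
    ⟨(hn k hk).1, (hn k hk).2 2, (hn k hk).2 4, (hn k hk).2 3⟩
  one := fun ε hε => by
    filter_upwards [hc, h.rel_MW hc, ev_const_le W.B' hε (MW W)] with n hn hr h2 i l k h3 h4
    obtain ⟨g, hE, hcfg⟩ := hn
    have hd0 : 0 < W.B'.d n := W.B'.pos n
    have hS : ∀ s ∈ W.S, |(W.cfg E n).rel k i l s| ≤ W.B'.d n ^ (pbT T s - ε) := by
      intro s hs
      have : (W.cfg E n).rel k i l s = 0 := by rw [hcfg, rel_cfg0, if_pos hs]
      rw [this, abs_zero]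
      exact (Real.rpow_pos_of_pos hd0 _).le
    have hN : ∀ s, |(W.cfg E n).rel k i l s| ≤ W.B'.d n ^ (0 - ε) := by
      intro s
      rw [zero_sub]
      exact (hr.1 k i l h3 h4 s).trans h2
    refine loose_bxD.2 ?_
    rw [H.base n]
    refine ⟨?_, hN 5, hN 6, hN 7, hN 8, hN 9, hN 10⟩
    intro j hj
    by_cases hjS : j ∈ W.S
    · exact hS j hjS
    · have hj1 : j = 1 := by
        rw [hw.S] at hjS
        revert hj hjS
        fin_cases j <;> decide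
      subst hj1
      have : pbT T 1 = 0 := by simp [pbT]
      rw [this]
      exact hN 1
  add := fun ε hε => addL h hc hw hε
  mv := fun ε hε => mvL h hc hw hε


section wat

variable {B : Base} {I : ∀ n, Finset (ι n)} {co : ∀ n, ι n → ι n → Fin 11 → ℝ} {Ma : Mons 11}
  {C : ℝ} {lam : (Fin 11 → ℝ) → ℝ} {V Tw : Fin 11 → Prop}

theorem winL_of_wat (h : WAt B I co monQ Ma C lam V Tw (stQ {0, 2, 3, 4} K T Ma) W)
    (hM : MaQ Ma) (hsub : ∀ k, Ma.mon k ⊆ monQ.mon k) (hK : cK0 monQ C ≤ K) (hT : 0 < T) :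
    WinL W K T where
  kz := h.ekz
  S := h.eS
  top := h.etop
  R' := h.eR
  kap := h.ekap
  K0 := by
    unfold Wnd.K0
    rw [h.eM, h.eC]; exact hK
  T0 := hT
  mons := by rw [h.eMw]; exact hsub
  tight := tightQ_of_wat h hM

/-- the narrow direction `e_s`, `s = E, F_b`, is legal -/
theorem single_legal {T : ℝ} (hT : 0 ≤ T) {s : Fin 11} (hs : s = 2 ∨ s = 3) :
    Legal monQ (cut {0, 2, 3, 4} (fun _ => T) (Pi.single s T)) ∧
      ∀ j, cut {0, 2, 3, 4} (fun _ => T) (Pi.single s T) j ≤ T := by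
  rcases hs with rfl | rfl
  · refine ⟨legalQ_iff.2 ⟨?_, ?_, ?_, ?_, ?_, ?_, ?_, ?_, ?_, ?_, ?_, ?_⟩, ?_⟩
    · intro s; fin_cases s <;> simp [cut] <;> exact hT
    all_goals first
      | (intro s; fin_cases s <;> simp [cut] <;> exact hT)
      | (simp [cut] <;> linarith)
  · refine ⟨legalQ_iff.2 ⟨?_, ?_, ?_, ?_, ?_, ?_, ?_, ?_, ?_, ?_, ?_, ?_⟩, ?_⟩
    · intro s; fin_cases s <;> simp [cut] <;> exact hT
    all_goals first
      | (intro s; fin_cases s <;> simp [cut] <;> exact hT)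
      | (simp [cut] <;> linarith)


end wat

/-! ### the profile splits -/




end Crest.Agent.R136.LW113
end

-- ▼ part R136/D2e_272
section

/-!
# R136, row D2 of the thick table (helper272), part 5: from `AeW` to the F-half

* `dwin_of_wat` : the window `DWin` from a window of helper413's `AeW` (helper113's `LW1_113`);
* `nu_b0` : the profile of the window;
* `conc_of_aew` : the F-half of row D2 over `AeW`.
-/

set_option autoImplicit false
set_option linter.unusedVariables false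
set_option linter.unusedSectionVars false

open Filter Topology

namespace Crest.Agent.R136.Xd272

open Finset Crest.Agent.R136.NetQ186 Crest.Agent.R136.Net191 Crest.Agent.R136.Qg926
open Crest.Agent.R136.Gf356 Crest.Agent.R136.Ev356 Crest.Agent.R136.Aw413
open Crest.Agent.R136.Wq400 Crest.Agent.R136.Fe1355 Crest.Agent.R136.NatR550
open Crest.Agent.R136.Dg219 Crest.Agent.R136.LW113
open Crest.Agent.R138.Ex926 (Base U)

variable {ι : ℕ → Type*} [∀ n, DecidableEq (ι n)]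

section comp

variable {T ca cb p xa xb n : ℝ}

theorem b0_5 : b0 ca cb p xa xb n 5 = ca := rfl
theorem b0_6 : b0 ca cb p xa xb n 6 = cb := rfl
theorem b0_7 : b0 ca cb p xa xb n 7 = p := rfl
theorem b0_8 : b0 ca cb p xa xb n 8 = xa := rfl
theorem b0_9 : b0 ca cb p xa xb n 9 = xb := rfl
theorem b0_10 : b0 ca cb p xa xb n 10 = n := rfl
theorem b0_1 : b0 ca cb p xa xb n 1 = 0 := rfl

theorem cut_b0 : cut {0, 2, 3, 4} (b0 ca cb p xa xb n) (fun _ => T) = vT T ca cb p xa xb n := by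
  funext s
  revert s
  refine f11 ?_ ?_ ?_ ?_ ?_ ?_ ?_ ?_ ?_ ?_ ?_
  · rw [cut_of_mem (by decide), vT_0]
  · rw [cut_of_notMem (by decide), vT_1, b0_1]
  · rw [cut_of_mem (by decide), vT_2]
  · rw [cut_of_mem (by decide), vT_3]
  · rw [cut_of_mem (by decide), vT_4]
  · rw [cut_of_notMem (by decide), vT_5, b0_5]
  · rw [cut_of_notMem (by decide), vT_6, b0_6]
  · rw [cut_of_notMem (by decide), vT_7, b0_7]
  · rw [cut_of_notMem (by decide), vT_8, b0_8]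
  · rw [cut_of_notMem (by decide), vT_9, b0_9]
  · rw [cut_of_notMem (by decide), vT_10, b0_10]

end comp

variable {W : Wnd 11 ι} {f : ∀ n, ι n → Fq4} {K T : ℝ}

theorem leg_b0 (hw : WinL W K T) {ca cb p xa xb n : ℝ} (h5 : ca ∈ Set.Icc 0 T)
    (h6 : cb ∈ Set.Icc 0 T) (h7 : p ∈ Set.Icc 0 T) (h8 : xa ∈ Set.Icc 0 T)
    (h9 : xb ∈ Set.Icc 0 T) (h10 : n ∈ Set.Icc 0 T) : b0 ca cb p xa xb n ∈ W.legW := by
  obtain ⟨h1, h2⟩ := bxT_legal hw.T0.le h5.1 h5.2 h6.1 h6.2 h7.1 h7.2 h8.1 h8.2 h9.1 h9.2 h10.1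
    h10.2
  refine ⟨?_, ?_⟩
  · rw [hw.S, hw.top, cut_b0, hw.R']
    exact ⟨legal_sub hw.mons h1, h2⟩
  · rw [hw.S, hw.top]
    refine f11 ?_ ?_ ?_ ?_ ?_ ?_ ?_ ?_ ?_ ?_ ?_ <;> intro hs
    · exact absurd (by decide) hs
    · rw [b0_1]; exact hw.T0.le
    · exact absurd (by decide) hs
    · exact absurd (by decide) hs
    · exact absurd (by decide) hs
    · rw [b0_5]; exact h5.2
    · rw [b0_6]; exact h6.2
    · rw [b0_7]; exact h7.2
    · rw [b0_8]; exact h8.2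
    · rw [b0_9]; exact h9.2
    · rw [b0_10]; exact h10.2

/-- **the profile of the window** -/
theorem nu_b0 (hw : WinL W K T) (ca cb p xa xb n : ℝ) :
    W.nu (b0 ca cb p xa xb n) = W.lam (vT T ca cb p xa xb n) - W.lam fun _ => T := by
  unfold Wnd.nu
  rw [hw.S, hw.top, cut_b0]

section wat

variable {B : Base} {I : ∀ n, Finset (ι n)} {co : ∀ n, ι n → ι n → Fin 11 → ℝ} {Ma : Mons 11}
  {C : ℝ} {lam : (Fin 11 → ℝ) → ℝ} {V Tw : Fin 11 → Prop}

/-- **the window of row D2** -/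
theorem dwin_of_wat (h : WAt B I co monQ Ma C lam V Tw (stQ {0, 2, 3, 4} K T Ma) W)
    (hco : ∀ n, ∀ i ∈ I n, ∀ j ∈ I n, co n i j = coQ (f n i) (f n j))
    (hM : MaQ Ma) (hsub : ∀ k, Ma.mon k ⊆ monQ.mon k) (hK : cK0 monQ C ≤ K) (hT : 0 < T)
    (hV : ∀ k, V k → k = 0 ∨ k = 2 ∨ k = 3 ∨ k = 4) (h2 : Tw 2) (h3 : Tw 3)
    (hden : (stQ {0, 2, 3, 4} K T Ma).Dens lam 1 T) :
    ∃ (E' : ∀ n, Finset (ι n)), DWin W.B' (W.cfg E') W.legW W.nu T W.Dc
      (fun n k => flg W n k 2) (fun n k => flg W n k 4) (fun n k => flg W n k 3) := by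
  obtain ⟨E', g, hP, -, H, htw⟩ := h.model (σ' := 1) (R := T) hden (fun _ _ _ => 0)
    (g₀ := fun n => n) (tendsto_natCast_atTop_atTop.mono_left
      Crest.Agent.R138.Ex926.U_le_atTop) (fun k hk => by
      left
      show k ∈ ({0, 2, 3, 4} : Finset (Fin 11))
      rcases hV k hk with rfl | rfl | rfl | rfl <;> decide)
  have hw := winL_of_wat h hM hsub hK hT
  have hq : QWnd W f := qwnd_of_wat h hco (by
    show ∀ s ∈ ({0, 2, 3, 4} : Finset (Fin 11)), _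
    decide)
  have hc := hcQ hq hP
  have tw : ∀ s : Fin 11, s = 2 ∨ s = 3 → Tw s →
      RawTw W.B' (W.cfg E') (fun n k k' => flg W n k' s - flg W n k s) := by
    intro s hs hTs
    refine C2w400.rawTw_of_rawL hq hc (s := s) (by
      rw [hw.S]; rcases hs with rfl | rfl <;> decide) (by tauto) hT (by rw [hw.top]) ?_
    refine htw s (by
      show s ∈ ({0, 2, 3, 4} : Finset (Fin 11))
      rcases hs with rfl | rfl <;> decide) hTs hT ⟨T, hT, ?_⟩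
    show cut {0, 2, 3, 4} (fun _ => T) (Pi.single s T) ∈ coneM Ma
    exact leg_cone (R := T) (Mw := Ma) (fun k => Finset.Subset.refl _)
      ⟨legal_sub hsub (single_legal hT.le hs).1, (single_legal hT.le hs).2⟩
  have L := lin_of_win hq hc hw H.toRUnif
  have hK1 : 1 ≤ K := hq.ok.K0_one.trans hw.K0
  have rb : ∀ᶠ n in (U : Filter ℕ), ∀ k i l, (i, k) ∈ (W.cfg E' n).I →
      (l, k) ∈ (W.cfg E' n).I → ∀ s, |(W.cfg E' n).rel k i l s| ≤ 1 := by
    filter_upwards [hc] with n hn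
    obtain ⟨g, hE, hcfg⟩ := hn
    rw [hcfg]
    intro k i l h1 h2 s
    rw [rel_cfg0]
    split_ifs
    · rw [abs_zero]; exact zero_le_one
    · refine (hq.crd_le g (rep_of_mem hE h1).1 (rep_of_mem hE h2).1 s).trans ?_
      rw [div_le_one (hq.ok.kap s), hw.kap]
      unfold kapQ
      have : K ^ 1 ≤ K ^ wtQ s := by
        refine pow_le_pow_right₀ hK1 ?_
        fin_cases s <;> simp [wtQ]
      rw [pow_one] at this
      exact hw.K0.trans this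
  refine ⟨E', H, hT, ⟨L.K1, L.bd, ?_, L.add, L.mv⟩, ?_, rb, tw 2 (Or.inl rfl) h2,
    tw 3 (Or.inr rfl) h3⟩
  · intro ε hε
    filter_upwards [rb, ev_const_le W.B' hε 1] with n hn h1 i l k h3 h4
    refine loose_bxD.2 ?_
    rw [H.toRUnif.base n]
    have key : ∀ s, |(W.cfg E' n).rel k i l s| ≤ W.B'.d n ^ (0 - ε) := by
      intro s
      rw [zero_sub]
      exact (hn k i l h3 h4 s).trans h1
    exact ⟨fun j _ => key j, key 5, key 6, key 7, key 8, key 9, key 10⟩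
  · intro ca cb p xa xb n h5 h6 h7 h8 h9 h10
    exact leg_b0 hw h5 h6 h7 h8 h9 h10

end wat

/-- **the F-half of row D2 over `AeW`** -/
theorem conc_of_aew {B Bo : Base} {I J : ∀ n, Finset (ι n)} {co : ∀ n, ι n → ι n → Fin 11 → ℝ}
    {Ma : Mons 11} {C : ℝ} {lam : (Fin 11 → ℝ) → ℝ} {A : ℝ × ℝ}
    {φ : ℕ → (Fin 11 → ℝ) → ℝ} {r : ℕ → ℝ} {κo : Fin 11 → ℝ} {V Tw : Fin 11 → Prop} {κ κ3 : ℝ}
    (h : AeW B Bo I J co monQ Ma C lam (nL 1 0 κ κ3) (nL 0 1 1 1) A φ r 0 1 κo V Tw)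
    (hM : MaQ Ma) (hcone : coneM Ma = coneN) (hC : 0 ≤ C)
    (hco : ∀ n, ∀ i ∈ I n, ∀ j ∈ I n, co n i j = coQ (f n i) (f n j))
    (hne : ∀ᶠ n in (U : Filter ℕ), (J n).Nonempty)
    (hom : ∀ k, (∀ i, gC (nL 1 0 κ κ3) (nL 0 1 1 1) i = k →
      0 < dhC (nL 1 0 κ κ3) (nL 0 1 1 1) i) →
      ∀ c ∈ coneN, ∀ s : ℝ, 0 ≤ s → φ k (s • c) = s * φ k c)
    (hκ : 0 < κ) (hκ3 : κ < κ3) (hV : ∀ k, V k → k = 0 ∨ k = 2 ∨ k = 3 ∨ k = 4)
    (h2 : Tw 2) (h3 : Tw 3)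
    (hsw : ∃ q : ℝ, 0 < q ∧ q * (1 + κ3) ≤
      lam (vT (1 + κ3) 0 0 0 0 0 0) - lam (vT (1 + κ3) (1 + κ3) 0 0 0 0 0)) :
    A.1 ≤ -(4 + κ + κ3) := by
  have hT : 0 < 1 + κ3 := by linarith
  have g := gf hκ hκ3
  have hK0 : 1 ≤ cK0 monQ C := cK0_one hC
  set st : WSt 11 := stQ {0, 2, 3, 4} (cK0 monQ C) (1 + κ3) Ma with hst
  have hok : st.Ok monQ (coneM Ma) := stQ_ok sok_eab (by linarith) hT.le h.sub
  obtain ⟨W, hW, -, -⟩ := h.wnd st rfl hok (fun _ _ => 1)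
    (fun _ => Crest.Agent.R138.Ex926.Base.Sub.const one_pos) J (fun _ => 1)
    (Eventually.of_forall fun n => Finset.Subset.refl _) hne
    (Crest.Agent.R138.Ex926.Base.Sub.const one_pos)
    (Eventually.of_forall fun n => by rw [one_mul])
  have hS : ∀ i j, gC (nL 1 0 κ κ3) (nL 0 1 1 1) i = gC (nL 1 0 κ κ3) (nL 0 1 1 1) j →
      i ∈ ({0, 2, 3, 4} : Finset (Fin 11)) → j ∈ ({0, 2, 3, 4} : Finset (Fin 11)) := by
    generalize gC (nL 1 0 κ κ3) (nL 0 1 1 1) = G at g ⊢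
    have key : ∀ j, G 0 = G j → j ∈ ({0, 2, 3, 4} : Finset (Fin 11)) := by
      refine f11 ?_ ?_ ?_ ?_ ?_ ?_ ?_ ?_ ?_ ?_ ?_ <;> intro hj
      · decide
      · exact absurd (hj.trans g.g1) (g.n 0 (by decide) (by decide))
      · decide
      · decide
      · decide
      · exact absurd (hj.trans g.g5) (g.n 0 (by decide) (by decide))
      · exact absurd hj g.l6
      · exact absurd hj g.l7
      · exact absurd hj g.l8
      · exact absurd hj g.l9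
      · exact absurd hj g.l10
    intro i j hij hi
    refine key j (Eq.trans ?_ hij)
    simp only [Finset.mem_insert, Finset.mem_singleton] at hi
    rcases hi with rfl | rfl | rfl | rfl
    · rfl
    · exact g.lev.1.symm
    · exact g.lev.2.1.symm
    · exact g.lev.2.2.symm
  have hden : st.Dens lam 1 (1 + κ3) := h.dens rfl hok hS zero_le_one le_rfl le_rfl
    fun y hy _ => by
      rw [hcone]
      refine ⟨?_, ?_, ?_, ?_, ?_, ?_, ?_, ?_, ?_, ?_⟩ <;> simp [Pi.single, Function.update] <;>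
        linarith
  obtain ⟨E', hD⟩ := dwin_of_wat hW hco hM h.sub le_rfl hT hV h2 h3 hden
  have hw := winL_of_wat hW hM h.sub le_rfl hT
  have lev : lam (lv1 κ κ3) ≤ -1 := by
    have m1 : lv1 κ κ3 ∈ coneM Ma := by rw [hcone]; exact lv1_mem hκ.le hκ3.le
    have h0 : (0 : Fin 11 → ℝ) ≤ lv1 κ κ3 := by
      show ∀ i, (0 : Fin 11 → ℝ) i ≤ lv1 κ κ3 i
      refine f11 ?_ ?_ ?_ ?_ ?_ ?_ ?_ ?_ ?_ ?_ ?_ <;> rw [Pi.zero_apply]
      · rw [lv_0]; exact zero_le_one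
      · rw [lv_1]
      · rw [lv_2]; exact hκ.le
      · rw [lv_3]; linarith
      · rw [lv_4]; linarith
      · rw [lv_5]
      · rw [lv_6]
      · rw [lv_7]
      · rw [lv_8]
      · rw [lv_9]
      · rw [lv_10]
    have h1 := h.own 0 zero_mem _ m1 h0 fun k _ => by rw [Pi.zero_apply, Pi.zero_apply, mul_zero]
    rw [lv_0, Pi.zero_apply, h.zero] at h1
    linarith
  have htd := TD.mk' (T := 1 + κ3) (lam := lam) (A := A) (φ := φ) (r := r) hκ hκ3 le_rfl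
    (hcone ▸ h.out) hom (hcone ▸ h.sharp) (hcone ▸ h.anti) lev hsw
  refine htd.conc hD (c₀ := W.lam fun _ => 1 + κ3) fun ca cb p xa xb n h5 h6 h7 h8 h9 h10 => ?_
  rw [nu_b0 hw, hW.elam]

end Crest.Agent.R136.Xd272
end

-- ▼ part R136/D2f_272
section

/-!
# R136, row D2 of the thick table (helper272), part 6: `caseD2`

* `maQ_nat` : all walls of the natural plane are active;
* `caseD2` : `21`, `32` and `31` visible is impossible.
-/

set_option autoImplicit false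
set_option linter.unusedVariables false
set_option linter.unusedSectionVars false

open Filter Topology

namespace Crest.Agent.R136.Xd272

open Finset Crest.Agent.R136.NetQ186 Crest.Agent.R136.Net191 Crest.Agent.R136.Qg926
open Crest.Agent.R136.Gf356 Crest.Agent.R136.Ev356 Crest.Agent.R136.Aw413
open Crest.Agent.R136.Wq400 Crest.Agent.R136.NatR550 Crest.Agent.R136.Wq638
open Crest.Agent.R136.Dg219 Crest.Agent.R136.NatT550 Crest.Agent.R136.TopB550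
open Crest.Agent.R136.Tb628

theorem mv_23 : mv 2 3 = ![0, 0, 1, 1, 0, 0, 0, 0, 0, 0, 0] := by decide
theorem mv_25 : mv 2 5 = ![0, 0, 1, 0, 0, 1, 0, 0, 0, 0, 0] := by decide
theorem mv_45 : mv 4 5 = ![0, 0, 0, 0, 1, 1, 0, 0, 0, 0, 0] := by decide
theorem mv_36 : mv 3 6 = ![0, 0, 0, 1, 0, 0, 1, 0, 0, 0, 0] := by decide
theorem mv_05 : mv 0 5 = ![1, 0, 0, 0, 0, 1, 0, 0, 0, 0, 0] := by decide
theorem mv_06 : mv 0 6 = ![1, 0, 0, 0, 0, 0, 1, 0, 0, 0, 0] := by decide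
theorem mv_28 : mv 2 8 = ![0, 0, 1, 0, 0, 0, 0, 0, 1, 0, 0] := by decide
theorem mv_07 : mv 0 7 = ![1, 0, 0, 0, 0, 0, 0, 1, 0, 0, 0] := by decide
theorem mv_48 : mv 4 8 = ![0, 0, 0, 0, 1, 0, 0, 0, 1, 0, 0] := by decide
theorem mv_01 : mv 0 1 = ![1, 1, 0, 0, 0, 0, 0, 0, 0, 0, 0] := by decide
theorem mv_39 : mv 3 9 = ![0, 0, 0, 1, 0, 0, 0, 0, 0, 1, 0] := by decide

/-- all walls of the natural plane are active -/
theorem maQ_nat {θ : Fin 3 → ℝ} (w0 R1 κ κ3 : ℝ) (h7 : sB θ κ κ3 7 ≠ 0) :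
    MaQ (actM monQ (s0 w0 R1) (sA κ κ3) (sB θ κ κ3)) := by
  have nt : ∀ k i j : Fin 11, (k, i, j) ∈ ({(4, 2, 3), (6, 2, 5), (7, 4, 5), (7, 3, 6), (8, 0, 5),
      (9, 0, 6), (9, 2, 8), (10, 0, 7), (10, 4, 8), (10, 3, 9)} :
        Finset (Fin 11 × Fin 11 × Fin 11)) → mv i j ∈ monQ.mon k →
      mv i j ∈ (actM monQ (s0 w0 R1) (sA κ κ3) (sB θ κ κ3)).mon k := by
    intro k i j hk hm
    have := nat_tg w0 R1 ![0, 0, 0] ![κ3, 0, κ]
      ![(θ 0 + κ3) / θ 1, 1, (θ 2 + κ) / θ 1] hk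
    simp only [Matrix.cons_val, Fin.isValue] at this
    exact mem_act.2 ⟨hm, this⟩
  refine ⟨?_, ?_, ?_, ?_, ?_, ?_, ?_, ?_, ?_, ?_, ?_⟩
  · rw [← mv_23]; exact nt 4 2 3 (by decide) (by decide)
  · rw [← mv_25]; exact nt 6 2 5 (by decide) (by decide)
  · rw [← mv_45]; exact nt 7 4 5 (by decide) (by decide)
  · rw [← mv_36]; exact nt 7 3 6 (by decide) (by decide)
  · rw [← mv_05]; exact nt 8 0 5 (by decide) (by decide)
  · rw [← mv_06]; exact nt 9 0 6 (by decide) (by decide)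
  · rw [← mv_28]; exact nt 9 2 8 (by decide) (by decide)
  · rw [← mv_07]; exact nt 10 0 7 (by decide) (by decide)
  · rw [← mv_48]; exact nt 10 4 8 (by decide) (by decide)
  · rw [← mv_39]; exact nt 10 3 9 (by decide) (by decide)
  · intro hm
    rw [← mv_01] at hm
    have h2 := (mem_act.1 hm).2.2.2
    have e0 : sB θ κ κ3 0 = 0 := rfl
    have e1 : sB θ κ κ3 1 = 0 := rfl
    rw [e0, e1, add_zero] at h2
    exact h7 h2

/-- the slopes in `t` of the plane along the record path -/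
theorem sB_own {θ : Fin 3 → ℝ} (h1 : 0 < θ 1) :
    sB θ (θ 1 - θ 2) (θ 1 - θ 0) = nL 0 1 1 1 := by
  unfold sB
  rw [show θ 2 + (θ 1 - θ 2) = θ 1 by ring, show θ 0 + (θ 1 - θ 0) = θ 1 by ring,
    div_self h1.ne']

/-- **row D2 of the thick table** -/
theorem caseD2 {η : ℝ} (hη : η ≤ 1 / 8) : Dead η pD2 := by
  intro p D I1 π eE fA fB V T w0 R T0 PD ν own c₀ h hp
  obtain ⟨v2, v3, v4⟩ := hp
  have ok := h.tp.ok
  have hη0 := ok.η_pos
  have h1 := ok.θ1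
  have sl := h.tp.slots
  have k2 : 0 < p.θ 1 - p.θ 2 := by simpa [btQ] using (sl.vis 2 v2).2
  have k3 : 0 < p.θ 2 - p.θ 0 := by simpa [btQ] using (sl.vis 3 v3).2
  have t2 : T 2 := by
    by_contra hc
    exact absurd (sl.cap 2 v2 hc).1 (by decide)
  have t3 : T 3 := by
    by_contra hc
    exact absurd (sl.cap 3 v3 hc).1 (by decide)
  have hsl : p.q 2 * (p.θ 1 - p.θ 2) + p.q 0 * (p.θ 1 - p.θ 0) < p.g :=
    hsl_sub ok hη (le_abs_self _) (le_abs_self _)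
  refine row_nat0 h hη0 (κ := p.θ 1 - p.θ 2) (κ3 := p.θ 1 - p.θ 0) k2.le (by linarith)
    (Or.inr (by intro e; rw [e] at k2; simp at k2))
    (Or.inr (Or.inl (by intro e; rw [e] at k3; simp at k3))) hsl (fun _ => le_rfl)
    (fun _ => by linarith) (fun _ => le_rfl) ?_
  intro g1 g2 hcone ξ x hh lam A φ r P hom
  have hB := sB_own (θ := p.θ) h1
  have hM := maQ_nat (θ := p.θ) w0 (R - 1) (p.θ 1 - p.θ 2) (p.θ 1 - p.θ 0)
    (by rw [hB]; exact one_ne_zero)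
  have hS1 := fun (c : Fin 11 → ℝ) hc y hy hcy hb => P.S1 (by simp [sA, nL]) (by simp [sB, nL])
    (g1 (by intro e; rw [e] at k2; simp at k2)) (c := c) hc (y := y) hy hcy hb
  have aew := P.aew
  unfold Tb628.Hom at hom
  rw [hcone] at hS1 hom
  have hCa : ∀ y : ℝ, vT (1 + (p.θ 1 - p.θ 0)) 0 0 0 0 0 0 + eCa y =
      vT (1 + (p.θ 1 - p.θ 0)) y 0 0 0 0 0 := by
    intro y
    funext s
    fin_cases s <;> simp [vT, eCa]
  have hT : 0 < 1 + (p.θ 1 - p.θ 0) := by linarith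
  have z0 : (0 : ℝ) ∈ Set.Icc 0 (1 + (p.θ 1 - p.θ 0)) := ⟨le_rfl, hT.le⟩
  have zT : 1 + (p.θ 1 - p.θ 0) ∈ Set.Icc 0 (1 + (p.θ 1 - p.θ 0)) := ⟨hT.le, le_rfl⟩
  have hsw := hS1 (vT (1 + (p.θ 1 - p.θ 0)) 0 0 0 0 0 0) (vT_mem hT.le z0 z0 z0 z0 z0 z0)
    (1 + (p.θ 1 - p.θ 0)) hT.le (by rw [hCa]; exact vT_mem hT.le zT z0 z0 z0 z0 z0)
    (by
      refine f11 ?_ ?_ ?_ ?_ ?_ ?_ ?_ ?_ ?_ ?_ ?_ <;> intro hk1 hk2
      · exact absurd hk2 (by rw [sA, nL_0]; exact one_ne_zero)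
      · exact absurd rfl hk1
      · exact absurd hk2 (by rw [sA, nL_2]; exact k2.ne')
      · exact absurd hk2 (by rw [sA, nL_3]; intro e; linarith)
      · exact absurd hk2 (by rw [sA, nL_4]; intro e; linarith)
      · rw [vT_5, mul_zero]
      · exact absurd hk2 (by rw [sA, nL_6]; exact k2.ne')
      · exact absurd hk2 (by rw [sA, nL_7]; intro e; linarith)
      · exact absurd hk2 (by rw [sA, nL_8]; exact one_ne_zero)
      · exact absurd hk2 (by rw [sA, nL_9]; intro e; linarith)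
      · exact absurd hk2 (by rw [sA, nL_10]; intro e; linarith))
  rw [hCa] at hsw
  have b2 : sB p.θ (p.θ 1 - p.θ 2) (p.θ 1 - p.θ 0) 2 = 0 := (sB_two0 h1.ne').2 rfl
  have b3 : sB p.θ (p.θ 1 - p.θ 2) (p.θ 1 - p.θ 0) 3 = 0 := (sB_three0 h1.ne').2 (by ring)
  rw [hB] at aew hM hcone hom b2 b3
  refine conc_of_aew (f := fun n x => GeoQ186.scl (uH D.B D.lev w0 n) (uA D.B D.lev D.w w0 n)
      (uB D.B D.lev D.w w0 n) (uY D.B D.lev D.w w0 n) (incQ π D.L eE fA fB n x))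
    (co := couQ D.B D.lev D.w w0 (incQ π D.L eE fA fB))
    (V := fun k => V k ∧ nL 0 1 1 1 k = 0) (Tw := fun k => T k ∧ nL 0 1 1 1 k = 0)
    aew hM hcone zero_le_two (fun n i _ j _ => rfl) h.ext.ne hom k2 (by linarith)
    (fun k hk => ?_) ⟨t2, b2⟩ ⟨t3, b3⟩ ⟨p.q 1, ok.g0.2, hsw⟩
  rcases (sl.vis k hk.1).1 with rfl | rfl | rfl <;> simp

end Crest.Agent.R136.Xd272
end

-- ▼ part R136/WinC1_344
section

/-!
# R136 (S0187), row E, window half, piece (C) (helper344), part 1: finite glue, normalisation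
-/

set_option autoImplicit false
set_option linter.unusedVariables false
set_option linter.unusedSectionVars false

open Finset Filter Topology

namespace Crest.Agent.R136.WinC344

open Crest.Agent.R138.Ex926 (Base U)

open Classical in
/-- **glue of the good classes** -/
theorem glue {ι κ : Type*} (J : Finset ι) (f : ι → κ) (Rel : κ → Finset ι → Prop) {δ : ℝ}
    (hδ : 0 < δ)
    (hbad : 2 * ((J.filter fun y => ¬ ∃ G ⊆ J, (∀ z ∈ G, f z = f y) ∧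
      2 * δ * ((J.filter fun z => f z = f y).card : ℝ) ≤ (G.card : ℝ) ∧ Rel (f y) G).card : ℝ) <
        (J.card : ℝ)) :
    ∃ S ⊆ J, δ * (J.card : ℝ) ≤ (S.card : ℝ) ∧ ∀ c, (∃ z ∈ S, f z = c) →
      Rel c (S.filter fun z => f z = c) := by
  set Good : κ → Prop := fun c => ∃ G ⊆ J, (∀ z ∈ G, f z = c) ∧
      2 * δ * ((J.filter fun z => f z = c).card : ℝ) ≤ (G.card : ℝ) ∧ Rel c G with hGood
  have hex : ∀ c, ∃ G : Finset ι, G ⊆ J ∧ (∀ z ∈ G, f z = c) ∧ (Good c →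
      2 * δ * ((J.filter fun z => f z = c).card : ℝ) ≤ (G.card : ℝ) ∧ Rel c G) := by
    intro c
    by_cases hc : Good c
    · obtain ⟨G, h1, h2, h3, h4⟩ := hc
      exact ⟨G, h1, h2, fun _ => ⟨h3, h4⟩⟩
    · exact ⟨∅, Finset.empty_subset _, by simp, fun h => absurd h hc⟩
  choose G hG1 hG2 hG3 using hex
  set S : Finset ι := J.filter fun z => Good (f z) ∧ z ∈ G (f z) with hS
  have hSc : ∀ c, Good c → (S.filter fun z => f z = c) = G c := by
    intro c hc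
    ext z
    simp only [hS, Finset.mem_filter]
    constructor
    · rintro ⟨⟨_, _, h3⟩, h4⟩
      rw [h4] at h3; exact h3
    · intro hz
      have h5 := hG2 c z hz
      refine ⟨⟨hG1 c hz, ?_, ?_⟩, h5⟩
      · rw [h5]; exact hc
      · rw [h5]; exact hz
  refine ⟨S, Finset.filter_subset _ _, ?_, ?_⟩
  · -- counting
    set Jg : Finset ι := J.filter fun z => Good (f z) with hJg
    have h1 : (J.card : ℝ) ≤ 2 * (Jg.card : ℝ) := by
      have e1 : Jg.card + (J.filter fun z => ¬ Good (f z)).card = J.card :=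
        Finset.card_filter_add_card_filter_not _
      have e2 : (Jg.card : ℝ) + ((J.filter fun z => ¬ Good (f z)).card : ℝ) = (J.card : ℝ) := by
        exact_mod_cast e1
      have e3 : 2 * ((J.filter fun z => ¬ Good (f z)).card : ℝ) < (J.card : ℝ) := by
        convert hbad
      linarith
    have h2 : (Jg.card : ℝ) = ∑ c ∈ Jg.image f, ((Jg.filter fun z => f z = c).card : ℝ) := by
      have : Jg.card = ∑ c ∈ Jg.image f, (Jg.filter fun z => f z = c).card :=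
        Finset.card_eq_sum_card_fiberwise fun j hj => Finset.mem_image_of_mem _ hj
      rw [this]; push_cast; rfl
    have h3 : (S.card : ℝ) = ∑ c ∈ Jg.image f, ((S.filter fun z => f z = c).card : ℝ) := by
      have : S.card = ∑ c ∈ Jg.image f, (S.filter fun z => f z = c).card := by
        refine Finset.card_eq_sum_card_fiberwise fun j hj => ?_
        have hj' := Finset.mem_filter.1 (Finset.mem_coe.1 hj)
        exact Finset.mem_coe.2 (Finset.mem_image_of_mem _ (Finset.mem_filter.2 ⟨hj'.1, hj'.2.1⟩))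
      rw [this]; push_cast; rfl
    have h4 : 2 * δ * (Jg.card : ℝ) ≤ (S.card : ℝ) := by
      rw [h2, h3, Finset.mul_sum]
      refine Finset.sum_le_sum fun c hc => ?_
      obtain ⟨z, hz, rfl⟩ := Finset.mem_image.1 hc
      have hgz : Good (f z) := (Finset.mem_filter.1 hz).2
      rw [hSc _ hgz]
      refine le_trans ?_ (hG3 _ hgz).1
      refine mul_le_mul_of_nonneg_left ?_ (by linarith)
      exact_mod_cast Finset.card_le_card fun y hy => Finset.mem_filter.2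
        ⟨(Finset.mem_filter.1 (Finset.mem_filter.1 hy).1).1, (Finset.mem_filter.1 hy).2⟩
    nlinarith
  · rintro c ⟨z, hz, rfl⟩
    have hgz : Good (f z) := (Finset.mem_filter.1 hz).2.1
    rw [hSc _ hgz]
    exact (hG3 _ hgz).2

/-- renormalised relation, with the constant -/
theorem norm_rel_e {a b e k2 k4 : ℝ} (hab : a ^ 2 + b ^ 2 = 1) (h1 : 1 ≤ k2) (h24 : k2 ≤ k4) :
    ∃ a' b' e' : ℝ, a' ^ 2 + b' ^ 2 = 1 ∧ ∀ Q2 Q4 E : ℝ,
      |a * (Q2 / k2) + b * (Q4 / k4) - e| ≤ E → |a' * Q2 + b' * Q4 - e'| ≤ E * (2 * k4) := by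
  have hk2 : 0 < k2 := by linarith
  have hk4 : 0 < k4 := by linarith
  set P := a / k2 with hP
  set Q := b / k4 with hQ
  have hs1 : 1 ≤ |a| + |b| := by
    have e1 : |a| ^ 2 = a ^ 2 := sq_abs a
    have e2 : |b| ^ 2 = b ^ 2 := sq_abs b
    nlinarith [abs_nonneg a, abs_nonneg b]
  have hPa : |a| ≤ k4 * |P| := by
    rw [hP, abs_div, abs_of_pos hk2, mul_div_assoc', le_div_iff₀ hk2, mul_comm]
    exact mul_le_mul_of_nonneg_right h24 (abs_nonneg _)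
  have hQa : |b| ≤ k4 * |Q| := by
    rw [hQ, abs_div, abs_of_pos hk4, mul_div_assoc', le_div_iff₀ hk4, mul_comm]
  have hPQ : 1 ≤ k4 * (|P| + |Q|) := by
    rw [mul_add]; linarith
  set N := Real.sqrt (P ^ 2 + Q ^ 2) with hN
  have hNN : N ^ 2 = P ^ 2 + Q ^ 2 := Real.sq_sqrt (by positivity)
  have hN0 : 0 ≤ N := Real.sqrt_nonneg _
  have hNge : |P| + |Q| ≤ 2 * N := by
    have e1 : |P| ≤ N := Real.abs_le_sqrt (by nlinarith [sq_nonneg Q])
    have e2 : |Q| ≤ N := Real.abs_le_sqrt (by nlinarith [sq_nonneg P])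
    linarith
  have hN1 : 1 ≤ 2 * k4 * N := by
    have := mul_le_mul_of_nonneg_left hNge hk4.le
    linarith
  have hNpos : 0 < N := by
    by_contra hc
    have : 2 * k4 * N ≤ 0 := mul_nonpos_of_nonneg_of_nonpos (by linarith) (not_lt.1 hc)
    linarith
  refine ⟨P / N, Q / N, e / N, ?_, fun Q2 Q4 E hE => ?_⟩
  · rw [div_pow P N, div_pow Q N, ← add_div, ← hNN, div_self (by positivity)]
  · have e1 : P / N * Q2 + Q / N * Q4 - e / N = (a * (Q2 / k2) + b * (Q4 / k4) - e) / N := by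
      rw [hP, hQ]; field_simp
    rw [e1, abs_div, abs_of_pos hNpos]
    have hE0 : 0 ≤ E := (abs_nonneg _).trans hE
    rw [div_le_iff₀ hNpos]
    calc |a * (Q2 / k2) + b * (Q4 / k4) - e| ≤ E * 1 := by rw [mul_one]; exact hE
      _ ≤ E * (2 * k4 * N) := mul_le_mul_of_nonneg_left hN1 hE0
      _ = E * (2 * k4) * N := by ring

end Crest.Agent.R136.WinC344
end

-- ▼ part R136/WinC2_344
section

/-!
# R136 (S0187), row E, window half, piece (C) (helper344), part 2: good and bad classes, windows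
-/

set_option autoImplicit false
set_option linter.unusedVariables false
set_option linter.unusedSectionVars false

open Finset Filter Topology

namespace Crest.Agent.R136.WinC344

open Crest.Agent.R138.Ex926 (Base U IsTan cls mem_cls exists_diag)
open Crest.Agent.R136.Net191
open Crest.Agent.R136.NetQ186
open Crest.Agent.R136.Qg926
open Crest.Agent.R136.WinE323
open Crest.Agent.R136.Xb403 (stP POk stP_ok)
open Crest.Agent.R136.Aw413
open Crest.Agent.R136.Wk323 (TightX)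
open Crest.Agent.R136.Wq400 (kapQ kapQ_pos)

/-- the relation on a part `G` of the class with label `c` -/
def RelL (B : Base) (I : ℕ → Finset (ℕ × ℝ)) (co : ∀ n : ℕ, ℕ × ℝ → ℕ × ℝ → Fin 11 → ℝ)
    (Y : Fin 11 → ℝ) (n : ℕ) (δ : ℝ) (c : ℕ × ℝ) (G : Finset (ℕ × ℝ)) : Prop :=
  ∃ (i : ℕ × ℝ) (a b e : ℝ), a ^ 2 + b ^ 2 = 1 ∧ i ∈ I n ∧ nlab B I co monQ 2 n Y i = c ∧
    ∀ y ∈ G, |a * (co n i y 2 / B.d n ^ Y 2) +
      b * ((co n i y 4 + co n i y 3 * co n i y 2) / B.d n ^ Y 4) - e| ≤ δ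

open Classical in
/-- bad incidences: no part of share `2 r` of the class has the relation -/
noncomputable def Bad (B : Base) (I J : ℕ → Finset (ℕ × ℝ))
    (co : ∀ n : ℕ, ℕ × ℝ → ℕ × ℝ → Fin 11 → ℝ) (Y : Fin 11 → ℝ) (n : ℕ) (r δ : ℝ) :
    Finset (ℕ × ℝ) :=
  (J n).filter fun y => ¬ ∃ G ⊆ J n, (∀ z ∈ G, nlab B I co monQ 2 n Y z =
    nlab B I co monQ 2 n Y y) ∧ 2 * r * (((J n).filter fun z => nlab B I co monQ 2 n Y z =
      nlab B I co monQ 2 n Y y).card : ℝ) ≤ (G.card : ℝ) ∧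
      RelL B I co Y n δ (nlab B I co monQ 2 n Y y) G

/-- the good set of one `n` -/
def GoodAt (B : Base) (I J : ℕ → Finset (ℕ × ℝ))
    (co : ∀ n : ℕ, ℕ × ℝ → ℕ × ℝ → Fin 11 → ℝ) (Y : Fin 11 → ℝ) (n : ℕ) (r δ : ℝ) : Prop :=
  ∃ S ⊆ J n, r * ((J n).card : ℝ) ≤ (S.card : ℝ) ∧
    ∃ (i : ℕ × ℝ → ℕ × ℝ) (a b e : ℕ × ℝ → ℝ), ∀ y ∈ S, ∀ c,
      nlab B I co monQ 2 n Y y = c → a c ^ 2 + b c ^ 2 = 1 ∧ i c ∈ I n ∧
        nlab B I co monQ 2 n Y (i c) = c ∧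
        |a c * (co n (i c) y 2 / B.d n ^ Y 2) +
          b c * ((co n (i c) y 4 + co n (i c) y 3 * co n (i c) y 2) / B.d n ^ Y 4) - e c| ≤ δ

theorem good_of_bad {B : Base} {I J : ℕ → Finset (ℕ × ℝ)}
    {co : ∀ n : ℕ, ℕ × ℝ → ℕ × ℝ → Fin 11 → ℝ} {Y : Fin 11 → ℝ} {n : ℕ} {r δ : ℝ} (hr : 0 < r)
    (h : ¬ GoodAt B I J co Y n r δ) :
    ((J n).card : ℝ) ≤ 2 * ((Bad B I J co Y n r δ).card : ℝ) := by
  classical
  by_contra hc
  apply h
  have h0 : 2 * ((Bad B I J co Y n r δ).card : ℝ) < ((J n).card : ℝ) := not_le.1 hc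
  obtain ⟨S, h1, h2, h3⟩ := glue (J n) (nlab B I co monQ 2 n Y) (RelL B I co Y n δ) hr (by
    refine lt_of_eq_of_lt ?_ h0
    unfold Bad
    congr!)
  have h4 : ∀ c, ∃ (i : ℕ × ℝ) (a b e : ℝ), (∃ z ∈ S, nlab B I co monQ 2 n Y z = c) →
      a ^ 2 + b ^ 2 = 1 ∧ i ∈ I n ∧ nlab B I co monQ 2 n Y i = c ∧
      ∀ y ∈ S, nlab B I co monQ 2 n Y y = c → |a * (co n i y 2 / B.d n ^ Y 2) +
        b * ((co n i y 4 + co n i y 3 * co n i y 2) / B.d n ^ Y 4) - e| ≤ δ := by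
    intro c
    by_cases hz : ∃ z ∈ S, nlab B I co monQ 2 n Y z = c
    · obtain ⟨i, a, b, e, g1, g2, g3, g4⟩ := h3 c hz
      exact ⟨i, a, b, e, fun _ => ⟨g1, g2, g3, fun y hy hyc =>
        g4 y (by simp only [Finset.mem_filter]; exact ⟨hy, hyc⟩)⟩⟩
    · exact ⟨(0, 0), 0, 0, 0, fun h => absurd h hz⟩
  choose i a b e h5 using h4
  refine ⟨S, h1, h2, i, a, b, e, fun y hy c hyc => ?_⟩
  obtain ⟨g1, g2, g3, g4⟩ := h5 c ⟨y, hy, hyc⟩
  exact ⟨g1, g2, g3, g4 y hy hyc⟩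

/-- the label of a point of a bad class -/
theorem bad_full {B : Base} {I J : ℕ → Finset (ℕ × ℝ)}
    {co : ∀ n : ℕ, ℕ × ℝ → ℕ × ℝ → Fin 11 → ℝ} {Y : Fin 11 → ℝ} {n : ℕ} {r δ : ℝ}
    {s z : ℕ × ℝ} (hs : s ∈ Bad B I J co Y n r δ) (hz : z ∈ J n)
    (h : nlab B I co monQ 2 n Y z = nlab B I co monQ 2 n Y s) : z ∈ Bad B I J co Y n r δ := by
  classical
  unfold Bad at hs ⊢
  obtain ⟨h1, h2⟩ := Finset.mem_filter.1 hs
  refine Finset.mem_filter.2 ⟨hz, ?_⟩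
  rw [h]
  exact h2

theorem zlab_zero (B : Base) (I : ℕ → Finset (ℕ × ℝ))
    (co : ∀ n : ℕ, ℕ × ℝ → ℕ × ℝ → Fin 11 → ℝ) (Y : Fin 11 → ℝ) (w : ℕ → ℝ) (n : ℕ) :
    zlab B I co monQ 2 (fun _ => Y) w n 0 = nlab B I co monQ 2 n Y := by
  show nlab B I co monQ 2 n (Y + w n • (0 : Fin 11 → ℝ)) = _
  rw [smul_zero, add_zero]

theorem zero_mem_coneM (Ma : Mons 11) : (0 : Fin 11 → ℝ) ∈ coneM Ma := by
  intro k e _
  simp

theorem bad_subset {B : Base} {I J : ℕ → Finset (ℕ × ℝ)}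
    {co : ∀ n : ℕ, ℕ × ℝ → ℕ × ℝ → Fin 11 → ℝ} {Y : Fin 11 → ℝ} {n : ℕ} {r δ : ℝ} :
    Bad B I J co Y n r δ ⊆ J n := by
  classical
  unfold Bad
  exact Finset.filter_subset _ _

set_option maxHeartbeats 1000000 in
/-- **windows at a fixed base point with exact numbers: the classes have the relation** -/
theorem win_core (hInc : RigInc) {B : Base} {I J : ℕ → Finset (ℕ × ℝ)}
    {co : ∀ n : ℕ, ℕ × ℝ → ℕ × ℝ → Fin 11 → ℝ} {F : ℕ → ℕ × ℝ → Fq4} {R : ℝ}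
    {ν : (Fin 11 → ℝ) → ℝ} (hN : NProf B I J co monQ 2 R ν) {Y : Fin 11 → ℝ} {Ma : Mons 11}
    {h : ℕ → ℝ} (hpos : ∀ l, 0 < h l) {lam : (Fin 11 → ℝ) → ℝ}
    (htan : IsTan (Leg monQ R) (coneM Ma) ν (fun _ => Y) h lam) {y m β θR θF : ℝ}
    (hnum : NumE lam y m β) (hRig : RigAtE 1 y m β θR) (hθF : 0 < θF) (hθ2 : 2 * θF < θR)
    (hθ1 : 2 * θF < 1) (hco : ∀ n i j, co n i j = coQ (F n i) (F n j))
    (hy2 : ∀ n i, (F n i).y2 = 0) (hT : TightX Y) (hsub : ∀ k, Ma.mon k ⊆ monQ.mon k)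
    {ε : ℝ} (hε : 0 < ε) {l0 : ℕ} (hbad : ∀ l, l0 ≤ l → ∀ᶠ n in (U : Filter ℕ),
      ¬ GoodAt B I J co Y n (B.d n ^ (h l * ε)) (B.d n ^ (h l * θF))) : False := by
  classical
  obtain ⟨k, hk, hk2⟩ := exists_zwin hN hpos (zero_mem_coneM Ma) htan (fun _ _ => (1 : ℝ))
    (fun _ => Base.Sub.const one_pos)
  obtain ⟨k1, hk1, hk1'⟩ := exists_diag (fun l n => l0 ≤ l →
    ¬ GoodAt B I J co Y n (B.d n ^ (h l * ε)) (B.d n ^ (h l * θF))) (fun l => by
      by_cases hl : l0 ≤ l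
      · filter_upwards [hbad l hl] with n hn _ using hn
      · exact Eventually.of_forall fun n h => absurd h hl)
  set k' : ℕ → ℕ := fun n => min (k n) (k1 n) with hk'
  have hk't : Tendsto k' U atTop := by
    refine tendsto_atTop.2 fun N => ?_
    filter_upwards [hk.eventually_ge_atTop N, hk1.eventually_ge_atTop N] with n a b
    exact le_min a b
  obtain ⟨B', b1, b2, b3, b4⟩ := hk2 k' hk't (Eventually.of_forall fun n => min_le_left _ _)
  have hK0 : 1 ≤ cK0 monQ 2 := cK0_one zero_le_two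
  set K : ℝ := 2 * cK0 monQ 2 with hK
  have hK1 : 1 ≤ K := by linarith
  have hst : (stE K 1 Ma).Ok monQ (coneM Ma) := stP_ok pok_E (by linarith) zero_le_one hsub
  set Gd : ℕ → Finset (ℕ × ℝ) := fun n =>
    Bad B I J co Y n (B.d n ^ (h (k' n) * ε)) (B.d n ^ (h (k' n) * θF)) with hGd
  have hdens : ∀ᶠ n in (U : Filter ℕ), ((J n).card : ℝ) ≤ 2 * ((Gd n).card : ℝ) := by
    filter_upwards [hk1', hk't.eventually_ge_atTop l0] with n h1 h2
    exact good_of_bad (Real.rpow_pos_of_pos (B.pos n) _) (h1 (k' n) (min_le_right _ _) h2)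
  obtain ⟨s₀, hs₀, hok⟩ := b4.exists_wnd hst (fun _ => ((0 : ℕ), (0 : ℝ))) (Gd := Gd) (E := Gd)
    (Eventually.of_forall fun n => bad_subset) (Eventually.of_forall fun n => Subset.refl _)
    (Sd := fun _ => 2) (Base.Sub.const two_pos) hdens
  have hinc := hInc 1 y m β θR (2 * θF) K 2 Ma B B' I J co F (fun _ => Y) (fun n => h (k' n))
    (coneM Ma) (fun n => B.d n ^ (-(ν Y))) lam
    (fun n => cls (Gd n) (zlab B I co monQ 2 (fun _ => Y) (fun n => h (k' n)) n 0) (s₀ n)) s₀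
    (by linarith) hθ2 hθ1 hRig hnum hco hy2 hK1 le_rfl hsub (Eventually.of_forall fun _ => hT)
    hok (ε / 2) (half_pos hε)
  have hc1 : ∀ {t : ℝ}, 0 < t → ∀ C : ℝ, ∀ᶠ n in (U : Filter ℕ), C ≤ B'.d n ^ (-t) := by
    intro t ht C
    exact Gf356.ev_const_le B' ht C
  obtain ⟨n, ⟨G', hG1, hG2, hG3⟩, hs, hc2, hc3, hJI⟩ := (hinc.and (hs₀.and
    ((hc1 (half_pos hε) 2).and ((hc1 hθF (2 * K ^ 2)).and hN.sub)))).exists
  -- the class
  set cl := cls (Gd n) (zlab B I co monQ 2 (fun _ => Y) (fun n => h (k' n)) n 0) (s₀ n) with hcl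
  have hclJ : cl = (J n).filter fun z => nlab B I co monQ 2 n Y z = nlab B I co monQ 2 n Y (s₀ n) := by
    ext z
    rw [hcl, mem_cls, zlab_zero, Finset.mem_filter]
    exact ⟨fun ⟨g1, g2⟩ => ⟨bad_subset g1, g2⟩, fun ⟨g1, g2⟩ => ⟨bad_full hs g1 g2, g2⟩⟩
  have hsB : s₀ n ∈ Bad B I J co Y n (B.d n ^ (h (k' n) * ε)) (B.d n ^ (h (k' n) * θF)) := hs
  have hsJ : s₀ n ∈ J n := bad_subset hsB
  have hnot := (Finset.mem_filter.1 (show s₀ n ∈ (J n).filter _ from hsB)).2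
  apply hnot
  have hd := B.pos n
  have hdp : ∀ t : ℝ, B'.d n ^ t = B.d n ^ (h (k' n) * t) := by
    intro t
    rw [b1 n, ← Real.rpow_mul hd.le]
  refine ⟨G', ?_, ?_, ?_, ?_⟩
  · intro z hz
    have := hG1 hz
    rw [hclJ] at this
    exact (Finset.mem_filter.1 this).1
  · intro z hz
    have := hG1 hz
    rw [hclJ] at this
    exact (Finset.mem_filter.1 this).2
  · -- share
    have e1 : B'.d n ^ (ε / 2) * (cl.card : ℝ) ≤ (G'.card : ℝ) := hG2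
    rw [hclJ] at e1
    refine le_trans ?_ e1
    rw [← hdp ε]
    refine mul_le_mul_of_nonneg_right ?_ (Nat.cast_nonneg _)
    have e2 : B'.d n ^ (ε / 2) = B'.d n ^ (-(ε / 2)) * B'.d n ^ ε := by
      rw [← Real.rpow_add (B'.pos n)]; congr 1; ring
    rw [e2]
    exact mul_le_mul_of_nonneg_right hc2 (Real.rpow_pos_of_pos (B'.pos n) _).le
  · obtain ⟨a, b, e, g1, g2⟩ := hG3
    obtain ⟨a', b', e', g3, g4⟩ := norm_rel_e (e := e) g1 hK1 (show K ≤ K ^ 2 by nlinarith)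
    refine ⟨s₀ n, a', b', e', g3, hJI hsJ, rfl, fun z hz => ?_⟩
    have g5 := g2 z hz
    have k2 : kapQ K 2 = K := by simp [kapQ, Wq400.wtQ]
    have k3 : kapQ K 3 = K := by simp [kapQ, Wq400.wtQ]
    have k4 : kapQ K 4 = K ^ 2 := by simp [kapQ, Wq400.wtQ]
    have d2 := Real.rpow_pos_of_pos hd (Y 2)
    have d3 := Real.rpow_pos_of_pos hd (Y 3)
    have d4 : B.d n ^ Y 4 = B.d n ^ Y 2 * B.d n ^ Y 3 := by
      rw [hT.w4, Real.rpow_add hd]
    have hKp : 0 < K := by linarith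
    have e1 : a * (co n (s₀ n) z 2 / (kapQ K 2 * B.d n ^ Y 2)) +
        b * (co n (s₀ n) z 4 / (kapQ K 4 * B.d n ^ Y 4) +
          co n (s₀ n) z 3 / (kapQ K 3 * B.d n ^ Y 3) *
            (co n (s₀ n) z 2 / (kapQ K 2 * B.d n ^ Y 2))) - e =
        a * ((co n (s₀ n) z 2 / B.d n ^ Y 2) / K) +
        b * (((co n (s₀ n) z 4 + co n (s₀ n) z 3 * co n (s₀ n) z 2) / B.d n ^ Y 4) / K ^ 2) -
          e := by
      rw [k2, k3, k4, d4]
      field_simp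
    have g6 : |a * ((co n (s₀ n) z 2 / B.d n ^ Y 2) / K) +
        b * (((co n (s₀ n) z 4 + co n (s₀ n) z 3 * co n (s₀ n) z 2) / B.d n ^ Y 4) / K ^ 2) -
          e| ≤ B'.d n ^ (2 * θF) := by
      rw [← e1]
      exact g5
    refine (g4 _ _ _ g6).trans ?_
    rw [← hdp θF]
    have e3 : B'.d n ^ (2 * θF) = B'.d n ^ θF * B'.d n ^ θF := by
      rw [← Real.rpow_add (B'.pos n)]; congr 1; ring
    have e4 : B'.d n ^ (-θF) * B'.d n ^ θF = 1 := by
      rw [← Real.rpow_add (B'.pos n)]; simp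
    have p1 := Real.rpow_pos_of_pos (B'.pos n) θF
    calc B'.d n ^ (2 * θF) * (2 * K ^ 2) ≤ B'.d n ^ (2 * θF) * B'.d n ^ (-θF) :=
          mul_le_mul_of_nonneg_left hc3 (Real.rpow_pos_of_pos (B'.pos n) _).le
      _ = B'.d n ^ θF * (B'.d n ^ (-θF) * B'.d n ^ θF) := by rw [e3]; ring
      _ = B'.d n ^ θF := by rw [e4, mul_one]

end Crest.Agent.R136.WinC344
end

-- ▼ part R136/WinC3_344
section

/-!
# R136 (S0187), row E, window half, piece (C) (helper344), part 3: `RigE' → RigInc → NumsE η → WinE η`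
-/

set_option autoImplicit false
set_option linter.unusedVariables false
set_option linter.unusedSectionVars false

open Finset Filter Topology

namespace Crest.Agent.R136.WinC344

open Crest.Agent.R138.Ex926 (Base U IsTan cls mem_cls exists_diag)
open Crest.Agent.R136.Net191
open Crest.Agent.R136.NetQ186
open Crest.Agent.R136.GeoQ186
open Crest.Agent.R136.Sh605
open Crest.Agent.R136.Qg926
open Crest.Agent.R136.WinE323
open Crest.Agent.R136.RgE344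
open Crest.Agent.R136.Wq638
open Crest.Agent.R136.NatT550
open Crest.Agent.R136.NatR550
open Crest.Agent.R136.Aw413
open Crest.Agent.R136.Dg262 (X)
open Crest.Agent.R136.Dg219 (mem_mwO)
open Crest.Agent.R136.Top484 (Par4 Dat4)
open Crest.Agent.R136.Tb628
open Crest.Agent.R136.Wk323 (TightX)

/-- the base point, coordinates -/
theorem base_pt {θ : Fin 3 → ℝ} (h1 : θ 1 ≠ 0) (h02 : θ 0 = θ 2) (w0 R ξ x : ℝ) :
    let Y := X (s0 w0 (R - 1)) (sA (θ 1 - θ 2) (θ 1 - θ 2)) (sB θ (θ 1 - θ 2) (θ 1 - θ 2))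
      (pt θ ξ x)
    Y 0 = w0 + (ξ - x) ∧ Y 2 = w0 + (θ 1 - θ 2) * (ξ - x) ∧ Y 3 = w0 ∧
      Y 4 = 2 * w0 + (θ 1 - θ 2) * (ξ - x) ∧ TightX Y := by
  intro Y
  have hY : Y = nat4 w0 (R - 1) (ξ - x) (-(θ 1 * ξ)) (-(θ 2 * ξ) - (θ 1 - θ 2) * x)
      (-(θ 0 * ξ) - (θ 1 - θ 2) * x) := by
    show X (s0 w0 (R - 1)) (sA (θ 1 - θ 2) (θ 1 - θ 2)) (sB θ (θ 1 - θ 2) (θ 1 - θ 2))
      (pt θ ξ x) = _
    rw [← srf_eq, srf_pt h1]
  rw [hY]
  refine ⟨?_, ?_, ?_, ?_, ⟨?_, ?_, ?_, ?_, ?_, ?_⟩⟩ <;>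
    simp only [nat4, Matrix.cons_val, Fin.isValue] <;> (try rw [h02]) <;> ring

/-- **(C)** -/
theorem winE_of {η : ℝ} (hη : η ≤ 1 / 8) (hR : RigE') (hInc : RigInc) (hNums : NumsE η) :
    Re436.WinE η := by
  intro p D I1 π eE fA fB V T w0 R T0 PD ν own c₀ h hE
  obtain ⟨hV2, hV3, h02⟩ := hE
  have ok := h.tp.ok
  have hη0 : 0 < η := ok.η_pos
  have hk0 : 0 < p.θ 1 - p.θ 2 := by
    have := (h.tp.slots.vis 2 hV2).2
    simp [btQ] at this
    linarith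
  have h12 : p.θ 1 ≠ p.θ 2 := by
    intro hc
    rw [hc, sub_self] at hk0
    exact lt_irrefl _ hk0
  by_contra hno
  refine row_nat0 h hη0 (κ := p.θ 1 - p.θ 2) (κ3 := p.θ 1 - p.θ 2) hk0.le le_rfl (Or.inr h12)
    (Or.inl rfl) (hsl_sub ok hη (i := 1) (j := 2) (k := 1) (l := 2) (le_abs_self _)
      (le_abs_self _)) (fun _ => le_rfl) (fun h3 => absurd h3 hV3) (fun _ => by rw [h02])
    (fun g1 g2 hcone ξ x hh lam A φ r P Hm => ?_)
  rcases hNums p D I1 π eE fA fB V T w0 R T0 PD ν own c₀ h ⟨hV2, hV3, h02⟩ (g1 h12) hcone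
    ξ x hh lam A φ r P Hm with hl | ⟨y, m, β, hnum⟩
  · exact hl
  exfalso
  obtain ⟨θR, hθR, hRig⟩ := hR 1 y m β one_pos hnum.y0 hnum.y2 hnum.m0 hnum.m1 hnum.β0
  have hRigAt : RigAtE 1 y m β θR := hRig
  set θF : ℝ := min θR 1 / 4 with hθF
  have hmin : 0 < min θR 1 := lt_min hθR one_pos
  have hθF0 : 0 < θF := by positivity
  have hθ2 : 2 * θF < θR := by
    have := min_le_left θR 1
    rw [hθF]; linarith
  have hθ1 : 2 * θF < 1 := by
    have := min_le_right θR 1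
    rw [hθF]; linarith
  have h1 : p.θ 1 ≠ 0 := by
    intro hc
    exact absurd (h.tp.ok.θ1) (by rw [hc]; exact lt_irrefl _)
  set Y := X (s0 w0 (R - 1)) (sA (p.θ 1 - p.θ 2) (p.θ 1 - p.θ 2))
    (sB p.θ (p.θ 1 - p.θ 2) (p.θ 1 - p.θ 2)) (pt p.θ ξ x) with hY
  obtain ⟨hY0, hY2, hY3, hY4, hYT⟩ := base_pt h1 h02 w0 R ξ x
  -- the failing ε
  obtain ⟨ε, hε, hfail⟩ : ∃ ε : ℝ, 0 < ε ∧ ∀ w : ℝ, 0 < w → w ≤ ε → (ξ - x) + w < 1 →
      ¬ ∀ᶠ n in (U : Filter ℕ), GoodAt D.B D.I I1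
        (couQ D.B D.lev D.w w0 (incQ π D.L eE fA fB)) Y n (D.B.d n ^ (w * ε))
        (D.B.d n ^ (w * θF)) := by
    by_contra hc
    apply hno
    refine ⟨θF, hθF0, fun ε hε => ?_⟩
    by_contra hc2
    apply hc
    refine ⟨ε, hε, fun w hw hwε hvw hev => hc2 ⟨ξ - x, w, Y, ?_, hw, hwε, hvw, ?_, hY0, hY2, hY3,
      hY4, hev⟩⟩
    · have := P.ξ0; have := P.x1; linarith
    · have hO := P.O
      rw [mem_mwO] at hO
      refine ⟨⟨fun k => (hO.1 k).1.le, fun k e he => ?_⟩, fun k => (hO.1 k).2.le⟩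
      rcases hO.2 k e he with ⟨e1, e2, e3⟩ | hlt
      · apply le_of_eq
        show X _ _ _ _ k = ∑ s, (e s : ℝ) * X _ _ _ _ s
        simp only [X]
        rw [e1, e2, e3]
        simp only [mul_add, Finset.sum_add_distrib, Finset.sum_mul]
        congr 1
        · congr 1
          exact Finset.sum_congr rfl fun s _ => by ring
        · exact Finset.sum_congr rfl fun s _ => by ring
      · exact hlt.le
  -- small scales
  obtain ⟨l0, hl0⟩ : ∃ l0 : ℕ, ∀ l, l0 ≤ l → hh l < min ε (1 / 4) :=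
    Filter.eventually_atTop.1 (P.h0.eventually (gt_mem_nhds (lt_min hε (by norm_num))))
  refine win_core hInc (nprof h) (Y := Y) P.hpos (lam := lam) P.tan hnum hRigAt hθF0 hθ2 hθ1
    (F := fun n x => scl (uH D.B D.lev w0 n) (uA D.B D.lev D.w w0 n) (uB D.B D.lev D.w w0 n)
      (uY D.B D.lev D.w w0 n) (incQ π D.L eE fA fB n x)) (fun n i j => rfl) (fun n i => ?_) hYT
    (fun k e he => (mem_actM.1 he).1) hε (l0 := l0) (fun l hl => ?_)
  · show _ / _ = (0 : ℝ)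
    have : (incQ π D.L eE fA fB n i).y2 = 0 := rfl
    rw [this, zero_div]
  · have h3 := hl0 l hl
    have h4 := hfail (hh l) (P.hpos l) (h3.le.trans (min_le_left _ _)) (by
      have := h3.le.trans (min_le_right _ _)
      have := P.ξ1; have := P.x0'
      linarith)
    rwa [← Ultrafilter.eventually_not] at h4

end Crest.Agent.R136.WinC344
end

-- ▼ part R136/NmE1_107

/-!
# R136 (S0187), row E, window half, piece (B): `NumsE` (helper107)

* `aE κ`, `bEs` : the slopes of the natural plane `κ = κ3` with `θ 0 = θ 2`;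
* `numE_of` : the numbers from the output of the splitting;
* `numsE : NumsE η`.
-/

set_option autoImplicit false
set_option linter.unusedVariables false
set_option linter.unusedSectionVars false

open Finset Filter Topology

namespace Crest.Agent.R136.NmE107

open Crest.Agent.R138.Ex926 (Base U)
open Crest.Agent.R136.Net191
open Crest.Agent.R136.NetQ186
open Crest.Agent.R136.Gf356
open Crest.Agent.R136.NatR550
open Crest.Agent.R136.NatT550
open Crest.Agent.R136.Aw413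
open Crest.Agent.R136.Qg926
open Crest.Agent.R136.Wq400
open Crest.Agent.R136.Wq638
open Crest.Agent.R136.Xb403 (MaE)
open Crest.Agent.R136.Rc146 (OutA)
open Crest.Agent.R136.Top484 (Par4 Dat4)
open Crest.Agent.R136.Tb628 (eCa RowPt Hom RecS sA sB s0)
open Crest.Agent.R136.Xd272
open Crest.Agent.R136.LdF5511
open Crest.Agent.R136.LdF4511
open Crest.Agent.R136.WinE323
open Dg219 (mw Walls Tn OutS gC dhC nC gset lf mem_gset gC_zero gC_eq nC_zero nC_of)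

/-- slopes in `v` -/
def aE (κ : ℝ) : Fin 11 → ℝ := ![1, 0, κ, 0, κ, 0, κ, κ, 1, 1 + κ, 1 + κ]
/-- slopes in `t` -/
def bEs : Fin 11 → ℝ := ![0, 0, 0, 0, 0, 1, 1, 1, 1, 1, 1]

theorem sA_aE (κ : ℝ) : sA κ κ = aE κ := by
  funext i
  fin_cases i <;> simp [sA, nL, aE]

theorem nL_bEs : nL 0 1 1 1 = bEs := by
  funext i
  fin_cases i <;> simp [nL, bEs]

theorem sB_bEs {θ : Fin 3 → ℝ} (h1 : 0 < θ 1) (h02 : θ 0 = θ 2) :
    sB θ (θ 1 - θ 2) (θ 1 - θ 2) = bEs := by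
  rw [← nL_bEs, ← Crest.Agent.R136.Xd272.sB_own h1, h02]

section grp

variable {κ : ℝ} (hκ : 0 < κ)

include hκ

theorem plE : PlE (aE κ) bEs κ where
  κ0 := hκ
  nn := by
    intro i
    fin_cases i <;> simp [aE] <;> linarith
  a0 := rfl
  a2 := rfl
  a5 := rfl
  a6 := rfl
  a8 := rfl
  a9 := rfl
  b5 := by simp [bEs]
  b2 := by simp [bEs]
  b6 := by simp [bEs]
  b8 := by simp [bEs]
  b9 := by simp [bEs]

/-- members of the groups -/
theorem mem_z {i : Fin 11} (hi : gC (aE κ) bEs i = gC (aE κ) bEs 0) : i = 0 ∨ i = 2 ∨ i = 4 := by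
  have P := plE hκ
  have hk1 : 1 + κ ≠ 0 := by linarith
  have hk := hκ.ne'
  have ha : aE κ i ≠ 0 := fun e => P.g0 (by rw [← hi, gC_zero.2 e])
  rw [gC_eq ha P.n0] at hi
  fin_cases i <;> simp [aE, bEs, hk, hk1] at hi ha ⊢

theorem mem_zero {i : Fin 11} (hi : gC (aE κ) bEs i = 0) : i = 1 ∨ i = 3 ∨ i = 5 := by
  have hk1 : 1 + κ ≠ 0 := by linarith
  have hk := hκ.ne'
  rw [gC_zero] at hi
  fin_cases i <;> simp [aE, hk, hk1] at hi ⊢

theorem mem_9 {i : Fin 11} (hi : gC (aE κ) bEs i = gC (aE κ) bEs 9) : i = 9 ∨ i = 10 := by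
  have P := plE hκ
  have hk1 : 1 + κ ≠ 0 := by linarith
  have hk := hκ.ne'
  have ha : aE κ i ≠ 0 := fun e => P.g9 (by rw [← hi, gC_zero.2 e])
  rw [gC_eq ha P.n9] at hi
  fin_cases i <;> simp [aE, bEs, hk, hk1] at hi ha ⊢
  all_goals linarith

theorem mem_8 {i : Fin 11} (hi : gC (aE κ) bEs i = gC (aE κ) bEs 8) :
    i = 8 ∨ (κ = 1 ∧ (i = 6 ∨ i = 7)) := by
  have P := plE hκ
  have hk1 : 1 + κ ≠ 0 := by linarith
  have hk := hκ.ne'
  have ha : aE κ i ≠ 0 := fun e => P.g8 (by rw [← hi, gC_zero.2 e])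
  rw [gC_eq ha P.n8] at hi
  fin_cases i <;> simp [aE, bEs, hk, hk1] at hi ha ⊢
  · exact hi
  · exact hi

theorem mem_6 (h1 : κ ≠ 1) {i : Fin 11} (hi : gC (aE κ) bEs i = gC (aE κ) bEs 6) :
    i = 6 ∨ i = 7 := by
  have P := plE hκ
  have hk1 : 1 + κ ≠ 0 := by linarith
  have hk := hκ.ne'
  have ha : aE κ i ≠ 0 := fun e => P.g6 (by rw [← hi, gC_zero.2 e])
  rw [gC_eq ha P.n6] at hi
  fin_cases i <;> simp [aE, bEs, hk, hk1] at hi ha ⊢
  all_goals first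
    | exact h1 hi
    | exact h1 hi.symm
    | (exfalso; linarith)

end grp

/-! ### cone -/

theorem memN {c : Fin 11 → ℝ} (h4 : c 4 ≤ c 2 + c 3) (h6 : c 6 ≤ c 2 + c 5)
    (h7 : c 7 ≤ c 4 + c 5) (h7' : c 7 ≤ c 3 + c 6) (h8 : c 8 ≤ c 0 + c 5) (h9 : c 9 ≤ c 0 + c 6)
    (h9' : c 9 ≤ c 2 + c 8) (h10 : c 10 ≤ c 0 + c 7) (h10' : c 10 ≤ c 4 + c 8)
    (h10'' : c 10 ≤ c 3 + c 9) : c ∈ coneN := ⟨h4, h6, h7, h7', h8, h9, h9', h10, h10', h10''⟩

theorem bE_mem {x a b c d : ℝ} (hd : 0 ≤ d) (hda : d ≤ a) (hax : a ≤ x) (hb : 0 ≤ b) (hbx : b ≤ x)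
    (hc : 0 ≤ c) (hcx : c ≤ x) : bE x a b c d ∈ coneN := by
  refine memN ?_ ?_ ?_ ?_ ?_ ?_ ?_ ?_ ?_ ?_ <;>
    simp only [bE, Matrix.cons_val, Fin.isValue] <;> linarith

theorem aE_mem (κ : ℝ) : aE κ ∈ coneN := by
  refine memN ?_ ?_ ?_ ?_ ?_ ?_ ?_ ?_ ?_ ?_ <;>
    simp only [aE, Matrix.cons_val, Fin.isValue] <;> linarith

theorem legal_coneN {c : Fin 11 → ℝ} (h : Legal monQ c) : c ∈ coneN := by
  obtain ⟨h0, h4, h6, h7, h7', h7'', h8, h9, h9', h10, h10', h10''⟩ := legalQ_iff.1 h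
  exact memN (by assumption) (by assumption) (by assumption) (by assumption) (by assumption)
    (by assumption) (by assumption) (by assumption) (by assumption) (by assumption)

section num

variable {κ : ℝ} {lam : (Fin 11 → ℝ) → ℝ} {A : ℝ × ℝ} {φ : ℕ → (Fin 11 → ℝ) → ℝ} {r : ℕ → ℝ}


/-- value of the boxes `bE` -/
theorem form_of (hκ : 0 < κ)
    (h : OutA (gC (aE κ) bEs) coneN (aE κ) bEs (dhC (aE κ) bEs) (nC (aE κ) bEs) lam A φ r)
    (hom : ∀ k, k ≠ 0 → ∀ c ∈ coneN, ∀ s : ℝ, 0 ≤ s → φ k (s • c) = s * φ k c)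
    (h8 : φ (gC (aE κ) bEs 8) (Pi.single 8 1) ≤ -1) (r8 : 1 ≤ r (gC (aE κ) bEs 8)) :
    ∃ β : ℝ, 0 ≤ β ∧ ∀ x a b c d : ℝ, 0 ≤ d → d ≤ a → a ≤ x → 0 ≤ b → b ≤ x → 0 ≤ c → c ≤ x →
      lam (bE x a b c d) = lam (bE x 0 0 0 0) -
        (a + r (gC (aE κ) bEs 9) / (1 + κ) * b + r 0 * c + β * d) := by
  have P := plE hκ
  have hL : ∀ p, Legal monQ p → p ∈ coneN := fun p hp => legal_coneN hp
  have hk1 : (1 : ℝ) + κ ≠ 0 := by linarith
  have hk := hκ.ne'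
  have hO := h.toOutS
  -- the group of `X_b, N`
  have s9 : ∀ x a b c d : ℝ, 0 ≤ d → d ≤ a → a ≤ x → 0 ≤ b → b ≤ x → 0 ≤ c → c ≤ x →
      lam (bE x a b c d) - lam (bE x a 0 c d) = -(r (gC (aE κ) bEs 9) / (1 + κ) * b) := by
    intro x a b c d hd hda hax hb hbx hc hcx
    have m1 := bE_mem hd hda hax hb hbx hc hcx
    have m0 := bE_mem hd hda hax le_rfl (hb.trans hbx) hc hcx
    rw [one_grp hO m1 m0 (gC (aE κ) bEs 9) (fun i hi => by
      have h9 : i ≠ 9 := fun e => hi (by rw [e])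
      have h10 : i ≠ 10 := fun e => hi (by
        rw [e, gC_eq (by simp [aE, hk1]) P.n9]; simp [aE, bEs])
      fin_cases i <;> simp [bE] at h9 h10 ⊢),
      h.rate _ _ m1 (b / (1 + κ)) (fun i hi => by
        rcases mem_9 hκ hi with rfl | rfl <;> simp [bE, dhC, aE, hk1]),
      h.zero _ (bE x a 0 c d) (fun i hi => by
        rcases mem_9 hκ hi with rfl | rfl <;> simp [bE])]
    ring
  -- the group of `C_a`
  have s0 : ∀ x a c d : ℝ, 0 ≤ d → d ≤ a → a ≤ x → 0 ≤ c → c ≤ x →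
      lam (bE x a 0 c d) - lam (bE x a 0 0 d) = -(r 0 * c) := by
    intro x a c d hd hda hax hc hcx
    have m1 := bE_mem hd hda hax le_rfl (hc.trans hcx) hc hcx
    have m0 := bE_mem hd hda hax le_rfl (hc.trans hcx) le_rfl (hc.trans hcx)
    rw [one_grp hO m1 m0 0 (fun i hi => by
      have h5 : i ≠ 5 := fun e => hi (by rw [e]; exact P.g5)
      fin_cases i <;> simp [bE] at h5 ⊢),
      h.rate _ _ m1 c (fun i hi => by
        rcases mem_zero hκ hi with rfl | rfl | rfl <;> simp [bE, dhC, aE, bEs]),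
      h.zero _ (bE x a 0 0 d) (fun i hi => by
        rcases mem_zero hκ hi with rfl | rfl | rfl <;> simp [bE])]
    ring
  by_cases h1 : κ = 1
  · -- one group
    refine ⟨r (gC (aE κ) bEs 8) - 1, by linarith, ?_⟩
    have e8 : φ (gC (aE κ) bEs 8) (Pi.single 8 1) = -1 := by
      refine le_antisymm h8 ?_
      have m0 : bl 1 0 0 0 0 ∈ coneN := hL _ (bl_legal zero_le_one le_rfl le_rfl zero_le_one
        le_rfl zero_le_one le_rfl zero_le_one)
      have m1 : bl 1 0 0 1 0 ∈ coneN := hL _ (bl_legal zero_le_one le_rfl le_rfl zero_le_one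
        zero_le_one le_rfl le_rfl zero_le_one)
      have e1 := (h.mono (gC (aE κ) bEs 8) _ m0 _ m1 (fun i _ => by
        fin_cases i <;> simp [bl])).2
      have e2 : ∑ i ∈ Finset.univ.filter (fun i => gC (aE κ) bEs i = gC (aE κ) bEs 8),
          (bl 1 0 0 1 0 i - bl 1 0 0 0 0 i) ≤ 1 := by
        refine (Finset.sum_le_sum_of_subset_of_nonneg (Finset.subset_univ _)
          (fun i _ _ => by fin_cases i <;> simp [bl])).trans ?_
        simp [Fin.sum_univ_succ, bl]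
      have key : ∀ i, gC (aE κ) bEs i = gC (aE κ) bEs 8 → i = 6 ∨ i = 7 ∨ i = 8 := fun i hi => by
        rcases mem_8 hκ hi with h | ⟨-, h | h⟩
        · exact Or.inr (Or.inr h)
        · exact Or.inl h
        · exact Or.inr (Or.inl h)
      rw [h.zero _ (bl 1 0 0 0 0) (fun i hi => by
          rcases key i hi with rfl | rfl | rfl <;> simp [bl]),
        h.loc _ (bl 1 0 0 1 0) (Pi.single 8 1) (fun i hi => by
          rcases key i hi with rfl | rfl | rfl <;> simp [bl])] at e1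
      linarith
    have key : ∀ i, gC (aE κ) bEs i = gC (aE κ) bEs 8 → i = 6 ∨ i = 7 ∨ i = 8 := fun i hi => by
      rcases mem_8 hκ hi with h | ⟨-, h | h⟩
      · exact Or.inr (Or.inr h)
      · exact Or.inl h
      · exact Or.inr (Or.inl h)
    intro x a b c d hd hda hax hb hbx hc hcx
    have m1 := bE_mem hd hda hax le_rfl (hb.trans hbx) le_rfl (hb.trans hbx)
    have m0 := bE_mem (x := x) (a := 0) (b := 0) (c := 0) (d := 0) le_rfl le_rfl (hb.trans hbx)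
      le_rfl (hb.trans hbx) le_rfl (hb.trans hbx)
    have e3 : lam (bE x a 0 0 d) - lam (bE x 0 0 0 0) =
        -(a + (r (gC (aE κ) bEs 8) - 1) * d) := by
      have a0 : 0 ≤ a - d := by linarith
      have mc : bl (a - d) 0 0 (a - d) 0 ∈ coneN := hL _ (bl_legal a0 le_rfl le_rfl a0 a0 le_rfl
        le_rfl a0)
      have c1 : bl 1 0 0 1 0 ∈ coneN := hL _ (bl_legal zero_le_one le_rfl le_rfl zero_le_one
        zero_le_one le_rfl le_rfl zero_le_one)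
      have mT : Tn (aE κ) bEs (d, 0) ∈ coneN := by
        refine memN ?_ ?_ ?_ ?_ ?_ ?_ ?_ ?_ ?_ ?_ <;>
          simp only [Tn, aE, bEs, Matrix.cons_val, Fin.isValue] <;> nlinarith
      have hs := h.add (gC (aE κ) bEs 8) (fun i hi => dh_pos P.nn P.g8 hi) (d, 0) _ mc
      rw [one_grp hO m1 m0 (gC (aE κ) bEs 8) (fun i hi => by
          have h8 : i ≠ 8 := fun e => hi (by rw [e])
          have h6 : i ≠ 6 := fun e => hi (by
            rw [e, gC_eq P.n6 P.n8]; simp [aE, bEs, h1])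
          have h7 : i ≠ 7 := fun e => hi (by
            rw [e, gC_eq (by simp [aE, hk]) P.n8]; simp [aE, bEs, h1])
          fin_cases i <;> simp [bE] at h6 h7 h8 ⊢),
        h.zero _ (bE x 0 0 0 0) (fun i hi => by
          rcases key i hi with rfl | rfl | rfl <;> simp [bE]),
        h.loc _ (bE x a 0 0 d) (Tn (aE κ) bEs (d, 0) + bl (a - d) 0 0 (a - d) 0) (fun i hi => by
          rcases key i hi with rfl | rfl | rfl <;> simp [bE, bl, Tn, aE, bEs, h1]), hs,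
        h.rate _ _ mT d (fun i hi => by
          rcases key i hi with rfl | rfl | rfl <;> simp [Tn, dhC, aE, bEs, h1]),
        h.loc _ (bl (a - d) 0 0 (a - d) 0) (Pi.single 8 (a - d)) (fun i hi => by
          rcases key i hi with rfl | rfl | rfl <;> simp [bl]),
        hom_single hL hO hom P.g8 c1 (fun i hi => by
          rcases key i hi with rfl | rfl | rfl <;> simp [bl]) a0, e8]
      ring
    have e1 := s9 x a b c d hd hda hax hb hbx hc hcx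
    have e2 := s0 x a c d hd hda hax hc hcx
    linarith
  · -- two groups
    refine ⟨r (gC (aE κ) bEs 6) / κ, div_nonneg (rt_nonneg hO P.nn P.g6) hκ.le, ?_⟩
    have key8 : ∀ i, gC (aE κ) bEs i = gC (aE κ) bEs 8 → i = 8 := fun i hi => by
      rcases mem_8 hκ hi with h | ⟨h, -⟩
      · exact h
      · exact absurd h h1
    have key6 : ∀ i, gC (aE κ) bEs i = gC (aE κ) bEs 6 → i = 6 ∨ i = 7 := fun i hi =>
      mem_6 hκ h1 hi
    have e8 : r (gC (aE κ) bEs 8) = 1 := by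
      refine le_antisymm ?_ r8
      have m0 : bl 1 0 0 0 0 ∈ coneN := hL _ (bl_legal zero_le_one le_rfl le_rfl zero_le_one
        le_rfl zero_le_one le_rfl zero_le_one)
      have m1 : bl 1 0 0 1 0 ∈ coneN := hL _ (bl_legal zero_le_one le_rfl le_rfl zero_le_one
        zero_le_one le_rfl le_rfl zero_le_one)
      have e1 := (h.mono (gC (aE κ) bEs 8) _ m0 _ m1 (fun i _ => by
        fin_cases i <;> simp [bl])).2
      have e2 : ∑ i ∈ Finset.univ.filter (fun i => gC (aE κ) bEs i = gC (aE κ) bEs 8),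
          (bl 1 0 0 1 0 i - bl 1 0 0 0 0 i) ≤ 1 := by
        refine (Finset.sum_le_sum_of_subset_of_nonneg (Finset.subset_univ _)
          (fun i _ _ => by fin_cases i <;> simp [bl])).trans ?_
        simp [Fin.sum_univ_succ, bl]
      rw [h.zero _ (bl 1 0 0 0 0) (fun i hi => by rw [key8 i hi]; simp [bl]),
        h.rate _ _ m1 1 (fun i hi => by rw [key8 i hi]; simp [bl, dhC, aE])] at e1
      linarith
    intro x a b c d hd hda hax hb hbx hc hcx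
    have hx : 0 ≤ x := hb.trans hbx
    have m1 := bE_mem hd hda hax le_rfl hx le_rfl hx
    have m2 := bE_mem (x := x) (a := a) (b := 0) (c := 0) (d := 0) le_rfl (hd.trans hda) hax
      le_rfl hx le_rfl hx
    have m0 := bE_mem (x := x) (a := 0) (b := 0) (c := 0) (d := 0) le_rfl le_rfl hx
      le_rfl hx le_rfl hx
    have e3 : lam (bE x a 0 0 d) - lam (bE x a 0 0 0) = -(r (gC (aE κ) bEs 6) / κ * d) := by
      rw [one_grp hO m1 m2 (gC (aE κ) bEs 6) (fun i hi => by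
          have h6 : i ≠ 6 := fun e => hi (by rw [e])
          have h7 : i ≠ 7 := fun e => hi (by
            rw [e, gC_eq (by simp [aE, hk]) P.n6]; simp [aE, bEs])
          fin_cases i <;> simp [bE] at h6 h7 ⊢),
        h.rate _ _ m1 (d / κ) (fun i hi => by
          rcases key6 i hi with rfl | rfl <;> simp [bE, dhC, aE, hk]),
        h.zero _ (bE x a 0 0 0) (fun i hi => by
          rcases key6 i hi with rfl | rfl <;> simp [bE])]
      ring
    have e4 : lam (bE x a 0 0 0) - lam (bE x 0 0 0 0) = -a := by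
      rw [one_grp hO m2 m0 (gC (aE κ) bEs 8) (fun i hi => by
          have h8 : i ≠ 8 := fun e => hi (by rw [e])
          fin_cases i <;> simp [bE] at h8 ⊢),
        h.rate _ _ m2 a (fun i hi => by
          rw [key8 i hi]; simp [bE, dhC, aE]),
        h.zero _ (bE x 0 0 0 0) (fun i hi => by
          rw [key8 i hi]; simp [bE]), e8]
      ring
    have e1 := s9 x a b c d hd hda hax hb hbx hc hcx
    have e2 := s0 x a c d hd hda hax hc hcx
    linarith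

/-- density of the level slots -/
theorem dens_of (hκ : 0 < κ)
    (h : OutA (gC (aE κ) bEs) coneN (aE κ) bEs (dhC (aE κ) bEs) (nC (aE κ) bEs) lam A φ r)
    (h0 : lam 0 = 0) {x : ℝ} (hx : 0 ≤ x) : lam ![x, x, x, 0, x, x, x, x, x, x, x] ≤
      lam ![0, x, 0, 0, 0, x, x, x, x, x, x] + lam ![x, 0, x, 0, x, 0, 0, 0, 0, 0, 0] := by
  have P := plE hκ
  have m0 : (0 : Fin 11 → ℝ) ∈ coneN := by
    refine memN ?_ ?_ ?_ ?_ ?_ ?_ ?_ ?_ ?_ ?_ <;> simp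
  have m1 : (![0, x, 0, 0, 0, x, x, x, x, x, x] : Fin 11 → ℝ) ∈ coneN := by
    refine memN ?_ ?_ ?_ ?_ ?_ ?_ ?_ ?_ ?_ ?_ <;>
      simp only [Matrix.cons_val, Fin.isValue] <;> linarith
  have m2 : (![x, 0, x, 0, x, 0, 0, 0, 0, 0, 0] : Fin 11 → ℝ) ∈ coneN := by
    refine memN ?_ ?_ ?_ ?_ ?_ ?_ ?_ ?_ ?_ ?_ <;>
      simp only [Matrix.cons_val, Fin.isValue] <;> linarith
  have m3 : (![x, x, x, 0, x, x, x, x, x, x, x] : Fin 11 → ℝ) ∈ coneN := by
    refine memN ?_ ?_ ?_ ?_ ?_ ?_ ?_ ?_ ?_ ?_ <;>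
      simp only [Matrix.cons_val, Fin.isValue] <;> linarith
  have hs := split2 h.toOutS m0 m1 m2 m3 (by
    intro k
    by_cases hk : k = gC (aE κ) bEs 0
    · left
      intro i hi
      rcases mem_z hκ (by rw [hi, hk]) with rfl | rfl | rfl <;> simp
    · right
      intro i hi
      have h0 : i ≠ 0 := fun e => hk (by rw [← hi, e])
      have h2 : i ≠ 2 := fun e => hk (by rw [← hi, e, P.g02])
      have h4 : i ≠ 4 := fun e => hk (by
        rw [← hi, e, gC_eq (by simp [aE, hκ.ne']) P.n0]; simp [aE, bEs])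
      fin_cases i <;> simp at h0 h2 h4 ⊢)
  rw [h0] at hs
  linarith

/-- **the numbers** -/
theorem numE_of (hκ : 0 < κ)
    (h : OutA (gC (aE κ) bEs) coneN (aE κ) bEs (dhC (aE κ) bEs) (nC (aE κ) bEs) lam A φ r)
    (hom : ∀ k, k ≠ 0 → ∀ c ∈ coneN, ∀ s : ℝ, 0 ≤ s → φ k (s • c) = s * φ k c)
    (h0 : lam 0 = 0)
    (own : ∀ c ∈ coneN, ∀ c' ∈ coneN, c ≤ c' → (∀ i, c i = 0) → c' 0 - c 0 ≤ lam c - lam c')
    (rz : 1 ≤ r (gC (aE κ) bEs 0)) (r8 : 1 ≤ r (gC (aE κ) bEs 8))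
    (h8 : φ (gC (aE κ) bEs 8) (Pi.single 8 1) ≤ -1) {m : ℝ} (hm : 0 < m)
    (sw : m ≤ lam (bl 1 0 0 0 0) - lam (bl 1 1 0 0 0)) :
    A.1 ≤ -(4 + κ + κ) ∨ ∃ y m β : ℝ, NumE lam y m β := by
  have P := plE hκ
  have hO := h.toOutS
  have hL : ∀ p, Legal monQ p → p ∈ coneN := fun p hp => legal_coneN hp
  have htot := tot3 hO P.nn (i := 0) (j := 8) (l := 9) P.n0 P.n8 P.n9 P.g08 P.g09 P.g89
  by_cases hy : 2 ≤ r (gC (aE κ) bEs 9) / (1 + κ)
  · left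
    rw [le_div_iff₀ (by linarith)] at hy
    linarith
  rw [not_le] at hy
  right
  obtain ⟨β, hβ, hf⟩ := form_of hκ h hom h8 r8
  refine ⟨r (gC (aE κ) bEs 9) / (1 + κ), r 0, β, ?_⟩
  have m0 : bl 1 0 0 0 0 ∈ coneN := hL _ (bl_legal zero_le_one le_rfl le_rfl zero_le_one
    le_rfl zero_le_one le_rfl zero_le_one)
  have m1 : bl 1 1 0 0 0 ∈ coneN := hL _ (bl_legal zero_le_one zero_le_one le_rfl zero_le_one
    le_rfl zero_le_one le_rfl zero_le_one)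
  have e0 : lam (bl 1 0 0 0 0) - lam (bl 1 1 0 0 0) = r 0 := by
    rw [one_grp hO m0 m1 0 (fun i hi => by
        have h5 : i ≠ 5 := fun e => hi (by rw [e]; exact P.g5)
        fin_cases i <;> simp [bl] at h5 ⊢),
      h.rate _ _ m1 1 (fun i hi => by
        rcases mem_zero hκ hi with rfl | rfl | rfl <;> simp [bl, dhC, aE, bEs]),
      h.zero _ (bl 1 0 0 0 0) (fun i hi => by
        rcases mem_zero hκ hi with rfl | rfl | rfl <;> simp [bl])]
    ring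
  have e1 := (h.mono 0 _ m0 _ m1 (fun i _ => by fin_cases i <;> simp [bl])).2
  have e2 : ∑ i ∈ Finset.univ.filter (fun i => gC (aE κ) bEs i = 0),
      (bl 1 1 0 0 0 i - bl 1 0 0 0 0 i) ≤ 1 := by
    refine (Finset.sum_le_sum_of_subset_of_nonneg (Finset.subset_univ _)
      (fun i _ _ => by fin_cases i <;> simp [bl])).trans ?_
    simp [Fin.sum_univ_succ, bl]
  rw [h.zero _ (bl 1 0 0 0 0) (fun i hi => by
      rcases mem_zero hκ hi with rfl | rfl | rfl <;> simp [bl]),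
    h.rate _ _ m1 1 (fun i hi => by
      rcases mem_zero hκ hi with rfl | rfl | rfl <;> simp [bl, dhC, aE, bEs])] at e1
  exact {
    y0 := div_nonneg (rt_nonneg hO P.nn P.g9) (by linarith)
    y2 := hy
    m0 := by linarith
    m1 := by linarith
    β0 := hβ
    form := hf
    dens := fun x hx => dens_of hκ h h0 hx
    frost := fun y hy' => by
      have c0 : (0 : Fin 11 → ℝ) ∈ coneN := by
        refine memN ?_ ?_ ?_ ?_ ?_ ?_ ?_ ?_ ?_ ?_ <;> simp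
      have c1 : (Pi.single 0 y : Fin 11 → ℝ) ∈ coneN := by
        refine memN ?_ ?_ ?_ ?_ ?_ ?_ ?_ ?_ ?_ ?_ <;> simp [Pi.single_apply, hy']
      have := own 0 c0 _ c1 (by
        intro k
        by_cases hk : k = 0
        · subst hk; simpa using hy'
        · rw [Pi.single_eq_of_ne hk]; exact le_rfl) (fun _ => rfl)
      rw [h0] at this
      simp at this
      linarith }

end num

/-- **piece (B) of the window half of case E** -/
theorem numsE {η : ℝ} (hη : η ≤ 1 / 8) : NumsE η := by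
  intro p D I1 π eE fA fB V T w0 R T0 PD ν own c₀ h hp hrec hcone ξ x hh lam A φ r P hom
  obtain ⟨v2, v3, h02⟩ := hp
  have ok := h.tp.ok
  have h1 := ok.θ1
  have sl := h.tp.slots
  have k2 : 0 < p.θ 1 - p.θ 2 := by simpa [btQ] using (sl.vis 2 v2).2
  have t2 : T 2 := by
    by_contra hc
    exact absurd (sl.cap 2 v2 hc).1 (by decide)
  have hM := maQ_nat (θ := p.θ) w0 (R - 1) (p.θ 1 - p.θ 2) (p.θ 1 - p.θ 2)
    (by rw [sB_bEs h1 h02]; simp [bEs])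
  have hS1 := fun (c : Fin 11 → ℝ) hc y hy hcy hb => P.S1 (by simp [sA, nL]) (by simp [sB, nL])
    hrec (c := c) hc (y := y) hy hcy hb
  have aew := P.aew
  have hO := P.out
  unfold Tb628.Hom at hom
  have b2 : sB p.θ (p.θ 1 - p.θ 2) (p.θ 1 - p.θ 2) 2 = 0 := by rw [sB_bEs h1 h02]; simp [bEs]
  set Ma := actM monQ (s0 w0 (R - 1)) (sA (p.θ 1 - p.θ 2) (p.θ 1 - p.θ 2))
    (sB p.θ (p.θ 1 - p.θ 2) (p.θ 1 - p.θ 2)) with hMa
  rw [sB_bEs h1 h02, sA_aE] at aew hO hom hS1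
  rw [sB_bEs h1 h02] at b2
  set κ := p.θ 1 - p.θ 2 with hκ
  have PP := plE k2
  have hM' : MaE Ma := ⟨by rw [mv_25]; exact hM.m625, by rw [mv_05]; exact hM.m805,
    by rw [mv_06]; exact hM.m906, by rw [mv_28]; exact hM.m928, by rw [mv_01]; exact hM.m701⟩
  have homk : ∀ k, k ≠ 0 → ∀ c ∈ coneM Ma, ∀ s : ℝ, 0 ≤ s → φ k (s • c) = s * φ k c :=
    fun k hk c hc s hs => hom k (fun i hi => dh_pos PP.nn hk hi) c hc s hs
  have blN : ∀ {t xa : ℝ}, 0 ≤ t → t ≤ 1 → 0 ≤ xa → xa ≤ 1 → bl 1 t 0 xa 0 ∈ coneM Ma :=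
    fun {t xa} ht _ hx hx1 => by
      rw [hcone]
      exact legal_coneN (bl_legal zero_le_one ht le_rfl zero_le_one hx hx1 le_rfl zero_le_one)
  have hsw : ∀ t xa : ℝ, 0 ≤ t → t ≤ 1 → 0 ≤ xa → xa ≤ 1 →
      p.q 1 * t ≤ lam (bl 1 0 0 xa 0) - lam (bl 1 t 0 xa 0) := by
    intro t xa ht ht1 hx hx1
    have e : bl 1 0 0 xa 0 + eCa t = bl 1 t 0 xa 0 := by
      funext i
      fin_cases i <;> simp [bl, eCa]
    have := hS1 (bl 1 0 0 xa 0) (blN le_rfl zero_le_one hx hx1) t ht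
      (by rw [e]; exact blN ht ht1 hx hx1) (by
        intro k hk1 hk2
        fin_cases k <;> simp [aE, bEs, bl, k2.ne'] at hk1 hk2 ⊢)
    rw [e] at this
    exact this
  have row := base_row (f := fun n x => GeoQ186.scl (uH D.B D.lev w0 n) (uA D.B D.lev D.w w0 n)
      (uB D.B D.lev D.w w0 n) (uY D.B D.lev D.w w0 n) (incQ π D.L eE fA fB n x))
    aew (fun n i _ j _ => rfl) h.ext.ne hM' PP
    (by rw [hcone]; exact aE_mem κ) (fun k hk => ?_) ⟨t2, b2⟩ zero_le_two homk ok.g0.2 hsw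
  · obtain ⟨rz, r8, -, h8, -⟩ := row
    have ownN : ∀ c ∈ coneM Ma, ∀ c' ∈ coneM Ma, c ≤ c' → (∀ i, c i = 0) →
        c' 0 - c 0 ≤ lam c - lam c' := fun c hc c' hc' hcc h0 => by
      have := aew.own c hc c' hc' hcc fun k _ => by rw [h0, h0, mul_zero]
      linarith
    have h00 := aew.zero
    rw [hcone] at ownN hO homk
    refine numE_of k2 hO homk h00 ownN rz r8 h8 ok.g0.2 ?_
    have := hsw 1 0 zero_le_one le_rfl le_rfl zero_le_one
    linarith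
  · rcases (sl.vis k hk.1).1 with rfl | rfl | rfl <;> simp

end Crest.Agent.R136.NmE107
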