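import Crest.Agent.R136.Pl7a_186
import Crest.Agent.R136.Phc_248

-- ▼ part R136/Pl7b_186
section

/-!
# R136 (S0187), g-free tilt (PLAN 2), leaf (L7): D-max of sub-boxes of a CURVED sheet (helper186)

`S = ShN e c w Q a z0 ρ r`, `T0` a line of `S`.

* `normal_le` : two lines of `S` differ by `≤ 4 a + 2 (w 0 / w 1) |A| + 2 (w 0 / w 2) |B|` in the
  direction `e 0`;
* `shN_sub`, `shN_sub'` : the box of half-widths `x` around `T0` is a sheet of the class (axes in the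
  order of `S`, resp. swapped);
* `tube_count` : lines of `S` within `x` of `T0` in the direction `e 1`;
* `sub_count` : lines of `S` within `s1 w 1`, `s2 w 2` of `T0` in the directions `e 1`, `e 2`.
-/

set_option autoImplicit false
set_option linter.unusedVariables false
set_option linter.unusedSectionVars false

namespace Crest.Agent.R136.Pl7186

open Finset
open Crest.Agent.R136.Sh605
open Crest.Agent.R136.HR829 (crs dt_nonneg cs cs1 parseval)

section

variable {e : Fin 3 → V3} {c : Ln4} {w : V3} {Q : ℝ → V3 → ℝ} {a z0 ρ r : ℝ}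

/-- variation of `Q` along an axis, both signs -/
theorem step_le {f : V3} {Λ z : ℝ} {K : V3 → Prop}
    (h : ∀ (x : V3) (τ : ℝ), 0 ≤ τ → K x → K (x + τ • f) → |Q z (x + τ • f) - Q z x| ≤ Λ * τ)
    (x : V3) (τ : ℝ) (h1 : K x) (h2 : K (x + τ • f)) :
    |Q z (x + τ • f) - Q z x| ≤ Λ * |τ| := by
  rcases le_total 0 τ with h0 | h0
  · rw [abs_of_nonneg h0]; exact h x τ h0 h1 h2
  · rw [abs_of_nonpos h0]
    have e1 : x + τ • f + (-τ) • f = x := by
      funext i; simp only [Pi.add_apply, Pi.smul_apply, smul_eq_mul]; ring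
    have := h (x + τ • f) (-τ) (by linarith) h2 (by rw [e1]; exact h1)
    rw [e1, abs_sub_comm] at this
    exact this

/-- `Q` is monotone along the steep axis -/
theorem steep_le {f : V3} {z : ℝ} {K : V3 → Prop}
    (h : ∀ (x : V3) (τ : ℝ), 0 ≤ τ → K x → K (x + τ • f) → τ / 2 ≤ Q z (x + τ • f) - Q z x)
    (x : V3) (τ : ℝ) (h1 : K x) (h2 : K (x + τ • f)) :
    |τ| / 2 ≤ |Q z (x + τ • f) - Q z x| := by
  rcases le_total 0 τ with h0 | h0
  · rw [abs_of_nonneg h0]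
    exact (h x τ h0 h1 h2).trans (le_abs_self _)
  · rw [abs_of_nonpos h0]
    have e1 : x + τ • f + (-τ) • f = x := by
      funext i; simp only [Pi.add_apply, Pi.smul_apply, smul_eq_mul]; ring
    have := h (x + τ • f) (-τ) (by linarith) h2 (by rw [e1]; exact h1)
    rw [e1] at this
    rw [abs_sub_comm]
    exact this.trans (le_abs_self _)


/-- **normal distance of two lines of a sheet** -/
theorem normal_le (S : ShN e c w Q a z0 ρ r) (ha : 0 < a) {T T0 : Ln4}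
    (hT : InSheet T e c w Q a z0 ρ) (hT0 : InSheet T0 e c w Q a z0 ρ) {z : ℝ} (hz : z0 ≤ z)
    (hz' : z ≤ z0 + ρ) :
    |dt (e 0) (T.pos z - T0.pos z)| ≤ 4 * a + 2 * (w 0 / w 1 * |dt (e 1) (T.pos z - T0.pos z)|) +
      2 * (w 0 / w 2 * |dt (e 2) (T.pos z - T0.pos z)|) := by
  have he := S.ortho
  have g00 : dt (e 0) (e 0) = 1 := by simpa using he 0 0
  have g11 : dt (e 1) (e 1) = 1 := by simpa using he 1 1
  have g22 : dt (e 2) (e 2) = 1 := by simpa using he 2 2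
  have g01 : dt (e 0) (e 1) = 0 := by simpa using he 0 1
  have g02 : dt (e 0) (e 2) = 0 := by simpa using he 0 2
  have g10 : dt (e 1) (e 0) = 0 := by simpa using he 1 0
  have g12 : dt (e 1) (e 2) = 0 := by simpa using he 1 2
  have g20 : dt (e 2) (e 0) = 0 := by simpa using he 2 0
  have g21 : dt (e 2) (e 1) = 0 := by simpa using he 2 1
  obtain ⟨hk, hq⟩ := hT z hz hz'
  obtain ⟨hk0, hq0⟩ := hT0 z hz hz'
  set x := T0.pos z with hx
  set y := T.pos z with hy
  set τ0 := dt (e 0) (y - x) with hτ0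
  set τ1 := dt (e 1) (y - x) with hτ1
  set τ2 := dt (e 2) (y - x) with hτ2
  have hw : ∀ i, 0 ≤ w i := fun i => (abs_nonneg _).trans (hk i)
  have hyx : x + τ1 • e 1 + τ2 • e 2 + τ0 • e 0 = y := by
    funext j
    have h1 := he.expand (y - x) j
    rw [← hτ0, ← hτ1, ← hτ2] at h1
    simp only [Pi.add_apply, Pi.smul_apply, smul_eq_mul, Pi.sub_apply] at h1 ⊢
    linarith
  have hsub : ∀ i, dt (e i) (y - x) = dt (e i) (y - c.pos z) - dt (e i) (x - c.pos z) := fun i => by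
    simp only [dt_sub]; ring
  have hd : ∀ i, w i ≤ dbl3 w i := fun i => by
    have := hw i
    simp only [dbl3]; linarith
  -- the four points are in the box
  have k0 : InK e c (dbl3 w) z x := fun i => (hk0 i).trans (hd i)
  have k1 : InK e c (dbl3 w) z (x + τ1 • e 1) := by
    intro i
    have e1 : dt (e i) (x + τ1 • e 1 - c.pos z) = dt (e i) (x - c.pos z) + τ1 * dt (e i) (e 1) := by
      simp only [dt_sub, dt_add, dt_smul]; ring
    rw [e1]
    fin_cases i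
    · simp only [Fin.zero_eta, g01, mul_zero, add_zero]; exact (hk0 0).trans (hd 0)
    · simp only [Fin.mk_one, g11, mul_one]
      rw [hτ1, hsub]
      have : dt (e 1) (x - c.pos z) + (dt (e 1) (y - c.pos z) - dt (e 1) (x - c.pos z)) =
        dt (e 1) (y - c.pos z) := by ring
      rw [this]; exact (hk 1).trans (hd 1)
    · simp only [Fin.reduceFinMk, g21, mul_zero, add_zero]; exact (hk0 2).trans (hd 2)
  have k2 : InK e c (dbl3 w) z (x + τ1 • e 1 + τ2 • e 2) := by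
    intro i
    have e1 : dt (e i) (x + τ1 • e 1 + τ2 • e 2 - c.pos z) =
        dt (e i) (x - c.pos z) + τ1 * dt (e i) (e 1) + τ2 * dt (e i) (e 2) := by
      simp only [dt_sub, dt_add, dt_smul]; ring
    rw [e1]
    fin_cases i
    · simp only [Fin.zero_eta, g01, g02, mul_zero, add_zero]; exact (hk0 0).trans (hd 0)
    · simp only [Fin.mk_one, g11, g12, mul_one, mul_zero, add_zero]
      rw [hτ1, hsub]
      have : dt (e 1) (x - c.pos z) + (dt (e 1) (y - c.pos z) - dt (e 1) (x - c.pos z)) =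
        dt (e 1) (y - c.pos z) := by ring
      rw [this]; exact (hk 1).trans (hd 1)
    · simp only [Fin.reduceFinMk, g21, g22, mul_zero, mul_one, add_zero]
      rw [hτ2, hsub]
      have : dt (e 2) (x - c.pos z) + (dt (e 2) (y - c.pos z) - dt (e 2) (x - c.pos z)) =
        dt (e 2) (y - c.pos z) := by ring
      rw [this]; exact (hk 2).trans (hd 2)
  have k3 : InK e c (dbl3 w) z (x + τ1 • e 1 + τ2 • e 2 + τ0 • e 0) := by
    rw [hyx]; exact fun i => (hk i).trans (hd i)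
  have s1 := step_le (K := InK e c (dbl3 w) z) (S.sl1 z hz hz') x τ1 k0 k1
  have s2 := step_le (K := InK e c (dbl3 w) z) (S.sl2 z hz hz') (x + τ1 • e 1) τ2 k1 k2
  have s0 := steep_le (K := InK e c (dbl3 w) z)
    (fun x τ h1 h2 h3 => (S.st0 z hz hz' x τ h1 h2 h3).1) (x + τ1 • e 1 + τ2 • e 2) τ0 k2 k3
  rw [hyx] at s0
  have t1 := abs_le.1 s1
  have t2 := abs_le.1 s2
  have t3 := abs_le.1 hq
  have t4 := abs_le.1 hq0
  have s5 : |Q z y - Q z (x + τ1 • e 1 + τ2 • e 2)| ≤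
      2 * a + w 0 / w 1 * |τ1| + w 0 / w 2 * |τ2| := by
    rw [abs_le]
    constructor <;> linarith [t1.1, t1.2, t2.1, t2.2, t3.1, t3.2, t4.1, t4.2]
  linarith

/-- the box of half-widths `x` around `T0` is in the doubled box of `S` -/
theorem box_sub (S : ShN e c w Q a z0 ρ r) {T0 : Ln4} (hT0 : InSheet T0 e c w Q a z0 ρ)
    {x : V3} (hx : ∀ i, 2 * x i ≤ w i) {z : ℝ} (hz : z0 ≤ z) (hz' : z ≤ z0 + ρ) {y : V3}
    (hy : ∀ i, |dt (e i) (y - T0.pos z)| ≤ 2 * x i) : InK e c (dbl3 w) z y := by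
  intro i
  have h1 := (hT0 z hz hz').1 i
  have e1 : dt (e i) (y - c.pos z) = dt (e i) (y - T0.pos z) + dt (e i) (T0.pos z - c.pos z) := by
    simp only [dt_sub]; ring
  rw [e1]
  refine (abs_add_le _ _).trans ?_
  have h2 := hy i
  have h3 := hx i
  simp only [dbl3]
  linarith

/-- **sub-box around `T0`**, axes in the order of `S` -/
theorem shN_sub (S : ShN e c w Q a z0 ρ r) {T0 : Ln4} (hT0 : InSheet T0 e c w Q a z0 ρ)
    {x0 x1 x2 : ℝ} (hx0 : 2 * x0 ≤ w 0) (hx1 : 2 * x1 ≤ w 1) (hx2 : 2 * x2 ≤ w 2) (ha : 0 < a)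
    (h0 : a ≤ x0) (h02 : x0 ≤ x2) (h21 : x2 ≤ x1) (hs1 : w 0 * x1 ≤ x0 * w 1)
    (hs2 : w 0 * x2 ≤ x0 * w 2) : ShN e T0 ![x0, x1, x2] Q a z0 ρ r := by
  have p0 : 0 < x0 := ha.trans_le h0
  have p2 : 0 < x2 := p0.trans_le h02
  have p1 : 0 < x1 := p2.trans_le h21
  have w1 : 0 < w 1 := by linarith
  have w2 : 0 < w 2 := by linarith
  have hx : ∀ i, 2 * (![x0, x1, x2] : V3) i ≤ w i := by
    intro i
    fin_cases i
    · exact hx0
    · exact hx1
    · exact hx2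
  have hsub : ∀ z, z0 ≤ z → z ≤ z0 + ρ → ∀ y, InK e T0 (dbl3 ![x0, x1, x2]) z y →
      InK e c (dbl3 w) z y := fun z hz hz' y hy => box_sub S hT0 hx hz hz' (fun i => hy i)
  refine ⟨S.ortho, S.isQ, h0, h02, h21, S.r0_le, ?_, ?_, ?_⟩
  · intro z hz hz' x τ hτ k1 k2
    exact S.st0 z hz hz' x τ hτ (hsub z hz hz' _ k1) (hsub z hz hz' _ k2)
  · intro z hz hz' x τ hτ k1 k2
    refine (S.sl1 z hz hz' x τ hτ (hsub z hz hz' _ k1) (hsub z hz hz' _ k2)).trans ?_
    refine mul_le_mul_of_nonneg_right ?_ hτ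
    change w 0 / w 1 ≤ x0 / x1
    rw [div_le_div_iff₀ w1 p1]; exact hs1
  · intro z hz hz' x τ hτ k1 k2
    refine (S.sl2 z hz hz' x τ hτ (hsub z hz hz' _ k1) (hsub z hz hz' _ k2)).trans ?_
    refine mul_le_mul_of_nonneg_right ?_ hτ
    change w 0 / w 2 ≤ x0 / x2
    rw [div_le_div_iff₀ w2 p2]; exact hs2

/-- swapped frame -/
theorem ortho_swap (he : Ortho e) : Ortho ![e 0, e 2, e 1] := by
  have g00 : dt (e 0) (e 0) = 1 := by simpa using he 0 0
  have g11 : dt (e 1) (e 1) = 1 := by simpa using he 1 1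
  have g22 : dt (e 2) (e 2) = 1 := by simpa using he 2 2
  have g01 : dt (e 0) (e 1) = 0 := by simpa using he 0 1
  have g02 : dt (e 0) (e 2) = 0 := by simpa using he 0 2
  have g10 : dt (e 1) (e 0) = 0 := by simpa using he 1 0
  have g12 : dt (e 1) (e 2) = 0 := by simpa using he 1 2
  have g20 : dt (e 2) (e 0) = 0 := by simpa using he 2 0
  have g21 : dt (e 2) (e 1) = 0 := by simpa using he 2 1
  intro i j
  fin_cases i <;> fin_cases j <;> simp [g00, g11, g22, g01, g02, g10, g12, g20, g21]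

/-- **sub-box around `T0`**, axes swapped: `e 2` is the wide direction -/
theorem shN_sub' (S : ShN e c w Q a z0 ρ r) {T0 : Ln4} (hT0 : InSheet T0 e c w Q a z0 ρ)
    {x0 x1 x2 : ℝ} (hx0 : 2 * x0 ≤ w 0) (hx1 : 2 * x1 ≤ w 1) (hx2 : 2 * x2 ≤ w 2) (ha : 0 < a)
    (h0 : a ≤ x0) (h01 : x0 ≤ x1) (h12 : x1 ≤ x2) (hs1 : w 0 * x1 ≤ x0 * w 1)
    (hs2 : w 0 * x2 ≤ x0 * w 2) : ShN ![e 0, e 2, e 1] T0 ![x0, x2, x1] Q a z0 ρ r := by
  have p0 : 0 < x0 := ha.trans_le h0
  have p1 : 0 < x1 := p0.trans_le h01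
  have p2 : 0 < x2 := p1.trans_le h12
  have w1 : 0 < w 1 := by linarith
  have w2 : 0 < w 2 := by linarith
  have hx : ∀ i, 2 * (![x0, x1, x2] : V3) i ≤ w i := by
    intro i
    fin_cases i
    · exact hx0
    · exact hx1
    · exact hx2
  have hsub : ∀ z, z0 ≤ z → z ≤ z0 + ρ → ∀ y, InK ![e 0, e 2, e 1] T0 (dbl3 ![x0, x2, x1]) z y →
      InK e c (dbl3 w) z y := fun z hz hz' y hy => box_sub S hT0 hx hz hz' (fun i => by
        fin_cases i
        · exact hy 0
        · exact hy 2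
        · exact hy 1)
  refine ⟨ortho_swap S.ortho, S.isQ, h0, h01, h12, S.r0_le, ?_, ?_, ?_⟩
  · intro z hz hz' x τ hτ k1 k2
    exact S.st0 z hz hz' x τ hτ (hsub z hz hz' _ k1) (hsub z hz hz' _ k2)
  · intro z hz hz' x τ hτ k1 k2
    refine (S.sl2 z hz hz' x τ hτ (hsub z hz hz' _ k1) (hsub z hz hz' _ k2)).trans ?_
    refine mul_le_mul_of_nonneg_right ?_ hτ
    change w 0 / w 2 ≤ x0 / x2
    rw [div_le_div_iff₀ w2 p2]; exact hs2
  · intro z hz hz' x τ hτ k1 k2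
    refine (S.sl1 z hz hz' x τ hτ (hsub z hz hz' _ k1) (hsub z hz hz' _ k2)).trans ?_
    refine mul_le_mul_of_nonneg_right ?_ hτ
    change w 0 / w 1 ≤ x0 / x1
    rw [div_le_div_iff₀ w1 p1]; exact hs1

/-! ### tubes -/

/-- centre of the narrowed box: wide coordinate of `T`, the others of `c` -/
def ctT (e : Fin 3 → V3) (c T : Ln4) : Ln4 where
  p := fun i => c.p i + dt (e 1) (T.p - c.p) * e 1 i
  v := fun i => c.v i + dt (e 1) (T.v - c.v) * e 1 i

theorem ctT_pos (e : Fin 3 → V3) (c T : Ln4) (z : ℝ) :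
    (ctT e c T).pos z = c.pos z + dt (e 1) (T.pos z - c.pos z) • e 1 := by
  funext i
  simp only [ctT, Ln4.pos, dt, Pi.add_apply, Pi.sub_apply, Pi.smul_apply, smul_eq_mul]; ring

theorem ctT_dt (he : Ortho e) (c T : Ln4) (z : ℝ) (x : V3) :
    dt (e 0) (x - (ctT e c T).pos z) = dt (e 0) (x - c.pos z) ∧
    dt (e 1) (x - (ctT e c T).pos z) = dt (e 1) (x - T.pos z) ∧
    dt (e 2) (x - (ctT e c T).pos z) = dt (e 2) (x - c.pos z) := by
  have g11 : dt (e 1) (e 1) = 1 := by simpa using he 1 1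
  have g01 : dt (e 0) (e 1) = 0 := by simpa using he 0 1
  have g21 : dt (e 2) (e 1) = 0 := by simpa using he 2 1
  have cpos : ∀ (i : Fin 3), dt (e i) (x - (ctT e c T).pos z) =
      dt (e i) (x - c.pos z) - dt (e 1) (T.pos z - c.pos z) * dt (e i) (e 1) := by
    intro i
    rw [ctT_pos]
    simp only [dt_sub, dt_add, dt_smul]; ring
  refine ⟨?_, ?_, ?_⟩
  · rw [cpos, g01, mul_zero, sub_zero]
  · rw [cpos, g11, mul_one, ← dt_sub]
    congr 1
    abel
  · rw [cpos, g21, mul_zero, sub_zero]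

/-- **tube in a sheet**: same frame, `q`, thickness, `w 0`, `w 2`; wide half-width `x` -/
theorem shN_tube (S : ShN e c w Q a z0 ρ r) {T0 : Ln4} (hT0 : InSheet T0 e c w Q a z0 ρ)
    {x : ℝ} (hx : 2 * x ≤ w 1) (hx2 : w 2 ≤ x) (ha : 0 < a) :
    ShN e (ctT e c T0) ![w 0, x, w 2] Q a z0 ρ r := by
  have hw0 : 0 < w 0 := ha.trans_le S.a_le0
  have hw2 : 0 < w 2 := hw0.trans_le S.w0_le
  have p1 : 0 < x := hw2.trans_le hx2
  have hbox : ∀ z, z0 ≤ z → z ≤ z0 + ρ → ∀ y,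
      InK e (ctT e c T0) (dbl3 ![w 0, x, w 2]) z y → InK e c (dbl3 w) z y := by
    intro z hz hz' y hy i
    obtain ⟨d0, d1, d2⟩ := ctT_dt S.ortho c T0 z y
    fin_cases i
    · have := hy 0
      rw [d0] at this; exact this
    · have h1 := hy 1
      rw [d1] at h1
      change |dt (e 1) (y - T0.pos z)| ≤ 2 * x at h1
      have h2 := (hT0 z hz hz').1 1
      have e1 : dt (e 1) (y - c.pos z) = dt (e 1) (y - T0.pos z) + dt (e 1) (T0.pos z - c.pos z) := by
        simp only [dt_sub]; ring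
      change |dt (e 1) (y - c.pos z)| ≤ 2 * w 1
      rw [e1]
      refine (abs_add_le _ _).trans ?_
      linarith
    · have := hy 2
      rw [d2] at this; exact this
  refine ⟨S.ortho, S.isQ, S.a_le0, S.w0_le, hx2, S.r0_le, ?_, ?_, ?_⟩
  · intro z hz hz' x τ hτ k1 k2
    exact S.st0 z hz hz' x τ hτ (hbox z hz hz' _ k1) (hbox z hz hz' _ k2)
  · intro z hz hz' y τ hτ k1 k2
    refine (S.sl1 z hz hz' y τ hτ (hbox z hz hz' _ k1) (hbox z hz hz' _ k2)).trans ?_
    refine mul_le_mul_of_nonneg_right ?_ hτ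
    change w 0 / w 1 ≤ w 0 / x
    exact div_le_div_of_nonneg_left hw0.le p1 (by linarith)
  · intro z hz hz' x τ hτ k1 k2
    exact S.sl2 z hz hz' x τ hτ (hbox z hz hz' _ k1) (hbox z hz hz' _ k2)

variable {ι : Type*} {P : Finset ι} {L : ι → Ln4} {Rg : ℝ → ℝ → ℝ → Prop}
  {cap : ℝ → ℝ → ℝ → ℝ}

open Classical in
/-- **tube count** (any sheet): lines of `S` within `x` of `T0` in the wide direction -/
theorem tube_count (hd : DMx P L z0 ρ r Rg cap) (S : ShN e c w Q a z0 ρ r) {T0 : Ln4}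
    (hT0 : InSheet T0 e c w Q a z0 ρ) {x : ℝ} (hx : 2 * x ≤ w 1) (hx2 : w 2 ≤ x) (ha : 0 < a)
    (hR : Rg a x (w 2)) (F : Finset ι) (hF : F ⊆ P)
    (hb : ∀ t ∈ F, InSheet (L t) e c w Q a z0 ρ ∧ ∀ z, z0 ≤ z → z ≤ z0 + ρ →
      |dt (e 1) ((L t).pos z - T0.pos z)| ≤ x) :
    (F.card : ℝ) ≤ cap a x (w 2) := by
  have h3 := hd _ _ _ _ _ (shN_tube S hT0 hx hx2 ha) hR
  refine le_trans ?_ h3
  have h4 : F ⊆ P.filter fun t => InSheet (L t) e (ctT e c T0) ![w 0, x, w 2] Q a z0 ρ := by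
    intro t ht
    rw [mem_filter]
    refine ⟨hF ht, fun z hz hz' => ?_⟩
    obtain ⟨h5, h6⟩ := hb t ht
    obtain ⟨hk, hq⟩ := h5 z hz hz'
    obtain ⟨d0, d1, d2⟩ := ctT_dt S.ortho c T0 z ((L t).pos z)
    refine ⟨fun i => ?_, hq⟩
    fin_cases i
    · change |dt (e 0) ((L t).pos z - (ctT e c T0).pos z)| ≤ w 0
      rw [d0]; exact hk 0
    · change |dt (e 1) ((L t).pos z - (ctT e c T0).pos z)| ≤ x
      rw [d1]; exact h6 z hz hz'
    · change |dt (e 2) ((L t).pos z - (ctT e c T0).pos z)| ≤ w 2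
      rw [d2]; exact hk 2
  exact_mod_cast card_le_card h4

open Classical in
/-- **sub-box count** (curved sheet, same frame): lines of `S` within `x1`, `x2` of `T0` in the base
directions; order of `x1, x2` free (`max`, `min`), `w0 x1 / w1`, `w0 x2 / w2`, `a` at most the narrow
side -/
theorem sub_count (hd : DMx P L z0 ρ r Rg cap) (S : ShN e c w Q a z0 ρ r) {T0 : Ln4}
    (hT0 : InSheet T0 e c w Q a z0 ρ) {x1 x2 : ℝ} (ha : 0 < a) (h1 : 0 < x1) (h2 : 0 < x2)
    {m : ℝ} (hm1 : w 0 * x1 ≤ m * w 1) (hm2 : w 0 * x2 ≤ m * w 2) (ham : a ≤ m)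
    (hmn : m ≤ min x1 x2) (hw0 : 16 * m ≤ w 0) (hw1 : 16 * x1 ≤ w 1) (hw2 : 16 * x2 ≤ w 2)
    (hR : Rg a (8 * max x1 x2) (8 * min x1 x2)) (F : Finset ι) (hF : F ⊆ P)
    (hb : ∀ t ∈ F, InSheet (L t) e c w Q a z0 ρ ∧ ∀ z, z0 ≤ z → z ≤ z0 + ρ →
      |dt (e 1) ((L t).pos z - T0.pos z)| ≤ x1 ∧ |dt (e 2) ((L t).pos z - T0.pos z)| ≤ x2) :
    (F.card : ℝ) ≤ cap a (8 * max x1 x2) (8 * min x1 x2) := by
  have hm0 : 0 < m := ha.trans_le ham
  have hmx1 : m ≤ x1 := hmn.trans (min_le_left _ _)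
  have hmx2 : m ≤ x2 := hmn.trans (min_le_right _ _)
  have p0 : 0 < w 0 := by linarith
  have p1 : 0 < w 1 := by linarith
  have p2 : 0 < w 2 := by linarith
  have hn : ∀ t ∈ F, ∀ z, z0 ≤ z → z ≤ z0 + ρ →
      |dt (e 0) ((L t).pos z - T0.pos z)| ≤ 8 * m := by
    intro t ht z hz hz'
    obtain ⟨h5, h6⟩ := hb t ht
    obtain ⟨b1, b2⟩ := h6 z hz hz'
    have h7 := normal_le S ha h5 hT0 hz hz'
    have g1 : w 0 / w 1 * |dt (e 1) ((L t).pos z - T0.pos z)| ≤ m := by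
      calc w 0 / w 1 * |dt (e 1) ((L t).pos z - T0.pos z)| ≤ w 0 / w 1 * x1 := by gcongr
        _ = w 0 * x1 / w 1 := by ring
        _ ≤ m := by rw [div_le_iff₀ p1]; exact hm1
    have g2 : w 0 / w 2 * |dt (e 2) ((L t).pos z - T0.pos z)| ≤ m := by
      calc w 0 / w 2 * |dt (e 2) ((L t).pos z - T0.pos z)| ≤ w 0 / w 2 * x2 := by gcongr
        _ = w 0 * x2 / w 2 := by ring
        _ ≤ m := by rw [div_le_iff₀ p2]; exact hm2
    linarith
  have i1 : w 0 * (8 * x1) ≤ 8 * m * w 1 := by linarith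
  have i2 : w 0 * (8 * x2) ≤ 8 * m * w 2 := by linarith
  rcases le_total x2 x1 with h21 | h12
  · rw [max_eq_left h21, min_eq_right h21] at hR ⊢
    have h3 := hd _ _ _ _ _ (shN_sub S hT0 (x0 := 8 * m) (x1 := 8 * x1) (x2 := 8 * x2)
      (by linarith) (by linarith) (by linarith) ha (by linarith) (by linarith) (by linarith)
      i1 i2) hR
    refine le_trans ?_ h3
    have h4 : F ⊆ P.filter fun t => InSheet (L t) e T0 ![8 * m, 8 * x1, 8 * x2] Q a z0 ρ := by
      intro t ht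
      rw [mem_filter]
      refine ⟨hF ht, fun z hz hz' => ?_⟩
      obtain ⟨h5, h6⟩ := hb t ht
      obtain ⟨b1, b2⟩ := h6 z hz hz'
      refine ⟨fun i => ?_, (h5 z hz hz').2⟩
      fin_cases i
      · exact hn t ht z hz hz'
      · change |dt (e 1) ((L t).pos z - T0.pos z)| ≤ 8 * x1
        linarith
      · change |dt (e 2) ((L t).pos z - T0.pos z)| ≤ 8 * x2
        linarith
    exact_mod_cast card_le_card h4
  · rw [max_eq_right h12, min_eq_left h12] at hR ⊢
    have h3 := hd _ _ _ _ _ (shN_sub' S hT0 (x0 := 8 * m) (x1 := 8 * x1) (x2 := 8 * x2)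
      (by linarith) (by linarith) (by linarith) ha (by linarith) (by linarith) (by linarith)
      i1 i2) hR
    refine le_trans ?_ h3
    have h4 : F ⊆ P.filter fun t =>
        InSheet (L t) ![e 0, e 2, e 1] T0 ![8 * m, 8 * x2, 8 * x1] Q a z0 ρ := by
      intro t ht
      rw [mem_filter]
      refine ⟨hF ht, fun z hz hz' => ?_⟩
      obtain ⟨h5, h6⟩ := hb t ht
      obtain ⟨b1, b2⟩ := h6 z hz hz'
      refine ⟨fun i => ?_, (h5 z hz hz').2⟩
      fin_cases i
      · exact hn t ht z hz hz'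
      · change |dt (e 2) ((L t).pos z - T0.pos z)| ≤ 8 * x2
        linarith
      · change |dt (e 1) ((L t).pos z - T0.pos z)| ≤ 8 * x1
        linarith
    exact_mod_cast card_le_card h4

end

end Crest.Agent.R136.Pl7186
end

-- ▼ part R136/Pl7c_186

/-!
# R136 (S0187), g-free tilt (PLAN 2), leaf (L7): capacities of thin planks (helper186)

* `ph_sub` : `ph` is submultiplicative;
* `thin_cap` : `phC` of a sorted box of volume `t u`, length `t`, thickness at least `1`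
  (in units of the mark) is at most `C t^(1 + qm 1) u^(1 + qm 2)`;
* `strip_share` : lines in the strip `|A| ≤ t w1` and in the thin plank `|p1 A + p2 B| ≤ a`.
-/

set_option autoImplicit false
set_option linter.unusedVariables false
set_option linter.unusedSectionVars false

namespace Crest.Agent.R136.Pl7186

open Finset
open Crest.Agent.R136.Sh605
open Crest.Agent.R136.HR829 (crs dt_nonneg cs cs1 parseval)
open Crest.Agent.R136.Phc248

theorem ph_sub {m p r s : ℝ} (hm : 0 ≤ m) (hmp : m ≤ p) (hr : 0 ≤ r) (hs : 0 ≤ s) :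
    ph m p (r * s) ≤ ph m p r * ph m p s := by
  have hp : 0 ≤ p := hm.trans hmp
  rcases le_total 1 r with h1 | h1
  · rw [ph_ge_one hmp h1]; exact ph_mul hm hmp hs h1
  · rcases le_total 1 s with h2 | h2
    · rw [mul_comm, ph_ge_one hmp h2, mul_comm (ph m p r)]; exact ph_mul hm hmp hr h2
    · rw [ph_le_one hm hmp hr h1, ph_le_one hm hmp hs h2,
        ph_le_one hm hmp (mul_nonneg hr hs) (mul_le_one₀ h1 hs h2), Real.mul_rpow hr hs]

/-- `ph` of a number at most `C` -/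
theorem ph_le_C {m p x C : ℝ} (hm : 0 ≤ m) (hmp : m ≤ p) (hC : 1 ≤ C) (hx : 0 ≤ x) (hxC : x ≤ C) :
    ph m p x ≤ C ^ (1 + p) * (x / C) ^ (1 + m) := by
  have c0 : 0 < C := by linarith
  have h1 : x / C ≤ 1 := (div_le_one c0).2 hxC
  have h2 := ph_mul (m := m) (p := p) (r := x / C) hm hmp (by positivity) hC
  rw [mul_div_cancel₀ _ c0.ne', ph_le_one hm hmp (by positivity) h1] at h2
  exact h2

/-- **capacity of a thin plank** -/
theorem thin_cap {qm qp : Fin 3 → ℝ} (hm : ∀ k, 0 ≤ qm k) (hmp : ∀ k, qm k ≤ qp k)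
    (h21 : qm 2 ≤ qm 1) (h02 : qp 0 ≤ qm 2) {a w1 w2 α β1 β2 t u C : ℝ} (hC : 1 ≤ C)
    (ha : 0 < a) (h1 : 0 < w1) (h2 : 0 < w2) (hα : 0 < α) (hβ1 : 0 < β1) (hβ2 : 0 < β2)
    (ht : 0 < t) (hu : 0 < u) (ht1 : t ≤ 1) (hκ : a ≤ C * α) (hb1 : β1 ≤ C * (t * w1))
    (hb2 : β2 ≤ C * w2) (hV : α * β2 * β1 ≤ C * (t * u * (a * w1 * w2))) :
    phC qm qp a w1 w2 α β1 β2 ≤
      C ^ (1 + qp 1) * C ^ (1 + qp 2) * (t ^ (1 + qm 1) * u ^ (1 + qm 2)) := by
  have c0 : 0 < C := by linarith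
  set z := α / a with hz
  set x := β1 / (t * w1) with hx
  set y := β2 / w2 with hy
  have z0 : 0 < z := by positivity
  have x0 : 0 < x := by positivity
  have y0 : 0 < y := by positivity
  have hCz : 1 ≤ C * z := by
    rw [hz, ← mul_div_assoc, le_div_iff₀ ha, one_mul]; exact hκ
  have hxC : x ≤ C := by
    rw [hx, div_le_iff₀ (by positivity)]; exact hb1
  have hyC : y ≤ C := by
    rw [hy, div_le_iff₀ h2]; exact hb2
  have hxyz : x * y * z ≤ C * u := by
    rw [hx, hy, hz, div_mul_div_comm, div_mul_div_comm, div_le_iff₀ (by positivity)]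
    calc β1 * β2 * α = α * β2 * β1 := by ring
      _ ≤ C * (t * u * (a * w1 * w2)) := hV
      _ = C * u * (t * w1 * w2 * a) := by ring
  have e1 : β1 / w1 = t * x := by rw [hx]; field_simp
  -- the three factors
  have f0 : ph (qm 0) (qp 0) z ≤ (C * z) ^ (1 + qp 0) := by
    rw [← ph_ge_one (m := qm 0) (hmp 0) hCz]
    exact ph_mono (hm 0) ((hm 0).trans (hmp 0)) z0.le (le_mul_of_one_le_left z0.le hC)
  have f1 : ph (qm 1) (qp 1) (t * x) ≤ t ^ (1 + qm 1) * (C ^ (1 + qp 1) * (x / C) ^ (1 + qm 1)) := by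
    refine (ph_sub (hm 1) (hmp 1) ht.le x0.le).trans ?_
    rw [ph_le_one (hm 1) (hmp 1) ht.le ht1]
    exact mul_le_mul_of_nonneg_left (ph_le_C (hm 1) (hmp 1) hC x0.le hxC) (by positivity)
  have f2 : ph (qm 2) (qp 2) y ≤ C ^ (1 + qp 2) * (y / C) ^ (1 + qm 2) :=
    ph_le_C (hm 2) (hmp 2) hC y0.le hyC
  have f1' : (x / C) ^ (1 + qm 1) ≤ (x / C) ^ (1 + qm 2) :=
    Real.rpow_le_rpow_of_exponent_ge (by positivity) ((div_le_one c0).2 hxC) (by linarith)
  -- end
  have hCz0 : 0 < C * z := by positivity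
  have key : (C * z) ^ (1 + qp 0) * ((x / C) ^ (1 + qm 2) * (y / C) ^ (1 + qm 2)) ≤
      u ^ (1 + qm 2) := by
    rw [← Real.mul_rpow (by positivity) (by positivity)]
    have g1 : x / C * (y / C) ≤ u / (C * z) := by
      rw [div_mul_div_comm, div_le_div_iff₀ (by positivity) (by positivity)]
      calc x * y * (C * z) = C * (x * y * z) := by ring
        _ ≤ C * (C * u) := mul_le_mul_of_nonneg_left hxyz c0.le
        _ = u * (C * C) := by ring
    have g2 : (x / C * (y / C)) ^ (1 + qm 2) ≤ (u / (C * z)) ^ (1 + qm 2) :=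
      Real.rpow_le_rpow (by positivity) g1 (by linarith [hm 2])
    have g3 : (C * z) ^ (1 + qp 0) ≤ (C * z) ^ (1 + qm 2) :=
      Real.rpow_le_rpow_of_exponent_le hCz (by linarith)
    calc (C * z) ^ (1 + qp 0) * (x / C * (y / C)) ^ (1 + qm 2) ≤
        (C * z) ^ (1 + qm 2) * (u / (C * z)) ^ (1 + qm 2) := by gcongr
      _ = u ^ (1 + qm 2) := by
          rw [← Real.mul_rpow hCz0.le (by positivity), mul_div_cancel₀ _ hCz0.ne']
  unfold phC
  rw [← hz, e1, ← hy]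
  have p0 := ph_nonneg (m := qm 0) (p := qp 0) z0.le
  have p1 := ph_nonneg (m := qm 1) (p := qp 1) (mul_pos ht x0).le
  have p2 := ph_nonneg (m := qm 2) (p := qp 2) y0.le
  calc ph (qm 0) (qp 0) z * ph (qm 1) (qp 1) (t * x) * ph (qm 2) (qp 2) y ≤
      (C * z) ^ (1 + qp 0) * (t ^ (1 + qm 1) * (C ^ (1 + qp 1) * (x / C) ^ (1 + qm 2))) *
        (C ^ (1 + qp 2) * (y / C) ^ (1 + qm 2)) := by
        refine mul_le_mul (mul_le_mul f0 (f1.trans ?_) p1 (by positivity)) f2 p2 (by positivity)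
        gcongr
    _ = C ^ (1 + qp 1) * C ^ (1 + qp 2) * (t ^ (1 + qm 1) *
        ((C * z) ^ (1 + qp 0) * ((x / C) ^ (1 + qm 2) * (y / C) ^ (1 + qm 2)))) := by ring
    _ ≤ C ^ (1 + qp 1) * C ^ (1 + qp 2) * (t ^ (1 + qm 1) * u ^ (1 + qm 2)) := by
        have : 0 ≤ C ^ (1 + qp 1) * C ^ (1 + qp 2) := by positivity
        refine mul_le_mul_of_nonneg_left ?_ this
        exact mul_le_mul_of_nonneg_left key (by positivity)

section

variable {ι : Type*} {P : Finset ι} {L : ι → Ln4} {z0 ρ r R D a w1 w2 : ℝ} {qm qp : Fin 3 → ℝ}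

/-- the determinant of three rows given in an orthonormal frame -/
theorem det_rows (e : Fin 3 → V3) (A : Fin 3 → V3) :
    dt (crs (A 0 0 • e 0 + A 0 1 • e 1 + A 0 2 • e 2) (A 1 0 • e 0 + A 1 1 • e 1 + A 1 2 • e 2))
      (A 2 0 • e 0 + A 2 1 • e 1 + A 2 2 • e 2) =
      dt (crs (A 0) (A 1)) (A 2) * dt (crs (e 0) (e 1)) (e 2) := by
  simp only [dt, crs, Pi.add_apply, Pi.smul_apply, smul_eq_mul, Matrix.cons_val_zero,
    Matrix.cons_val_one, Matrix.cons_val]
  ring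

theorem det_sq1 {e : Fin 3 → V3} (he : Ortho e) : (dt (crs (e 0) (e 1)) (e 2)) ^ 2 = 1 := by
  have h00 : dt (e 0) (e 0) = 1 := by simpa using he 0 0
  have h11 : dt (e 1) (e 1) = 1 := by simpa using he 1 1
  have h01 : dt (e 0) (e 1) = 0 := by simpa using he 0 1
  have h1 : dt (crs (e 0) (e 1)) (crs (e 0) (e 1)) =
      dt (e 0) (e 0) * dt (e 1) (e 1) - (dt (e 0) (e 1)) ^ 2 := by
    simp only [dt, crs, Matrix.cons_val_zero, Matrix.cons_val_one, Matrix.cons_val]; ring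
  rw [h00, h11, h01] at h1
  have h2 := parseval he (crs (e 0) (e 1))
  have h3 : dt (e 0) (crs (e 0) (e 1)) = 0 := by
    simp only [dt, crs, Matrix.cons_val_zero, Matrix.cons_val_one, Matrix.cons_val]; ring
  have h4 : dt (e 1) (crs (e 0) (e 1)) = 0 := by
    simp only [dt, crs, Matrix.cons_val_zero, Matrix.cons_val_one, Matrix.cons_val]; ring
  rw [h1, h3, h4, dt_comm (e 2)] at h2
  linarith

theorem det_abs1 {e : Fin 3 → V3} (he : Ortho e) : |dt (crs (e 0) (e 1)) (e 2)| = 1 := by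
  have h := det_sq1 he
  rw [← sq_abs] at h
  exact (pow_eq_one_iff_of_nonneg (abs_nonneg _) two_ne_zero).1 h

/-- `A • e` for a row `A` of coefficients -/
def rw3 (e : Fin 3 → V3) (A : V3) : V3 := A 0 • e 0 + A 1 • e 1 + A 2 • e 2

theorem rw3_dt (e : Fin 3 → V3) (A δ : V3) :
    dt (rw3 e A) δ = A 0 * dt (e 0) δ + A 1 * dt (e 1) δ + A 2 * dt (e 2) δ := by
  unfold rw3
  simp only [add_dt, smul_dt]

theorem rw3_self {e : Fin 3 → V3} (he : Ortho e) (A : V3) :
    dt (rw3 e A) (rw3 e A) = A 0 ^ 2 + A 1 ^ 2 + A 2 ^ 2 := by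
  have g00 : dt (e 0) (e 0) = 1 := by simpa using he 0 0
  have g11 : dt (e 1) (e 1) = 1 := by simpa using he 1 1
  have g22 : dt (e 2) (e 2) = 1 := by simpa using he 2 2
  have g01 : dt (e 0) (e 1) = 0 := by simpa using he 0 1
  have g02 : dt (e 0) (e 2) = 0 := by simpa using he 0 2
  have g10 : dt (e 1) (e 0) = 0 := by simpa using he 1 0
  have g12 : dt (e 1) (e 2) = 0 := by simpa using he 1 2
  have g20 : dt (e 2) (e 0) = 0 := by simpa using he 2 0
  have g21 : dt (e 2) (e 1) = 0 := by simpa using he 2 1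
  rw [rw3_dt]
  unfold rw3
  simp only [dt_add, dt_smul, g00, g01, g02, g10, g11, g12, g20, g21, g22]
  ring


end

end Crest.Agent.R136.Pl7186
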