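import Crest.Agent.R136.Qd8_329

-- ▼ part R136/Qd9_329
section

/-!
# R136: the bilinear rigidity (helper329), part 9: the slot `P` at one height

`ARel` = the relation in absolute form; `grid_phi` : the remainder of `Φ` is constant on a dense
part; `phi_one` : the same over an `RUnif`.
-/

set_option autoImplicit false

open Filter Topology

namespace Crest.Agent.R136.Qd329

open Finset
open Crest.Agent.R138.Ex926 (Base U)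
open Crest.Agent.R136.Gf356

/-- the relation, absolute form: slopes `l1 l2 m1 m2`, constants `s0 β0 ζ0 Z0` -/
structure ARel (κ l1 l2 m1 m2 s0 β0 ζ0 Z0 e a b c s β ζ Z : ℝ) : Prop where
  rs : |s - (l1 * b + l2 * a + s0)| ≤ e
  rβ : |β - (m1 * b + m2 * a + β0)| ≤ e
  rζ : |ζ - (l1 * c - κ * m1 * c ^ 2 + ζ0)| ≤ e
  rZ : |Z - (l2 * c - κ * m2 * c ^ 2 + Z0)| ≤ e

/-- the part of `Φ` given by the relation -/
def phiR (κ l1 l2 m1 m2 s0 β0 ζ0 Z0 a b c : ℝ) : ℝ :=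
  c * (l1 * b + l2 * a + s0) - κ * c ^ 2 * (m1 * b + m2 * a + β0) + ζ0 * b + Z0 * a

section

variable {α : Type*} {L : Finset α} {pc vc : α → ℕ} {a b c s β ζ Z Φ : α → ℝ} {κ M δ : ℝ}

/-- the remainder of `Φ` on position cells -/
theorem phi_p (G : Grid L pc vc a b c s β ζ Z Φ κ M δ) {l1 l2 m1 m2 s0 β0 ζ0 Z0 e Λ : ℝ}
    (he : 0 ≤ e) (hζ : |ζ0| ≤ Λ) (hZ : |Z0| ≤ Λ) {l l' : α} (hl : l ∈ L) (hl' : l' ∈ L)
    (hpc : pc l = pc l')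
    (r : ARel κ l1 l2 m1 m2 s0 β0 ζ0 Z0 e (a l) (b l) (c l) (s l) (β l) (ζ l) (Z l))
    (r' : ARel κ l1 l2 m1 m2 s0 β0 ζ0 Z0 e (a l') (b l') (c l') (s l') (β l') (ζ l') (Z l')) :
    |(Φ l - phiR κ l1 l2 m1 m2 s0 β0 ζ0 Z0 (a l) (b l) (c l)) -
      (Φ l' - phiR κ l1 l2 m1 m2 s0 β0 ζ0 Z0 (a l') (b l') (c l'))| ≤
      δ + 4 * M ^ 2 * e + 2 * Λ * δ := by
  have hM := G.M1
  have hδ := G.δ0
  have hΛ : 0 ≤ Λ := (abs_nonneg _).trans hζ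
  obtain ⟨-, -, c1, -⟩ := G.bd l hl
  obtain ⟨-, -, c2, -⟩ := G.bd l' hl'
  obtain ⟨pa, pb, -, -⟩ := G.pcl l hl l' hl' hpc
  have p := G.pP l hl l' hl' hpc
  have key : ∀ k : α, |c k| ≤ M →
      ARel κ l1 l2 m1 m2 s0 β0 ζ0 Z0 e (a k) (b k) (c k) (s k) (β k) (ζ k) (Z k) →
      |c k * (s k - (l1 * b k + l2 * a k + s0)) -
        κ * c k ^ 2 * (β k - (m1 * b k + m2 * a k + β0))| ≤ 2 * M ^ 2 * e := by
    intro k hk rk
    have h1 : |c k * (s k - (l1 * b k + l2 * a k + s0))| ≤ M * e := by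
      rw [abs_mul]; exact mul_le_mul hk rk.rs (abs_nonneg _) (by linarith)
    have h3 : |κ * c k ^ 2| ≤ M ^ 2 := by
      rw [abs_mul, abs_pow]
      calc |κ| * |c k| ^ 2 ≤ 1 * M ^ 2 :=
            mul_le_mul G.κ1 (pow_le_pow_left₀ (abs_nonneg _) hk 2) (by positivity) zero_le_one
        _ = _ := one_mul _
    have h2 : |κ * c k ^ 2 * (β k - (m1 * b k + m2 * a k + β0))| ≤ M ^ 2 * e := by
      rw [abs_mul]; exact mul_le_mul h3 rk.rβ (abs_nonneg _) (by positivity)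
    have h4 : M * e ≤ M ^ 2 * e := mul_le_mul_of_nonneg_right (by nlinarith) he
    refine (abs_sub _ _).trans ?_
    linarith
  have k1 := key l c1 r
  have k2 := key l' c2 r'
  have h5 : |ζ0 * (b l - b l')| ≤ Λ * δ := by
    rw [abs_mul]; exact mul_le_mul hζ pb (abs_nonneg _) hΛ
  have h6 : |Z0 * (a l - a l')| ≤ Λ * δ := by
    rw [abs_mul]; exact mul_le_mul hZ pa (abs_nonneg _) hΛ
  have e1 : (Φ l - phiR κ l1 l2 m1 m2 s0 β0 ζ0 Z0 (a l) (b l) (c l)) -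
      (Φ l' - phiR κ l1 l2 m1 m2 s0 β0 ζ0 Z0 (a l') (b l') (c l')) =
      ((Φ l - c l * s l + κ * c l ^ 2 * β l) - (Φ l' - c l' * s l' + κ * c l' ^ 2 * β l')) +
      (c l * (s l - (l1 * b l + l2 * a l + s0)) -
        κ * c l ^ 2 * (β l - (m1 * b l + m2 * a l + β0))) -
      (c l' * (s l' - (l1 * b l' + l2 * a l' + s0)) -
        κ * c l' ^ 2 * (β l' - (m1 * b l' + m2 * a l' + β0))) -
      ζ0 * (b l - b l') - Z0 * (a l - a l') := by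
    unfold phiR; ring
  rw [e1]
  have tri : ∀ p1 p2 p3 p4 p5 : ℝ, |p1 + p2 - p3 - p4 - p5| ≤
      |p1| + |p2| + |p3| + |p4| + |p5| := by
    intro p1 p2 p3 p4 p5
    have := abs_sub (p1 + p2 - p3 - p4) p5
    have := abs_sub (p1 + p2 - p3) p4
    have := abs_sub (p1 + p2) p3
    have := abs_add_le p1 p2
    linarith
  refine (tri _ _ _ _ _).trans ?_
  linarith

/-- the remainder of `Φ` on velocity cells -/
theorem phi_v (G : Grid L pc vc a b c s β ζ Z Φ κ M δ) {l1 l2 m1 m2 s0 β0 ζ0 Z0 e Λ : ℝ}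
    (hs : |s0| ≤ Λ) (hβ : |β0| ≤ Λ) {l l' : α} (hl : l ∈ L) (hl' : l' ∈ L) (hvc : vc l = vc l')
    (r : ARel κ l1 l2 m1 m2 s0 β0 ζ0 Z0 e (a l) (b l) (c l) (s l) (β l) (ζ l) (Z l))
    (r' : ARel κ l1 l2 m1 m2 s0 β0 ζ0 Z0 e (a l') (b l') (c l') (s l') (β l') (ζ l') (Z l')) :
    |(Φ l - phiR κ l1 l2 m1 m2 s0 β0 ζ0 Z0 (a l) (b l) (c l)) -
      (Φ l' - phiR κ l1 l2 m1 m2 s0 β0 ζ0 Z0 (a l') (b l') (c l'))| ≤
      δ + 4 * M * e + 3 * M * Λ * δ := by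
  have hM := G.M1
  have hδ := G.δ0
  have hΛ : 0 ≤ Λ := (abs_nonneg _).trans hs
  obtain ⟨a1, b1, c1, -⟩ := G.bd l hl
  obtain ⟨a2, b2, c2, -⟩ := G.bd l' hl'
  obtain ⟨vcc, -, -⟩ := G.vcl l hl l' hl' hvc
  have p := G.vP l hl l' hl' hvc
  have key : ∀ k : α, |a k| ≤ M → |b k| ≤ M →
      ARel κ l1 l2 m1 m2 s0 β0 ζ0 Z0 e (a k) (b k) (c k) (s k) (β k) (ζ k) (Z k) →
      |b k * (ζ k - (l1 * c k - κ * m1 * c k ^ 2 + ζ0)) +
        a k * (Z k - (l2 * c k - κ * m2 * c k ^ 2 + Z0))| ≤ 2 * M * e := by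
    intro k hak hbk rk
    have h1 : |b k * (ζ k - (l1 * c k - κ * m1 * c k ^ 2 + ζ0))| ≤ M * e := by
      rw [abs_mul]; exact mul_le_mul hbk rk.rζ (abs_nonneg _) (by linarith)
    have h2 : |a k * (Z k - (l2 * c k - κ * m2 * c k ^ 2 + Z0))| ≤ M * e := by
      rw [abs_mul]; exact mul_le_mul hak rk.rZ (abs_nonneg _) (by linarith)
    refine (abs_add_le _ _).trans ?_
    linarith
  have k1 := key l a1 b1 r
  have k2 := key l' a2 b2 r'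
  have h5 : |s0 * (c l - c l')| ≤ Λ * δ := by
    rw [abs_mul]; exact mul_le_mul hs vcc (abs_nonneg _) hΛ
  have h6 : |κ * β0 * (c l ^ 2 - c l' ^ 2)| ≤ Λ * (2 * M * δ) := by
    have h7 : |κ * β0| ≤ Λ := by
      rw [abs_mul]
      calc |κ| * |β0| ≤ 1 * Λ := mul_le_mul G.κ1 hβ (abs_nonneg _) zero_le_one
        _ = Λ := one_mul _
    have h8 : |c l ^ 2 - c l' ^ 2| ≤ 2 * M * δ := by
      have e1 : c l ^ 2 - c l' ^ 2 = (c l + c l') * (c l - c l') := by ring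
      rw [e1, abs_mul]
      have := abs_add_le (c l) (c l')
      exact mul_le_mul (by linarith) vcc (abs_nonneg _) (by linarith)
    rw [abs_mul]
    exact mul_le_mul h7 h8 (abs_nonneg _) hΛ
  have hM2 : Λ * δ ≤ M * Λ * δ := by
    have : 0 ≤ Λ * δ := mul_nonneg hΛ hδ
    nlinarith
  have e1 : (Φ l - phiR κ l1 l2 m1 m2 s0 β0 ζ0 Z0 (a l) (b l) (c l)) -
      (Φ l' - phiR κ l1 l2 m1 m2 s0 β0 ζ0 Z0 (a l') (b l') (c l')) =
      ((Φ l - ζ l * b l - Z l * a l) - (Φ l' - ζ l' * b l' - Z l' * a l')) +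
      (b l * (ζ l - (l1 * c l - κ * m1 * c l ^ 2 + ζ0)) +
        a l * (Z l - (l2 * c l - κ * m2 * c l ^ 2 + Z0))) -
      (b l' * (ζ l' - (l1 * c l' - κ * m1 * c l' ^ 2 + ζ0)) +
        a l' * (Z l' - (l2 * c l' - κ * m2 * c l' ^ 2 + Z0))) -
      s0 * (c l - c l') + κ * β0 * (c l ^ 2 - c l' ^ 2) := by
    unfold phiR; ring
  rw [e1]
  have tri : ∀ p1 p2 p3 p4 p5 : ℝ, |p1 + p2 - p3 - p4 + p5| ≤
      |p1| + |p2| + |p3| + |p4| + |p5| := by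
    intro p1 p2 p3 p4 p5
    have := abs_add_le (p1 + p2 - p3 - p4) p5
    have := abs_sub (p1 + p2 - p3) p4
    have := abs_sub (p1 + p2) p3
    have := abs_add_le p1 p2
    linarith
  refine (tri _ _ _ _ _).trans ?_
  linarith

/-- **the remainder of `Φ` is constant on a dense part** -/
theorem grid_phi (G : Grid L pc vc a b c s β ζ Z Φ κ M δ) {P V : Finset ℕ} {W D : ℝ}
    (hp : ∀ l ∈ L, pc l ∈ P) (hv : ∀ l ∈ L, vc l ∈ V) (hW : 0 < W)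
    (fib : ∀ p v, ((L.filter fun l => pc l = p ∧ vc l = v).card : ℝ) ≤ W)
    (hL : L.Nonempty) (hD : 0 < D) (dens : D * W * P.card * V.card ≤ L.card)
    {l1 l2 m1 m2 s0 β0 ζ0 Z0 e Λ : ℝ} (he : 0 ≤ e) (hs : |s0| ≤ Λ) (hβ : |β0| ≤ Λ)
    (hζ : |ζ0| ≤ Λ) (hZ : |Z0| ≤ Λ)
    (r : ∀ l ∈ L, ARel κ l1 l2 m1 m2 s0 β0 ζ0 Z0 e (a l) (b l) (c l) (s l) (β l) (ζ l) (Z l)) :
    ∃ L1 ⊆ L, D ^ 3 / 32 * (L.card : ℝ) ≤ L1.card ∧ ∀ l ∈ L1, ∀ l' ∈ L1,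
      |(Φ l - phiR κ l1 l2 m1 m2 s0 β0 ζ0 Z0 (a l) (b l) (c l)) -
        (Φ l' - phiR κ l1 l2 m1 m2 s0 β0 ζ0 Z0 (a l') (b l') (c l'))| ≤
      3 * δ + 12 * M ^ 2 * e + 7 * M * Λ * δ := by
  have hM := G.M1
  have hδ := G.δ0
  have hΛ : 0 ≤ Λ := (abs_nonneg _).trans hs
  obtain ⟨v1, -, v2, -, v3, -, -, L1, hL1, hcard, hcomp⟩ :=
    triple_pigeon L pc vc P V hp hv hW hD fib hL dens (fun _ _ _ => False) (by
      simp only [filter_false, card_empty, Nat.cast_zero]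
      positivity)
  refine ⟨L1, hL1, hcard, fun l hl l' hl' => ?_⟩
  obtain ⟨⟨p, hpL, e1, f1⟩, -⟩ := hcomp l hl
  obtain ⟨⟨p', hpL', e2, f2⟩, -⟩ := hcomp l' hl'
  have k1 := phi_p G he hζ hZ (hL1 hl) hpL e1.symm (r l (hL1 hl)) (r p hpL)
  have k2 := phi_v G hs hβ hpL hpL' (f1.trans f2.symm) (r p hpL) (r p' hpL')
  have k3 := phi_p G he hζ hZ hpL' (hL1 hl') e2 (r p' hpL') (r l' (hL1 hl'))
  have h1 : M * e ≤ M ^ 2 * e := mul_le_mul_of_nonneg_right (by nlinarith) he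
  have h2 : Λ * δ ≤ M * Λ * δ := by
    have : 0 ≤ Λ * δ := mul_nonneg hΛ hδ
    nlinarith
  have e3 : (Φ l - phiR κ l1 l2 m1 m2 s0 β0 ζ0 Z0 (a l) (b l) (c l)) -
      (Φ l' - phiR κ l1 l2 m1 m2 s0 β0 ζ0 Z0 (a l') (b l') (c l')) =
      ((Φ l - phiR κ l1 l2 m1 m2 s0 β0 ζ0 Z0 (a l) (b l) (c l)) -
        (Φ p - phiR κ l1 l2 m1 m2 s0 β0 ζ0 Z0 (a p) (b p) (c p))) +
      ((Φ p - phiR κ l1 l2 m1 m2 s0 β0 ζ0 Z0 (a p) (b p) (c p)) -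
        (Φ p' - phiR κ l1 l2 m1 m2 s0 β0 ζ0 Z0 (a p') (b p') (c p'))) +
      ((Φ p' - phiR κ l1 l2 m1 m2 s0 β0 ζ0 Z0 (a p') (b p') (c p')) -
        (Φ l' - phiR κ l1 l2 m1 m2 s0 β0 ζ0 Z0 (a l') (b l') (c l'))) := by ring
  rw [e3]
  refine (abs_add_le _ _).trans ?_
  have := abs_add_le ((Φ l - phiR κ l1 l2 m1 m2 s0 β0 ζ0 Z0 (a l) (b l) (c l)) -
        (Φ p - phiR κ l1 l2 m1 m2 s0 β0 ζ0 Z0 (a p) (b p) (c p)))
      ((Φ p - phiR κ l1 l2 m1 m2 s0 β0 ζ0 Z0 (a p) (b p) (c p)) -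
        (Φ p' - phiR κ l1 l2 m1 m2 s0 β0 ζ0 Z0 (a p') (b p') (c p')))
  nlinarith

end

section

variable {κ : Type} {B : Base} {G : ℕ → RCfg κ} {Leg : Set (κ → ℝ)} {ν : (κ → ℝ) → ℝ}
  {D x M C m : ℝ} {p0 pA pp pv ppv pP vP : κ → ℝ} {pc : ℝ → κ → ℝ}
  {a b c s β ζ Z Φ : ℕ → ℕ → ℕ → ℝ} {kp : ℕ → ℝ}

/-- **cells and dense part of a dense set** -/
theorem cellsT (H : RUnif B G Leg ν D)
    (Q : QRow B G x M C p0 pA pp pv pP vP pc a b c s β ζ Z Φ kp)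
    (P : QProf Leg ν x m p0 pA pp pv ppv pP vP pc) {ε τ : ℝ} (hε : 0 < ε) :
    ∀ᶠ n in (U : Filter ℕ), ∀ k, ∀ T ⊆ (G n).slice k, T.Nonempty →
      B.d n ^ τ * (((G n).slice k).card : ℝ) ≤ T.card → ∃ lp lv : ℕ → ℕ, ∃ L ⊆ T,
      B.d n ^ (4 * D ^ 7 * ε) * (T.card : ℝ) ≤ L.card ∧
      (∀ l ∈ L, ∀ l' ∈ L, lp l = lp l' → (G n).loose pP (D ^ 10 * ε) k l l') ∧
      (∀ l ∈ L, ∀ l' ∈ L, lv l = lv l' → (G n).loose vP (D ^ 10 * ε) k l l') ∧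
      (∀ e f, ((L.filter fun l => lp l = e ∧ lv l = f).card : ℝ) ≤
        B.d n ^ (-ν ppv - D ^ 6 * ε)) ∧
      B.d n ^ (8 * D ^ 7 * ε + τ) * B.d n ^ (-ν ppv - D ^ 6 * ε) *
        (((G n).slice k).image lp).card * (((G n).slice k).image lv).card ≤ L.card := by
  classical
  have hD := H.D1
  have hD0 : 0 < D := by linarith
  have h5 : 0 < D ^ 5 * ε := by positivity
  filter_upwards [net_facts H p0 pp P.l0 P.lp Q.all hε, net_facts H p0 pv P.l0 P.lv Q.all hε,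
    popular H pp pP P.lp P.lpP P.pge h5, popular H pv vP P.lv P.lvP P.vge h5,
    H.up ppv P.lpv _ h5, H.up p0 P.l0 ε hε, Q.all ε hε] with
    n np nv qp qv hup hup0 hall k T hT hTne hTc
  have hne : ((G n).slice k).Nonempty := hTne.mono hT
  obtain ⟨lp, a1, a2, a3, a4, a5⟩ := np k hne
  obtain ⟨lv, b1, b2, b3, b4, b5⟩ := nv k hne
  have hpos : ∀ t : ℝ, 0 < B.d n ^ t := fun t => rpos B n t
  obtain ⟨T1, hT1, c1, d1⟩ := qp k T hT lp fun t ht t' ht' => a2 t (hT ht) t' (hT ht')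
  obtain ⟨T2, hT2, c2, d2⟩ := qv k T1 (hT1.trans hT) lv
    fun t ht t' ht' => b2 t (hT (hT1 ht)) t' (hT (hT1 ht'))
  have e10 : D ^ 5 * (D ^ 5 * ε) = D ^ 10 * ε := by ring
  rw [e10] at d1 d2
  have e7 : 2 * ((D ^ 2 + 1) * (D ^ 5 * ε)) ≤ 4 * D ^ 7 * ε := by
    have : (D ^ 2 + 1) * D ^ 5 ≤ 2 * D ^ 7 := by
      have h2 : D ^ 5 ≤ D ^ 7 := pow_le_pow_right₀ hD (by norm_num)
      nlinarith
    nlinarith
  have hdens : B.d n ^ (4 * D ^ 7 * ε) * (T.card : ℝ) ≤ T2.card := by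
    have f1 : B.d n ^ ((D ^ 2 + 1) * (D ^ 5 * ε)) * (T.card : ℝ) ≤ T1.card := by
      refine le_trans (mul_le_mul_of_nonneg_right (rpow_anti B n ?_) (Nat.cast_nonneg _)) c1
      linarith [P.H1]
    have f2 : B.d n ^ ((D ^ 2 + 1) * (D ^ 5 * ε)) * (T1.card : ℝ) ≤ T2.card := by
      refine le_trans (mul_le_mul_of_nonneg_right (rpow_anti B n ?_) (Nat.cast_nonneg _)) c2
      linarith [P.H2]
    refine le_trans ?_ ((mul_le_mul_of_nonneg_left f1 (hpos _).le).trans f2)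
    rw [← mul_assoc, ← rpow_add']
    refine mul_le_mul_of_nonneg_right (rpow_anti B n ?_) (Nat.cast_nonneg _)
    linarith
  have hpI : ∀ l ∈ T2, l ∈ (G n).slice k := fun l hl => hT (hT1 (hT2 hl))
  refine ⟨lp, lv, T2, fun l hl => hT1 (hT2 hl), hdens,
    fun l hl l' hl' => d1 l (hT2 hl) l' (hT2 hl'), d2, ?_, ?_⟩
  · intro e f
    rcases (T2.filter fun l => lp l = e ∧ lv l = f).eq_empty_or_nonempty with h | ⟨l0, hl0⟩
    · rw [h, card_empty, Nat.cast_zero]; exact (hpos _).le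
    · obtain ⟨g1, g2, g3⟩ := mem_filter.1 hl0
      have g4 := hup l0 k (H.memSlice.1 (hpI l0 g1))
      refine le_trans (Nat.cast_le.2 (card_le_card ?_)) (g4.trans (rpow_anti B n ?_))
      · intro l hl
        obtain ⟨i1, i2, i3⟩ := mem_filter.1 hl
        refine RCfg.mem_box.2 ⟨hpI l i1, fun j => ?_⟩
        rcases P.por j with hj | hj
        · rw [hj]; exact a2 l0 (hpI l0 g1) l (hpI l i1) (g2.trans i2.symm) j
        · rw [hj]; exact b2 l0 (hpI l0 g1) l (hpI l i1) (g3.trans i3.symm) j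
      · have : D * (D ^ 5 * ε) = D ^ 6 * ε := by ring
        linarith
  · set S : ℝ := (((G n).slice k).card : ℝ) with hS
    have hS0 : 0 ≤ S := Nat.cast_nonneg _
    have hSle : S ≤ B.d n ^ (-ν p0 - D * ε) := by
      obtain ⟨l0, hl0⟩ := hne
      have hl0I := H.memSlice.1 hl0
      refine le_trans (Nat.cast_le.2 (card_le_card ?_)) (hup0 l0 k hl0I)
      intro l hl
      exact RCfg.mem_box.2 ⟨hl, hall k l0 l hl0I (H.memSlice.1 hl)⟩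
    refine le_trans ?_ ((mul_le_mul_of_nonneg_left hTc (hpos _).le).trans hdens)
    calc B.d n ^ (8 * D ^ 7 * ε + τ) * B.d n ^ (-ν ppv - D ^ 6 * ε) *
          (((G n).slice k).image lp).card * (((G n).slice k).image lv).card
        ≤ B.d n ^ (8 * D ^ 7 * ε + τ) * B.d n ^ (-ν ppv - D ^ 6 * ε) *
          (B.d n ^ (ν pp - ε) * S) * (B.d n ^ (ν pv - ε) * B.d n ^ (-ν p0 - D * ε)) := by
          have g1 := b4.trans (mul_le_mul_of_nonneg_left hSle (hpos _).le)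
          have := hpos (8 * D ^ 7 * ε + τ)
          have := hpos (-ν ppv - D ^ 6 * ε)
          have := hpos (ν pp - ε)
          gcongr
      _ = B.d n ^ (8 * D ^ 7 * ε + τ + (-ν ppv - D ^ 6 * ε) + (ν pp - ε) + (ν pv - ε) +
          (-ν p0 - D * ε)) * S := by
          simp only [rpow_add']
          ring
      _ ≤ B.d n ^ (4 * D ^ 7 * ε + τ) * S := by
          refine mul_le_mul_of_nonneg_right (rpow_anti B n ?_) hS0
          have i1 : D ^ 6 ≤ D ^ 7 := pow_le_pow_right₀ hD (by norm_num)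
          have i2 : D ≤ D ^ 7 := by
            calc D = D ^ 1 := (pow_one D).symm
              _ ≤ D ^ 7 := pow_le_pow_right₀ hD (by norm_num)
          have i3 : 1 ≤ D ^ 7 := one_le_pow₀ hD
          have i4 := mul_le_mul_of_nonneg_right i1 hε.le
          have i5 := mul_le_mul_of_nonneg_right i2 hε.le
          have i6 := mul_le_mul_of_nonneg_right i3 hε.le
          have i7 := P.H3
          nlinarith
      _ = B.d n ^ (4 * D ^ 7 * ε) * (B.d n ^ τ * S) := by rw [rpow_add']; ring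

/-- **the slot `P` at one height** -/
theorem phi_one (H : RUnif B G Leg ν D)
    (Q : QRow B G x M C p0 pA pp pv pP vP pc a b c s β ζ Z Φ kp)
    (P : QProf Leg ν x m p0 pA pp pv ppv pP vP pc) {ε : ℝ} (hε : 0 < ε) :
    ∃ ε' > 0, ε' ≤ ε ∧ ∀ᶠ n in (U : Filter ℕ), ∀ k, ∀ T ⊆ (G n).slice k, T.Nonempty →
      B.d n ^ ε' * (((G n).slice k).card : ℝ) ≤ T.card → ∀ l1 l2 m1 m2 s0 β0 ζ0 Z0 : ℝ,
      |s0| ≤ B.d n ^ (-ε') → |β0| ≤ B.d n ^ (-ε') → |ζ0| ≤ B.d n ^ (-ε') →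
      |Z0| ≤ B.d n ^ (-ε') →
      (∀ l ∈ T, ARel (kp n) l1 l2 m1 m2 s0 β0 ζ0 Z0 (B.d n ^ (x - ε')) (a n k l) (b n k l)
        (c n k l) (s n k l) (β n k l) (ζ n k l) (Z n k l)) →
      ∃ L ⊆ T, B.d n ^ ε * (T.card : ℝ) ≤ L.card ∧ ∀ l ∈ L, ∀ l' ∈ L,
        |(Φ n k l - phiR (kp n) l1 l2 m1 m2 s0 β0 ζ0 Z0 (a n k l) (b n k l) (c n k l)) -
          (Φ n k l' - phiR (kp n) l1 l2 m1 m2 s0 β0 ζ0 Z0 (a n k l') (b n k l') (c n k l'))| ≤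
        B.d n ^ (x - ε) := by
  have hD := H.D1
  have hD0 : 0 < D := by linarith
  have hC := Q.C1
  have hM := Q.M1
  set K := 1000 * (C * D ^ 10 + D ^ 7 + 1) with hK
  have hK0 : 0 < K := by positivity
  have hK1 : 1 ≤ K := by
    have : 0 ≤ C * D ^ 10 + D ^ 7 := by positivity
    linarith
  set e := ε / K with he
  have he0 : 0 < e := by positivity
  have heK : K * e = ε := by rw [he]; field_simp
  have hexp : K * e = 1000 * (C * D ^ 10 * e) + 1000 * (D ^ 7 * e) + 1000 * e := by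
    rw [hK]; ring
  have q1 : 0 ≤ C * D ^ 10 * e := by positivity
  have q2 : 0 ≤ D ^ 7 * e := by positivity
  refine ⟨e, he0, by nlinarith, ?_⟩
  filter_upwards [cellsT H Q P (τ := e) he0, Q.bd,
    Q.pcl _ (show 0 < D ^ 10 * e by positivity), Q.vcl _ (show 0 < D ^ 10 * e by positivity),
    Q.pPr _ (show 0 < D ^ 10 * e by positivity), Q.vPr _ (show 0 < D ^ 10 * e by positivity),
    ev_const_le B he0 (100 * M ^ 2)] with n hcell hbd hpc hvc hpP hvP hK2 k T hT hTne hTc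
    l1 l2 m1 m2 s0 β0 ζ0 Z0 hs hβ hζ hZ hrel
  have hpos : ∀ t : ℝ, 0 < B.d n ^ t := fun t => rpos B n t
  have hcst : ∀ w t : ℝ, w ≤ 100 * M ^ 2 → ∀ t', t + e ≤ t' → w * B.d n ^ t' ≤ B.d n ^ t := by
    intro w t hw t' ht
    calc w * B.d n ^ t' ≤ B.d n ^ (-e) * B.d n ^ t' :=
          mul_le_mul_of_nonneg_right (hw.trans hK2) (hpos _).le
      _ = B.d n ^ (-e + t') := by rw [rpow_add']
      _ ≤ _ := rpow_anti B n (by linarith)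
  have hM2 : 1 ≤ M ^ 2 := one_le_pow₀ hM
  have hMM : M ≤ M ^ 2 := by nlinarith
  obtain ⟨lp, lv, L, hLT, hLc, hLp, hLv, hfib, hdens⟩ := hcell k T hT hTne hTc
  have hT0 : (0 : ℝ) < T.card := by exact_mod_cast hTne.card_pos
  have hLne : L.Nonempty := by
    rw [← card_pos]
    have : (0 : ℝ) < L.card := lt_of_lt_of_le (mul_pos (hpos _) hT0) hLc
    exact_mod_cast this
  set δ := B.d n ^ (x - C * D ^ 10 * e) with hδ
  have ecd : C * (D ^ 10 * e) = C * D ^ 10 * e := by ring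
  rw [ecd] at hpc hvc hpP hvP
  have hLS : L ⊆ (G n).slice k := hLT.trans hT
  have hI : ∀ l ∈ L, (l, k) ∈ (G n).I := fun l hl => H.memSlice.1 (hLS hl)
  have hG : Grid L lp lv (a n k) (b n k) (c n k) (s n k) (β n k) (ζ n k) (Z n k) (Φ n k) (kp n)
      M δ := by
    refine ⟨hM, (hpos _).le, Q.kp1 n, fun l hl => hbd k l (hI l hl), ?_, ?_, ?_, ?_⟩
    · intro l hl l' hl' hll
      exact hpc k l l' (hI l hl) (hI l' hl') (H.loose_mono P.pge le_rfl (hLp l hl l' hl' hll))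
    · intro l hl l' hl' hll
      exact hvc k l l' (hI l hl) (hI l' hl') (H.loose_mono P.vge le_rfl (hLv l hl l' hl' hll))
    · intro l hl l' hl' hll
      exact hpP k l l' (hI l hl) (hI l' hl') (hLp l hl l' hl' hll)
    · intro l hl l' hl' hll
      exact hvP k l l' (hI l hl) (hI l' hl') (hLv l hl l' hl' hll)
  obtain ⟨L1, hL1, hc1, hrel1⟩ := grid_phi hG (P := ((G n).slice k).image lp)
    (V := ((G n).slice k).image lv) (fun l hl => mem_image_of_mem _ (hLS hl))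
    (fun l hl => mem_image_of_mem _ (hLS hl)) (hpos _) hfib hLne (hpos _) hdens
    (hpos _).le hs hβ hζ hZ (fun l hl => hrel l (hLT hl))
  refine ⟨L1, hL1.trans hLT, ?_, ?_⟩
  · refine le_trans ?_ (le_trans (mul_le_mul_of_nonneg_left hLc ?_) hc1)
    · rw [← mul_assoc]
      refine mul_le_mul_of_nonneg_right ?_ hT0.le
      have e1 : (B.d n ^ (8 * D ^ 7 * e + e)) ^ 3 = B.d n ^ (24 * D ^ 7 * e + 3 * e) := by
        rw [← Real.rpow_natCast, ← Real.rpow_mul (B.pos n).le]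
        congr 1
        push_cast
        ring
      rw [e1, div_mul_eq_mul_div, ← rpow_add', le_div_iff₀ (by norm_num)]
      have := hcst 32 (24 * D ^ 7 * e + 3 * e + 4 * D ^ 7 * e) (by linarith) ε (by linarith)
      linarith only [this]
    · have := hpos (8 * D ^ 7 * e + e)
      positivity
  · intro l hl l' hl'
    refine (hrel1 l hl l' hl').trans ?_
    have e1 : 7 * M * B.d n ^ (-e) * δ = 7 * M * B.d n ^ (-e + (x - C * D ^ 10 * e)) := by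
      rw [rpow_add']; ring
    rw [e1]
    have h1 : 9 * B.d n ^ (x - C * D ^ 10 * e) ≤ B.d n ^ (x - ε) :=
      hcst _ _ (by linarith) _ (by linarith)
    have h2 : 36 * M ^ 2 * B.d n ^ (x - e) ≤ B.d n ^ (x - ε) :=
      hcst _ _ (by linarith) _ (by linarith)
    have h3 : 21 * M * B.d n ^ (-e + (x - C * D ^ 10 * e)) ≤ B.d n ^ (x - ε) :=
      hcst _ _ (by linarith) _ (by linarith)
    linarith

end

end Crest.Agent.R136.Qd329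
end

-- ▼ part R136/Qd10_329
section

/-!
# R136: the bilinear rigidity (helper329), part 10: `quad_full`, with the slots `P` and `R`
-/

set_option autoImplicit false

open Filter Topology

namespace Crest.Agent.R136.Qd329

open Finset
open Crest.Agent.R138.Ex926 (Base U)
open Crest.Agent.R136.Gf356

/-! ### real numbers -/

/-- the part of `R` given by the relation -/
noncomputable def rR (κ l1 l2 m1 m2 ζ0 Z0 c : ℝ) : ℝ :=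
  -κ * c ^ 3 * ((l1 + m2) / 2) + c ^ 2 * (l2 / 2) + κ ^ 2 * c ^ 4 * (m1 / 2) - κ * c ^ 2 * ζ0 +
    c * Z0

theorem phiR_evo (κ l1 l2 m1 m2 s0 β0 ζ0 Z0 a b c u : ℝ) :
    phiR κ l1 l2 m1 m2 (s0 + u * Z0) (β0 + u * ζ0) ζ0 Z0 (a + u * c) (b - κ * u * c ^ 2) c -
      phiR κ l1 l2 m1 m2 s0 β0 ζ0 Z0 a b c = 2 * u * rR κ l1 l2 m1 m2 ζ0 Z0 c := by
  unfold phiR rR
  ring

theorem abs_mul_le' {x y X Y : ℝ} (hx : |x| ≤ X) (hy : |y| ≤ Y) : |x * y| ≤ X * Y := by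
  rw [abs_mul]
  exact mul_le_mul hx hy (abs_nonneg _) ((abs_nonneg _).trans hx)

theorem ARel.evo {κ l1 l2 m1 m2 s0 β0 ζ0 Z0 e a b c s β ζ Z a' b' c' s' β' ζ' Z' u M Λ : ℝ}
    (hκ : |κ| ≤ 1) (hM : 1 ≤ M) (hΛ : 1 ≤ Λ) (he : 0 ≤ e) (he1 : e ≤ 1) (hu : |u| ≤ M)
    (hc : |c| ≤ M) (h1 : |l1| ≤ Λ) (h2 : |l2| ≤ Λ) (h3 : |m1| ≤ Λ) (h4 : |m2| ≤ Λ)
    (hlm : |l1 - m2| ≤ e) (r : ARel κ l1 l2 m1 m2 s0 β0 ζ0 Z0 e a b c s β ζ Z)
    (ea : |a' - (a + u * c)| ≤ e) (eb : |b' - (b - κ * u * c ^ 2)| ≤ e) (ec : |c' - c| ≤ e)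
    (es : |s' - (s + u * Z)| ≤ e) (eβ : |β' - (β + u * ζ)| ≤ e) (eζ : |ζ' - ζ| ≤ e)
    (eZ : |Z' - Z| ≤ e) :
    ARel κ l1 l2 m1 m2 (s0 + u * Z0) (β0 + u * ζ0) ζ0 Z0 (20 * M ^ 3 * Λ * e) a' b' c' s' β' ζ'
      Z' := by
  have hMe : e ≤ M ^ 3 * Λ * e := by
    have h5 : 1 ≤ M ^ 3 * Λ := by
      have := one_le_pow₀ hM (n := 3)
      nlinarith
    nlinarith
  have hMe1 : M * e ≤ M ^ 3 * Λ * e := by
    have h5 : M ≤ M ^ 3 * Λ := by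
      have h6 : M ≤ M ^ 3 := by
        calc M = M ^ 1 := (pow_one M).symm
          _ ≤ M ^ 3 := pow_le_pow_right₀ hM (by norm_num)
      nlinarith [one_le_pow₀ hM (n := 3)]
    exact mul_le_mul_of_nonneg_right h5 he
  have hMe2 : Λ * e ≤ M ^ 3 * Λ * e := by
    have h5 : Λ ≤ M ^ 3 * Λ := by
      have := one_le_pow₀ hM (n := 3)
      nlinarith
    exact mul_le_mul_of_nonneg_right h5 he
  have hMe3 : M ^ 3 * e ≤ M ^ 3 * Λ * e := by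
    have h5 : M ^ 3 ≤ M ^ 3 * Λ := by
      have := one_le_pow₀ hM (n := 3)
      nlinarith
    exact mul_le_mul_of_nonneg_right h5 he
  have hMe4 : M ^ 2 * e ≤ M ^ 3 * Λ * e :=
    (mul_le_mul_of_nonneg_right (pow_le_pow_right₀ hM (by norm_num)) he).trans hMe3
  have hMe5 : M * Λ * e ≤ M ^ 3 * Λ * e := by
    have h6 : M ≤ M ^ 3 := by
      calc M = M ^ 1 := (pow_one M).symm
        _ ≤ M ^ 3 := pow_le_pow_right₀ hM (by norm_num)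
    have : 0 ≤ Λ * e := by positivity
    nlinarith
  have hc2 : |c' ^ 2 - c ^ 2| ≤ 3 * M * e := by
    have e1 : c' ^ 2 - c ^ 2 = (2 * c + (c' - c)) * (c' - c) := by ring
    rw [e1]
    refine abs_mul_le' ?_ ec
    have := abs_add_le (2 * c) (c' - c)
    rw [abs_mul, abs_two] at this
    linarith
  have hκc : |κ * u * c ^ 2| ≤ M ^ 3 := by
    have : |κ * u * c ^ 2| ≤ 1 * M * M ^ 2 := by
      refine abs_mul_le' (abs_mul_le' hκ hu) ?_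
      rw [abs_pow]; exact pow_le_pow_left₀ (abs_nonneg _) hc 2
    linarith
  constructor
  · have e1 : s' - (l1 * b' + l2 * a' + (s0 + u * Z0)) =
        (s' - (s + u * Z)) + (s - (l1 * b + l2 * a + s0)) +
        u * (Z - (l2 * c - κ * m2 * c ^ 2 + Z0)) - l1 * (b' - (b - κ * u * c ^ 2)) -
        l2 * (a' - (a + u * c)) + (κ * u * c ^ 2) * (l1 - m2) := by ring
    rw [e1]
    have k1 := abs_mul_le' hu r.rZ
    have k2 := abs_mul_le' h1 eb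
    have k3 := abs_mul_le' h2 ea
    have k4 := abs_mul_le' hκc hlm
    have t1 := abs_add_le ((s' - (s + u * Z)) + (s - (l1 * b + l2 * a + s0)) +
        u * (Z - (l2 * c - κ * m2 * c ^ 2 + Z0)) - l1 * (b' - (b - κ * u * c ^ 2)) -
        l2 * (a' - (a + u * c))) ((κ * u * c ^ 2) * (l1 - m2))
    have t2 := abs_sub ((s' - (s + u * Z)) + (s - (l1 * b + l2 * a + s0)) +
        u * (Z - (l2 * c - κ * m2 * c ^ 2 + Z0)) - l1 * (b' - (b - κ * u * c ^ 2)))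
        (l2 * (a' - (a + u * c)))
    have t3 := abs_sub ((s' - (s + u * Z)) + (s - (l1 * b + l2 * a + s0)) +
        u * (Z - (l2 * c - κ * m2 * c ^ 2 + Z0))) (l1 * (b' - (b - κ * u * c ^ 2)))
    have t4 := abs_add_le ((s' - (s + u * Z)) + (s - (l1 * b + l2 * a + s0)))
        (u * (Z - (l2 * c - κ * m2 * c ^ 2 + Z0)))
    have t5 := abs_add_le (s' - (s + u * Z)) (s - (l1 * b + l2 * a + s0))
    have := r.rs
    linarith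
  · have e1 : β' - (m1 * b' + m2 * a' + (β0 + u * ζ0)) =
        (β' - (β + u * ζ)) + (β - (m1 * b + m2 * a + β0)) +
        u * (ζ - (l1 * c - κ * m1 * c ^ 2 + ζ0)) - m1 * (b' - (b - κ * u * c ^ 2)) -
        m2 * (a' - (a + u * c)) + (u * c) * (l1 - m2) := by ring
    rw [e1]
    have k1 := abs_mul_le' hu r.rζ
    have k2 := abs_mul_le' h3 eb
    have k3 := abs_mul_le' h4 ea
    have k4 := abs_mul_le' (abs_mul_le' hu hc) hlm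
    have t1 := abs_add_le ((β' - (β + u * ζ)) + (β - (m1 * b + m2 * a + β0)) +
        u * (ζ - (l1 * c - κ * m1 * c ^ 2 + ζ0)) - m1 * (b' - (b - κ * u * c ^ 2)) -
        m2 * (a' - (a + u * c))) ((u * c) * (l1 - m2))
    have t2 := abs_sub ((β' - (β + u * ζ)) + (β - (m1 * b + m2 * a + β0)) +
        u * (ζ - (l1 * c - κ * m1 * c ^ 2 + ζ0)) - m1 * (b' - (b - κ * u * c ^ 2)))
        (m2 * (a' - (a + u * c)))
    have t3 := abs_sub ((β' - (β + u * ζ)) + (β - (m1 * b + m2 * a + β0)) +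
        u * (ζ - (l1 * c - κ * m1 * c ^ 2 + ζ0))) (m1 * (b' - (b - κ * u * c ^ 2)))
    have t4 := abs_add_le ((β' - (β + u * ζ)) + (β - (m1 * b + m2 * a + β0)))
        (u * (ζ - (l1 * c - κ * m1 * c ^ 2 + ζ0)))
    have t5 := abs_add_le (β' - (β + u * ζ)) (β - (m1 * b + m2 * a + β0))
    have := r.rβ
    have k5 : M * M * e = M ^ 2 * e := by ring
    linarith
  · have e1 : ζ' - (l1 * c' - κ * m1 * c' ^ 2 + ζ0) =
        (ζ' - ζ) + (ζ - (l1 * c - κ * m1 * c ^ 2 + ζ0)) - l1 * (c' - c) +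
        (κ * m1) * (c' ^ 2 - c ^ 2) := by ring
    rw [e1]
    have k2 := abs_mul_le' h1 ec
    have k3 := abs_mul_le' (abs_mul_le' hκ h3) hc2
    have t1 := abs_add_le ((ζ' - ζ) + (ζ - (l1 * c - κ * m1 * c ^ 2 + ζ0)) - l1 * (c' - c))
        ((κ * m1) * (c' ^ 2 - c ^ 2))
    have t2 := abs_sub ((ζ' - ζ) + (ζ - (l1 * c - κ * m1 * c ^ 2 + ζ0))) (l1 * (c' - c))
    have t3 := abs_add_le (ζ' - ζ) (ζ - (l1 * c - κ * m1 * c ^ 2 + ζ0))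
    have := r.rζ
    linarith
  · have e1 : Z' - (l2 * c' - κ * m2 * c' ^ 2 + Z0) =
        (Z' - Z) + (Z - (l2 * c - κ * m2 * c ^ 2 + Z0)) - l2 * (c' - c) +
        (κ * m2) * (c' ^ 2 - c ^ 2) := by ring
    rw [e1]
    have k2 := abs_mul_le' h2 ec
    have k3 := abs_mul_le' (abs_mul_le' hκ h4) hc2
    have t1 := abs_add_le ((Z' - Z) + (Z - (l2 * c - κ * m2 * c ^ 2 + Z0)) - l2 * (c' - c))
        ((κ * m2) * (c' ^ 2 - c ^ 2))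
    have t2 := abs_sub ((Z' - Z) + (Z - (l2 * c - κ * m2 * c ^ 2 + Z0))) (l2 * (c' - c))
    have t3 := abs_add_le (Z' - Z) (Z - (l2 * c - κ * m2 * c ^ 2 + Z0))
    have := r.rZ
    linarith

set_option maxHeartbeats 600000 in
/-- `phiR` is Lipschitz -/
theorem phiR_lip {κ l1 l2 m1 m2 s0 β0 ζ0 Z0 e a b c a' b' c' M Λ : ℝ}
    (hκ : |κ| ≤ 1) (hM : 1 ≤ M) (hΛ : 1 ≤ Λ) (he : 0 ≤ e) (he1 : e ≤ 1)
    (h1 : |l1| ≤ Λ) (h2 : |l2| ≤ Λ) (h3 : |m1| ≤ Λ) (h4 : |m2| ≤ Λ) (h5 : |s0| ≤ Λ)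
    (h6 : |β0| ≤ Λ) (h7 : |ζ0| ≤ Λ) (h8 : |Z0| ≤ Λ) (ha : |a'| ≤ M) (hb : |b'| ≤ M)
    (hc : |c'| ≤ M) (ea : |a' - a| ≤ e) (eb : |b' - b| ≤ e) (ec : |c' - c| ≤ e) :
    |phiR κ l1 l2 m1 m2 s0 β0 ζ0 Z0 a' b' c' - phiR κ l1 l2 m1 m2 s0 β0 ζ0 Z0 a b c| ≤
      40 * M ^ 2 * Λ * e := by
  have hc1 : |c| ≤ 2 * M := by
    have e1 : c = c' - (c' - c) := by ring
    rw [e1]
    have := abs_sub c' (c' - c)
    linarith
  have hc2 : |c' ^ 2 - c ^ 2| ≤ 3 * M * e := by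
    have e1 : c' ^ 2 - c ^ 2 = (c' + c) * (c' - c) := by ring
    rw [e1]
    refine abs_mul_le' ?_ ec
    have := abs_add_le c' c
    linarith
  have hlin : ∀ p q t : ℝ, |p| ≤ Λ → |q| ≤ Λ → |t| ≤ Λ → |p * b' + q * a' + t| ≤ 3 * M * Λ := by
    intro p q t hp hq ht
    have k1 := abs_mul_le' hp hb
    have k2 := abs_mul_le' hq ha
    have t1 := abs_add_le (p * b' + q * a') t
    have t2 := abs_add_le (p * b') (q * a')
    have t3 : Λ ≤ Λ * M := by nlinarith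
    linarith
  have hdif : ∀ p q : ℝ, |p| ≤ Λ → |q| ≤ Λ → |p * (b' - b) + q * (a' - a)| ≤ 2 * (Λ * e) := by
    intro p q hp hq
    have k1 := abs_mul_le' hp eb
    have k2 := abs_mul_le' hq ea
    have t2 := abs_add_le (p * (b' - b)) (q * (a' - a))
    linarith
  have e1 : phiR κ l1 l2 m1 m2 s0 β0 ζ0 Z0 a' b' c' - phiR κ l1 l2 m1 m2 s0 β0 ζ0 Z0 a b c =
      (c' - c) * (l1 * b' + l2 * a' + s0) + c * (l1 * (b' - b) + l2 * (a' - a)) -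
      κ * ((c' ^ 2 - c ^ 2) * (m1 * b' + m2 * a' + β0)) -
      κ * (c ^ 2 * (m1 * (b' - b) + m2 * (a' - a))) + (ζ0 * (b' - b) + Z0 * (a' - a)) := by
    unfold phiR; ring
  rw [e1]
  have k1 := abs_mul_le' ec (hlin _ _ _ h1 h2 h5)
  have k2 := abs_mul_le' hc1 (hdif _ _ h1 h2)
  have k3 := abs_mul_le' hκ (abs_mul_le' hc2 (hlin _ _ _ h3 h4 h6))
  have hcc : |c ^ 2| ≤ (2 * M) ^ 2 := by
    rw [abs_pow]; exact pow_le_pow_left₀ (abs_nonneg _) hc1 2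
  have k4 := abs_mul_le' hκ (abs_mul_le' hcc (hdif _ _ h3 h4))
  have k5 := hdif _ _ h7 h8
  have t1 := abs_add_le ((c' - c) * (l1 * b' + l2 * a' + s0) +
      c * (l1 * (b' - b) + l2 * (a' - a)) -
      κ * ((c' ^ 2 - c ^ 2) * (m1 * b' + m2 * a' + β0)) -
      κ * (c ^ 2 * (m1 * (b' - b) + m2 * (a' - a)))) (ζ0 * (b' - b) + Z0 * (a' - a))
  have t2 := abs_sub ((c' - c) * (l1 * b' + l2 * a' + s0) +
      c * (l1 * (b' - b) + l2 * (a' - a)) -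
      κ * ((c' ^ 2 - c ^ 2) * (m1 * b' + m2 * a' + β0)))
      (κ * (c ^ 2 * (m1 * (b' - b) + m2 * (a' - a))))
  have t3 := abs_sub ((c' - c) * (l1 * b' + l2 * a' + s0) +
      c * (l1 * (b' - b) + l2 * (a' - a)))
      (κ * ((c' ^ 2 - c ^ 2) * (m1 * b' + m2 * a' + β0)))
  have t4 := abs_add_le ((c' - c) * (l1 * b' + l2 * a' + s0))
      (c * (l1 * (b' - b) + l2 * (a' - a)))
  have q0 : 0 ≤ Λ * e := by positivity
  have q1 : Λ * e ≤ M ^ 2 * (Λ * e) := by nlinarith [one_le_pow₀ hM (n := 2)]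
  have q2 : M * (Λ * e) ≤ M ^ 2 * (Λ * e) :=
    mul_le_mul_of_nonneg_right (by nlinarith) q0
  have r1 : e * (3 * M * Λ) = 3 * (M * (Λ * e)) := by ring
  have r2 : 2 * M * (2 * (Λ * e)) = 4 * (M * (Λ * e)) := by ring
  have r3 : 1 * (3 * M * e * (3 * M * Λ)) = 9 * (M ^ 2 * (Λ * e)) := by ring
  have r4 : 1 * ((2 * M) ^ 2 * (2 * (Λ * e))) = 8 * (M ^ 2 * (Λ * e)) := by ring
  have r5 : 40 * M ^ 2 * Λ * e = 40 * (M ^ 2 * (Λ * e)) := by ring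
  rw [r1] at k1
  rw [r2] at k2
  rw [r3] at k3
  rw [r4] at k4
  rw [r5]
  have q3 : 0 ≤ M ^ 2 * (Λ * e) := by positivity
  linarith only [t1, t2, t3, t4, k1, k2, k3, k4, k5, q1, q2, q3]

/-- the slot `R` from two heights -/
theorem R_two {κ l1 l2 m1 m2 s0 β0 ζ0 Z0 P0 P1 e E a b c Φ Rr a' b' c' Φ' u M Λ : ℝ}
    (hκ : |κ| ≤ 1) (hM : 1 ≤ M) (hΛ : 1 ≤ Λ) (he : 0 ≤ e) (he1 : e ≤ 1)
    (h1 : |l1| ≤ Λ) (h2 : |l2| ≤ Λ) (h3 : |m1| ≤ Λ) (h4 : |m2| ≤ Λ) (h5 : |s0 + u * Z0| ≤ Λ)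
    (h6 : |β0 + u * ζ0| ≤ Λ) (h7 : |ζ0| ≤ Λ) (h8 : |Z0| ≤ Λ) (ha : |a'| ≤ M) (hb : |b'| ≤ M)
    (hc : |c'| ≤ M) (ea : |a' - (a + u * c)| ≤ e) (eb : |b' - (b - κ * u * c ^ 2)| ≤ e)
    (ec : |c' - c| ≤ e) (eΦ : |Φ' - (Φ + 2 * u * Rr)| ≤ e)
    (k0 : |Φ - phiR κ l1 l2 m1 m2 s0 β0 ζ0 Z0 a b c - P0| ≤ E)
    (k1 : |Φ' - phiR κ l1 l2 m1 m2 (s0 + u * Z0) (β0 + u * ζ0) ζ0 Z0 a' b' c' - P1| ≤ E) :
    |2 * u * (Rr - rR κ l1 l2 m1 m2 ζ0 Z0 c) - (P1 - P0)| ≤ 2 * E + e + 40 * M ^ 2 * Λ * e := by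
  have hl := phiR_lip hκ hM hΛ he he1 h1 h2 h3 h4 h5 h6 h7 h8 ha hb hc ea eb ec
  have hid := phiR_evo κ l1 l2 m1 m2 s0 β0 ζ0 Z0 a b c u
  have e1 : 2 * u * (Rr - rR κ l1 l2 m1 m2 ζ0 Z0 c) - (P1 - P0) =
      -(Φ' - (Φ + 2 * u * Rr)) +
      (Φ' - phiR κ l1 l2 m1 m2 (s0 + u * Z0) (β0 + u * ζ0) ζ0 Z0 a' b' c' - P1) -
      (Φ - phiR κ l1 l2 m1 m2 s0 β0 ζ0 Z0 a b c - P0) +
      (phiR κ l1 l2 m1 m2 (s0 + u * Z0) (β0 + u * ζ0) ζ0 Z0 a' b' c' -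
        phiR κ l1 l2 m1 m2 (s0 + u * Z0) (β0 + u * ζ0) ζ0 Z0 (a + u * c) (b - κ * u * c ^ 2) c) +
      (phiR κ l1 l2 m1 m2 (s0 + u * Z0) (β0 + u * ζ0) ζ0 Z0 (a + u * c) (b - κ * u * c ^ 2) c -
        phiR κ l1 l2 m1 m2 s0 β0 ζ0 Z0 a b c - 2 * u * rR κ l1 l2 m1 m2 ζ0 Z0 c) := by ring
  rw [e1, hid, sub_self, add_zero]
  have t1 := abs_add_le (-(Φ' - (Φ + 2 * u * Rr)) +
      (Φ' - phiR κ l1 l2 m1 m2 (s0 + u * Z0) (β0 + u * ζ0) ζ0 Z0 a' b' c' - P1) -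
      (Φ - phiR κ l1 l2 m1 m2 s0 β0 ζ0 Z0 a b c - P0))
      (phiR κ l1 l2 m1 m2 (s0 + u * Z0) (β0 + u * ζ0) ζ0 Z0 a' b' c' -
        phiR κ l1 l2 m1 m2 (s0 + u * Z0) (β0 + u * ζ0) ζ0 Z0 (a + u * c) (b - κ * u * c ^ 2) c)
  have t2 := abs_sub (-(Φ' - (Φ + 2 * u * Rr)) +
      (Φ' - phiR κ l1 l2 m1 m2 (s0 + u * Z0) (β0 + u * ζ0) ζ0 Z0 a' b' c' - P1))
      (Φ - phiR κ l1 l2 m1 m2 s0 β0 ζ0 Z0 a b c - P0)
  have t3 := abs_add_le (-(Φ' - (Φ + 2 * u * Rr)))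
      (Φ' - phiR κ l1 l2 m1 m2 (s0 + u * Z0) (β0 + u * ζ0) ζ0 Z0 a' b' c' - P1)
  rw [abs_neg] at t3
  linarith

/-- absolute form from the pair form -/
theorem ARel.of_pair {κ l1 l2 m1 m2 e a b c s β ζ Z a' b' c' s' β' ζ' Z' : ℝ}
    (h : |(s - s') - l1 * (b - b') - l2 * (a - a')| ≤ e ∧
      |(β - β') - m1 * (b - b') - m2 * (a - a')| ≤ e ∧
      |(ζ - ζ') - l1 * (c - c') + κ * m1 * (c ^ 2 - c' ^ 2)| ≤ e ∧
      |(Z - Z') - l2 * (c - c') + κ * m2 * (c ^ 2 - c' ^ 2)| ≤ e) :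
    ARel κ l1 l2 m1 m2 (s' - l1 * b' - l2 * a') (β' - m1 * b' - m2 * a')
      (ζ' - l1 * c' + κ * m1 * c' ^ 2) (Z' - l2 * c' + κ * m2 * c' ^ 2) e a b c s β ζ Z := by
  obtain ⟨h1, h2, h3, h4⟩ := h
  constructor
  · refine le_trans (le_of_eq ?_) h1
    congr 1; ring
  · refine le_trans (le_of_eq ?_) h2
    congr 1; ring
  · refine le_trans (le_of_eq ?_) h3
    congr 1; ring
  · refine le_trans (le_of_eq ?_) h4
    congr 1; ring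

end Crest.Agent.R136.Qd329
end

-- ▼ part R136/Qd11_329

/-!
# R136: the bilinear rigidity (helper329), part 11: `quad_full`
-/

set_option autoImplicit false

open Filter Topology

namespace Crest.Agent.R136.Qd329

open Finset
open Crest.Agent.R138.Ex926 (Base U)
open Crest.Agent.R136.Gf356

variable {κ : Type} {B : Base} {G : ℕ → RCfg κ} {Leg : Set (κ → ℝ)} {ν : (κ → ℝ) → ℝ}
  {D σ R x M C m : ℝ} {p0 pA pp pv ppv pP vP : κ → ℝ} {pc : ℝ → κ → ℝ}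
  {a b c s β ζ Z Φ Rr : ℕ → ℕ → ℕ → ℝ} {kp : ℕ → ℝ}

/-- all rows of the evolution -/
structure QEvo2 (B : Base) (G : ℕ → RCfg κ) (x M : ℝ) (a b c s β ζ Z Φ Rr : ℕ → ℕ → ℕ → ℝ)
    (kp : ℕ → ℝ) : Prop where
  zbd : ∀ᶠ n in (U : Filter ℕ), ∀ k ∈ (G n).Z, ∀ k' ∈ (G n).Z, |(G n).z k' - (G n).z k| ≤ M
  fbd : ∀ᶠ n in (U : Filter ℕ), ∀ k l, (l, k) ∈ (G n).I → |Φ n k l| ≤ M ∧ |Rr n k l| ≤ M
  evo : ∀ ε : ℝ, 0 < ε → ∀ᶠ n in (U : Filter ℕ), ∀ k k' l, (l, k) ∈ (G n).I → (l, k') ∈ (G n).I →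
    |a n k' l - (a n k l + ((G n).z k' - (G n).z k) * c n k l)| ≤ B.d n ^ (x - ε) ∧
    |b n k' l - (b n k l - kp n * ((G n).z k' - (G n).z k) * c n k l ^ 2)| ≤ B.d n ^ (x - ε) ∧
    |c n k' l - c n k l| ≤ B.d n ^ (x - ε) ∧
    |s n k' l - (s n k l + ((G n).z k' - (G n).z k) * Z n k l)| ≤ B.d n ^ (x - ε) ∧
    |β n k' l - (β n k l + ((G n).z k' - (G n).z k) * ζ n k l)| ≤ B.d n ^ (x - ε) ∧
    |ζ n k' l - ζ n k l| ≤ B.d n ^ (x - ε) ∧ |Z n k' l - Z n k l| ≤ B.d n ^ (x - ε) ∧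
    |Φ n k' l - (Φ n k l + 2 * ((G n).z k' - (G n).z k) * Rr n k l)| ≤ B.d n ^ (x - ε) ∧
    |Rr n k' l - Rr n k l| ≤ B.d n ^ (x - ε)

theorem QEvo2.toQEvo (V : QEvo2 B G x M a b c s β ζ Z Φ Rr kp) : QEvo B G x M a b c β ζ kp where
  zbd := V.zbd
  evo := fun ε hε => by
    filter_upwards [V.evo ε hε] with n h k k' l h1 h2
    obtain ⟨e1, e2, e3, -, e5, -⟩ := h k k' l h1 h2
    exact ⟨e1, e2, e3, e5⟩

/-- full relation at one incidence -/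
structure FRel (kp l1 l2 m1 m2 s0 β0 ζ0 Z0 P0 R0 e a b c s β ζ Z Φ Rr : ℝ) : Prop where
  rel : ARel kp l1 l2 m1 m2 s0 β0 ζ0 Z0 e a b c s β ζ Z
  rΦ : |Φ - (phiR kp l1 l2 m1 m2 s0 β0 ζ0 Z0 a b c + P0)| ≤ e
  rR : |Rr - (rR kp l1 l2 m1 m2 ζ0 Z0 c + R0)| ≤ e

theorem ARel.mono {κ l1 l2 m1 m2 s0 β0 ζ0 Z0 e e' a b c s β ζ Z : ℝ}
    (r : ARel κ l1 l2 m1 m2 s0 β0 ζ0 Z0 e a b c s β ζ Z) (h : e ≤ e') :
    ARel κ l1 l2 m1 m2 s0 β0 ζ0 Z0 e' a b c s β ζ Z :=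
  ⟨r.rs.trans h, r.rβ.trans h, r.rζ.trans h, r.rZ.trans h⟩

/-- bounds of the constants -/
theorem const_bd {κ l1 l2 m1 m2 a b c s β ζ Z M Λ : ℝ} (hκ : |κ| ≤ 1) (hM : 1 ≤ M)
    (hΛ : 1 ≤ Λ) (h1 : |l1| ≤ Λ) (h2 : |l2| ≤ Λ) (h3 : |m1| ≤ Λ) (h4 : |m2| ≤ Λ)
    (hb : |a| ≤ M ∧ |b| ≤ M ∧ |c| ≤ M ∧ |s| ≤ M ∧ |β| ≤ M ∧ |ζ| ≤ M ∧ |Z| ≤ M) :
    |s - l1 * b - l2 * a| ≤ 3 * M ^ 2 * Λ ∧ |β - m1 * b - m2 * a| ≤ 3 * M ^ 2 * Λ ∧
    |ζ - l1 * c + κ * m1 * c ^ 2| ≤ 3 * M ^ 2 * Λ ∧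
    |Z - l2 * c + κ * m2 * c ^ 2| ≤ 3 * M ^ 2 * Λ := by
  obtain ⟨ha, hb, hc, hs, hβ, hζ, hZ⟩ := hb
  have hMM : M ≤ M ^ 2 := by nlinarith
  have q1 : M ≤ M ^ 2 * Λ := by nlinarith
  have q2 : Λ * M ≤ M ^ 2 * Λ := by nlinarith
  have hc2 : |c ^ 2| ≤ M ^ 2 := by rw [abs_pow]; exact pow_le_pow_left₀ (abs_nonneg _) hc 2
  refine ⟨?_, ?_, ?_, ?_⟩
  · have k1 := abs_mul_le' h1 hb
    have k2 := abs_mul_le' h2 ha
    have t1 := abs_sub (s - l1 * b) (l2 * a)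
    have t2 := abs_sub s (l1 * b)
    linarith
  · have k1 := abs_mul_le' h3 hb
    have k2 := abs_mul_le' h4 ha
    have t1 := abs_sub (β - m1 * b) (m2 * a)
    have t2 := abs_sub β (m1 * b)
    linarith
  · have k1 := abs_mul_le' h1 hc
    have k2 := abs_mul_le' (abs_mul_le' hκ h3) hc2
    have t1 := abs_add_le (ζ - l1 * c) (κ * m1 * c ^ 2)
    have t2 := abs_sub ζ (l1 * c)
    linarith
  · have k1 := abs_mul_le' h2 hc
    have k2 := abs_mul_le' (abs_mul_le' hκ h4) hc2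
    have t1 := abs_add_le (Z - l2 * c) (κ * m2 * c ^ 2)
    have t2 := abs_sub Z (l2 * c)
    linarith

theorem rR_bd {κ l1 l2 m1 m2 ζ0 Z0 c M Λ : ℝ} (hκ : |κ| ≤ 1) (hM : 1 ≤ M) (hΛ : 1 ≤ Λ)
    (h1 : |l1| ≤ Λ) (h2 : |l2| ≤ Λ) (h3 : |m1| ≤ Λ) (h4 : |m2| ≤ Λ) (h7 : |ζ0| ≤ Λ)
    (h8 : |Z0| ≤ Λ) (hc : |c| ≤ M) : |rR κ l1 l2 m1 m2 ζ0 Z0 c| ≤ 5 * M ^ 4 * Λ := by
  have hp : ∀ j : ℕ, |c ^ j| ≤ M ^ j := fun j => by
    rw [abs_pow]; exact pow_le_pow_left₀ (abs_nonneg _) hc j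
  have hM3 : M ^ 3 ≤ M ^ 4 := pow_le_pow_right₀ hM (by norm_num)
  have hM2 : M ^ 2 ≤ M ^ 4 := pow_le_pow_right₀ hM (by norm_num)
  have hM1 : M ≤ M ^ 4 := by
    calc M = M ^ 1 := (pow_one M).symm
      _ ≤ M ^ 4 := pow_le_pow_right₀ hM (by norm_num)
  have hκ2 : |κ ^ 2| ≤ 1 := by rw [abs_pow]; exact pow_le_one₀ (abs_nonneg _) hκ
  have hlm : |(l1 + m2) / 2| ≤ Λ := by
    rw [abs_div, abs_two, div_le_iff₀ two_pos]
    have := abs_add_le l1 m2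
    linarith
  have hl2 : |l2 / 2| ≤ Λ := by
    rw [abs_div, abs_two, div_le_iff₀ two_pos]; linarith
  have hm1 : |m1 / 2| ≤ Λ := by
    rw [abs_div, abs_two, div_le_iff₀ two_pos]; linarith
  have hκn : |-κ| ≤ 1 := by rw [abs_neg]; exact hκ
  have k1 := abs_mul_le' (abs_mul_le' hκn (hp 3)) hlm
  have k2 := abs_mul_le' (hp 2) hl2
  have k3 := abs_mul_le' (abs_mul_le' hκ2 (hp 4)) hm1
  have k4 := abs_mul_le' (abs_mul_le' hκ (hp 2)) h7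
  have k5 := abs_mul_le' hc h8
  have t1 := abs_add_le (-κ * c ^ 3 * ((l1 + m2) / 2) + c ^ 2 * (l2 / 2) +
    κ ^ 2 * c ^ 4 * (m1 / 2) - κ * c ^ 2 * ζ0) (c * Z0)
  have t2 := abs_sub (-κ * c ^ 3 * ((l1 + m2) / 2) + c ^ 2 * (l2 / 2) +
    κ ^ 2 * c ^ 4 * (m1 / 2)) (κ * c ^ 2 * ζ0)
  have t3 := abs_add_le (-κ * c ^ 3 * ((l1 + m2) / 2) + c ^ 2 * (l2 / 2))
    (κ ^ 2 * c ^ 4 * (m1 / 2))
  have t4 := abs_add_le (-κ * c ^ 3 * ((l1 + m2) / 2)) (c ^ 2 * (l2 / 2))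
  have q3 := mul_le_mul_of_nonneg_right hM3 (by linarith : (0 : ℝ) ≤ Λ)
  have q2 := mul_le_mul_of_nonneg_right hM2 (by linarith : (0 : ℝ) ≤ Λ)
  have q1 := mul_le_mul_of_nonneg_right hM1 (by linarith : (0 : ℝ) ≤ Λ)
  unfold rR
  linarith

theorem phiR_bd {κ l1 l2 m1 m2 s0 β0 ζ0 Z0 a b c M Λ : ℝ} (hκ : |κ| ≤ 1) (hM : 1 ≤ M)
    (hΛ : 1 ≤ Λ) (h1 : |l1| ≤ Λ) (h2 : |l2| ≤ Λ) (h3 : |m1| ≤ Λ) (h4 : |m2| ≤ Λ)
    (h5 : |s0| ≤ Λ) (h6 : |β0| ≤ Λ) (h7 : |ζ0| ≤ Λ) (h8 : |Z0| ≤ Λ) (ha : |a| ≤ M)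
    (hb : |b| ≤ M) (hc : |c| ≤ M) :
    |phiR κ l1 l2 m1 m2 s0 β0 ζ0 Z0 a b c| ≤ 8 * M ^ 3 * Λ := by
  have hc2 : |c ^ 2| ≤ M ^ 2 := by rw [abs_pow]; exact pow_le_pow_left₀ (abs_nonneg _) hc 2
  have hM3 : M ^ 2 ≤ M ^ 3 := pow_le_pow_right₀ hM (by norm_num)
  have hM1 : M ≤ M ^ 3 := by
    calc M = M ^ 1 := (pow_one M).symm
      _ ≤ M ^ 3 := pow_le_pow_right₀ hM (by norm_num)
  have hlin : ∀ p q t : ℝ, |p| ≤ Λ → |q| ≤ Λ → |t| ≤ Λ → |p * b + q * a + t| ≤ 3 * (M * Λ) := by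
    intro p q t hp hq ht
    have k1 := abs_mul_le' hp hb
    have k2 := abs_mul_le' hq ha
    have t1 := abs_add_le (p * b + q * a) t
    have t2 := abs_add_le (p * b) (q * a)
    have t3 : Λ ≤ Λ * M := by nlinarith
    linarith
  have k1 := abs_mul_le' hc (hlin _ _ _ h1 h2 h5)
  have k2 := abs_mul_le' (abs_mul_le' hκ hc2) (hlin _ _ _ h3 h4 h6)
  have k3 := abs_mul_le' h7 hb
  have k4 := abs_mul_le' h8 ha
  have t1 := abs_add_le (c * (l1 * b + l2 * a + s0) - κ * c ^ 2 * (m1 * b + m2 * a + β0) +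
    ζ0 * b) (Z0 * a)
  have t2 := abs_add_le (c * (l1 * b + l2 * a + s0) - κ * c ^ 2 * (m1 * b + m2 * a + β0))
    (ζ0 * b)
  have t3 := abs_sub (c * (l1 * b + l2 * a + s0)) (κ * c ^ 2 * (m1 * b + m2 * a + β0))
  have r1 : M * (3 * (M * Λ)) = 3 * (M ^ 2 * Λ) := by ring
  have r2 : 1 * M ^ 2 * (3 * (M * Λ)) = 3 * (M ^ 3 * Λ) := by ring
  rw [r1] at k1
  rw [r2] at k2
  have q3 := mul_le_mul_of_nonneg_right hM3 (by linarith : (0 : ℝ) ≤ Λ)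
  have q1 := mul_le_mul_of_nonneg_right hM1 (by linarith : (0 : ℝ) ≤ Λ)
  unfold phiR
  linarith

/-- `R` on a dense part, the last division -/
theorem R_div (B : Base) (n : ℕ) {t w x M e0 : ℝ} {u X Y : ℝ} (hM : 1 ≤ M)
    (hK : 10000 * M ^ 8 ≤ B.d n ^ (-e0)) (hu : B.d n ^ w < |u|) (hw : w ≤ t / 16)
    (he0 : 8 * e0 ≤ t / 8) (he00 : 0 ≤ e0)
    (hX : |2 * u * X - Y| ≤ 2 * B.d n ^ (x - t / 8) + B.d n ^ (x - e0) +
      40 * M ^ 2 * B.d n ^ (-(2 * e0)) * B.d n ^ (x - e0)) {X' : ℝ}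
    (hX' : |2 * u * X' - Y| ≤ 2 * B.d n ^ (x - t / 8) + B.d n ^ (x - e0) +
      40 * M ^ 2 * B.d n ^ (-(2 * e0)) * B.d n ^ (x - e0)) :
    |X - X'| ≤ B.d n ^ (x - t) := by
  have hpos : ∀ t : ℝ, 0 < B.d n ^ t := fun t => rpos B n t
  have hM8 : 1 ≤ M ^ 8 := one_le_pow₀ hM
  have hM2 : M ^ 2 ≤ M ^ 8 := pow_le_pow_right₀ hM (by norm_num)
  have hcst : ∀ w t : ℝ, w ≤ 10000 * M ^ 8 → ∀ t', t + e0 ≤ t' →
      w * B.d n ^ t' ≤ B.d n ^ t := by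
    intro w t hw t' ht
    calc w * B.d n ^ t' ≤ B.d n ^ (-e0) * B.d n ^ t' :=
          mul_le_mul_of_nonneg_right (hw.trans hK) (hpos _).le
      _ = B.d n ^ (-e0 + t') := by rw [rpow_add']
      _ ≤ _ := rpow_anti B n (by linarith)
  have h1 : B.d n ^ (x - e0) ≤ B.d n ^ (x - t / 8) := rpow_anti B n (by linarith)
  have h2 : 40 * M ^ 2 * B.d n ^ (-(2 * e0)) * B.d n ^ (x - e0) ≤ B.d n ^ (x - t / 8) := by
    rw [mul_assoc, ← rpow_add']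
    exact hcst _ _ (by linarith) _ (by linarith)
  have e1 : 2 * u * (X - X') = (2 * u * X - Y) - (2 * u * X' - Y) := by ring
  have h3 : |2 * u * (X - X')| ≤ 8 * B.d n ^ (x - t / 8) := by
    rw [e1]
    refine (abs_sub _ _).trans ?_
    linarith
  rw [abs_mul, abs_mul, abs_two] at h3
  have h4 : 2 * B.d n ^ w * |X - X'| ≤ 8 * B.d n ^ (x - t / 8) := by
    refine le_trans ?_ h3
    exact mul_le_mul_of_nonneg_right (by linarith) (abs_nonneg _)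
  have h5 : B.d n ^ w * |X - X'| ≤ 4 * B.d n ^ (x - t / 8) := by linarith
  have h6 := mul_le_mul_of_nonneg_left h5 (hpos (-w)).le
  rw [← mul_assoc, ← rpow_add', neg_add_cancel, Real.rpow_zero, one_mul] at h6
  refine h6.trans ?_
  rw [mul_left_comm, ← rpow_add']
  exact hcst _ _ (by linarith) _ (by linarith)

set_option maxHeartbeats 1000000 in
/-- **the full relation on a dense part of all lines** -/
theorem quad_full (H : RModel B G σ R Leg ν D) (hσ : 0 < σ) (hR : 0 < R)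
    (Q : QRow B G x M C p0 pA pp pv pP vP pc a b c s β ζ Z Φ kp)
    (V : QEvo2 B G x M a b c s β ζ Z Φ Rr kp)
    (P : QProf Leg ν x m p0 pA pp pv ppv pP vP pc) {ε : ℝ} (hε : 0 < ε) :
    ∀ᶠ n in (U : Filter ℕ), ∃ k ∈ (G n).Z, ∃ l1 l2 m1 m2 s0 β0 ζ0 Z0 P0 R0 : ℝ,
      |l1| ≤ B.d n ^ (-ε) ∧ |l2| ≤ B.d n ^ (-ε) ∧ |m1| ≤ B.d n ^ (-ε) ∧ |m2| ≤ B.d n ^ (-ε) ∧
      |s0| ≤ B.d n ^ (-ε) ∧ |β0| ≤ B.d n ^ (-ε) ∧ |ζ0| ≤ B.d n ^ (-ε) ∧ |Z0| ≤ B.d n ^ (-ε) ∧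
      |P0| ≤ B.d n ^ (-ε) ∧ |R0| ≤ B.d n ^ (-ε) ∧
      |l1 - m2| ≤ B.d n ^ (x - ε) ∧
      ∃ L2 ⊆ (G n).slice k, B.d n ^ ε * ((G n).L.card : ℝ) ≤ L2.card ∧
        ∀ l ∈ L2, FRel (kp n) l1 l2 m1 m2 s0 β0 ζ0 Z0 P0 R0 (B.d n ^ (x - ε)) (a n k l) (b n k l)
          (c n k l) (s n k l) (β n k l) (ζ n k l) (Z n k l) (Φ n k l) (Rr n k l) := by
  classical
  have hx := Q.x0
  have hM := Q.M1
  set t := min ε x with ht
  have ht0 : 0 < t := lt_min hε hx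
  have htε : t ≤ ε := min_le_left _ _
  have htx : t ≤ x := min_le_right _ _
  obtain ⟨f3, hf3, hf3le, H3⟩ := phi_one H.toRUnif Q P (ε := t / 8) (by positivity)
  obtain ⟨f1, hf1, hf1le, H1⟩ := phi_one H.toRUnif Q P (ε := f3 / 8) (by positivity)
  set e2 := min (min (R * σ / 4) (t * σ / 64)) (f3 / 32) with he2
  have he20 : 0 < e2 := lt_min (lt_min (by positivity) (by positivity)) (by positivity)
  have he2f : e2 ≤ f3 / 32 := min_le_right _ _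
  have he2R : 4 * e2 / σ ≤ R := by
    have : e2 ≤ R * σ / 4 := (min_le_left _ _).trans (min_le_left _ _)
    rw [div_le_iff₀ hσ]; linarith
  have he2t : 4 * e2 / σ ≤ t / 16 := by
    have : e2 ≤ t * σ / 64 := (min_le_left _ _).trans (min_le_right _ _)
    rw [div_le_iff₀ hσ]; linarith
  set e0 := min f1 f3 / 64 with he0
  have he00 : 0 < e0 := by
    have : 0 < min f1 f3 := lt_min hf1 hf3
    positivity
  have he01 : 64 * e0 ≤ f1 := by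
    have : min f1 f3 ≤ f1 := min_le_left _ _
    linarith
  have he03 : 64 * e0 ≤ f3 := by
    have : min f1 f3 ≤ f3 := min_le_right _ _
    linarith
  have x1 : -f1 ≤ -(2 * e0) := by linarith
  have x2 : -f3 ≤ -(2 * e0) := by linarith
  have x3 : x - f1 ≤ x - e0 := by linarith
  have x4 : e0 ≤ f1 := by linarith
  have x5 : 2 * e2 + (f3 / 8 + e0) ≤ f3 := by linarith
  have x6 : x - f3 + e0 ≤ -e0 + (x - e0) := by linarith
  have x7 : 0 ≤ x - e0 := by linarith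
  have x8 : x - t / 8 ≤ x - f3 / 8 := by linarith
  have x9 : -ε ≤ -(2 * e0) := by linarith
  have x10 : -ε ≤ -e0 := by linarith
  have x11 : x - ε ≤ x - t := by linarith
  have x12 : x - ε ≤ x - e0 := by linarith
  have x13 : -ε + e0 ≤ -(2 * e0) := by linarith
  have x14 : t / 8 + (2 * e2 + (f3 / 8 + e0)) ≤ ε := by linarith
  have x15 : x - ε ≤ x - t / 8 := by linarith
  have x16 : 8 * e0 ≤ t / 8 := by linarith
  have x17 : -(2 * e0) + e0 ≤ -e0 := by linarith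
  have x18 : -(2 * e0) ≤ -e0 := by linarith
  have hM8 : 1 ≤ M ^ 8 := one_le_pow₀ hM
  have hM2' : M ^ 2 ≤ M ^ 8 := pow_le_pow_right₀ hM (by norm_num)
  have hM3' : M ^ 3 ≤ M ^ 8 := pow_le_pow_right₀ hM (by norm_num)
  have hM4' : M ^ 4 ≤ M ^ 8 := pow_le_pow_right₀ hM (by norm_num)
  have hM23 : M ^ 2 ≤ M ^ 3 := pow_le_pow_right₀ hM (by norm_num)
  have hM13 : M ≤ M ^ 3 := by
    calc M = M ^ 1 := (pow_one M).symm
      _ ≤ M ^ 3 := pow_le_pow_right₀ hM (by norm_num)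
  have hM14 : M ≤ M ^ 4 := by
    calc M = M ^ 1 := (pow_one M).symm
      _ ≤ M ^ 4 := pow_le_pow_right₀ hM (by norm_num)
  have w1 : 3 * M ^ 2 ≤ 10000 * M ^ 8 := by linarith
  have w2 : 6 * M ^ 3 ≤ 10000 * M ^ 8 := by linarith
  have w3 : 20 * M ^ 3 ≤ 10000 * M ^ 8 := by linarith
  have w4 : 9 * M ^ 3 ≤ 10000 * M ^ 8 := by linarith
  have w5 : 6 * M ^ 4 ≤ 10000 * M ^ 8 := by linarith
  have w6 : 1 ≤ 10000 * M ^ 8 := by linarith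
  filter_upwards [quad_model H hσ hR Q V.toQEvo P he00, H1, H3,
    second_height H hσ he20 he2R, V.zbd, V.fbd, V.evo e0 he00, Q.bd,
    ev_const_le B he00 (10000 * M ^ 8)] with
    n hmod h1 h3 hsec hzb hfb hevo hbd hK
  have hpos : ∀ t : ℝ, 0 < B.d n ^ t := fun t => rpos B n t
  have hcst : ∀ w t : ℝ, w ≤ 10000 * M ^ 8 → ∀ t', t + e0 ≤ t' →
      w * B.d n ^ t' ≤ B.d n ^ t := by
    intro w t hw t' ht
    calc w * B.d n ^ t' ≤ B.d n ^ (-e0) * B.d n ^ t' :=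
          mul_le_mul_of_nonneg_right (hw.trans hK) (hpos _).le
      _ = B.d n ^ (-e0 + t') := by rw [rpow_add']
      _ ≤ _ := rpow_anti B n (by linarith only [ht])
  have hκ := Q.kp1 n
  obtain ⟨k0, hk0, l1, l2, m1, m2, hl1, hl2, hm1, hm2, hlm, L2, hL2, hL2c, hrel⟩ := hmod
  set Λ := B.d n ^ (-e0) with hΛ
  have hΛ1 : 1 ≤ Λ := w6.trans hK
  have hLL : (0 : ℝ) < (G n).L.card := by
    obtain ⟨⟨i0, k'⟩, hik⟩ := H.nonempty n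
    exact_mod_cast card_pos.2 ⟨i0, H.memL hik⟩
  have hne_of : ∀ (T : Finset ℕ) (w : ℝ), B.d n ^ w * ((G n).L.card : ℝ) ≤ T.card →
      T.Nonempty := by
    intro T w h
    rw [← card_pos]
    have : (0 : ℝ) < T.card := lt_of_lt_of_le (mul_pos (hpos _) hLL) h
    exact_mod_cast this
  have hslL : ∀ k, (((G n).slice k).card : ℝ) ≤ (G n).L.card := fun k =>
    Nat.cast_le.2 (card_le_card (filter_subset _ _))
  obtain ⟨l0, hl0⟩ := hne_of L2 e0 hL2c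
  have hI2 : ∀ l ∈ L2, (l, k0) ∈ (G n).I := fun l hl => H.memSlice.1 (hL2 hl)
  -- constants
  set s0 := s n k0 l0 - l1 * b n k0 l0 - l2 * a n k0 l0 with hs0
  set β0 := β n k0 l0 - m1 * b n k0 l0 - m2 * a n k0 l0 with hβ0
  set ζ0 := ζ n k0 l0 - l1 * c n k0 l0 + kp n * m1 * c n k0 l0 ^ 2 with hζ0
  set Z0 := Z n k0 l0 - l2 * c n k0 l0 + kp n * m2 * c n k0 l0 ^ 2 with hZ0
  have hA : ∀ l ∈ L2, ARel (kp n) l1 l2 m1 m2 s0 β0 ζ0 Z0 (B.d n ^ (x - e0)) (a n k0 l)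
      (b n k0 l) (c n k0 l) (s n k0 l) (β n k0 l) (ζ n k0 l) (Z n k0 l) :=
    fun l hl => ARel.of_pair (hrel l hl l0 hl0)
  obtain ⟨cs, cβ, cζ, cZ⟩ := const_bd hκ hM hΛ1 hl1 hl2 hm1 hm2 (hbd k0 l0 (hI2 l0 hl0))
  have h3M : ∀ w : ℝ, w ≤ 10000 * M ^ 8 → w * Λ ≤ B.d n ^ (-(2 * e0)) := fun w hw =>
    hcst _ _ hw _ x17
  have cs' := cs.trans (h3M _ w1)
  have cβ' := cβ.trans (h3M _ w1)
  have cζ' := cζ.trans (h3M _ w1)
  have cZ' := cZ.trans (h3M _ w1)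
  have a2f1 : B.d n ^ (-(2 * e0)) ≤ B.d n ^ (-f1) := rpow_anti B n x1
  have a2f3 : B.d n ^ (-(2 * e0)) ≤ B.d n ^ (-f3) := rpow_anti B n x2
  obtain ⟨L3, hL3, hL3c, hΨ0⟩ := h1 k0 L2 hL2 ⟨l0, hl0⟩
    ((mul_le_mul_of_nonneg_left (hslL k0) (hpos _).le).trans
      ((mul_le_mul_of_nonneg_right (rpow_anti B n x4) hLL.le).trans hL2c))
    l1 l2 m1 m2 s0 β0 ζ0 Z0 (cs'.trans a2f1) (cβ'.trans a2f1) (cζ'.trans a2f1)
    (cZ'.trans a2f1) (fun l hl => (hA l hl).mono (rpow_anti B n x3))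
  have hL3L : B.d n ^ (f3 / 8 + e0) * ((G n).L.card : ℝ) ≤ L3.card := by
    rw [rpow_add', mul_assoc]
    exact (mul_le_mul_of_nonneg_left hL2c (hpos _).le).trans hL3c
  have hL3ne := hne_of L3 _ hL3L
  obtain ⟨k1, hk1, hu, hL4c⟩ := hsec k0 L3 (hL3.trans hL2) hk0 hL3ne
  set L4 := L3.filter fun l => (l, k1) ∈ (G n).I with hL4
  have hL4L : B.d n ^ (2 * e2 + (f3 / 8 + e0)) * ((G n).L.card : ℝ) ≤ L4.card := by
    rw [rpow_add', mul_assoc]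
    exact (mul_le_mul_of_nonneg_left hL3L (hpos _).le).trans hL4c
  have hL4S : L4 ⊆ (G n).slice k1 := fun l hl => H.memSlice.2 (mem_filter.1 hl).2
  set u := (G n).z k1 - (G n).z k0 with hud
  have huM : |u| ≤ M := hzb k0 hk0 k1 hk1
  have hex1 : B.d n ^ (x - e0) ≤ 1 := by
    rw [← Real.rpow_zero (B.d n)]
    exact rpow_anti B n x7
  have hI4 : ∀ l ∈ L4, (l, k0) ∈ (G n).I ∧ (l, k1) ∈ (G n).I := fun l hl =>
    ⟨hI2 l (hL3 (mem_filter.1 hl).1), (mem_filter.1 hl).2⟩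
  have hA1 : ∀ l ∈ L4, ARel (kp n) l1 l2 m1 m2 (s0 + u * Z0) (β0 + u * ζ0) ζ0 Z0
      (B.d n ^ (x - f3)) (a n k1 l) (b n k1 l) (c n k1 l) (s n k1 l) (β n k1 l) (ζ n k1 l)
      (Z n k1 l) := by
    intro l hl
    obtain ⟨i0, i1⟩ := hI4 l hl
    obtain ⟨ea, eb, ec, es, eβ, eζ, eZ, -, -⟩ := hevo k0 k1 l i0 i1
    have h5 := (hA l (hL3 (mem_filter.1 hl).1)).evo hκ hM hΛ1 (hpos _).le hex1 huM
      (hbd k0 l i0).2.2.1 hl1 hl2 hm1 hm2 hlm ea eb ec es eβ eζ eZ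
    refine h5.mono ?_
    rw [hΛ, mul_assoc, ← rpow_add']
    exact hcst _ _ w3 _ x6
  have hMMΛ : 3 * M ^ 2 * Λ ≤ 3 * M ^ 3 * Λ :=
    mul_le_mul_of_nonneg_right (by linarith only [hM23]) (by linarith only [hΛ1])
  have k36 := h3M (6 * M ^ 3) w2
  have k5 : M * (3 * M ^ 2 * Λ) = 3 * M ^ 3 * Λ := by ring
  have cs1 : |s0 + u * Z0| ≤ B.d n ^ (-(2 * e0)) := by
    have k1 := abs_mul_le' huM cZ
    have k2 := abs_add_le s0 (u * Z0)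
    linarith only [k1, k2, k36, hMMΛ, k5, cs]
  have cβ1 : |β0 + u * ζ0| ≤ B.d n ^ (-(2 * e0)) := by
    have k1 := abs_mul_le' huM cζ
    have k2 := abs_add_le β0 (u * ζ0)
    linarith only [k1, k2, k36, hMMΛ, k5, cβ]
  obtain ⟨L5, hL5, hL5c, hΨ1⟩ := h3 k1 L4 hL4S (hne_of L4 _ hL4L)
    ((mul_le_mul_of_nonneg_left (hslL k1) (hpos _).le).trans
      ((mul_le_mul_of_nonneg_right (rpow_anti B n x5) hLL.le).trans hL4L))
    l1 l2 m1 m2 (s0 + u * Z0) (β0 + u * ζ0) ζ0 Z0 (cs1.trans a2f3) (cβ1.trans a2f3)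
    (cζ'.trans a2f3) (cZ'.trans a2f3) hA1
  have hL5L : B.d n ^ (t / 8 + (2 * e2 + (f3 / 8 + e0))) * ((G n).L.card : ℝ) ≤ L5.card := by
    rw [rpow_add', mul_assoc]
    exact (mul_le_mul_of_nonneg_left hL4L (hpos _).le).trans hL5c
  obtain ⟨ls, hls⟩ := hne_of L5 _ hL5L
  have hin : ∀ l ∈ L5, l ∈ L3 ∧ l ∈ L2 := fun l hl =>
    ⟨(mem_filter.1 (hL5 hl)).1, hL3 (mem_filter.1 (hL5 hl)).1⟩
  set P0 := Φ n k0 ls - phiR (kp n) l1 l2 m1 m2 s0 β0 ζ0 Z0 (a n k0 ls) (b n k0 ls) (c n k0 ls)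
    with hP0
  set P1 := Φ n k1 ls - phiR (kp n) l1 l2 m1 m2 (s0 + u * Z0) (β0 + u * ζ0) ζ0 Z0 (a n k1 ls)
    (b n k1 ls) (c n k1 ls) with hP1
  set R0 := Rr n k0 ls - rR (kp n) l1 l2 m1 m2 ζ0 Z0 (c n k0 ls) with hR0
  have aΛ2 : Λ ≤ B.d n ^ (-(2 * e0)) := rpow_anti B n x18
  have hΛ2 : 1 ≤ B.d n ^ (-(2 * e0)) := hΛ1.trans aΛ2
  have hfE : B.d n ^ (x - f3 / 8) ≤ B.d n ^ (x - t / 8) := rpow_anti B n x8
  -- the slot `R`
  have hRt : ∀ l ∈ L5, |2 * u * (Rr n k0 l - rR (kp n) l1 l2 m1 m2 ζ0 Z0 (c n k0 l)) -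
      (P1 - P0)| ≤ 2 * B.d n ^ (x - t / 8) + B.d n ^ (x - e0) +
      40 * M ^ 2 * B.d n ^ (-(2 * e0)) * B.d n ^ (x - e0) := by
    intro l hl
    obtain ⟨i0, i1⟩ := hI4 l (hL5 hl)
    obtain ⟨ea, eb, ec, -, -, -, -, eΦ, -⟩ := hevo k0 k1 l i0 i1
    obtain ⟨b1, b2, b3, -⟩ := hbd k1 l i1
    refine R_two hκ hM hΛ2 (hpos _).le hex1 (hl1.trans aΛ2) (hl2.trans aΛ2) (hm1.trans aΛ2)
      (hm2.trans aΛ2) cs1 cβ1 cζ' cZ' b1 b2 b3 ea eb ec eΦ ?_ ?_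
    · exact (hΨ0 l (hin l hl).1 ls (hin ls hls).1).trans hfE
    · exact hΨ1 l hl ls hls
  have a2t : B.d n ^ (-(2 * e0)) ≤ B.d n ^ (-ε) := rpow_anti B n x9
  have aΛt : Λ ≤ B.d n ^ (-ε) := rpow_anti B n x10
  have htx' : B.d n ^ (x - t) ≤ B.d n ^ (x - ε) := rpow_anti B n x11
  obtain ⟨bs1, bs2⟩ := hfb k0 ls (hI4 ls (hL5 hls)).1
  obtain ⟨bs3, bs4, bs5, -⟩ := hbd k0 ls (hI4 ls (hL5 hls)).1
  refine ⟨k0, hk0, l1, l2, m1, m2, s0, β0, ζ0, Z0, P0, R0, hl1.trans aΛt, hl2.trans aΛt,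
    hm1.trans aΛt, hm2.trans aΛt, cs'.trans a2t, cβ'.trans a2t, cζ'.trans a2t, cZ'.trans a2t,
    ?_, ?_, hlm.trans (rpow_anti B n x12), L5, fun l hl => hL2 (hin l hl).2, ?_, ?_⟩
  · have k1 := phiR_bd hκ hM hΛ2 (hl1.trans aΛ2) (hl2.trans aΛ2) (hm1.trans aΛ2)
      (hm2.trans aΛ2) cs' cβ' cζ' cZ' bs3 bs4 bs5
    have k2 := abs_sub (Φ n k0 ls)
      (phiR (kp n) l1 l2 m1 m2 s0 β0 ζ0 Z0 (a n k0 ls) (b n k0 ls) (c n k0 ls))
    have k3 := hcst (9 * M ^ 3) (-ε) w4 (-(2 * e0)) x13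
    have k4 : M ≤ M ^ 3 * B.d n ^ (-(2 * e0)) :=
      hM13.trans (le_mul_of_one_le_right (by positivity) hΛ2)
    linarith only [k1, k2, k3, k4, bs1]
  · have k1 := rR_bd hκ hM hΛ2 (hl1.trans aΛ2) (hl2.trans aΛ2) (hm1.trans aΛ2)
      (hm2.trans aΛ2) cζ' cZ' bs5
    have k2 := abs_sub (Rr n k0 ls) (rR (kp n) l1 l2 m1 m2 ζ0 Z0 (c n k0 ls))
    have k3 := hcst (6 * M ^ 4) (-ε) w5 (-(2 * e0)) x13
    have k4 : M ≤ M ^ 4 * B.d n ^ (-(2 * e0)) :=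
      hM14.trans (le_mul_of_one_le_right (by positivity) hΛ2)
    linarith only [k1, k2, k3, k4, bs2]
  · exact le_trans (mul_le_mul_of_nonneg_right (rpow_anti B n x14) hLL.le) hL5L
  · intro l hl
    refine ⟨(hA l (hin l hl).2).mono (rpow_anti B n x12), ?_, ?_⟩
    · have k1 := (hΨ0 l (hin l hl).1 ls (hin ls hls).1)
      have e1 : Φ n k0 l - (phiR (kp n) l1 l2 m1 m2 s0 β0 ζ0 Z0 (a n k0 l) (b n k0 l) (c n k0 l) +
          P0) = (Φ n k0 l - phiR (kp n) l1 l2 m1 m2 s0 β0 ζ0 Z0 (a n k0 l) (b n k0 l)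
          (c n k0 l)) - P0 := by ring
      rw [e1]
      exact k1.trans (hfE.trans (rpow_anti B n x15))
    · have k1 := R_div B n hM hK hu he2t x16 he00.le (hRt l hl) (hRt ls hls)
      have e1 : Rr n k0 l - (rR (kp n) l1 l2 m1 m2 ζ0 Z0 (c n k0 l) + R0) =
          (Rr n k0 l - rR (kp n) l1 l2 m1 m2 ζ0 Z0 (c n k0 l)) - R0 := by ring
      rw [e1]
      exact k1.trans htx'

end Crest.Agent.R136.Qd329
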