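import Crest.Agent.R136.Qd11_329
import Crest.Agent.R136.EvW1_938

-- ▼ part R136/Qd12_329
section

/-!
# R136: the bilinear rigidity (helper329), part 12: slopes which are not resonant

`SRow`, `SProf` : a box `pS` (positions `a`, `β`, and `s` if `F9`) in which `b` still costs
something.  Then the slope `m1` (and `l1` if `F9`) of the relation vanishes up to `ρ^(x-ε)`.
-/

set_option autoImplicit false

open Filter Topology

namespace Crest.Agent.R136.Qd329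

open Finset
open Crest.Agent.R138.Ex926 (Base U)
open Crest.Agent.R136.Gf356

variable {κ : Type} {B : Base} {G : ℕ → RCfg κ} {Leg : Set (κ → ℝ)} {ν : (κ → ℝ) → ℝ}
  {D σ R x M C m : ℝ} {p0 pA pp pv ppv pP vP pS : κ → ℝ} {pc pb : ℝ → κ → ℝ}
  {a b c s β ζ Z Φ Rr : ℕ → ℕ → ℕ → ℝ} {kp : ℕ → ℝ} {F7 F9 : Prop}

/-- rows of the box `pS` -/
structure SRow (B : Base) (G : ℕ → RCfg κ) (x C : ℝ) (pS : κ → ℝ) (pb : ℝ → κ → ℝ)
    (a b s β : ℕ → ℕ → ℕ → ℝ) (F9 : Prop) : Prop where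
  scl : ∀ ε : ℝ, 0 < ε → ∀ᶠ n in (U : Filter ℕ), ∀ k l l', (l, k) ∈ (G n).I →
    (l', k) ∈ (G n).I → (G n).loose pS ε k l l' →
      |a n k l - a n k l'| ≤ B.d n ^ (x - C * ε) ∧ |β n k l - β n k l'| ≤ B.d n ^ (x - C * ε) ∧
      (F9 → |s n k l - s n k l'| ≤ B.d n ^ (x - C * ε))
  bcl : ∀ y : ℝ, 0 ≤ y → y ≤ x → ∀ ε : ℝ, 0 < ε → ∀ᶠ n in (U : Filter ℕ), ∀ k l l',
    (l, k) ∈ (G n).I → (l', k) ∈ (G n).I → (G n).loose pS ε k l l' →
      |b n k l' - b n k l| ≤ B.d n ^ y → (G n).loose (pb y) (C * ε) k l l'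

/-- numbers of the box `pS` -/
structure SProf (Leg : Set (κ → ℝ)) (ν : (κ → ℝ) → ℝ) (x m : ℝ) (pS : κ → ℝ) (pb : ℝ → κ → ℝ) :
    Prop where
  lS : pS ∈ Leg
  lb : ∀ y, 0 ≤ y → y ≤ x → pb y ∈ Leg
  n6 : ∀ y, 0 ≤ y → y ≤ x → m * y ≤ ν pS - ν (pb y)

/-- **two lines of a dense part in one `pS`-box with separated `b`** -/
theorem spread_b (H : RUnif B G Leg ν D)
    (Q : QRow B G x M C p0 pA pp pv pP vP pc a b c s β ζ Z Φ kp)
    (hm : 0 < m) (l0 : p0 ∈ Leg) (S : SRow B G x C pS pb a b s β F9) (P : SProf Leg ν x m pS pb)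
    {e : ℝ} (he : 0 < e) (hy : (3 + C * D ^ 6) * e / m ≤ x) :
    ∀ᶠ n in (U : Filter ℕ), ∀ k, ∀ T ⊆ (G n).slice k, T.Nonempty →
      B.d n ^ e * (((G n).slice k).card : ℝ) ≤ T.card →
      ∃ l ∈ T, ∃ l' ∈ T, (G n).loose pS (D ^ 5 * e) k l l' ∧
        B.d n ^ ((3 + C * D ^ 6) * e / m) < |b n k l' - b n k l| := by
  classical
  have hD := H.D1
  have hD0 : 0 < D := by linarith
  have hC := Q.C1
  have hC0 : 0 < C := by linarith
  set y : ℝ := (3 + C * D ^ 6) * e / m with hyd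
  have hy0 : 0 ≤ y := by positivity
  filter_upwards [net_facts H p0 pS l0 P.lS Q.all he, S.bcl y hy0 hy (D ^ 5 * e) (by positivity),
    H.up (pb y) (P.lb y hy0 hy) (C * (D ^ 5 * e)) (by positivity)] with n np hb hup k T hT hTne hTc
  have hpos : ∀ t : ℝ, 0 < B.d n ^ t := fun t => rpos B n t
  have hSne : ((G n).slice k).Nonempty := hTne.mono hT
  have hS0 : (0 : ℝ) < (((G n).slice k).card : ℝ) := by exact_mod_cast hSne.card_pos
  obtain ⟨lp, a1, a2, a3, a4, a5⟩ := np k hSne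
  set Sc : ℝ := (((G n).slice k).card : ℝ) with hS
  obtain ⟨v, hv⟩ := pop1 T lp (N := B.d n ^ (ν pS - e) * Sc)
    (le_trans (Nat.cast_le.2 (card_le_card (image_subset_image hT))) a4)
  set F := T.filter fun t => lp t = v with hF
  have hFlow : B.d n ^ (2 * e - ν pS) ≤ F.card := by
    have h1 : B.d n ^ e * Sc ≤ (B.d n ^ (ν pS - e) * Sc) * F.card := hTc.trans hv
    have h2 : B.d n ^ e ≤ B.d n ^ (ν pS - e) * F.card := by
      refine le_of_mul_le_mul_right (le_trans h1 (le_of_eq ?_)) hS0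
      ring
    have h3 := mul_le_mul_of_nonneg_left h2 (hpos (-(ν pS - e))).le
    calc B.d n ^ (2 * e - ν pS) = B.d n ^ (-(ν pS - e)) * B.d n ^ e := by
          rw [← rpow_add']; congr 1; ring
      _ ≤ B.d n ^ (-(ν pS - e)) * (B.d n ^ (ν pS - e) * F.card) := h3
      _ = F.card := by
          rw [← mul_assoc, ← rpow_add']
          have : -(ν pS - e) + (ν pS - e) = 0 := by ring
          rw [this, Real.rpow_zero, one_mul]
  have hFne : F.Nonempty := by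
    rw [← card_pos]
    have : (0 : ℝ) < F.card := lt_of_lt_of_le (hpos _) hFlow
    exact_mod_cast this
  obtain ⟨l, hl⟩ := hFne
  obtain ⟨hlT, hlv⟩ := mem_filter.1 hl
  by_contra hcon
  push Not at hcon
  have hlI := H.memSlice.1 (hT hlT)
  have hFup : (F.card : ℝ) ≤ B.d n ^ (-ν (pb y) - D * (C * (D ^ 5 * e))) := by
    refine le_trans (Nat.cast_le.2 (card_le_card ?_)) (hup l k hlI)
    intro l' hl'
    obtain ⟨i1, i2⟩ := mem_filter.1 hl'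
    have i3 := a2 l (hT hlT) l' (hT i1) (hlv.trans i2.symm)
    exact RCfg.mem_box.2 ⟨hT i1, hb k l l' hlI (H.memSlice.1 (hT i1)) i3 (hcon l hlT l' i1 i3)⟩
  have h6 := P.n6 y hy0 hy
  have e6 : m * y = (3 + C * D ^ 6) * e := by rw [hyd]; field_simp
  have hlt : B.d n ^ (-ν (pb y) - D * (C * (D ^ 5 * e))) < B.d n ^ (2 * e - ν pS) := by
    refine Real.rpow_lt_rpow_of_exponent_gt (B.pos n) (B.lt n) ?_
    have : D * (C * (D ^ 5 * e)) = C * D ^ 6 * e := by ring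
    rw [this]
    linarith
  linarith

/-- the arithmetic of the spread -/
theorem spread_real {m1 m2 b b' a a' β β' β0 e f g A y : ℝ}
    (r : |β - (m1 * b + m2 * a + β0)| ≤ e) (r' : |β' - (m1 * b' + m2 * a' + β0)| ≤ e)
    (hβ : |β - β'| ≤ f) (ha : |a - a'| ≤ f) (hm2 : |m2| ≤ g) (hb : y < |b' - b|) (h0 : 0 ≤ g)
    (hA : f + g * f + 2 * e ≤ A) : |m1| * y ≤ A := by
  have h1 : |m1| * |b' - b| = |m1 * (b - b')| := by rw [abs_mul, abs_sub_comm]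
  have h2 : m1 * (b - b') = (β - β') - m2 * (a - a') - ((β - (m1 * b + m2 * a + β0)) -
      (β' - (m1 * b' + m2 * a' + β0))) := by ring
  have h3 : |m2 * (a - a')| ≤ g * f := by
    rw [abs_mul]; exact mul_le_mul hm2 ha (abs_nonneg _) h0
  have h4 : |m1| * y ≤ |m1| * |b' - b| := mul_le_mul_of_nonneg_left hb.le (abs_nonneg _)
  have h5 : |m1 * (b - b')| ≤ |β - β'| + |m2 * (a - a')| + (|β - (m1 * b + m2 * a + β0)| +
      |β' - (m1 * b' + m2 * a' + β0)|) := by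
    rw [h2]
    exact (abs_sub _ _).trans (add_le_add (abs_sub _ _) (abs_sub _ _))
  linarith

/-- the powers of the spread -/
theorem spread_pow (B : Base) (n : ℕ) {x e C D y t v : ℝ} (he : 0 < e) (hC : 1 ≤ C) (hD : 1 ≤ D)
    (h4 : 4 ≤ B.d n ^ (-e)) (ht : (C * D ^ 5 + 2) * e + y ≤ t)
    (hv : v * B.d n ^ y ≤ B.d n ^ (x - C * (D ^ 5 * e)) +
      B.d n ^ (-e) * B.d n ^ (x - C * (D ^ 5 * e)) + 2 * B.d n ^ (x - e)) :
    v ≤ B.d n ^ (x - t) := by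
  have hpos : ∀ t : ℝ, 0 < B.d n ^ t := fun t => rpos B n t
  have hD5 : 1 ≤ D ^ 5 := one_le_pow₀ hD
  have hCD : 1 ≤ C * D ^ 5 := by nlinarith
  have i1 : B.d n ^ (x - C * (D ^ 5 * e)) ≤ B.d n ^ (x - (C * D ^ 5 + 1) * e) :=
    rpow_anti B n (by nlinarith)
  have i2 : B.d n ^ (-e) * B.d n ^ (x - C * (D ^ 5 * e)) = B.d n ^ (x - (C * D ^ 5 + 1) * e) := by
    rw [← rpow_add']; congr 1; ring
  have i3 : B.d n ^ (x - e) ≤ B.d n ^ (x - (C * D ^ 5 + 1) * e) :=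
    rpow_anti B n (by nlinarith)
  have i4 : v * B.d n ^ y ≤ 4 * B.d n ^ (x - (C * D ^ 5 + 1) * e) := by linarith
  have i5 : 4 * B.d n ^ (x - (C * D ^ 5 + 1) * e) ≤ B.d n ^ (x - t) * B.d n ^ y := by
    refine (mul_le_mul_of_nonneg_right h4 (hpos _).le).trans ?_
    rw [← rpow_add', ← rpow_add']
    exact rpow_anti B n (by linarith)
  exact le_of_mul_le_mul_right (i4.trans i5) (hpos y)

set_option maxHeartbeats 1000000 in
/-- **the full relation, with the slopes which are not resonant** -/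
theorem quad_full2 (H : RModel B G σ R Leg ν D) (hσ : 0 < σ) (hR : 0 < R)
    (Q : QRow B G x M C p0 pA pp pv pP vP pc a b c s β ζ Z Φ kp)
    (V : QEvo2 B G x M a b c s β ζ Z Φ Rr kp)
    (P : QProf Leg ν x m p0 pA pp pv ppv pP vP pc)
    (S : F7 → SRow B G x C pS pb a b s β F9) (N : F7 → SProf Leg ν x m pS pb) (h97 : F9 → F7)
    {ε : ℝ} (hε : 0 < ε) :
    ∀ᶠ n in (U : Filter ℕ), ∃ k ∈ (G n).Z, ∃ l1 l2 m1 m2 s0 β0 ζ0 Z0 P0 R0 : ℝ,
      |l1| ≤ B.d n ^ (-ε) ∧ |l2| ≤ B.d n ^ (-ε) ∧ |m1| ≤ B.d n ^ (-ε) ∧ |m2| ≤ B.d n ^ (-ε) ∧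
      |s0| ≤ B.d n ^ (-ε) ∧ |β0| ≤ B.d n ^ (-ε) ∧ |ζ0| ≤ B.d n ^ (-ε) ∧ |Z0| ≤ B.d n ^ (-ε) ∧
      |P0| ≤ B.d n ^ (-ε) ∧ |R0| ≤ B.d n ^ (-ε) ∧
      |l1 - m2| ≤ B.d n ^ (x - ε) ∧ (F7 → |m1| ≤ B.d n ^ (x - ε)) ∧
      (F9 → |l1| ≤ B.d n ^ (x - ε)) ∧
      ∃ L2 ⊆ (G n).slice k, B.d n ^ ε * ((G n).L.card : ℝ) ≤ L2.card ∧
        ∀ l ∈ L2, FRel (kp n) l1 l2 m1 m2 s0 β0 ζ0 Z0 P0 R0 (B.d n ^ (x - ε)) (a n k l) (b n k l)
          (c n k l) (s n k l) (β n k l) (ζ n k l) (Z n k l) (Φ n k l) (Rr n k l) := by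
  classical
  have hx := Q.x0
  have hm := P.m0
  have hC := Q.C1
  have hD := H.toRUnif.D1
  have hD0 : 0 < D := by linarith
  have hC0 : 0 < C := by linarith
  by_cases h7 : F7
  swap
  · filter_upwards [quad_full H hσ hR Q V P hε] with n h
    obtain ⟨k, hk, l1, l2, m1, m2, s0, β0, ζ0, Z0, P0, R0, g1, g2, g3, g4, g5, g6, g7, g8, g9, g10,
      g11, L2, hL, hLc, hr⟩ := h
    exact ⟨k, hk, l1, l2, m1, m2, s0, β0, ζ0, Z0, P0, R0, g1, g2, g3, g4, g5, g6, g7, g8, g9, g10,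
      g11, fun h => absurd h h7, fun h => absurd (h97 h) h7, L2, hL, hLc, hr⟩
  set K : ℝ := C * D ^ 5 + 2 + (3 + C * D ^ 6) / m with hK
  have hK2 : 2 ≤ K := by
    have : 0 ≤ C * D ^ 5 := by positivity
    have : 0 ≤ (3 + C * D ^ 6) / m := by positivity
    linarith
  have hK0 : 0 < K := by linarith
  set t := min ε x with ht
  have ht0 : 0 < t := lt_min hε hx
  set e := t / K with hed
  have he0 : 0 < e := by positivity
  have hKe : K * e = t := by rw [hed]; field_simp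
  have hsplit : (C * D ^ 5 + 2) * e + (3 + C * D ^ 6) * e / m = t := by
    rw [← hKe, hK]; ring
  have hpos1 : 0 ≤ (C * D ^ 5 + 2) * e := by positivity
  have hyx : (3 + C * D ^ 6) * e / m ≤ x := by
    have : t ≤ x := min_le_right _ _
    linarith
  have hyt : (3 + C * D ^ 6) * e / m ≤ t := by linarith
  have heε : e ≤ ε := by
    have : t ≤ ε := min_le_left _ _
    have h2 : e ≤ K * e := by nlinarith
    linarith
  have htε : t ≤ ε := min_le_left _ _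
  filter_upwards [quad_full H hσ hR Q V P he0,
    spread_b H.toRUnif Q hm P.l0 (S h7) (N h7) he0 hyx, ev_const_le B he0 4,
    (S h7).scl (D ^ 5 * e) (by positivity)] with n h hsp h4 hscl
  obtain ⟨k, hk, l1, l2, m1, m2, s0, β0, ζ0, Z0, P0, R0, g1, g2, g3, g4, g5, g6, g7, g8, g9, g10,
      g11, L2, hL, hLc, hr⟩ := h
  have hpos : ∀ t : ℝ, 0 < B.d n ^ t := fun t => rpos B n t
  have w1 : B.d n ^ (-e) ≤ B.d n ^ (-ε) := rpow_anti B n (by linarith)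
  have w2 : B.d n ^ (x - e) ≤ B.d n ^ (x - ε) := rpow_anti B n (by linarith)
  have w3 : B.d n ^ ε ≤ B.d n ^ e := rpow_anti B n heε
  have w4 : B.d n ^ (x - t) ≤ B.d n ^ (x - ε) := rpow_anti B n (by linarith)
  have key : |m1| ≤ B.d n ^ (x - ε) ∧ (F9 → |l1| ≤ B.d n ^ (x - ε)) := by
    rcases L2.eq_empty_or_nonempty with he | hne
    · -- no line at all
      exfalso
      rw [he, card_empty, Nat.cast_zero] at hLc
      have h1 : ((G n).L.card : ℝ) ≤ 0 := by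
        have := hpos e
        by_contra hcon
        push Not at hcon
        have := mul_pos this hcon
        linarith
      obtain ⟨p0, hp0⟩ := H.toRUnif.nonempty n
      have h2 : (G n).L.Nonempty := ⟨p0.1, (mem_product.1 (H.toRUnif.sub n hp0)).1⟩
      have h3 : (0 : ℝ) < ((G n).L.card : ℝ) := by exact_mod_cast h2.card_pos
      linarith
    · have hsl : (((G n).slice k).card : ℝ) ≤ ((G n).L.card : ℝ) :=
        Nat.cast_le.2 (card_le_card fun l hl => (RCfg.mem_slice.1 hl).1)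
      obtain ⟨l, hl, l', hl', q1, q2⟩ := hsp k L2 hL hne
        ((mul_le_mul_of_nonneg_left hsl (hpos _).le).trans hLc)
      obtain ⟨c1, c2, c3⟩ := hscl k l l' (H.toRUnif.memSlice.1 (hL hl))
        (H.toRUnif.memSlice.1 (hL hl')) q1
      have f1 := hr l hl
      have f2 := hr l' hl'
      refine ⟨(spread_pow B n he0 hC hD h4 hsplit.le ?_).trans w4, fun h9 =>
        (spread_pow B n he0 hC hD h4 hsplit.le ?_).trans w4⟩
      · exact spread_real f1.rel.rβ f2.rel.rβ c2 c1 g4 q2 (hpos _).le le_rfl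
      · exact spread_real f1.rel.rs f2.rel.rs (c3 h9) c1 g2 q2 (hpos _).le le_rfl
  refine ⟨k, hk, l1, l2, m1, m2, s0, β0, ζ0, Z0, P0, R0, g1.trans w1, g2.trans w1, g3.trans w1,
    g4.trans w1, g5.trans w1, g6.trans w1, g7.trans w1, g8.trans w1, g9.trans w1, g10.trans w1,
    g11.trans w2, fun _ => key.1, key.2, L2, hL,
    (mul_le_mul_of_nonneg_right w3 (Nat.cast_nonneg _)).trans hLc, fun l hl => ?_⟩
  exact ⟨(hr l hl).rel.mono w2, (hr l hl).rΦ.trans w2, (hr l hl).rR.trans w2⟩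

end Crest.Agent.R136.Qd329
end

-- ▼ part R136/Qd13_329

/-!
# R136: the bilinear rigidity (helper329), part 13: one step in the normalised group

`Loc κ K η h h' g w v w'` : `g = h h'` (frames), `w' = v + tr h' w` up to `η` (flags without the
components `0, 1, 2, 4`).  The rows of the position box, of the velocity box, of the evolution.
-/

set_option autoImplicit false

namespace Crest.Agent.R136.Qd329

open Crest.Agent.R136.NetW191 Crest.Agent.R136.EvW938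

/-- sides `1` on the frames, `η` on the flags -/
def sdF (η : ℝ) (s : Fin 18) : ℝ := if s < 4 then 1 else η

theorem sdF_left (η : ℝ) (i : Fin 4) : sdF η (Fin.castAdd 14 i) = 1 := by
  have h : ∀ i : Fin 4, (Fin.castAdd 14 i : Fin 18) < 4 := by decide
  exact if_pos (h i)

theorem sdF_right (η : ℝ) (q : Fin 14) : sdF η (Fin.natAdd 4 q) = η := by
  have h : ∀ q : Fin 14, ¬ (Fin.natAdd 4 q : Fin 18) < 4 := by decide
  exact if_neg (h q)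

theorem prod_frames (η : ℝ) (l : List (Fin 4)) :
    (l.map fun i => sdF η (Fin.castAdd 14 i)).prod = 1 := by
  induction l with
  | nil => rfl
  | cons a l ih => rw [List.map_cons, List.prod_cons, ih, sdF_left, one_mul]

theorem sides_F {η : ℝ} (hη : 0 ≤ η) : SidesW (sdF η) where
  pos s := by unfold sdF; split_ifs <;> linarith
  wall k l hl := by
    induction k using Fin.addCases (m := 4) (n := 14) with
    | left i =>
      rw [mlW_left] at hl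
      have h : ∀ i : Fin 4, ∀ l ∈ mh i, ∀ s ∈ l, s < 4 := by decide
      have h2 : ∀ l : List (Fin 18), (∀ s ∈ l, s < 4) → (l.map (sdF η)).prod = 1 := by
        intro l
        induction l with
        | nil => intro _; rfl
        | cons a l ih =>
          intro ha
          rw [List.map_cons, List.prod_cons, ih fun s hs => ha s (List.mem_cons_of_mem _ hs),
            sdF, if_pos (ha a List.mem_cons_self), one_mul]
      rw [h2 l (h i l hl), sdF_left]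
    | right q =>
      rw [mlW_right] at hl
      obtain ⟨t, -, rfl⟩ := List.mem_map.1 hl
      have e1 : (t.idx.map (sdF η)).prod =
          (t.hl.map fun i => sdF η (Fin.castAdd 14 i)).prod * sdF η (Fin.natAdd 4 t.s) := by
        simp [Tm.idx, List.map_append, List.prod_append, Function.comp_def]
      rw [e1, prod_frames, one_mul, sdF_right, sdF_right]

/-- the substitution, bounded frames, small flags -/
theorem tr_small {κ : ℝ} (hκ : |κ| ≤ 1) {h : Fin 4 → ℝ} {w : Fin 14 → ℝ} {K η : ℝ} (hK : 1 ≤ K)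
    (hη : 0 ≤ η) (h1 : ∀ i, |h i| ≤ K) (w1 : ∀ q, |w q| ≤ η) (q : Fin 14) :
    |tr κ h w q| ≤ 470 * K ^ 7 * η := by
  have := tr_size hκ (sides_F hη) hK (h := h) (w := w)
    (fun i => by rw [sdF_left, mul_one]; exact h1 i)
    (fun q => by rw [sdF_right]; exact (w1 q).trans (by nlinarith)) q
  rwa [sdF_right] at this

/-- the substitution is Lipschitz in the frame -/
theorem tr_frame {κ : ℝ} (hκ : |κ| ≤ 1) {h h' : Fin 4 → ℝ} {w : Fin 14 → ℝ} {K τ Λ : ℝ}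
    (hK : 1 ≤ K) (hτ : 0 ≤ τ) (hΛ : 0 ≤ Λ) (h1 : ∀ i, |h i| ≤ K) (h2 : ∀ i, |h' i| ≤ K)
    (h3 : ∀ i, |h i - h' i| ≤ τ) (w1 : ∀ q, |w q| ≤ Λ) (q : Fin 14) :
    |tr κ h w q - tr κ h' w q| ≤ 470 * K ^ 7 * τ * Λ := by
  have hK0 : 0 ≤ K := by linarith
  have := tr_lip hκ (sides_F hΛ) hK hτ (h := h) (h' := h') (w := w) (w' := w)
    (fun i => by rw [sdF_left, mul_one]; exact h1 i)
    (fun i => by rw [sdF_left, mul_one]; exact h2 i)
    (fun i => by rw [sdF_left, mul_one]; exact (h3 i).trans (by nlinarith))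
    (fun q => by rw [sdF_right]; exact (w1 q).trans (by nlinarith))
    (fun q => by rw [sub_self, abs_zero, sdF_right]; positivity) q
  rwa [sdF_right] at this

/-- the components which are dropped -/
structure Fz (w : Fin 14 → ℝ) : Prop where
  z0 : w 0 = 0
  z1 : w 1 = 0
  z2 : w 2 = 0
  z4 : w 4 = 0

section live

variable {κ : ℝ} {h : Fin 4 → ℝ} {w : Fin 14 → ℝ}

theorem Fz.t0 (z : Fz w) : tr κ h w 0 = 0 := by rw [tr0, z.z0]
theorem Fz.t1 (z : Fz w) : tr κ h w 1 = 0 := by rw [tr1, z.z0, z.z1]; ring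
theorem Fz.t2 (z : Fz w) : tr κ h w 2 = 0 := by rw [tr2, z.z0, z.z1, z.z2]; ring
theorem Fz.t3 (z : Fz w) : tr κ h w 3 = w 3 := by rw [tr3, z.z0, z.z1]; ring
theorem Fz.t4 (z : Fz w) : tr κ h w 4 = 0 := by rw [tr4, z.z0, z.z1, z.z2, z.z4]; ring
theorem Fz.t5 (z : Fz w) : tr κ h w 5 = w 5 - 4 * κ * h 1 * w 3 := by
  rw [tr5, z.z0, z.z1, z.z2]; ring
theorem Fz.t6 (z : Fz w) : tr κ h w 6 = w 6 + 4 * κ ^ 2 * h 1 ^ 2 * w 3 - 2 * κ * h 1 * w 5 := by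
  rw [tr6, z.z0, z.z1, z.z2, z.z4]; ring
theorem Fz.t7 (z : Fz w) : tr κ h w 7 = w 7 - 2 * κ * h 1 ^ 2 * w 3 + h 1 * w 5 := by
  rw [tr7, z.z0, z.z1, z.z2, z.z4]; ring
theorem Fz.t8 (z : Fz w) : tr κ h w 8 = w 8 + 4 * κ ^ 2 * h 1 ^ 3 * w 3 -
    3 * κ * h 1 ^ 2 * w 5 + 2 * h 1 * w 6 - 2 * κ * h 1 * w 7 := by
  rw [tr8, z.z0, z.z1, z.z2, z.z4]; ring
theorem Fz.t9 (z : Fz w) : tr κ h w 9 = w 9 + κ ^ 2 * h 1 ^ 4 * w 3 - κ * h 1 ^ 3 * w 5 +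
    h 1 ^ 2 * w 6 - κ * h 1 ^ 2 * w 7 + h 1 * w 8 := by
  rw [tr9, z.z0, z.z1, z.z2, z.z4]; ring
theorem Fz.t10 (z : Fz w) : tr κ h w 10 = w 10 + 2 * h 3 * w 3 + h 2 * w 5 + h 0 * w 7 := by
  rw [tr10, z.z0, z.z1, z.z2, z.z4]; ring
theorem Fz.t11 (z : Fz w) : tr κ h w 11 = w 11 - 4 * κ * h 1 * h 3 * w 3 -
    2 * κ * h 1 * h 2 * w 5 + h 3 * w 5 + 2 * h 2 * w 6 - 2 * κ * h 0 * h 1 * w 7 + h 0 * w 8 -
    2 * κ * h 1 * w 10 := by
  rw [tr11, z.z0, z.z1, z.z2, z.z4]; ring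
theorem Fz.t12 (z : Fz w) : tr κ h w 12 = w 12 - 2 * κ * h 1 ^ 2 * h 3 * w 3 -
    κ * h 1 ^ 2 * h 2 * w 5 + h 1 * h 3 * w 5 + 2 * h 1 * h 2 * w 6 + h 3 * w 7 -
    κ * h 0 * h 1 ^ 2 * w 7 + h 2 * w 8 + h 0 * h 1 * w 8 + 2 * h 0 * w 9 -
    κ * h 1 ^ 2 * w 10 + h 1 * w 11 := by
  rw [tr12, z.z0, z.z1, z.z2, z.z4]; ring

theorem Fz.tr (z : Fz w) : Fz (tr κ h w) := ⟨z.t0, z.t1, z.t2, z.t4⟩

end live

/-- one step in the normalised group -/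
structure Loc (κ K η : ℝ) (h h' g : Fin 4 → ℝ) (w v w' : Fin 14 → ℝ) : Prop where
  hκ : |κ| ≤ 1
  K1 : 1 ≤ K
  η0 : 0 ≤ η
  bh : ∀ i, |h i| ≤ K
  bh' : ∀ i, |h' i| ≤ K
  bg : ∀ i, |g i| ≤ K
  bw : ∀ q, |w q| ≤ K
  bw' : ∀ q, |w' q| ≤ K
  zw : Fz w
  fr : g = mul κ h h'
  fl : ∀ q, q ≠ 13 → |w' q - (v q + tr κ h' w q)| ≤ η

section

variable {κ K η : ℝ} {h h' g : Fin 4 → ℝ} {w v w' : Fin 14 → ℝ}

/-- larger errors -/
theorem Loc.mono (L : Loc κ K η h h' g w v w') {η' : ℝ} (hη : η ≤ η') :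
    Loc κ K η' h h' g w v w' :=
  ⟨L.hκ, L.K1, L.η0.trans hη, L.bh, L.bh', L.bg, L.bw, L.bw', L.zw, L.fr,
    fun q hq => (L.fl q hq).trans hη⟩

/-- the error of a step -/
theorem Loc.step (L : Loc κ K η h h' g w v w') {h0 : Fin 4 → ℝ} (b0 : ∀ i, |h0 i| ≤ K)
    (hh : ∀ i, |h' i - h0 i| ≤ η) {q : Fin 14} (hq : q ≠ 13) (hv : |v q| ≤ η) :
    |w' q - NetW191.tr κ h0 w q| ≤ 472 * K ^ 8 * η := by
  have K0 : 0 ≤ K := by linarith [L.K1]
  have h1 := tr_frame L.hκ L.K1 L.η0 K0 L.bh' b0 hh L.bw q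
  have h2 := L.fl q hq
  have e : w' q - NetW191.tr κ h0 w q = (w' q - (v q + NetW191.tr κ h' w q)) + v q +
      (NetW191.tr κ h' w q - NetW191.tr κ h0 w q) := by ring
  rw [e]
  have h3 := abs_add_le (w' q - (v q + NetW191.tr κ h' w q) + v q)
    (NetW191.tr κ h' w q - NetW191.tr κ h0 w q)
  have h4 := abs_add_le (w' q - (v q + NetW191.tr κ h' w q)) (v q)
  have h5 : η ≤ K ^ 8 * η := le_mul_of_one_le_left L.η0 (one_le_pow₀ L.K1)
  have h6 : 470 * K ^ 7 * η * K = 470 * (K ^ 8 * η) := by ring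
  rw [h6] at h1
  linarith

theorem Loc.g1 (L : Loc κ K η h h' g w v w') : g 1 = h 1 + h' 1 := by rw [L.fr, mul1]
theorem Loc.g2 (L : Loc κ K η h h' g w v w') : g 2 = h 2 + h' 2 + h 1 * h' 0 := by
  rw [L.fr, mul2]
theorem Loc.g3 (L : Loc κ K η h h' g w v w') :
    g 3 = h 3 + h' 3 - 2 * κ * h 1 * h' 2 - κ * h 1 ^ 2 * h' 0 := by rw [L.fr, mul3]

/-- products with bounded factors -/
theorem mb {x y X Y : ℝ} (hx : |x| ≤ X) (hy : |y| ≤ Y) : |x * y| ≤ X * Y := by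
  rw [abs_mul]; exact mul_le_mul hx hy (abs_nonneg _) ((abs_nonneg _).trans hx)

theorem Loc.kc (L : Loc κ K η h h' g w v w') {x X : ℝ} (hx : |x| ≤ X) : |κ * x| ≤ X := by
  have := mb L.hκ hx
  linarith

/-- difference of the positions -/
theorem Loc.pos2 (L : Loc κ K η h h' g w v w') (i0 : |h' 0| ≤ η) (i2 : |h' 2| ≤ η) :
    |g 2 - h 2| ≤ 2 * K ^ 2 * η := by
  have e : g 2 - h 2 = h' 2 + h 1 * h' 0 := by rw [L.g2]; ring
  rw [e]
  have h1 := mb (L.bh 1) i0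
  have h2 := abs_add_le (h' 2) (h 1 * h' 0)
  have K0 : 0 ≤ K := by linarith [L.K1]
  have h3 : η ≤ K ^ 2 * η := le_mul_of_one_le_left L.η0 (one_le_pow₀ L.K1)
  have h4 : K * η ≤ K ^ 2 * η := mul_le_mul_of_nonneg_right (by nlinarith [L.K1]) L.η0
  linarith

theorem Loc.pos3 (L : Loc κ K η h h' g w v w') (i0 : |h' 0| ≤ η) (i2 : |h' 2| ≤ η)
    (i3 : |h' 3| ≤ η) : |g 3 - h 3| ≤ 4 * K ^ 2 * η := by
  have e : g 3 - h 3 = h' 3 - 2 * (κ * (h 1 * h' 2)) - κ * (h 1 * (h 1 * h' 0)) := by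
    rw [L.g3]; ring
  rw [e]
  have h1 := L.kc (mb (L.bh 1) i2)
  have h2 := L.kc (mb (L.bh 1) (mb (L.bh 1) i0))
  have h3 := abs_sub (h' 3 - 2 * (κ * (h 1 * h' 2))) (κ * (h 1 * (h 1 * h' 0)))
  have h4 := abs_sub (h' 3) (2 * (κ * (h 1 * h' 2)))
  rw [abs_mul 2, abs_two] at h4
  have K0 : 0 ≤ K := by linarith [L.K1]
  have h5 : η ≤ K ^ 2 * η := le_mul_of_one_le_left L.η0 (one_le_pow₀ L.K1)
  have h6 : K * η ≤ K ^ 2 * η := mul_le_mul_of_nonneg_right (by nlinarith [L.K1]) L.η0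
  have h7 : K * (K * η) = K ^ 2 * η := by ring
  linarith

/-- the position box -/
theorem Loc.pbox (L : Loc κ K η h h' g w v w') (i0 : |h' 0| ≤ η) (i2 : |h' 2| ≤ η)
    (i3 : |h' 3| ≤ η) :
    (|v 10| ≤ η → |w' 10 - w 10| ≤ 472 * K ^ 8 * η) ∧
    (|v 11| ≤ η → |w' 11 - (w 11 - 2 * κ * h' 1 * w 10)| ≤ 472 * K ^ 8 * η) ∧
    (|v 12| ≤ η → |w' 12 - (w 12 - κ * h' 1 ^ 2 * w 10 + h' 1 * w 11)| ≤ 472 * K ^ 8 * η) := by
  have K0 : 0 ≤ K := by linarith [L.K1]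
  set h0 : Fin 4 → ℝ := ![0, h' 1, 0, 0] with hh0
  have b0 : ∀ i, |h0 i| ≤ K := by
    intro i; fin_cases i
    · change |(0 : ℝ)| ≤ K; rw [abs_zero]; exact K0
    · exact L.bh' 1
    · change |(0 : ℝ)| ≤ K; rw [abs_zero]; exact K0
    · change |(0 : ℝ)| ≤ K; rw [abs_zero]; exact K0
  have hh : ∀ i, |h' i - h0 i| ≤ η := by
    intro i; fin_cases i
    · change |h' 0 - 0| ≤ η; rw [sub_zero]; exact i0
    · change |h' 1 - h' 1| ≤ η; rw [sub_self, abs_zero]; exact L.η0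
    · change |h' 2 - 0| ≤ η; rw [sub_zero]; exact i2
    · change |h' 3 - 0| ≤ η; rw [sub_zero]; exact i3
  have e10 : NetW191.tr κ h0 w 10 = w 10 := by
    rw [L.zw.t10]; change w 10 + 2 * 0 * w 3 + 0 * w 5 + 0 * w 7 = _; ring
  have e11 : NetW191.tr κ h0 w 11 = w 11 - 2 * κ * h' 1 * w 10 := by
    rw [L.zw.t11]
    change w 11 - 4 * κ * h' 1 * 0 * w 3 - 2 * κ * h' 1 * 0 * w 5 + 0 * w 5 + 2 * 0 * w 6 -
      2 * κ * 0 * h' 1 * w 7 + 0 * w 8 - 2 * κ * h' 1 * w 10 = _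
    ring
  have e12 : NetW191.tr κ h0 w 12 = w 12 - κ * h' 1 ^ 2 * w 10 + h' 1 * w 11 := by
    rw [L.zw.t12]
    change w 12 - 2 * κ * h' 1 ^ 2 * 0 * w 3 - κ * h' 1 ^ 2 * 0 * w 5 + h' 1 * 0 * w 5 +
      2 * h' 1 * 0 * w 6 + 0 * w 7 - κ * 0 * h' 1 ^ 2 * w 7 + 0 * w 8 + 0 * h' 1 * w 8 +
      2 * 0 * w 9 - κ * h' 1 ^ 2 * w 10 + h' 1 * w 11 = _
    ring
  refine ⟨fun hv => ?_, fun hv => ?_, fun hv => ?_⟩
  · rw [← e10]; exact L.step b0 hh (by decide) hv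
  · rw [← e11]; exact L.step b0 hh (by decide) hv
  · rw [← e12]; exact L.step b0 hh (by decide) hv

/-- the position box, `s` -/
theorem Loc.ps (L : Loc κ K η h h' g w v w') {A : ℝ} (h10 : |w' 10 - w 10| ≤ A)
    (h11 : |w' 11 - (w 11 - 2 * κ * h' 1 * w 10)| ≤ A) :
    |(w' 11 + 2 * κ * g 1 * w' 10) - (w 11 + 2 * κ * h 1 * w 10)| ≤ 3 * K * A := by
  have A0 : 0 ≤ A := (abs_nonneg _).trans h10
  have e : (w' 11 + 2 * κ * g 1 * w' 10) - (w 11 + 2 * κ * h 1 * w 10) =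
      (w' 11 - (w 11 - 2 * κ * h' 1 * w 10)) + 2 * (κ * (g 1 * (w' 10 - w 10))) := by
    rw [L.g1]; ring
  rw [e]
  have h1 := L.kc (mb (L.bg 1) h10)
  have h2 := abs_add_le (w' 11 - (w 11 - 2 * κ * h' 1 * w 10)) (2 * (κ * (g 1 * (w' 10 - w 10))))
  rw [abs_mul 2, abs_two] at h2
  have h3 : A ≤ K * A := le_mul_of_one_le_left A0 L.K1
  linarith

/-- the position box, the invariant -/
theorem Loc.pP (L : Loc κ K η h h' g w v w') {A : ℝ} (h10 : |w' 10 - w 10| ≤ A)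
    (h11 : |w' 11 - (w 11 - 2 * κ * h' 1 * w 10)| ≤ A)
    (h12 : |w' 12 - (w 12 - κ * h' 1 ^ 2 * w 10 + h' 1 * w 11)| ≤ A) :
    |(w' 12 - g 1 * (w' 11 + 2 * κ * g 1 * w' 10) + κ * g 1 ^ 2 * w' 10) -
      (w 12 - h 1 * (w 11 + 2 * κ * h 1 * w 10) + κ * h 1 ^ 2 * w 10)| ≤ 5 * K ^ 2 * A := by
  have A0 : 0 ≤ A := (abs_nonneg _).trans h10
  have K0 : 0 ≤ K := by linarith [L.K1]
  have e : (w' 12 - g 1 * (w' 11 + 2 * κ * g 1 * w' 10) + κ * g 1 ^ 2 * w' 10) -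
      (w 12 - h 1 * (w 11 + 2 * κ * h 1 * w 10) + κ * h 1 ^ 2 * w 10) =
      (w' 12 - (w 12 - κ * h' 1 ^ 2 * w 10 + h' 1 * w 11)) -
      g 1 * ((w' 11 + 2 * κ * g 1 * w' 10) - (w 11 + 2 * κ * h 1 * w 10)) +
      κ * (g 1 * (g 1 * (w' 10 - w 10))) := by
    rw [L.g1]; ring
  rw [e]
  have h1 := mb (L.bg 1) (L.ps h10 h11)
  have h2 := L.kc (mb (L.bg 1) (mb (L.bg 1) h10))
  have h3 := abs_add_le ((w' 12 - (w 12 - κ * h' 1 ^ 2 * w 10 + h' 1 * w 11)) -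
      g 1 * ((w' 11 + 2 * κ * g 1 * w' 10) - (w 11 + 2 * κ * h 1 * w 10)))
      (κ * (g 1 * (g 1 * (w' 10 - w 10))))
  have h4 := abs_sub (w' 12 - (w 12 - κ * h' 1 ^ 2 * w 10 + h' 1 * w 11))
      (g 1 * ((w' 11 + 2 * κ * g 1 * w' 10) - (w 11 + 2 * κ * h 1 * w 10)))
  have h5 : A ≤ K ^ 2 * A := le_mul_of_one_le_left A0 (one_le_pow₀ L.K1)
  have h6 : K * (3 * K * A) = 3 * (K ^ 2 * A) := by ring
  have h7 : K * (K * A) = K ^ 2 * A := by ring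
  linarith

/-- the velocity box -/
theorem Loc.vbox (L : Loc κ K η h h' g w v w') (i0 : |h' 0| ≤ η) (i1 : |h' 1| ≤ η) :
    (|v 7| ≤ η → |w' 7 - w 7| ≤ 472 * K ^ 8 * η) ∧
    (|v 8| ≤ η → |w' 8 - w 8| ≤ 472 * K ^ 8 * η) ∧
    (|v 12| ≤ η → |w' 12 - (w 12 + h' 3 * w 7 + h' 2 * w 8)| ≤ 472 * K ^ 8 * η) := by
  have K0 : 0 ≤ K := by linarith [L.K1]
  set h0 : Fin 4 → ℝ := ![0, 0, h' 2, h' 3] with hh0
  have b0 : ∀ i, |h0 i| ≤ K := by
    intro i; fin_cases i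
    · change |(0 : ℝ)| ≤ K; rw [abs_zero]; exact K0
    · change |(0 : ℝ)| ≤ K; rw [abs_zero]; exact K0
    · exact L.bh' 2
    · exact L.bh' 3
  have hh : ∀ i, |h' i - h0 i| ≤ η := by
    intro i; fin_cases i
    · change |h' 0 - 0| ≤ η; rw [sub_zero]; exact i0
    · change |h' 1 - 0| ≤ η; rw [sub_zero]; exact i1
    · change |h' 2 - h' 2| ≤ η; rw [sub_self, abs_zero]; exact L.η0
    · change |h' 3 - h' 3| ≤ η; rw [sub_self, abs_zero]; exact L.η0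
  have e7 : NetW191.tr κ h0 w 7 = w 7 := by
    rw [L.zw.t7]; change w 7 - 2 * κ * 0 ^ 2 * w 3 + 0 * w 5 = _; ring
  have e8 : NetW191.tr κ h0 w 8 = w 8 := by
    rw [L.zw.t8]
    change w 8 + 4 * κ ^ 2 * 0 ^ 3 * w 3 - 3 * κ * 0 ^ 2 * w 5 + 2 * 0 * w 6 -
      2 * κ * 0 * w 7 = _
    ring
  have e12 : NetW191.tr κ h0 w 12 = w 12 + h' 3 * w 7 + h' 2 * w 8 := by
    rw [L.zw.t12]
    change w 12 - 2 * κ * 0 ^ 2 * h' 3 * w 3 - κ * 0 ^ 2 * h' 2 * w 5 + 0 * h' 3 * w 5 +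
      2 * 0 * h' 2 * w 6 + h' 3 * w 7 - κ * 0 * 0 ^ 2 * w 7 + h' 2 * w 8 + 0 * 0 * w 8 +
      2 * 0 * w 9 - κ * 0 ^ 2 * w 10 + 0 * w 11 = _
    ring
  refine ⟨fun hv => ?_, fun hv => ?_, fun hv => ?_⟩
  · rw [← e7]; exact L.step b0 hh (by decide) hv
  · rw [← e8]; exact L.step b0 hh (by decide) hv
  · rw [← e12]; exact L.step b0 hh (by decide) hv

/-- `Z` -/
theorem Loc.vZ (L : Loc κ K η h h' g w v w') {A : ℝ} (hA : η ≤ A) (i1 : |h' 1| ≤ η)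
    (h7 : |w' 7 - w 7| ≤ A) (h8 : |w' 8 - w 8| ≤ A) :
    |(w' 8 + 2 * κ * g 1 * w' 7) - (w 8 + 2 * κ * h 1 * w 7)| ≤ 5 * K * A := by
  have A0 : 0 ≤ A := (abs_nonneg _).trans h7
  have K0 : 0 ≤ K := by linarith [L.K1]
  have e : (w' 8 + 2 * κ * g 1 * w' 7) - (w 8 + 2 * κ * h 1 * w 7) =
      (w' 8 - w 8) + 2 * (κ * (g 1 * (w' 7 - w 7))) + 2 * (κ * (w 7 * h' 1)) := by
    rw [L.g1]; ring
  rw [e]
  have h1 := L.kc (mb (L.bg 1) h7)
  have h2 := L.kc (mb (L.bw 7) i1)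
  have h3 := abs_add_le ((w' 8 - w 8) + 2 * (κ * (g 1 * (w' 7 - w 7)))) (2 * (κ * (w 7 * h' 1)))
  have h4 := abs_add_le (w' 8 - w 8) (2 * (κ * (g 1 * (w' 7 - w 7))))
  rw [abs_mul 2, abs_two] at h3 h4
  have h5 : A ≤ K * A := le_mul_of_one_le_left A0 L.K1
  have h6 : K * η ≤ K * A := mul_le_mul_of_nonneg_left hA K0
  linarith

/-- the velocity box, the invariant -/
theorem Loc.vP (L : Loc κ K η h h' g w v w') {A : ℝ} (hA : η ≤ A) (i0 : |h' 0| ≤ η)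
    (i1 : |h' 1| ≤ η) (h7 : |w' 7 - w 7| ≤ A) (h8 : |w' 8 - w 8| ≤ A)
    (h12 : |w' 12 - (w 12 + h' 3 * w 7 + h' 2 * w 8)| ≤ A) :
    |(w' 12 - w' 7 * g 3 - (w' 8 + 2 * κ * g 1 * w' 7) * g 2) -
      (w 12 - w 7 * h 3 - (w 8 + 2 * κ * h 1 * w 7) * h 2)| ≤ 12 * K ^ 3 * A := by
  have A0 : 0 ≤ A := (abs_nonneg _).trans h7
  have K0 : 0 ≤ K := by linarith [L.K1]
  have hZ := L.vZ hA i1 h7 h8
  have e : (w' 12 - w' 7 * g 3 - (w' 8 + 2 * κ * g 1 * w' 7) * g 2) -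
      (w 12 - w 7 * h 3 - (w 8 + 2 * κ * h 1 * w 7) * h 2) =
      (w' 12 - (w 12 + h' 3 * w 7 + h' 2 * w 8)) + κ * (h 1 * (h 1 * (w 7 * h' 0))) -
      ((w 8 + 2 * κ * h 1 * w 7) * (h 1 * h' 0)) - g 3 * (w' 7 - w 7) -
      g 2 * ((w' 8 + 2 * κ * g 1 * w' 7) - (w 8 + 2 * κ * h 1 * w 7)) := by
    rw [L.g2, L.g3]; ring
  rw [e]
  have h1 := L.kc (mb (L.bh 1) (mb (L.bh 1) (mb (L.bw 7) i0)))
  have hZb : |w 8 + 2 * κ * h 1 * w 7| ≤ 3 * K ^ 2 := by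
    have e : w 8 + 2 * κ * h 1 * w 7 = w 8 + 2 * (κ * (h 1 * w 7)) := by ring
    rw [e]
    have k1 := L.kc (mb (L.bh 1) (L.bw 7))
    have k2 := abs_add_le (w 8) (2 * (κ * (h 1 * w 7)))
    rw [abs_mul 2, abs_two] at k2
    have k3 := L.bw 8
    nlinarith [L.K1]
  have h2 := mb hZb (mb (L.bh 1) i0)
  have h3 := mb (L.bg 3) h7
  have h4 := mb (L.bg 2) hZ
  have h5 := abs_sub ((w' 12 - (w 12 + h' 3 * w 7 + h' 2 * w 8)) +
      κ * (h 1 * (h 1 * (w 7 * h' 0))) - ((w 8 + 2 * κ * h 1 * w 7) * (h 1 * h' 0)) -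
      g 3 * (w' 7 - w 7)) (g 2 * ((w' 8 + 2 * κ * g 1 * w' 7) - (w 8 + 2 * κ * h 1 * w 7)))
  have h6 := abs_sub ((w' 12 - (w 12 + h' 3 * w 7 + h' 2 * w 8)) +
      κ * (h 1 * (h 1 * (w 7 * h' 0))) - ((w 8 + 2 * κ * h 1 * w 7) * (h 1 * h' 0)))
      (g 3 * (w' 7 - w 7))
  have h7 := abs_sub ((w' 12 - (w 12 + h' 3 * w 7 + h' 2 * w 8)) +
      κ * (h 1 * (h 1 * (w 7 * h' 0)))) ((w 8 + 2 * κ * h 1 * w 7) * (h 1 * h' 0))
  have h8 := abs_add_le (w' 12 - (w 12 + h' 3 * w 7 + h' 2 * w 8))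
      (κ * (h 1 * (h 1 * (w 7 * h' 0))))
  have j1 : A ≤ K ^ 3 * A := le_mul_of_one_le_left A0 (one_le_pow₀ L.K1)
  have j2 : K * (K * (K * η)) ≤ K ^ 3 * A := by
    have : K * (K * (K * η)) = K ^ 3 * η := by ring
    rw [this]
    exact mul_le_mul_of_nonneg_left hA (by positivity)
  have j3 : 3 * K ^ 2 * (K * η) ≤ 3 * (K ^ 3 * A) := by
    have : 3 * K ^ 2 * (K * η) = 3 * (K ^ 3 * η) := by ring
    rw [this]
    have := mul_le_mul_of_nonneg_left hA (show 0 ≤ K ^ 3 by positivity)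
    linarith
  have j4 : K * A ≤ K ^ 3 * A := by
    refine mul_le_mul_of_nonneg_right ?_ A0
    calc K = K ^ 1 := (pow_one K).symm
      _ ≤ K ^ 3 := pow_le_pow_right₀ L.K1 (by norm_num)
  have j5 : K * (5 * K * A) ≤ 5 * (K ^ 3 * A) := by
    have h9 : K * (5 * K * A) = 5 * (K ^ 2 * A) := by ring
    rw [h9]
    have := mul_le_mul_of_nonneg_right (pow_le_pow_right₀ L.K1 (show 2 ≤ 3 by norm_num)) A0
    linarith
  linarith

/-- the box of the spread -/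
theorem Loc.sbox (L : Loc κ K η h h' g w v w') (i0 : |h' 0| ≤ η) (i2 : |h' 2| ≤ η)
    (w3 : w 3 = 0) : (|v 10| ≤ η → |w' 10 - w 10| ≤ 472 * K ^ 8 * η) ∧
    (w 5 = 0 → |v 11| ≤ η → |w' 11 - (w 11 - 2 * κ * h' 1 * w 10)| ≤ 472 * K ^ 8 * η) := by
  have K0 : 0 ≤ K := by linarith [L.K1]
  set h0 : Fin 4 → ℝ := ![0, h' 1, 0, h' 3] with hh0
  have b0 : ∀ i, |h0 i| ≤ K := by
    intro i; fin_cases i
    · change |(0 : ℝ)| ≤ K; rw [abs_zero]; exact K0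
    · exact L.bh' 1
    · change |(0 : ℝ)| ≤ K; rw [abs_zero]; exact K0
    · exact L.bh' 3
  have hh : ∀ i, |h' i - h0 i| ≤ η := by
    intro i; fin_cases i
    · change |h' 0 - 0| ≤ η; rw [sub_zero]; exact i0
    · change |h' 1 - h' 1| ≤ η; rw [sub_self, abs_zero]; exact L.η0
    · change |h' 2 - 0| ≤ η; rw [sub_zero]; exact i2
    · change |h' 3 - h' 3| ≤ η; rw [sub_self, abs_zero]; exact L.η0
  have e10 : NetW191.tr κ h0 w 10 = w 10 := by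
    rw [L.zw.t10, w3]; change w 10 + 2 * h' 3 * 0 + 0 * w 5 + 0 * w 7 = _; ring
  refine ⟨fun hv => ?_, fun w5 hv => ?_⟩
  · rw [← e10]; exact L.step b0 hh (by decide) hv
  · have e11 : NetW191.tr κ h0 w 11 = w 11 - 2 * κ * h' 1 * w 10 := by
      rw [L.zw.t11, w3, w5]
      change w 11 - 4 * κ * h' 1 * h' 3 * 0 - 2 * κ * h' 1 * 0 * 0 + h' 3 * 0 + 2 * 0 * w 6 -
        2 * κ * 0 * h' 1 * w 7 + 0 * w 8 - 2 * κ * h' 1 * w 10 = _
      ring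
    rw [← e11]; exact L.step b0 hh (by decide) hv

/-- inverse rows: positions -/
theorem Loc.inv2 (L : Loc κ K η h h' g w v w') (i0 : |h' 0| ≤ η) (ha : |g 2 - h 2| ≤ η) :
    |h' 2| ≤ 2 * K * η := by
  have e : h' 2 = (g 2 - h 2) - h 1 * h' 0 := by rw [L.g2]; ring
  rw [e]
  have h1 := mb (L.bh 1) i0
  have h2 := abs_sub (g 2 - h 2) (h 1 * h' 0)
  have h3 : η ≤ K * η := le_mul_of_one_le_left L.η0 L.K1
  linarith

theorem Loc.inv3 (L : Loc κ K η h h' g w v w') {y τ : ℝ} (i0 : |h' 0| ≤ τ) (i2 : |h' 2| ≤ τ)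
    (hb : |g 3 - h 3| ≤ y) : |h' 3| ≤ y + 3 * K ^ 2 * τ := by
  have τ0 : 0 ≤ τ := (abs_nonneg _).trans i0
  have e : h' 3 = (g 3 - h 3) + 2 * (κ * (h 1 * h' 2)) + κ * (h 1 * (h 1 * h' 0)) := by
    rw [L.g3]; ring
  have K0 : 0 ≤ K := by linarith [L.K1]
  have h1 := L.kc (mb (L.bh 1) i2)
  have h2 := L.kc (mb (L.bh 1) (mb (L.bh 1) i0))
  have h3 := abs_add_le ((g 3 - h 3) + 2 * (κ * (h 1 * h' 2))) (κ * (h 1 * (h 1 * h' 0)))
  have h4 := abs_add_le (g 3 - h 3) (2 * (κ * (h 1 * h' 2)))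
  rw [abs_mul 2, abs_two] at h4
  rw [← e] at h3
  have h6 : K * τ ≤ K ^ 2 * τ := mul_le_mul_of_nonneg_right (by nlinarith [L.K1]) τ0
  have h7 : K * (K * τ) = K ^ 2 * τ := by ring
  linarith

/-- **evolution** : the rows along one line -/
theorem Loc.evo (L : Loc κ K η h h' g w v w') {u : ℝ} (hu : |u| ≤ K) (i0 : |h' 0 - u| ≤ η)
    (i1 : |h' 1| ≤ η) (i2 : |h' 2| ≤ η) (i3 : |h' 3| ≤ η) (hv : ∀ q, q ≠ 13 → |v q| ≤ η) :
    |g 2 - (h 2 + u * h 1)| ≤ 5000 * K ^ 12 * η ∧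
    |g 3 - (h 3 - κ * u * h 1 ^ 2)| ≤ 5000 * K ^ 12 * η ∧ |g 1 - h 1| ≤ 5000 * K ^ 12 * η ∧
    |(w' 11 + 2 * κ * g 1 * w' 10) -
      ((w 11 + 2 * κ * h 1 * w 10) + u * (w 8 + 2 * κ * h 1 * w 7))| ≤ 5000 * K ^ 12 * η ∧
    |w' 10 - (w 10 + u * w 7)| ≤ 5000 * K ^ 12 * η ∧ |w' 7 - w 7| ≤ 5000 * K ^ 12 * η ∧
    |(w' 8 + 2 * κ * g 1 * w' 7) - (w 8 + 2 * κ * h 1 * w 7)| ≤ 5000 * K ^ 12 * η ∧
    |w' 12 - (w 12 + 2 * u * w 9)| ≤ 5000 * K ^ 12 * η ∧ |w' 9 - w 9| ≤ 5000 * K ^ 12 * η := by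
  have K1 := L.K1
  have K0 : 0 ≤ K := by linarith
  have η0 := L.η0
  have b0 : ∀ i, |sh u i| ≤ K := by
    intro i; fin_cases i
    · exact hu
    · change |(0 : ℝ)| ≤ K; rw [abs_zero]; exact K0
    · change |(0 : ℝ)| ≤ K; rw [abs_zero]; exact K0
    · change |(0 : ℝ)| ≤ K; rw [abs_zero]; exact K0
  have hh : ∀ i, |h' i - sh u i| ≤ η := by
    intro i; fin_cases i
    · exact i0
    · change |h' 1 - 0| ≤ η; rw [sub_zero]; exact i1
    · change |h' 2 - 0| ≤ η; rw [sub_zero]; exact i2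
    · change |h' 3 - 0| ≤ η; rw [sub_zero]; exact i3
  have st : ∀ q, q ≠ 13 → |w' q - NetW191.tr κ (sh u) w q| ≤ 472 * K ^ 8 * η :=
    fun q hq => L.step b0 hh hq (hv q hq)
  have e7 : NetW191.tr κ (sh u) w 7 = w 7 := by
    rw [L.zw.t7]; change w 7 - 2 * κ * 0 ^ 2 * w 3 + 0 * w 5 = _; ring
  have e8 : NetW191.tr κ (sh u) w 8 = w 8 := tr_sh8 ..
  have e9 : NetW191.tr κ (sh u) w 9 = w 9 := tr_sh9 ..
  have e10 : NetW191.tr κ (sh u) w 10 = w 10 + u * w 7 := by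
    rw [tr_sh10, L.zw.z4]; ring
  have e11 : NetW191.tr κ (sh u) w 11 = w 11 + u * w 8 := tr_sh11 ..
  have e12 : NetW191.tr κ (sh u) w 12 = w 12 + 2 * u * w 9 := tr_sh12 ..
  have s7 := st 7 (by decide)
  have s8 := st 8 (by decide)
  have s9 := st 9 (by decide)
  have s10 := st 10 (by decide)
  have s11 := st 11 (by decide)
  have s12 := st 12 (by decide)
  rw [e7] at s7
  rw [e8] at s8
  rw [e9] at s9
  rw [e10] at s10
  rw [e11] at s11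
  rw [e12] at s12
  set A := 472 * K ^ 8 * η with hA
  have A0 : 0 ≤ A := by positivity
  have hηA : η ≤ A := by
    have : η ≤ K ^ 8 * η := le_mul_of_one_le_left η0 (one_le_pow₀ K1)
    have : A = 472 * (K ^ 8 * η) := by rw [hA]; ring
    linarith
  have big : 10 * K ^ 4 * A ≤ 5000 * K ^ 12 * η := by
    have e : 10 * K ^ 4 * A = 4720 * (K ^ 12 * η) := by rw [hA]; ring
    rw [e]
    have : 0 ≤ K ^ 12 * η := by positivity
    linarith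
  have pw : ∀ j : ℕ, j ≤ 4 → K ^ j * A ≤ K ^ 4 * A := fun j hj =>
    mul_le_mul_of_nonneg_right (pow_le_pow_right₀ K1 hj) A0
  have p0 : A ≤ K ^ 4 * A := le_mul_of_one_le_left A0 (one_le_pow₀ K1)
  have p1 : K * A ≤ K ^ 4 * A := by have := pw 1 (by norm_num); rwa [pow_one] at this
  have p2 : K * (K * A) ≤ K ^ 4 * A := by
    have := pw 2 (by norm_num)
    have e : K * (K * A) = K ^ 2 * A := by ring
    rwa [e]
  have q1 : K * η ≤ K * A := mul_le_mul_of_nonneg_left hηA K0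
  have q2 : K * (K * η) ≤ K * (K * A) := mul_le_mul_of_nonneg_left q1 K0
  refine ⟨?_, ?_, ?_, ?_, ?_, ?_, ?_, ?_, ?_⟩
  · have e : g 2 - (h 2 + u * h 1) = h' 2 + h 1 * (h' 0 - u) := by rw [L.g2]; ring
    rw [e]
    have h1 := mb (L.bh 1) i0
    have h2 := abs_add_le (h' 2) (h 1 * (h' 0 - u))
    linarith
  · have e : g 3 - (h 3 - κ * u * h 1 ^ 2) = h' 3 - 2 * (κ * (h 1 * h' 2)) -
        κ * (h 1 * (h 1 * (h' 0 - u))) := by rw [L.g3]; ring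
    rw [e]
    have h1 := L.kc (mb (L.bh 1) i2)
    have h2 := L.kc (mb (L.bh 1) (mb (L.bh 1) i0))
    have h3 := abs_sub (h' 3 - 2 * (κ * (h 1 * h' 2))) (κ * (h 1 * (h 1 * (h' 0 - u))))
    have h4 := abs_sub (h' 3) (2 * (κ * (h 1 * h' 2)))
    rw [abs_mul 2, abs_two] at h4
    linarith
  · have e : g 1 - h 1 = h' 1 := by rw [L.g1]; ring
    rw [e]; linarith
  · have e : (w' 11 + 2 * κ * g 1 * w' 10) -
        ((w 11 + 2 * κ * h 1 * w 10) + u * (w 8 + 2 * κ * h 1 * w 7)) =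
        (w' 11 - (w 11 + u * w 8)) + 2 * (κ * (g 1 * (w' 10 - (w 10 + u * w 7)))) +
        2 * (κ * (w 10 * h' 1)) + 2 * (κ * (u * (w 7 * h' 1))) := by
      rw [L.g1]; ring
    rw [e]
    have h1 := L.kc (mb (L.bg 1) s10)
    have h2 := L.kc (mb (L.bw 10) i1)
    have h3 := L.kc (mb hu (mb (L.bw 7) i1))
    have h4 := abs_add_le ((w' 11 - (w 11 + u * w 8)) +
      2 * (κ * (g 1 * (w' 10 - (w 10 + u * w 7)))) + 2 * (κ * (w 10 * h' 1)))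
      (2 * (κ * (u * (w 7 * h' 1))))
    have h5 := abs_add_le ((w' 11 - (w 11 + u * w 8)) +
      2 * (κ * (g 1 * (w' 10 - (w 10 + u * w 7))))) (2 * (κ * (w 10 * h' 1)))
    have h6 := abs_add_le (w' 11 - (w 11 + u * w 8))
      (2 * (κ * (g 1 * (w' 10 - (w 10 + u * w 7)))))
    rw [abs_mul 2, abs_two] at h4 h5 h6
    linarith
  · linarith
  · linarith
  · have := L.vZ hηA i1 s7 s8
    linarith
  · linarith
  · linarith

end

end Crest.Agent.R136.Qd329
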