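import Mathlib

-- ▼ part R136/Qd1_329
section

/-!
# R136: common neighbourhoods of triples (helper329), part 1

`triple_pigeon` : `L` = edges (with bounded multiplicity `W`) of a dense bipartite graph between the
cells `P` and `V`; if few triples of `V` are bad, some good triple has a common neighbourhood which
carries a positive part of `L`.
-/

set_option autoImplicit false

namespace Crest.Agent.R136.Qd329

open Finset

open Classical in
/-- **common neighbourhoods of triples** -/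
theorem triple_pigeon {α : Type*} (L : Finset α) (pc vc : α → ℕ) (P V : Finset ℕ)
    (hp : ∀ l ∈ L, pc l ∈ P) (hv : ∀ l ∈ L, vc l ∈ V) {W δ : ℝ} (hW : 0 < W) (hδ : 0 < δ)
    (fib : ∀ p v, ((L.filter fun l => pc l = p ∧ vc l = v).card : ℝ) ≤ W)
    (hL : L.Nonempty) (dens : δ * W * P.card * V.card ≤ L.card)
    (Bad : ℕ → ℕ → ℕ → Prop)
    (hbad : (((V ×ˢ V ×ˢ V).filter fun t => Bad t.1 t.2.1 t.2.2).card : ℝ) ≤
      δ ^ 3 / 16 * (V.card : ℝ) ^ 3) :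
    ∃ v1 ∈ V, ∃ v2 ∈ V, ∃ v3 ∈ V, ¬ Bad v1 v2 v3 ∧ ∃ L1 ⊆ L,
      δ ^ 3 / 32 * (L.card : ℝ) ≤ L1.card ∧
      ∀ l ∈ L1, (∃ l' ∈ L, pc l' = pc l ∧ vc l' = v1) ∧ (∃ l' ∈ L, pc l' = pc l ∧ vc l' = v2) ∧
        ∃ l' ∈ L, pc l' = pc l ∧ vc l' = v3 := by
  have hL0 : (0 : ℝ) < L.card := by exact_mod_cast hL.card_pos
  obtain ⟨l0, hl0⟩ := hL
  have hV0 : (0 : ℝ) < V.card := by exact_mod_cast card_pos.2 ⟨_, hv l0 hl0⟩
  -- neighbourhoods
  set Nb : α → Finset ℕ := fun l => V.filter fun v => ∃ l' ∈ L, pc l' = pc l ∧ vc l' = v with hNb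
  set mm : ℕ → Finset α := fun p => L.filter fun l' => pc l' = p with hmm
  have hmdeg : ∀ l, ((mm (pc l)).card : ℝ) ≤ W * (Nb l).card := by
    intro l
    have h1 : (mm (pc l)).card = ∑ v ∈ Nb l, ((mm (pc l)).filter fun l' => vc l' = v).card := by
      refine card_eq_sum_card_fiberwise fun l' hl' => ?_
      obtain ⟨a1, a2⟩ := mem_filter.1 (mem_coe.1 hl')
      exact mem_coe.2 (mem_filter.2 ⟨hv l' a1, l', a1, a2, rfl⟩)
    rw [h1]
    push_cast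
    have h2 : ∀ v ∈ Nb l, ((((mm (pc l)).filter fun l' => vc l' = v).card : ℕ) : ℝ) ≤ W := by
      intro v _
      refine le_trans ?_ (fib (pc l) v)
      refine Nat.cast_le.2 (card_le_card fun l' hl' => ?_)
      obtain ⟨a1, a2⟩ := mem_filter.1 hl'
      obtain ⟨b1, b2⟩ := mem_filter.1 a1
      exact mem_filter.2 ⟨b1, b2, a2⟩
    calc _ ≤ ∑ v ∈ Nb l, W := sum_le_sum h2
      _ = W * (Nb l).card := by rw [sum_const, nsmul_eq_mul]; ring
  -- popular position cells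
  set L0 : Finset α := L.filter fun l => δ / 2 * W * V.card ≤ ((mm (pc l)).card : ℝ) with hL0d
  have hL0c : (L.card : ℝ) / 2 ≤ L0.card := by
    have h1 : L0.card + (L.filter fun l => ¬ (δ / 2 * W * V.card ≤ ((mm (pc l)).card : ℝ))).card =
        L.card := card_filter_add_card_filter_not _
    have h2 : (((L.filter fun l => ¬ (δ / 2 * W * V.card ≤ ((mm (pc l)).card : ℝ))).card : ℕ) : ℝ) ≤
        L.card / 2 := by
      set Q := L.filter fun l => ¬ (δ / 2 * W * V.card ≤ ((mm (pc l)).card : ℝ)) with hQ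
      have h3 : Q.card = ∑ p ∈ P, (Q.filter fun l => pc l = p).card := by
        refine card_eq_sum_card_fiberwise fun l hl => ?_
        exact mem_coe.2 (hp l (mem_filter.1 (mem_coe.1 hl)).1)
      rw [h3]
      push_cast
      have h4 : ∀ p ∈ P, (((Q.filter fun l => pc l = p).card : ℕ) : ℝ) ≤ δ / 2 * W * V.card := by
        intro p _
        rcases (Q.filter fun l => pc l = p).eq_empty_or_nonempty with h | ⟨l, hl⟩
        · rw [h]; simp only [card_empty, Nat.cast_zero]; positivity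
        · obtain ⟨a1, a2⟩ := mem_filter.1 hl
          obtain ⟨a3, a4⟩ := mem_filter.1 a1
          have a5 := not_le.1 a4
          rw [a2] at a5
          refine le_trans ?_ a5.le
          refine Nat.cast_le.2 (card_le_card fun l' hl' => ?_)
          obtain ⟨b1, b2⟩ := mem_filter.1 hl'
          exact mem_filter.2 ⟨(mem_filter.1 b1).1, b2⟩
      calc _ ≤ ∑ p ∈ P, δ / 2 * W * V.card := sum_le_sum h4
        _ = (δ * W * P.card * V.card) / 2 := by rw [sum_const, nsmul_eq_mul]; ring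
        _ ≤ _ := by linarith
    have h3 : (L0.card : ℝ) +
        (((L.filter fun l => ¬ (δ / 2 * W * V.card ≤ ((mm (pc l)).card : ℝ))).card : ℕ) : ℝ) =
        L.card := by exact_mod_cast h1
    linarith
  -- good triples
  set T : Finset (ℕ × ℕ × ℕ) := (V ×ˢ V ×ˢ V).filter fun t => ¬ Bad t.1 t.2.1 t.2.2 with hT
  have hTc : (T.card : ℝ) ≤ (V.card : ℝ) ^ 3 := by
    have h1 : T.card ≤ (V ×ˢ V ×ˢ V).card := card_filter_le _ _
    rw [card_product, card_product] at h1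
    have h2 : (T.card : ℝ) ≤ ((V.card * (V.card * V.card) : ℕ) : ℝ) := by exact_mod_cast h1
    refine h2.trans (le_of_eq ?_)
    push_cast; ring
  set Inc : ℕ × ℕ × ℕ → α → Prop := fun t l => t.1 ∈ Nb l ∧ t.2.1 ∈ Nb l ∧ t.2.2 ∈ Nb l with hInc
  have hlow : ∀ l ∈ L0, δ ^ 3 / 16 * (V.card : ℝ) ^ 3 ≤ ((T.filter fun t => Inc t l).card : ℝ) := by
    intro l hl
    obtain ⟨_, a2⟩ := mem_filter.1 hl
    have a3 : δ / 2 * (V.card : ℝ) ≤ (Nb l).card := by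
      have := a2.trans (hmdeg l)
      have h5 : δ / 2 * V.card * W ≤ (Nb l).card * W := by linarith
      exact le_of_mul_le_mul_right h5 hW
    have a4 : (δ / 2 * (V.card : ℝ)) ^ 3 ≤ ((Nb l).card : ℝ) ^ 3 :=
      pow_le_pow_left₀ (by positivity) a3 3
    have a5 : ((Nb l ×ˢ Nb l ×ˢ Nb l).card : ℝ) = ((Nb l).card : ℝ) ^ 3 := by
      rw [card_product, card_product]; push_cast; ring
    have a6 : (Nb l ×ˢ Nb l ×ˢ Nb l) ⊆ (T.filter fun t => Inc t l) ∪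
        ((V ×ˢ V ×ˢ V).filter fun t => Bad t.1 t.2.1 t.2.2) := by
      intro t ht
      obtain ⟨t1, t2, t3⟩ := t
      rw [mem_product, mem_product] at ht
      obtain ⟨b1, b2, b3⟩ := ht
      simp only at b1 b2 b3
      have hmem : (t1, t2, t3) ∈ V ×ˢ V ×ˢ V := by
        rw [mem_product, mem_product]
        exact ⟨(mem_filter.1 b1).1, (mem_filter.1 b2).1, (mem_filter.1 b3).1⟩
      by_cases hb : Bad t1 t2 t3
      · exact mem_union_right _ (mem_filter.2 ⟨hmem, hb⟩)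
      · exact mem_union_left _ (mem_filter.2 ⟨mem_filter.2 ⟨hmem, hb⟩, b1, b2, b3⟩)
    have a7 := card_le_card a6
    have a8 := a7.trans (card_union_le _ _)
    have a9 : ((Nb l ×ˢ Nb l ×ˢ Nb l).card : ℝ) ≤ ((T.filter fun t => Inc t l).card : ℝ) +
        (((V ×ˢ V ×ˢ V).filter fun t => Bad t.1 t.2.1 t.2.2).card : ℝ) := by exact_mod_cast a8
    have a10 : (δ / 2 * (V.card : ℝ)) ^ 3 = δ ^ 3 / 8 * (V.card : ℝ) ^ 3 := by ring
    have : δ ^ 3 / 8 * (V.card : ℝ) ^ 3 = δ ^ 3 / 16 * (V.card : ℝ) ^ 3 +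
      δ ^ 3 / 16 * (V.card : ℝ) ^ 3 := by ring
    linarith
  -- double counting
  have hdc : ∑ t ∈ T, ((L0.filter fun l => Inc t l).card : ℝ) =
      ∑ l ∈ L0, ((T.filter fun t => Inc t l).card : ℝ) := by
    have h := sum_card_bipartiteAbove_eq_sum_card_bipartiteBelow (s := T) (t := L0)
      (fun t l => Inc t l)
    unfold bipartiteAbove bipartiteBelow at h
    exact_mod_cast h
  have hsum : (L0.card : ℝ) * (δ ^ 3 / 16 * (V.card : ℝ) ^ 3) ≤
      ∑ t ∈ T, ((L0.filter fun l => Inc t l).card : ℝ) := by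
    rw [hdc]
    calc (L0.card : ℝ) * (δ ^ 3 / 16 * (V.card : ℝ) ^ 3)
        = ∑ l ∈ L0, δ ^ 3 / 16 * (V.card : ℝ) ^ 3 := by rw [sum_const, nsmul_eq_mul]
      _ ≤ _ := sum_le_sum hlow
  have hex : ∃ t ∈ T, δ ^ 3 / 16 * (L0.card : ℝ) ≤ ((L0.filter fun l => Inc t l).card : ℝ) := by
    by_contra hcon
    push Not at hcon
    have hL0' : 0 < (L0.card : ℝ) := by linarith
    have hc : 0 < δ ^ 3 / 16 * (L0.card : ℝ) := by positivity
    rcases T.eq_empty_or_nonempty with h | h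
    · rw [h, sum_empty] at hsum
      have : 0 < (L0.card : ℝ) * (δ ^ 3 / 16 * (V.card : ℝ) ^ 3) := by positivity
      linarith
    · have h1 : ∑ t ∈ T, ((L0.filter fun l => Inc t l).card : ℝ) <
          ∑ t ∈ T, δ ^ 3 / 16 * (L0.card : ℝ) := sum_lt_sum_of_nonempty h hcon
      rw [sum_const, nsmul_eq_mul] at h1
      have h2 := mul_le_mul_of_nonneg_right hTc hc.le
      have h3 : (V.card : ℝ) ^ 3 * (δ ^ 3 / 16 * (L0.card : ℝ)) =
        (L0.card : ℝ) * (δ ^ 3 / 16 * (V.card : ℝ) ^ 3) := by ring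
      linarith
  obtain ⟨⟨v1, v2, v3⟩, ht, hcard⟩ := hex
  obtain ⟨h1, h2⟩ := mem_filter.1 ht
  rw [mem_product, mem_product] at h1
  obtain ⟨b1, b2, b3⟩ := h1
  refine ⟨v1, b1, v2, b2, v3, b3, h2, L0.filter fun l => Inc (v1, v2, v3) l,
    (filter_subset _ _).trans (filter_subset _ _), ?_, ?_⟩
  · refine le_trans ?_ hcard
    have : 0 ≤ δ ^ 3 := by positivity
    nlinarith
  · intro l hl
    obtain ⟨_, c1, c2, c3⟩ := mem_filter.1 hl
    exact ⟨(mem_filter.1 c1).2, (mem_filter.1 c2).2, (mem_filter.1 c3).2⟩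

end Crest.Agent.R136.Qd329
end

-- ▼ part R136/Qd2_329
section

/-!
# R136: the bilinear rigidity, finite form (helper329), part 2

`Grid` : lines at one height with position cells `pc` (data `a, b, s, β`), velocity cells `vc` (data
`c, ζ, Z`) and a function `Φ` such that `Φ - c s + κ c² β` is constant on position cells and
`Φ - ζ b - Z a` is constant on velocity cells.  `grid_quad` : a positive part satisfies
`s = l₁ b + l₂ a + ..`, `β = m₁ b + m₂ a + ..`, `ζ = l₁ c - κ m₁ c² + ..`, `Z = l₂ c - κ m₂ c² + ..`.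
-/

set_option autoImplicit false

namespace Crest.Agent.R136.Qd329

open Finset

/-! ### linear algebra -/

theorem solve1 {c1 c2 c3 κ κ0 r e M S T x12 x13 : ℝ} (hr : 0 < r) (hκ0 : 0 < κ0) (hκ : κ0 ≤ |κ|)
    (hκ1 : |κ| ≤ 1) (hM : 1 ≤ M) (he : 0 ≤ e) (hκ01 : κ0 ≤ 1) (hr1 : r ≤ 1)
    (h12 : r ≤ |c1 - c2|) (h13 : r ≤ |c1 - c3|) (h23 : r ≤ |c3 - c2|)
    (m1 : |c1| ≤ M) (m2 : |c2| ≤ M)
    (g12 : |(c1 - c2) * S - κ * (c1 ^ 2 - c2 ^ 2) * T - x12| ≤ e)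
    (g13 : |(c1 - c3) * S - κ * (c1 ^ 2 - c3 ^ 2) * T - x13| ≤ e) :
    |T - (x12 / (c1 - c2) - x13 / (c1 - c3)) / (κ * (c3 - c2))| ≤ 2 * e / (κ0 * r ^ 2) ∧
    |S - (x12 / (c1 - c2) + κ * (c1 + c2) *
      ((x12 / (c1 - c2) - x13 / (c1 - c3)) / (κ * (c3 - c2))))| ≤ 5 * M * e / (κ0 * r ^ 2) := by
  set u := (c1 - c2) * S - κ * (c1 ^ 2 - c2 ^ 2) * T - x12 with hu
  set v := (c1 - c3) * S - κ * (c1 ^ 2 - c3 ^ 2) * T - x13 with hv
  have n12 : c1 - c2 ≠ 0 := fun h => by rw [h, abs_zero] at h12; linarith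
  have n13 : c1 - c3 ≠ 0 := fun h => by rw [h, abs_zero] at h13; linarith
  have n23 : c3 - c2 ≠ 0 := fun h => by rw [h, abs_zero] at h23; linarith
  have nκ : κ ≠ 0 := fun h => by rw [h, abs_zero] at hκ; linarith
  set μ := (x12 / (c1 - c2) - x13 / (c1 - c3)) / (κ * (c3 - c2)) with hμ
  have hx12 : x12 = (c1 - c2) * S - κ * (c1 ^ 2 - c2 ^ 2) * T - u := by rw [hu]; ring
  have hx13 : x13 = (c1 - c3) * S - κ * (c1 ^ 2 - c3 ^ 2) * T - v := by rw [hv]; ring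
  have d12 : x12 / (c1 - c2) = S - κ * (c1 + c2) * T - u / (c1 - c2) := by
    rw [hx12]; field_simp; ring
  have d13 : x13 / (c1 - c3) = S - κ * (c1 + c3) * T - v / (c1 - c3) := by
    rw [hx13]; field_simp; ring
  have hT : T - μ = (u / (c1 - c2) - v / (c1 - c3)) / (κ * (c3 - c2)) := by
    rw [hμ, d12, d13]
    field_simp
    ring
  have bu : |u / (c1 - c2)| ≤ e / r := by
    rw [abs_div]; exact div_le_div₀ he g12 hr h12
  have bv : |v / (c1 - c3)| ≤ e / r := by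
    rw [abs_div]; exact div_le_div₀ he g13 hr h13
  have bT : |T - μ| ≤ 2 * e / (κ0 * r ^ 2) := by
    rw [hT, abs_div, abs_mul]
    have h1 : |u / (c1 - c2) - v / (c1 - c3)| ≤ 2 * (e / r) := by
      have := abs_sub (u / (c1 - c2)) (v / (c1 - c3)); linarith
    have h2 : κ0 * r ≤ |κ| * |c3 - c2| := mul_le_mul hκ h23 hr.le (abs_nonneg _)
    refine (div_le_div₀ (by positivity) h1 (by positivity) h2).trans (le_of_eq ?_)
    field_simp
  refine ⟨bT, ?_⟩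
  have e1 : S - (x12 / (c1 - c2) + κ * (c1 + c2) * μ) =
      κ * (c1 + c2) * (T - μ) + u / (c1 - c2) := by rw [d12]; ring
  rw [e1]
  have h3 : |κ * (c1 + c2) * (T - μ)| ≤ 2 * M * (2 * e / (κ0 * r ^ 2)) := by
    rw [abs_mul, abs_mul]
    have h4 : |c1 + c2| ≤ 2 * M := (abs_add_le _ _).trans (by linarith)
    have h5 : |κ| * |c1 + c2| ≤ 2 * M := by
      calc |κ| * |c1 + c2| ≤ 1 * (2 * M) := mul_le_mul hκ1 h4 (abs_nonneg _) zero_le_one
        _ = 2 * M := one_mul _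
    exact mul_le_mul h5 bT (abs_nonneg _) (by linarith)
  have h6 : e / r ≤ M * (e / (κ0 * r ^ 2)) := by
    have h7 : e / r ≤ e / (κ0 * r ^ 2) := by
      apply div_le_div_of_nonneg_left he (by positivity)
      nlinarith
    have h8 : 0 ≤ e / (κ0 * r ^ 2) := by positivity
    nlinarith
  refine (abs_add_le _ _).trans ?_
  have h9 : 5 * M * e / (κ0 * r ^ 2) = 2 * M * (2 * e / (κ0 * r ^ 2)) + M * (e / (κ0 * r ^ 2)) := by
    ring
  linarith

theorem solve2 {X Y a2 b2 a3 b3 ω e M : ℝ} (hω : 0 < ω) (hM : 0 ≤ M) (he : 0 ≤ e)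
    (hc : ω ≤ |b2 * a3 - b3 * a2|) (ha2 : |a2| ≤ 2 * M) (hb2 : |b2| ≤ 2 * M) (ha3 : |a3| ≤ 2 * M)
    (hb3 : |b3| ≤ 2 * M) (h2 : |X * b2 + Y * a2| ≤ e) (h3 : |X * b3 + Y * a3| ≤ e) :
    |X| ≤ 4 * M * e / ω ∧ |Y| ≤ 4 * M * e / ω := by
  have hp : 0 < |b2 * a3 - b3 * a2| := hω.trans_le hc
  have key : ∀ x : ℝ, |x * (b2 * a3 - b3 * a2)| ≤ 4 * M * e → |x| ≤ 4 * M * e / ω := by
    intro x hx
    rw [abs_mul] at hx
    rw [le_div_iff₀ hω]
    exact (mul_le_mul_of_nonneg_left hc (abs_nonneg x)).trans hx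
  constructor
  · apply key
    have e1 : X * (b2 * a3 - b3 * a2) = (X * b2 + Y * a2) * a3 - (X * b3 + Y * a3) * a2 := by ring
    rw [e1]
    refine (abs_sub _ _).trans ?_
    rw [abs_mul, abs_mul]
    have := mul_le_mul h2 ha3 (abs_nonneg _) he
    have := mul_le_mul h3 ha2 (abs_nonneg _) he
    linarith
  · apply key
    have e1 : Y * (b2 * a3 - b3 * a2) = (X * b3 + Y * a3) * b2 - (X * b2 + Y * a2) * b3 := by ring
    rw [e1]
    refine (abs_sub _ _).trans ?_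
    rw [abs_mul, abs_mul]
    have := mul_le_mul h3 hb2 (abs_nonneg _) he
    have := mul_le_mul h2 hb3 (abs_nonneg _) he
    linarith

theorem mul_close {x x' y y' δ M : ℝ} (h1 : |x - x'| ≤ δ) (h2 : |y - y'| ≤ δ) (h3 : |x| ≤ M)
    (h4 : |y'| ≤ M) : |x * y - x' * y'| ≤ 2 * M * δ := by
  have hδ : 0 ≤ δ := (abs_nonneg _).trans h1
  have hM : 0 ≤ M := (abs_nonneg _).trans h3
  have e : x * y - x' * y' = x * (y - y') + (x - x') * y' := by ring
  rw [e]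
  refine (abs_add_le _ _).trans ?_
  rw [abs_mul, abs_mul]
  have := mul_le_mul h3 h2 (abs_nonneg _) hM
  have := mul_le_mul h1 h4 (abs_nonneg _) hδ
  linarith

theorem sq_close {κ x x' y y' δ M : ℝ} (hκ : |κ| ≤ 1) (hM1 : 1 ≤ M) (h1 : |x - x'| ≤ δ)
    (h2 : |y - y'| ≤ δ) (h3 : |x| ≤ M)
    (h3' : |x'| ≤ M) (h4 : |y'| ≤ M) : |κ * x ^ 2 * y - κ * x' ^ 2 * y'| ≤ 3 * M ^ 2 * δ := by
  have hδ : 0 ≤ δ := (abs_nonneg _).trans h1
  have hM : 0 ≤ M := (abs_nonneg _).trans h3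
  have e : κ * x ^ 2 * y - κ * x' ^ 2 * y' =
    κ * (x * x * (y - y') + (x - x') * (x + x') * y') := by ring
  rw [e, abs_mul]
  have h5 : |x * x * (y - y')| ≤ M ^ 2 * δ := by
    rw [abs_mul, abs_mul]
    have := mul_le_mul h3 h3 (abs_nonneg _) hM
    calc |x| * |x| * |y - y'| ≤ M * M * δ := mul_le_mul this h2 (abs_nonneg _) (by positivity)
      _ = M ^ 2 * δ := by ring
  have h6 : |(x - x') * (x + x') * y'| ≤ 2 * M ^ 2 * δ := by
    rw [abs_mul, abs_mul]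
    have h7 : |x + x'| ≤ 2 * M := (abs_add_le _ _).trans (by linarith)
    have := mul_le_mul h1 h7 (abs_nonneg _) hδ
    calc |x - x'| * |x + x'| * |y'| ≤ δ * (2 * M) * M :=
          mul_le_mul this h4 (abs_nonneg _) (by positivity)
      _ = 2 * M ^ 2 * δ := by ring
  have h8 := abs_add_le (x * x * (y - y')) ((x - x') * (x + x') * y')
  have h9 : |x * x * (y - y') + (x - x') * (x + x') * y'| ≤ 3 * M ^ 2 * δ := by linarith
  calc |κ| * |x * x * (y - y') + (x - x') * (x + x') * y'| ≤ 1 * (3 * M ^ 2 * δ) :=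
        mul_le_mul hκ h9 (abs_nonneg _) zero_le_one
    _ = _ := one_mul _

/-! ### counting of bad triples -/

open Classical in
theorem bad_card (V : Finset ℕ) (Ex : ℕ → ℕ → Prop) (Bad : ℕ → ℕ → ℕ → Prop) {η η' : ℝ}
    (hη' : 0 ≤ η')
    (h1 : ∀ v1 ∈ V, ((V.filter fun v2 => Ex v1 v2).card : ℝ) ≤ η * V.card)
    (h2 : ∀ v1 ∈ V, ∀ v2 ∈ V, ¬ Ex v1 v2 →
      ((V.filter fun v3 => Bad v1 v2 v3).card : ℝ) ≤ η' * V.card) :
    (((V ×ˢ V ×ˢ V).filter fun t => Bad t.1 t.2.1 t.2.2).card : ℝ) ≤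
      (η + η') * (V.card : ℝ) ^ 3 := by
  have e1 : (((V ×ˢ V ×ˢ V).filter fun t => Bad t.1 t.2.1 t.2.2).card : ℝ) =
      ∑ v1 ∈ V, ∑ v2 ∈ V, ((V.filter fun v3 => Bad v1 v2 v3).card : ℝ) := by
    rw [card_filter, sum_product]
    push_cast
    refine sum_congr rfl fun v1 _ => ?_
    rw [sum_product]
    refine sum_congr rfl fun v2 _ => ?_
    rw [card_filter]
    push_cast
    rfl
  rw [e1]
  have hV : (0 : ℝ) ≤ V.card := Nat.cast_nonneg _
  have h3 : ∀ v1 ∈ V, ∑ v2 ∈ V, ((V.filter fun v3 => Bad v1 v2 v3).card : ℝ) ≤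
      (η + η') * (V.card : ℝ) ^ 2 := by
    intro v1 hv1
    rw [← sum_filter_add_sum_filter_not V (fun v2 => Ex v1 v2)]
    have a1 : ∑ v2 ∈ V.filter (fun v2 => Ex v1 v2), ((V.filter fun v3 => Bad v1 v2 v3).card : ℝ) ≤
        η * (V.card : ℝ) ^ 2 := by
      calc _ ≤ ∑ v2 ∈ V.filter (fun v2 => Ex v1 v2), (V.card : ℝ) :=
            sum_le_sum fun v2 _ => Nat.cast_le.2 (card_filter_le _ _)
        _ = ((V.filter fun v2 => Ex v1 v2).card : ℝ) * V.card := by rw [sum_const, nsmul_eq_mul]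
        _ ≤ η * V.card * V.card := mul_le_mul_of_nonneg_right (h1 v1 hv1) hV
        _ = _ := by ring
    have a2 : ∑ v2 ∈ V.filter (fun v2 => ¬ Ex v1 v2),
        ((V.filter fun v3 => Bad v1 v2 v3).card : ℝ) ≤ η' * (V.card : ℝ) ^ 2 := by
      calc _ ≤ ∑ v2 ∈ V.filter (fun v2 => ¬ Ex v1 v2), η' * (V.card : ℝ) :=
            sum_le_sum fun v2 hv2 => h2 v1 hv1 v2 (mem_filter.1 hv2).1 (mem_filter.1 hv2).2
        _ = ((V.filter fun v2 => ¬ Ex v1 v2).card : ℝ) * (η' * V.card) := by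
            rw [sum_const, nsmul_eq_mul]
        _ ≤ V.card * (η' * V.card) := by
            refine mul_le_mul_of_nonneg_right (Nat.cast_le.2 (card_filter_le _ _)) (by positivity)
        _ = _ := by ring
    calc _ ≤ η * (V.card : ℝ) ^ 2 + η' * (V.card : ℝ) ^ 2 := add_le_add a1 a2
      _ = _ := by ring
  calc _ ≤ ∑ v1 ∈ V, (η + η') * (V.card : ℝ) ^ 2 := sum_le_sum h3
    _ = (V.card : ℝ) * ((η + η') * (V.card : ℝ) ^ 2) := by rw [sum_const, nsmul_eq_mul]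
    _ = _ := by ring

end Crest.Agent.R136.Qd329
end

-- ▼ part R136/Qd3_329

/-!
# R136: the bilinear rigidity, finite form (helper329), part 3

`Grid`, `grid_step1` (positions), `grid_step2` (velocities), `grid_quad`.
-/

set_option autoImplicit false

namespace Crest.Agent.R136.Qd329

open Finset

/-- lines at one height with position cells and velocity cells -/
structure Grid {α : Type*} (L : Finset α) (pc vc : α → ℕ) (a b c s β ζ Z Φ : α → ℝ)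
    (κ M δ : ℝ) : Prop where
  M1 : 1 ≤ M
  δ0 : 0 ≤ δ
  κ1 : |κ| ≤ 1
  bd : ∀ l ∈ L, |a l| ≤ M ∧ |b l| ≤ M ∧ |c l| ≤ M ∧ |s l| ≤ M ∧ |β l| ≤ M ∧ |ζ l| ≤ M ∧ |Z l| ≤ M
  pcl : ∀ l ∈ L, ∀ l' ∈ L, pc l = pc l' →
    |a l - a l'| ≤ δ ∧ |b l - b l'| ≤ δ ∧ |s l - s l'| ≤ δ ∧ |β l - β l'| ≤ δ
  vcl : ∀ l ∈ L, ∀ l' ∈ L, vc l = vc l' → |c l - c l'| ≤ δ ∧ |ζ l - ζ l'| ≤ δ ∧ |Z l - Z l'| ≤ δ
  pP : ∀ l ∈ L, ∀ l' ∈ L, pc l = pc l' →
    |(Φ l - c l * s l + κ * c l ^ 2 * β l) - (Φ l' - c l' * s l' + κ * c l' ^ 2 * β l')| ≤ δ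
  vP : ∀ l ∈ L, ∀ l' ∈ L, vc l = vc l' →
    |(Φ l - ζ l * b l - Z l * a l) - (Φ l' - ζ l' * b l' - Z l' * a l')| ≤ δ

variable {α : Type*} {L : Finset α} {pc vc : α → ℕ} {a b c s β ζ Z Φ : α → ℝ} {κ M δ : ℝ}

theorem Grid.mono (G : Grid L pc vc a b c s β ζ Z Φ κ M δ) {L' : Finset α} (h : L' ⊆ L) :
    Grid L' pc vc a b c s β ζ Z Φ κ M δ where
  M1 := G.M1
  δ0 := G.δ0
  κ1 := G.κ1
  bd := fun l hl => G.bd l (h hl)
  pcl := fun l hl l' hl' => G.pcl l (h hl) l' (h hl')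
  vcl := fun l hl l' hl' => G.vcl l (h hl) l' (h hl')
  pP := fun l hl l' hl' => G.pP l (h hl) l' (h hl')
  vP := fun l hl l' hl' => G.vP l (h hl) l' (h hl')

/-- constancy on a position cell with the data of another line of the cells -/
theorem Grid.pP' (G : Grid L pc vc a b c s β ζ Z Φ κ M δ) {l l' l0 l0' : α} (hl : l ∈ L)
    (hl' : l' ∈ L) (h0 : l0 ∈ L) (h0' : l0' ∈ L) (e : pc l = pc l') (e0 : vc l = vc l0)
    (e0' : vc l' = vc l0') {m m' : α} (hm : m ∈ L) (hm' : m' ∈ L) (em : pc m = pc l)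
    (em' : pc m' = pc l') :
    |(Φ l - c l0 * s m + κ * c l0 ^ 2 * β m) - (Φ l' - c l0' * s m' + κ * c l0' ^ 2 * β m')| ≤
      11 * M ^ 2 * δ := by
  have hM := G.M1
  have hδ := G.δ0
  have key : ∀ l l0 m : α, l ∈ L → l0 ∈ L → m ∈ L → vc l = vc l0 → pc m = pc l →
      |(Φ l - c l * s l + κ * c l ^ 2 * β l) - (Φ l - c l0 * s m + κ * c l0 ^ 2 * β m)| ≤
        5 * M ^ 2 * δ := by
    intro l l0 m hl h0 hm e0 em
    obtain ⟨_, _, p3, p4, p5, _, _⟩ := G.bd l hl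
    obtain ⟨_, _, q3, q4, q5, _, _⟩ := G.bd l0 h0
    obtain ⟨_, _, r3, r4, r5, _, _⟩ := G.bd m hm
    obtain ⟨v1, _, _⟩ := G.vcl l hl l0 h0 e0
    obtain ⟨_, _, w3, w4⟩ := G.pcl l hl m hm em.symm
    have h1 := mul_close v1 w3 p3 r4
    have h2 := sq_close G.κ1 hM v1 w4 p3 q3 r5
    have e1 : (Φ l - c l * s l + κ * c l ^ 2 * β l) - (Φ l - c l0 * s m + κ * c l0 ^ 2 * β m) =
      (κ * c l ^ 2 * β l - κ * c l0 ^ 2 * β m) - (c l * s l - c l0 * s m) := by ring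
    rw [e1]
    refine (abs_sub _ _).trans ?_
    nlinarith [mul_nonneg hδ (by nlinarith : 0 ≤ M ^ 2 - M)]
  have k1 := key l l0 m hl h0 hm e0 em
  have k2 := key l' l0' m' hl' h0' hm' e0' em'
  have k3 := G.pP l hl l' hl' e
  have e2 : (Φ l - c l0 * s m + κ * c l0 ^ 2 * β m) - (Φ l' - c l0' * s m' + κ * c l0' ^ 2 * β m') =
      ((Φ l - c l * s l + κ * c l ^ 2 * β l) - (Φ l' - c l' * s l' + κ * c l' ^ 2 * β l')) -
      ((Φ l - c l * s l + κ * c l ^ 2 * β l) - (Φ l - c l0 * s m + κ * c l0 ^ 2 * β m)) +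
      ((Φ l' - c l' * s l' + κ * c l' ^ 2 * β l') - (Φ l' - c l0' * s m' + κ * c l0' ^ 2 * β m')) := by
    ring
  rw [e2]
  refine (abs_add_le _ _).trans ?_
  have := abs_sub ((Φ l - c l * s l + κ * c l ^ 2 * β l) - (Φ l' - c l' * s l' + κ * c l' ^ 2 * β l'))
    ((Φ l - c l * s l + κ * c l ^ 2 * β l) - (Φ l - c l0 * s m + κ * c l0 ^ 2 * β m))
  nlinarith [mul_nonneg hδ (by nlinarith : 0 ≤ M ^ 2 - 1)]

/-- constancy on a velocity cell with the data of other lines of the cells -/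
theorem Grid.vP' (G : Grid L pc vc a b c s β ζ Z Φ κ M δ) {l l' l0 l0' : α} (hl : l ∈ L)
    (hl' : l' ∈ L) (h0 : l0 ∈ L) (h0' : l0' ∈ L) (e : vc l = vc l') (e0 : pc l = pc l0)
    (e0' : pc l' = pc l0') {m m' : α} (hm : m ∈ L) (hm' : m' ∈ L) (em : vc m = vc l)
    (em' : vc m' = vc l') :
    |(Φ l - ζ m * b l0 - Z m * a l0) - (Φ l' - ζ m' * b l0' - Z m' * a l0')| ≤ 9 * M * δ := by
  have hM := G.M1
  have hδ := G.δ0
  have key : ∀ l l0 m : α, l ∈ L → l0 ∈ L → m ∈ L → pc l = pc l0 → vc m = vc l →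
      |(Φ l - ζ l * b l - Z l * a l) - (Φ l - ζ m * b l0 - Z m * a l0)| ≤ 4 * M * δ := by
    intro l l0 m hl h0 hm e0 em
    obtain ⟨p1, p2, _, _, _, p6, p7⟩ := G.bd l hl
    obtain ⟨q1, q2, _, _, _, _, _⟩ := G.bd l0 h0
    obtain ⟨_, v2, v3⟩ := G.vcl l hl m hm em.symm
    obtain ⟨w1, w2, _, _⟩ := G.pcl l hl l0 h0 e0
    have h1 := mul_close v2 w2 p6 q2
    have h2 := mul_close v3 w1 p7 q1
    have e1 : (Φ l - ζ l * b l - Z l * a l) - (Φ l - ζ m * b l0 - Z m * a l0) =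
      -(ζ l * b l - ζ m * b l0) - (Z l * a l - Z m * a l0) := by ring
    rw [e1]
    refine (abs_sub _ _).trans ?_
    rw [abs_neg]
    linarith
  have k1 := key l l0 m hl h0 hm e0 em
  have k2 := key l' l0' m' hl' h0' hm' e0' em'
  have k3 := G.vP l hl l' hl' e
  have e2 : (Φ l - ζ m * b l0 - Z m * a l0) - (Φ l' - ζ m' * b l0' - Z m' * a l0') =
      ((Φ l - ζ l * b l - Z l * a l) - (Φ l' - ζ l' * b l' - Z l' * a l')) -
      ((Φ l - ζ l * b l - Z l * a l) - (Φ l - ζ m * b l0 - Z m * a l0)) +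
      ((Φ l' - ζ l' * b l' - Z l' * a l') - (Φ l' - ζ m' * b l0' - Z m' * a l0')) := by
    ring
  rw [e2]
  refine (abs_add_le _ _).trans ?_
  have := abs_sub ((Φ l - ζ l * b l - Z l * a l) - (Φ l' - ζ l' * b l' - Z l' * a l'))
    ((Φ l - ζ l * b l - Z l * a l) - (Φ l - ζ m * b l0 - Z m * a l0))
  nlinarith

/-- counting hypotheses -/
structure GCnt (L : Finset α) (pc vc : α → ℕ) (a b c : α → ℝ) (P V : Finset ℕ)
    (W D r q η : ℝ) : Prop where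
  hp : ∀ l ∈ L, pc l ∈ P
  hv : ∀ l ∈ L, vc l ∈ V
  W0 : 0 < W
  fib : ∀ p v, ((L.filter fun l => pc l = p ∧ vc l = v).card : ℝ) ≤ W
  η0 : 0 ≤ η
  hc : ∀ t : ℝ, ∀ A ⊆ V, (∀ v ∈ A, ∃ l ∈ L, vc l = v ∧ |c l - t| ≤ 2 * r) → (A.card : ℝ) ≤ η * V.card
  hs : ∀ n1 n2 t : ℝ, (|n1| = 1 ∨ |n2| = 1) → ∀ A ⊆ P,
    (∀ p ∈ A, ∃ l ∈ L, pc l = p ∧ |n1 * b l + n2 * a l - t| ≤ q) → (A.card : ℝ) ≤ η * P.card

/-- two cells contain lines with close `c` -/
def ClP (L : Finset α) (vc : α → ℕ) (c : α → ℝ) (r : ℝ) (v v' : ℕ) : Prop :=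
  ∃ l ∈ L, ∃ l' ∈ L, vc l = v ∧ vc l' = v' ∧ |c l - c l'| < r

/-- bad triples of velocity cells -/
def BadV (L : Finset α) (vc : α → ℕ) (c : α → ℝ) (r : ℝ) (v1 v2 v3 : ℕ) : Prop :=
  ClP L vc c r v1 v2 ∨ ClP L vc c r v1 v3 ∨ ClP L vc c r v2 v3

open Classical in
theorem badV_card (G : Grid L pc vc a b c s β ζ Z Φ κ M δ) {P V : Finset ℕ} {W D r q η : ℝ}
    (C : GCnt L pc vc a b c P V W D r q η) (hδr : δ ≤ r) (hη : 3 * η ≤ D ^ 3 / 16) :
    (((V ×ˢ V ×ˢ V).filter fun t => BadV L vc c r t.1 t.2.1 t.2.2).card : ℝ) ≤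
      D ^ 3 / 16 * (V.card : ℝ) ^ 3 := by
  have hclc : ∀ v1, ∀ A ⊆ V, (∀ v ∈ A, ClP L vc c r v1 v) → (A.card : ℝ) ≤ η * V.card := by
    intro v1 A hA hcA
    rcases A.eq_empty_or_nonempty with h | ⟨v0, hv0⟩
    · rw [h, card_empty, Nat.cast_zero]
      have := C.η0
      positivity
    · obtain ⟨k, hk, -, -, hkv, -, -⟩ := hcA v0 hv0
      refine C.hc (c k) A hA fun v hv => ?_
      obtain ⟨l, hl, l', hl', e1, e2, e3⟩ := hcA v hv
      refine ⟨l', hl', e2, ?_⟩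
      have h1 := (G.vcl l hl k hk (e1.trans hkv.symm)).1
      have e4 : c l' - c k = (c l - c k) - (c l - c l') := by ring
      rw [e4]
      have := abs_sub (c l - c k) (c l - c l')
      linarith
  have h1 := bad_card V (ClP L vc c r) (BadV L vc c r) (η := η) (η' := 2 * η)
    (by linarith [C.η0])
    (fun v1 _ => hclc v1 _ (filter_subset _ _) fun v hv => (mem_filter.1 hv).2)
    (fun v1 _ v2 _ hn => by
      have h2 : (V.filter fun v3 => BadV L vc c r v1 v2 v3) ⊆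
          (V.filter fun v3 => ClP L vc c r v1 v3) ∪ (V.filter fun v3 => ClP L vc c r v2 v3) := by
        intro v3 hv3
        obtain ⟨a1, a2⟩ := mem_filter.1 hv3
        rcases a2 with a2 | a2 | a2
        · exact absurd a2 hn
        · exact mem_union_left _ (mem_filter.2 ⟨a1, a2⟩)
        · exact mem_union_right _ (mem_filter.2 ⟨a1, a2⟩)
      have h3 := (card_le_card h2).trans (card_union_le _ _)
      have h4 : (((V.filter fun v3 => BadV L vc c r v1 v2 v3).card : ℕ) : ℝ) ≤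
          ((V.filter fun v3 => ClP L vc c r v1 v3).card : ℝ) +
          ((V.filter fun v3 => ClP L vc c r v2 v3).card : ℝ) := by
        exact_mod_cast h3
      have h5 := hclc v1 (V.filter fun v3 => ClP L vc c r v1 v3) (filter_subset _ _)
        fun v hv => (mem_filter.1 hv).2
      have h6 := hclc v2 (V.filter fun v3 => ClP L vc c r v2 v3) (filter_subset _ _)
        fun v hv => (mem_filter.1 hv).2
      linarith)
  refine h1.trans ?_
  have : 0 ≤ (V.card : ℝ) ^ 3 := by positivity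
  nlinarith

set_option maxHeartbeats 800000 in
/-- **positions** -/
theorem grid_step1 (G : Grid L pc vc a b c s β ζ Z Φ κ M δ) {P V : Finset ℕ} {W D r q η : ℝ}
    (C : GCnt L pc vc a b c P V W D r q η) (hL : L.Nonempty) (hD : 0 < D)
    (dens : D * W * P.card * V.card ≤ L.card) (hr : 0 < r) (hr1 : r ≤ 1) (hδr : δ ≤ r)
    {κ0 : ℝ} (hκ0 : 0 < κ0) (hκ01 : κ0 ≤ 1) (hκ : κ0 ≤ |κ|) (hη : 3 * η ≤ D ^ 3 / 16) :
    ∃ l1 l2 m1 m2 : ℝ, |l1| ≤ 10 * M ^ 2 / (κ0 * r ^ 2) ∧ |l2| ≤ 10 * M ^ 2 / (κ0 * r ^ 2) ∧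
      |m1| ≤ 4 * M / (κ0 * r ^ 2) ∧ |m2| ≤ 4 * M / (κ0 * r ^ 2) ∧
      ∃ L1 ⊆ L, D ^ 3 / 32 * (L.card : ℝ) ≤ L1.card ∧ ∀ l ∈ L1, ∀ l' ∈ L1,
        |(s l - s l') - l1 * (b l - b l') - l2 * (a l - a l')| ≤ 400 * M ^ 3 * δ / (κ0 * r ^ 2) ∧
        |(β l - β l') - m1 * (b l - b l') - m2 * (a l - a l')| ≤ 400 * M ^ 3 * δ / (κ0 * r ^ 2) := by
  have hM := G.M1
  have hδ := G.δ0
  obtain ⟨v1, -, v2, -, v3, -, hgood, L1, hL1, hcard, hcomp⟩ :=
    triple_pigeon L pc vc P V C.hp C.hv C.W0 hD C.fib hL dens _ (badV_card G C hδr hη)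
  have hL0 : (0 : ℝ) < L.card := by exact_mod_cast hL.card_pos
  have hL1ne : L1.Nonempty := by
    rw [← card_pos]
    have : (0 : ℝ) < L1.card := lt_of_lt_of_le (by positivity) hcard
    exact_mod_cast this
  obtain ⟨k, hk⟩ := hL1ne
  obtain ⟨⟨r1, hr1L, er1, fr1⟩, ⟨r2, hr2L, er2, fr2⟩, ⟨r3, hr3L, er3, fr3⟩⟩ := hcomp k hk
  have s12 : r ≤ |c r1 - c r2| := by
    by_contra h
    exact hgood (Or.inl ⟨r1, hr1L, r2, hr2L, fr1, fr2, not_le.1 h⟩)
  have s13 : r ≤ |c r1 - c r3| := by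
    by_contra h
    exact hgood (Or.inr (Or.inl ⟨r1, hr1L, r3, hr3L, fr1, fr3, not_le.1 h⟩))
  have s23 : r ≤ |c r3 - c r2| := by
    rw [abs_sub_comm]
    by_contra h
    exact hgood (Or.inr (Or.inr ⟨r2, hr2L, r3, hr3L, fr2, fr3, not_le.1 h⟩))
  obtain ⟨-, -, b13, -, -, b16, b17⟩ := G.bd r1 hr1L
  obtain ⟨-, -, b23, -, -, b26, b27⟩ := G.bd r2 hr2L
  obtain ⟨-, -, b33, -, -, b36, b37⟩ := G.bd r3 hr3L
  -- relation for one pair of cells, against the line k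
  have rel : ∀ l ∈ L1, ∀ p p' ri rj : _, p ∈ L → p' ∈ L → ri ∈ L → rj ∈ L → pc p = pc l →
      pc p' = pc l → pc ri = pc k → pc rj = pc k → vc p = vc ri → vc p' = vc rj →
      |(c ri - c rj) * (s l - s k) - κ * (c ri ^ 2 - c rj ^ 2) * (β l - β k) -
        ((ζ ri - ζ rj) * (b l - b k) + (Z ri - Z rj) * (a l - a k))| ≤ 40 * M ^ 2 * δ := by
    intro l hl p p' ri rj hp hp' hri hrj e1 e2 e3 e4 e5 e6
    have hlL := hL1 hl
    have hkL := hL1 hk
    have g1 := G.pP' hp hp' hri hrj (e1.trans e2.symm) e5 e6 hlL hlL e1.symm e2.symm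
    have g2 := G.pP' hri hrj hri hrj (e3.trans e4.symm) rfl rfl hkL hkL e3.symm e4.symm
    have g3 := G.vP' hp hri hlL hkL e5 e1 e3 hri hri e5.symm rfl
    have g4 := G.vP' hp' hrj hlL hkL e6 e2 e4 hrj hrj e6.symm rfl
    have hMδ : M * δ ≤ M ^ 2 * δ := by nlinarith [mul_nonneg hδ (by nlinarith : 0 ≤ M ^ 2 - M)]
    have e : (c ri - c rj) * (s l - s k) - κ * (c ri ^ 2 - c rj ^ 2) * (β l - β k) -
        ((ζ ri - ζ rj) * (b l - b k) + (Z ri - Z rj) * (a l - a k)) =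
        (((Φ p - ζ ri * b l - Z ri * a l) - (Φ ri - ζ ri * b k - Z ri * a k)) -
        ((Φ p' - ζ rj * b l - Z rj * a l) - (Φ rj - ζ rj * b k - Z rj * a k))) -
        (((Φ p - c ri * s l + κ * c ri ^ 2 * β l) - (Φ p' - c rj * s l + κ * c rj ^ 2 * β l)) -
        ((Φ ri - c ri * s k + κ * c ri ^ 2 * β k) - (Φ rj - c rj * s k + κ * c rj ^ 2 * β k))) := by
      ring
    rw [e]
    have k1 := abs_sub (((Φ p - ζ ri * b l - Z ri * a l) - (Φ ri - ζ ri * b k - Z ri * a k)) -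
        ((Φ p' - ζ rj * b l - Z rj * a l) - (Φ rj - ζ rj * b k - Z rj * a k)))
        (((Φ p - c ri * s l + κ * c ri ^ 2 * β l) - (Φ p' - c rj * s l + κ * c rj ^ 2 * β l)) -
        ((Φ ri - c ri * s k + κ * c ri ^ 2 * β k) - (Φ rj - c rj * s k + κ * c rj ^ 2 * β k)))
    have k2 := abs_sub ((Φ p - ζ ri * b l - Z ri * a l) - (Φ ri - ζ ri * b k - Z ri * a k))
        ((Φ p' - ζ rj * b l - Z rj * a l) - (Φ rj - ζ rj * b k - Z rj * a k))
    have k3 := abs_sub ((Φ p - c ri * s l + κ * c ri ^ 2 * β l) -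
        (Φ p' - c rj * s l + κ * c rj ^ 2 * β l))
        ((Φ ri - c ri * s k + κ * c ri ^ 2 * β k) - (Φ rj - c rj * s k + κ * c rj ^ 2 * β k))
    linarith
  have hδe : (0 : ℝ) ≤ 40 * M ^ 2 * δ := by positivity
  -- the slopes
  set z12 := (ζ r1 - ζ r2) / (c r1 - c r2) with hz12
  set z13 := (ζ r1 - ζ r3) / (c r1 - c r3) with hz13
  set Z12 := (Z r1 - Z r2) / (c r1 - c r2) with hZ12
  set Z13 := (Z r1 - Z r3) / (c r1 - c r3) with hZ13
  set m1 := (z12 - z13) / (κ * (c r3 - c r2)) with hm1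
  set m2 := (Z12 - Z13) / (κ * (c r3 - c r2)) with hm2
  have bq : ∀ x y : ℝ, |x| ≤ M → |y| ≤ M → ∀ w : ℝ, r ≤ |w| → |(x - y) / w| ≤ 2 * M / r := by
    intro x y hx hy w hw
    rw [abs_div]
    refine div_le_div₀ (by linarith) ?_ hr hw
    have := abs_sub x y; linarith
  have bz12 := bq _ _ b16 b26 _ s12
  have bz13 := bq _ _ b16 b36 _ s13
  have bZ12 := bq _ _ b17 b27 _ s12
  have bZ13 := bq _ _ b17 b37 _ s13
  have bm : ∀ x y : ℝ, |x| ≤ 2 * M / r → |y| ≤ 2 * M / r →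
      |(x - y) / (κ * (c r3 - c r2))| ≤ 4 * M / (κ0 * r ^ 2) := by
    intro x y hx hy
    rw [abs_div, abs_mul]
    have h1 : |x - y| ≤ 4 * M / r := by
      have := abs_sub x y
      have e : 4 * M / r = 2 * M / r + 2 * M / r := by ring
      linarith
    have h2 : κ0 * r ≤ |κ| * |c r3 - c r2| := mul_le_mul hκ s23 hr.le (abs_nonneg _)
    refine (div_le_div₀ (by positivity) h1 (by positivity) h2).trans (le_of_eq ?_)
    field_simp
  have bm1 := bm _ _ bz12 bz13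
  have bm2 := bm _ _ bZ12 bZ13
  have bl : ∀ x y : ℝ, |x| ≤ 2 * M / r → |y| ≤ 4 * M / (κ0 * r ^ 2) →
      |x + κ * (c r1 + c r2) * y| ≤ 10 * M ^ 2 / (κ0 * r ^ 2) := by
    intro x y hx hy
    have h1 : |κ * (c r1 + c r2) * y| ≤ 2 * M * (4 * M / (κ0 * r ^ 2)) := by
      rw [abs_mul, abs_mul]
      have h4 : |c r1 + c r2| ≤ 2 * M := (abs_add_le _ _).trans (by linarith)
      have h5 : |κ| * |c r1 + c r2| ≤ 2 * M := by
        calc |κ| * |c r1 + c r2| ≤ 1 * (2 * M) := mul_le_mul G.κ1 h4 (abs_nonneg _) zero_le_one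
          _ = 2 * M := one_mul _
      exact mul_le_mul h5 hy (abs_nonneg _) (by linarith)
    have h6 : 2 * M / r ≤ 2 * M ^ 2 / (κ0 * r ^ 2) := by
      refine div_le_div₀ (by positivity) (by nlinarith) (by positivity) ?_
      have : r ^ 2 ≤ r := by nlinarith
      nlinarith
    have e : 10 * M ^ 2 / (κ0 * r ^ 2) = 2 * M ^ 2 / (κ0 * r ^ 2) +
      2 * M * (4 * M / (κ0 * r ^ 2)) := by ring
    have := abs_add_le x (κ * (c r1 + c r2) * y)
    linarith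
  refine ⟨z12 + κ * (c r1 + c r2) * m1, Z12 + κ * (c r1 + c r2) * m2, m1, m2, bl _ _ bz12 bm1,
    bl _ _ bZ12 bm2, bm1, bm2, ?_⟩
  -- against the line k
  have main : ∀ l ∈ L1,
      |(s l - s k) - (z12 + κ * (c r1 + c r2) * m1) * (b l - b k) -
        (Z12 + κ * (c r1 + c r2) * m2) * (a l - a k)| ≤ 200 * M ^ 3 * δ / (κ0 * r ^ 2) ∧
      |(β l - β k) - m1 * (b l - b k) - m2 * (a l - a k)| ≤ 80 * M ^ 2 * δ / (κ0 * r ^ 2) := by
    intro l hl
    obtain ⟨⟨p1, hp1, e1, f1⟩, ⟨p2, hp2, e2, f2⟩, ⟨p3, hp3, e3, f3⟩⟩ := hcomp l hl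
    have g12 := rel l hl p1 p2 r1 r2 hp1 hp2 hr1L hr2L e1 e2 er1 er2 (f1.trans fr1.symm)
      (f2.trans fr2.symm)
    have g13 := rel l hl p1 p3 r1 r3 hp1 hp3 hr1L hr3L e1 e3 er1 er3 (f1.trans fr1.symm)
      (f3.trans fr3.symm)
    obtain ⟨k1, k2⟩ := solve1 hr hκ0 hκ G.κ1 hM hδe hκ01 hr1 s12 s13 s23 b13 b23 g12 g13
    have x12 : ((ζ r1 - ζ r2) * (b l - b k) + (Z r1 - Z r2) * (a l - a k)) / (c r1 - c r2) =
        z12 * (b l - b k) + Z12 * (a l - a k) := by rw [hz12, hZ12]; ring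
    have x13 : ((ζ r1 - ζ r3) * (b l - b k) + (Z r1 - Z r3) * (a l - a k)) / (c r1 - c r3) =
        z13 * (b l - b k) + Z13 * (a l - a k) := by rw [hz13, hZ13]; ring
    rw [x12, x13] at k1 k2
    have x : (z12 * (b l - b k) + Z12 * (a l - a k) - (z13 * (b l - b k) + Z13 * (a l - a k))) /
        (κ * (c r3 - c r2)) = m1 * (b l - b k) + m2 * (a l - a k) := by rw [hm1, hm2]; ring
    rw [x] at k1 k2
    constructor
    · refine le_trans (le_of_eq ?_) (k2.trans (le_of_eq ?_))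
      · congr 1; ring
      · ring
    · refine le_trans (le_of_eq ?_) (k1.trans (le_of_eq ?_))
      · congr 1; ring
      · ring
  refine ⟨L1, hL1, hcard, ?_⟩
  intro l hl l' hl'
  obtain ⟨k1, k2⟩ := main l hl
  obtain ⟨k3, k4⟩ := main l' hl'
  have hpos : 0 < κ0 * r ^ 2 := by positivity
  constructor
  · have e : (s l - s l') - (z12 + κ * (c r1 + c r2) * m1) * (b l - b l') -
        (Z12 + κ * (c r1 + c r2) * m2) * (a l - a l') =
        ((s l - s k) - (z12 + κ * (c r1 + c r2) * m1) * (b l - b k) -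
        (Z12 + κ * (c r1 + c r2) * m2) * (a l - a k)) -
        ((s l' - s k) - (z12 + κ * (c r1 + c r2) * m1) * (b l' - b k) -
        (Z12 + κ * (c r1 + c r2) * m2) * (a l' - a k)) := by ring
    rw [e]
    refine (abs_sub _ _).trans ?_
    have e2 : 400 * M ^ 3 * δ / (κ0 * r ^ 2) = 200 * M ^ 3 * δ / (κ0 * r ^ 2) +
      200 * M ^ 3 * δ / (κ0 * r ^ 2) := by ring
    linarith
  · have e : (β l - β l') - m1 * (b l - b l') - m2 * (a l - a l') =
        ((β l - β k) - m1 * (b l - b k) - m2 * (a l - a k)) -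
        ((β l' - β k) - m1 * (b l' - b k) - m2 * (a l' - a k)) := by ring
    rw [e]
    refine (abs_sub _ _).trans ?_
    have e2 : 80 * M ^ 2 * δ / (κ0 * r ^ 2) ≤ 200 * M ^ 3 * δ / (κ0 * r ^ 2) := by
      refine div_le_div_of_nonneg_right ?_ hpos.le
      have h1 : M ^ 2 * δ ≤ M ^ 3 * δ := by
        have : 0 ≤ M ^ 2 * δ := by positivity
        nlinarith
      have : 0 ≤ M ^ 2 * δ := by positivity
      linarith
    have e3 : 400 * M ^ 3 * δ / (κ0 * r ^ 2) = 200 * M ^ 3 * δ / (κ0 * r ^ 2) +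
      200 * M ^ 3 * δ / (κ0 * r ^ 2) := by ring
    linarith

end Crest.Agent.R136.Qd329
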