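import Crest.Agent.R136.Win0_887
import Crest.Agent.R136.Bas5_938
import Crest.Agent.R136.HtW_887

/-!
# R136, thin branch (helper887): the profile side of `quad` (rung `s = 2`)

At a point of the rung `s = 2` of the W-chart with no visible slot on the surface, `btW 12 ≠ 0`,
`btW 13 ≠ 0` (true at the resonances `btW 7 = 0`, `btW 9 = 0`, `btW 10 = 0`), which is NOT dead
(`-A.1 < 5`), with `p = {A, B, B-slot, A-slot}`, `v = {c, zB, zA}`:

* (H1) `P` costs nothing given the `p`-box, (H2) `P` costs nothing given the `v`-box,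
* (H3) the groups split, (H4) `A, B` are full, (H5) `c` costs something.

If `P` costs something then the height link `P → N` (with the frame `B` coarse if `P ∥ B`) makes `N`
full, and the point is dead.
-/

set_option autoImplicit false
set_option linter.unusedSectionVars false
set_option linter.unusedVariables false

open Filter Topology

namespace Crest.Agent.R136.QdH887

open Finset Crest.Agent.R138.Ex926 Crest.Agent.R136.Net191 Crest.Agent.R136.Gf356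
open Crest.Agent.R136.Qg926 Crest.Agent.R136.Dg219 Crest.Agent.R136.Aw413
open Crest.Agent.R136.NetW191 Crest.Agent.R136.EvW938 Crest.Agent.R136.PrW464
open Crest.Agent.R136.LadW697 Crest.Agent.R136.AwJ774 Crest.Agent.R136.Bas938
open Crest.Agent.R136.Ht887 Crest.Agent.R136.Win887
open Crest.Agent.R136.K2S774 (cn)

/-! ### static data -/

/-- dropped slots of the rung `s = 2` -/
def D2 : Finset (Fin 18) := {4, 5, 6, 8}

theorem mem_D2 (k : Fin 18) : k ∈ DrW 2 ↔ k ∈ D2 := by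
  have h : ∀ k : Fin 18, (4 ≤ k ∧ 2 < alW k) ↔ k ∈ D2 := by decide
  rw [← h k]
  simp only [DrW, Set.mem_ofPred_eq]
  constructor
  · rintro ⟨h1, h2⟩; exact ⟨h1, by exact_mod_cast h2⟩
  · rintro ⟨h1, h2⟩; exact ⟨h1, by exact_mod_cast h2⟩

/-- natural integer vectors of the rung `s = 2` -/
def OkD (n : Fin 18 → ℕ) : Prop :=
  ∀ k, k ∉ D2 → ∀ l ∈ mlW k, (∀ s ∈ l, s ∉ D2) → n k ≤ (l.map n).sum

instance (n : Fin 18 → ℕ) : Decidable (OkD n) := by unfold OkD; infer_instance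

theorem OkD.mem {n : Fin 18 → ℕ} (h : OkD n) {x : ℝ} (hx : 0 ≤ x) :
    scV x n ∈ coneM (mA monW (actW (DrW 2))) := by
  rw [(actM_mA (DrW 2)).cone]
  intro k hk l hl hs
  rw [sum_scV]
  refine mul_le_mul_of_nonneg_left ?_ hx
  exact_mod_cast h k (fun h1 => hk ((mem_D2 k).2 h1)) l hl fun s hs' h1 =>
    hs s hs' ((mem_D2 s).2 h1)

/-- indicator -/
def ind (Q : Finset (Fin 18)) : Fin 18 → ℕ := fun k => if k ∈ Q then 1 else 0

/-- the box `x` on `Q` -/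
def bv (x : ℝ) (Q : Finset (Fin 18)) : Fin 18 → ℝ := fun k => if k ∈ Q then x else 0

theorem bv_eq (x : ℝ) (Q : Finset (Fin 18)) : bv x Q = scV x (ind Q) := by
  funext k; unfold bv scV ind; split_ifs <;> simp

theorem bv_mem {Q : Finset (Fin 18)} (h : OkD (ind Q)) {x : ℝ} (hx : 0 ≤ x) :
    bv x Q ∈ coneM (mA monW (actW (DrW 2))) := by rw [bv_eq]; exact h.mem hx

theorem bv_in {x : ℝ} {Q : Finset (Fin 18)} {k : Fin 18} (h : k ∈ Q) : bv x Q k = x := if_pos h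
theorem bv_out {x : ℝ} {Q : Finset (Fin 18)} {k : Fin 18} (h : k ∉ Q) : bv x Q k = 0 := if_neg h

/-! ### slopes of the rung `s = 2` -/

theorem TW2 {k : Fin 18} (hk : 4 ≤ k) (hD : k ∉ D2) : TW 2 k = 2 - alW k :=
  TW_flag hk fun h => hD ((mem_D2 k).1 h)

theorem TW2_0 (k : Fin 18) (hk : k ∈ ({1, 7, 9, 10, 11, 12, 13} : Finset (Fin 18))) :
    TW 2 k = 0 := by
  by_cases h1 : k = 1
  · rw [h1]; exact TW_c 2
  have h2 : ∀ k ∈ ({1, 7, 9, 10, 11, 12, 13} : Finset (Fin 18)), k ≠ 1 →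
      4 ≤ k ∧ k ∉ D2 ∧ alW k = 2 := by decide
  obtain ⟨h4, hD, hal⟩ := h2 k hk h1
  rw [TW2 h4 hD, hal]; norm_num

theorem TW2_1 (k : Fin 18) (hk : k ∈ ({0, 2, 3, 14, 15, 16} : Finset (Fin 18))) :
    TW 2 k = 1 := by
  have h2 : ∀ k ∈ ({0, 2, 3, 14, 15, 16} : Finset (Fin 18)), k = 0 ∨ k = 2 ∨ k = 3 ∨
      (4 ≤ k ∧ k ∉ D2 ∧ alW k = 1) := by decide
  rcases h2 k hk with rfl | rfl | rfl | ⟨h4, hD, hal⟩
  · exact TW_z 2
  · exact TW_A 2
  · exact TW_B 2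
  · rw [TW2 h4 hD, hal]; norm_num

theorem TW2_2 : TW 2 17 = 2 := by
  rw [TW2 (by decide) (by decide), show alW 17 = 0 by decide]; norm_num

theorem cases_D2 (k : Fin 18) : k ∈ D2 ∨ k ∈ ({1, 7, 9, 10, 11, 12, 13} : Finset (Fin 18)) ∨
    k ∈ ({0, 2, 3, 14, 15, 16} : Finset (Fin 18)) ∨ k = 17 := by
  revert k; decide

theorem btW_14 (θ : Fin 3 → ℝ) : btW θ 14 = -1 + 2 * θ 1 + (1 - θ 0) := by
  rw [btW_val, show wz 14 = -1 from rfl, show wc 14 = -2 from rfl, show wn 14 = 1 from rfl]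
  push_cast; ring
theorem btW_15 (θ : Fin 3 → ℝ) : btW θ 15 = -1 + θ 1 + (1 - θ 0) := by
  rw [btW_val, show wz 15 = -1 from rfl, show wc 15 = -1 from rfl, show wn 15 = 1 from rfl]
  push_cast; ring
theorem btW_16 (θ : Fin 3 → ℝ) : btW θ 16 = -1 + (1 - θ 0) := by
  rw [btW_val, show wz 16 = -1 from rfl, show wc 16 = 0 from rfl, show wn 16 = 1 from rfl]
  push_cast; ring
theorem btW_17 (θ : Fin 3 → ℝ) : btW θ 17 = 1 - θ 0 := by
  rw [btW_val, show wz 17 = 0 from rfl, show wc 17 = 0 from rfl, show wn 17 = 1 from rfl]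
  push_cast; ring
theorem btW_12 (θ : Fin 3 → ℝ) : btW θ 12 = -2 + θ 1 + (1 - θ 0) := by
  rw [btW_val, show wz 12 = -2 from rfl, show wc 12 = -1 from rfl, show wn 12 = 1 from rfl]
  push_cast; ring
theorem btW_13 (θ : Fin 3 → ℝ) : btW θ 13 = -2 + (1 - θ 0) := by
  rw [btW_val, show wz 13 = -2 from rfl, show wc 13 = 0 from rfl, show wn 13 = 1 from rfl]
  push_cast; ring
theorem btW_10 (θ : Fin 3 → ℝ) : btW θ 10 = -2 + 2 * θ 1 + (1 - θ 0) := by
  rw [btW_val, show wz 10 = -2 from rfl, show wc 10 = -2 from rfl, show wn 10 = 1 from rfl]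
  push_cast; ring
theorem btW_9 (θ : Fin 3 → ℝ) : btW θ 9 = -2 + 3 * θ 1 + (1 - θ 0) := by
  rw [btW_val, show wz 9 = -2 from rfl, show wc 9 = -3 from rfl, show wn 9 = 1 from rfl]
  push_cast; ring
theorem btW_7 (θ : Fin 3 → ℝ) : btW θ 7 = -2 + 4 * θ 1 + (1 - θ 0) := by
  rw [btW_val, show wz 7 = -2 from rfl, show wc 7 = -4 from rfl, show wn 7 = 1 from rfl]
  push_cast; ring

/-- **the resonances of the rung `s = 2` are not at `zA`, `R`** -/
theorem res_ne {θ : Fin 3 → ℝ} (hθ : 0 < θ 1)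
    (hres : btW θ 7 = 0 ∨ btW θ 9 = 0 ∨ btW θ 10 = 0) : btW θ 12 ≠ 0 ∧ btW θ 13 ≠ 0 := by
  rw [btW_7, btW_9, btW_10] at hres
  rw [btW_12, btW_13]
  constructor
  · intro h; rcases hres with h1 | h1 | h1 <;> linarith
  · intro h; rcases hres with h1 | h1 | h1 <;> linarith

/-- the group of `P` : `P`, possibly `B`, dropped slots -/
theorem grpP {θ : Fin 3 → ℝ} (hθ : 0 < θ 1) (h12 : btW θ 12 ≠ 0) (h13 : btW θ 13 ≠ 0) (j : Fin 18)
    (hj : gC (TW 2) (btW θ) j = gC (TW 2) (btW θ) 16) :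
    j = 16 ∨ j ∈ D2 ∨ (j = 3 ∧ btW θ 10 = 0) := by
  have a16 : TW 2 16 = 1 := TW2_1 16 (by decide)
  have n16 : TW 2 16 ≠ 0 := by rw [a16]; exact one_ne_zero
  rcases cases_D2 j with h | h | h | h
  · exact Or.inr (Or.inl h)
  · rw [gC_zero.2 (TW2_0 j h)] at hj
    exact absurd (gC_zero.1 hj.symm) n16
  · have aj : TW 2 j = 1 := TW2_1 j h
    rw [gC_eq (by rw [aj]; exact one_ne_zero) n16, aj, a16, btW_16, div_one, div_one] at hj
    have hc : ∀ k ∈ ({0, 2, 3, 14, 15, 16} : Finset (Fin 18)), k = 0 ∨ k = 2 ∨ k = 3 ∨ k = 14 ∨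
        k = 15 ∨ k = 16 := by decide
    rw [btW_12] at h12
    rw [btW_13] at h13
    rcases hc j h with rfl | rfl | rfl | rfl | rfl | rfl
    · rw [btW0] at hj; exact absurd (by linarith) h13
    · rw [btW2] at hj; exact absurd (by linarith) h12
    · right; right
      refine ⟨rfl, ?_⟩
      rw [btW3] at hj; rw [btW_10]; linarith
    · rw [btW_14] at hj; linarith
    · rw [btW_15] at hj; linarith
    · exact Or.inl rfl
  · subst h
    rw [gC_eq (by rw [TW2_2]; exact two_ne_zero) n16, TW2_2, a16, btW_16, btW_17, div_one] at hj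
    rw [btW_13] at h13
    exact absurd (by linarith) h13

/-- the group of `N` does not see `P` -/
theorem grpN {θ : Fin 3 → ℝ} (h13 : btW θ 13 ≠ 0) :
    gC (TW 2) (btW θ) 16 ≠ gC (TW 2) (btW θ) 17 := by
  intro hj
  have a16 : TW 2 16 = 1 := TW2_1 16 (by decide)
  rw [gC_eq (by rw [a16]; exact one_ne_zero) (by rw [TW2_2]; exact two_ne_zero), TW2_2, a16,
    btW_16, btW_17, div_one] at hj
  rw [btW_13] at h13
  exact absurd (by linarith) h13

/-- if `P ∥ B` then the group of `N` does not see `B` -/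
theorem grpN3 {θ : Fin 3 → ℝ} (hθ : 0 < θ 1) (h10 : btW θ 10 = 0) :
    gC (TW 2) (btW θ) 3 ≠ gC (TW 2) (btW θ) 17 := by
  intro hj
  have a3 : TW 2 3 = 1 := TW2_1 3 (by decide)
  rw [gC_eq (by rw [a3]; exact one_ne_zero) (by rw [TW2_2]; exact two_ne_zero), TW2_2, a3,
    btW3, btW_17, div_one] at hj
  rw [btW_10] at h10
  linarith

/-! ### one point -/

/-- the box `X` on `Z`, `t` on `P`, `w` on `N` -/
def cz (Z : Finset (Fin 18)) (X t w : ℝ) : Fin 18 → ℝ := b2 (bv X Z) 16 17 t w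

section cz

variable {Z : Finset (Fin 18)} {X t w : ℝ}

theorem cz_P : cz Z X t w 16 = t := b2_F
theorem cz_N : cz Z X t w 17 = w := b2_N (by decide)
theorem cz_o {k : Fin 18} (h1 : k ≠ 16) (h2 : k ≠ 17) : cz Z X t w k = bv X Z k := b2_o h1 h2

theorem cz_sc1 (h16 : (16 : Fin 18) ∉ Z) (h17 : (17 : Fin 18) ∉ Z) :
    cz Z X t X = scV t (ind (insert 16 (insert 17 Z))) + scV (X - t) (ind (insert 17 Z)) := by
  funext k
  rw [Pi.add_apply]
  by_cases h1 : k = 16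
  · subst h1
    rw [cz_P]
    have e1 : ind (insert 16 (insert 17 Z)) 16 = 1 := by simp [ind]
    have e2 : ind (insert 17 Z) 16 = 0 := by simp [ind, h16]
    simp [scV, e1, e2]
  · by_cases h2 : k = 17
    · subst h2
      rw [cz_N]
      have e1 : ind (insert 16 (insert 17 Z)) 17 = 1 := by simp [ind]
      have e2 : ind (insert 17 Z) 17 = 1 := by simp [ind]
      simp [scV, e1, e2]
    · rw [cz_o h1 h2]
      by_cases hk : k ∈ Z
      · have e1 : ind (insert 16 (insert 17 Z)) k = 1 := by simp [ind, hk]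
        have e2 : ind (insert 17 Z) k = 1 := by simp [ind, hk]
        simp [scV, e1, e2, bv_in hk]
      · have e1 : ind (insert 16 (insert 17 Z)) k = 0 := by simp [ind, hk, h1, h2]
        have e2 : ind (insert 17 Z) k = 0 := by simp [ind, hk, h2]
        simp [scV, e1, e2, bv_out hk]

theorem cz_sc2 (h16 : (16 : Fin 18) ∉ Z) (h17 : (17 : Fin 18) ∉ Z) :
    cz Z X t t = scV t (ind (insert 16 (insert 17 Z))) + scV (X - t) (ind Z) := by
  funext k
  rw [Pi.add_apply]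
  by_cases h1 : k = 16
  · subst h1
    rw [cz_P]
    have e1 : ind (insert 16 (insert 17 Z)) 16 = 1 := by simp [ind]
    have e2 : ind Z 16 = 0 := by simp [ind, h16]
    simp [scV, e1, e2]
  · by_cases h2 : k = 17
    · subst h2
      rw [cz_N]
      have e1 : ind (insert 16 (insert 17 Z)) 17 = 1 := by simp [ind]
      have e2 : ind Z 17 = 0 := by simp [ind, h17]
      simp [scV, e1, e2]
    · rw [cz_o h1 h2]
      by_cases hk : k ∈ Z
      · have e1 : ind (insert 16 (insert 17 Z)) k = 1 := by simp [ind, hk]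
        have e2 : ind Z k = 1 := by simp [ind, hk]
        simp [scV, e1, e2, bv_in hk]
      · have e1 : ind (insert 16 (insert 17 Z)) k = 0 := by simp [ind, hk, h1, h2]
        have e2 : ind Z k = 0 := by simp [ind, hk]
        simp [scV, e1, e2, bv_out hk]

end cz

/-- **decidable data of the link `P → N` with the narrow slots `Z`** -/
structure ZDat (Z P : Finset (Fin 18)) : Prop where
  ht : HtDat Z O0 P 12 13 1 0
  sub : ∀ q' : Fin 14, Fin.natAdd 4 q' ∈ Z → Fin.natAdd 4 q' ∈ P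
  n16 : (16 : Fin 18) ∉ Z
  n17 : (17 : Fin 18) ∉ Z
  z : (0 : Fin 18) ∈ Z
  v0 : OkV (fun _ => 0) 1 (ind Z)
  v17 : OkV (fun _ => 0) 1 (ind (insert 17 Z))
  v16 : OkV (fun _ => 0) 1 (ind (insert 16 (insert 17 Z)))

instance (Z P : Finset (Fin 18)) : Decidable (ZDat Z P) :=
  decidable_of_iff (HtDat Z O0 P 12 13 1 0 ∧
    (∀ q' : Fin 14, Fin.natAdd 4 q' ∈ Z → Fin.natAdd 4 q' ∈ P) ∧ (16 : Fin 18) ∉ Z ∧
    (17 : Fin 18) ∉ Z ∧ (0 : Fin 18) ∈ Z ∧ OkV (fun _ => 0) 1 (ind Z) ∧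
    OkV (fun _ => 0) 1 (ind (insert 17 Z)) ∧ OkV (fun _ => 0) 1 (ind (insert 16 (insert 17 Z))))
    ⟨fun ⟨a, b, c, d, e, f, g, h⟩ => ⟨a, b, c, d, e, f, g, h⟩,
      fun ⟨a, b, c, d, e, f, g, h⟩ => ⟨a, b, c, d, e, f, g, h⟩⟩

/-- everything narrow -/
theorem zdat_all : ZDat (Finset.univ \ {16, 17}) (O0 \ {1, 2, 3, 16, 17}) := by decide
/-- the frame `B` coarse -/
theorem zdat_B : ZDat (Finset.univ \ {3, 16, 17}) (O0 \ {1, 2, 3, 16, 17}) := by decide

theorem wdatA : WDat (fun _ => 0) (fun _ => 1) 1 {0} := by decide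

theorem okD_of {n : Fin 18 → ℕ} (h : OkV (fun _ => 0) 1 n) : OkD n := by
  intro k _ l hl _
  rcases h.2 k l hl with h1 | h1
  · have : (l.map (fun _ : Fin 18 => 0)).sum = 0 := by
      induction l with
      | nil => rfl
      | cons a l ih => simp
    omega
  · exact h1

section pt

variable {B Bo : Base} {I J : ∀ n : ℕ, Finset (ℕ × ℝ)}
  {co : ∀ n : ℕ, ℕ × ℝ → ℕ × ℝ → Fin 18 → ℝ} {kp : ℕ → ℝ} {u : ℕ → Fin 18 → ℝ}
  {F : ∀ n : ℕ, ℕ × ℝ → FW} {C : ℝ}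
  {lam : (Fin 18 → ℝ) → ℝ} {a b : Fin 18 → ℝ} {A : ℝ × ℝ} {φ : ℕ → (Fin 18 → ℝ) → ℝ}
  {r : ℕ → ℝ} {κ : Fin 18 → ℝ} {V Tw : Fin 18 → Prop}

theorem scV_one (X : ℝ) (k : Fin 18) : scV X (fun _ => 1) k = X := by simp [scV]


/-! ### `P` costs nothing -/

theorem upd_mem {c : Fin 18 → ℝ} {n n' : Fin 18 → ℕ} {α β : ℝ} (hα : 0 ≤ α) (hβ : 0 ≤ β)
    (h1 : OkD n) (h2 : OkD n') (e : c = scV α n + scV β n') :
    c ∈ coneM (mA monW (actW (DrW 2))) := by
  rw [e]; exact cone_add (h1.mem hα) (h2.mem hβ)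

theorem TW2_le (k : Fin 18) : TW 2 k ≤ 2 := by
  rcases cases_D2 k with h | h | h | h
  · rw [TW, if_pos ((mem_D2 k).2 h)]; norm_num
  · rw [TW2_0 k h]; norm_num
  · rw [TW2_1 k h]; norm_num
  · rw [h, TW2_2]

theorem okAll : OkD (ind Finset.univ) := by decide
theorem okAll17 : OkD (ind (Finset.univ \ {17})) := by decide


/-- **numbers of `quad` at one scale `x`** : `p = {2, 3, 14, 15}`, `v = {1, 11, 12}` -/
structure QdL (lam : (Fin 18 → ℝ) → ℝ) (mm x : ℝ) : Prop where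
  h1 : lam (bv x {0, 2, 3, 14, 15, 16}) = lam (bv x {0, 2, 3, 14, 15})
  h2 : lam (bv x {0, 1, 11, 12, 16}) = lam (bv x {0, 1, 11, 12})
  h3 : lam (bv x {0}) + lam (bv x {0, 1, 2, 3, 11, 12, 14, 15}) =
    lam (bv x {0, 2, 3, 14, 15}) + lam (bv x {0, 1, 11, 12})
  h4 : lam (bv x {0, 2, 3}) ≤ lam (bv x {0}) - 2 * x
  h5 : ∀ y, 0 ≤ y → lam (Function.update (bv x {0}) 1 y) ≤ lam (bv x {0}) - mm * y

theorem bv_v4 (x : ℝ) : bv x {0, 2, 3} = v4 x 0 x x := by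
  funext k
  refine cases4 (P := fun k => bv x {0, 2, 3} k = v4 x 0 x x k) ?_ ?_ ?_ ?_ ?_ k
  · rw [v4_0, bv_in (by decide)]
  · rw [v4_1, bv_out (by decide)]
  · rw [v4_2, bv_in (by decide)]
  · rw [v4_3, bv_in (by decide)]
  · intro k hk
    rw [v4_o _ _ _ _ hk, bv_out]
    have : ∀ k : Fin 18, 4 ≤ k → k ∉ ({0, 2, 3} : Finset (Fin 18)) := by decide
    exact this k hk

theorem bv_v4' (x : ℝ) : bv x {0} = v4 x 0 0 0 := by
  funext k
  refine cases4 (P := fun k => bv x {0} k = v4 x 0 0 0 k) ?_ ?_ ?_ ?_ ?_ k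
  · rw [v4_0, bv_in (by decide)]
  · rw [v4_1, bv_out (by decide)]
  · rw [v4_2, bv_out (by decide)]
  · rw [v4_3, bv_out (by decide)]
  · intro k hk
    rw [v4_o _ _ _ _ hk, bv_out]
    have : ∀ k : Fin 18, 4 ≤ k → k ∉ ({0} : Finset (Fin 18)) := by decide
    exact this k hk





end pt

/-! ### `PtC` form -/

section ptC

variable {B Bo : Base} {I J : ℕ → Finset (ℕ × ℝ)} {co : ∀ n : ℕ, ℕ × ℝ → ℕ × ℝ → Fin 18 → ℝ}
  {C : ℝ} {κ : ℕ → ℝ} {u : ℕ → Fin 18 → ℝ} {f : ℕ → ℕ × ℝ → FW} {K : ℝ} {θ q : Fin 3 → ℝ}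
  {V T : Set (Fin 18)} {lam lo : (Fin 18 → ℝ) → ℝ} {A : ℝ × ℝ}
  {φ : ℕ → (Fin 18 → ℝ) → ℝ} {r : ℕ → ℝ}

open Crest.Agent.R136.NatW697 (KW)



end ptC

end Crest.Agent.R136.QdH887
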