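import Mathlib

-- ▼ part R136/R2b_500
section

/-!
# R136, R2 (curved tilt without `g << q1`, 615's 18336): the two-step double count (helper500)

Abstract data: incidences `I : Finset (ι × η)` (line, height cell), class `s t` of a line in the
first system, class `s' t` in the second system, box `bx c t j` of the line `t` at the height `j` in
the frame of the class `c`, walk `N t j` = lines of the class `s' t` through the box of `t` at `j`.

* `pbox I s s' bx c c'` : boxes (with their heights) met by the incidences of the pair `(c, c')`;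
* `sbox I s N bx c c1` : boxes met by the steps from the class `c` to the class `c1`;
* `one_step` : the incidences whose pair `(s t, s' t)` meets at most `t0` boxes are at most
  `#classes * K * t0 * m`;
* `two_step` : the steps `(p, t')`, `t' ∈ N p`, whose pair `(s p, s t')` meets at most `t0` boxes are
  at most `#classes * K * t0 * m1 * m2`;
* `typical` : there is an incidence which is good itself and of which at least half of the steps are
  good in the three senses.
-/

set_option autoImplicit false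

open Finset

namespace Crest.Agent.R136.R2b500

/-- fibrewise bound of a sum -/
theorem sum_le_fib {α γ : Type} [DecidableEq γ] (A : Finset α) (g : α → γ) (f : α → ℝ) (X : ℝ)
    (h : ∀ c ∈ A.image g, ∑ p ∈ A.filter (fun p => g p = c), f p ≤ X) :
    ∑ p ∈ A, f p ≤ ((A.image g).card : ℝ) * X := by
  rw [← Finset.sum_fiberwise_of_maps_to (s := A) (t := A.image g) (g := g)
    (fun p hp => Finset.mem_image_of_mem g hp)]
  refine (Finset.sum_le_card_nsmul _ _ X h).trans (le_of_eq ?_)
  rw [nsmul_eq_mul]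

/-- fibrewise bound of a cardinality -/
theorem card_le_fib {α γ : Type} [DecidableEq γ] (A : Finset α) (g : α → γ) (X : ℝ)
    (h : ∀ c ∈ A.image g, ((A.filter fun p => g p = c).card : ℝ) ≤ X) :
    (A.card : ℝ) ≤ ((A.image g).card : ℝ) * X := by
  have := sum_le_fib A g (fun _ => (1 : ℝ)) X (fun c hc => by
    rw [Finset.sum_const, nsmul_eq_mul, mul_one]; exact h c hc)
  rwa [Finset.sum_const, nsmul_eq_mul, mul_one] at this

section

variable {ι η κ κ' β : Type} [DecidableEq ι] [DecidableEq η] [DecidableEq κ] [DecidableEq κ']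
  [DecidableEq β]

/-- boxes met by the incidences with the class pair `(c, c')` -/
def pbox (I : Finset (ι × η)) (s : ι → κ) (s' : ι → κ') (bx : κ → ι → η → β) (c : κ)
    (c' : κ') : Finset (β × η) :=
  (I.filter fun r => s r.1 = c ∧ s' r.1 = c').image fun r => (bx c r.1 r.2, r.2)

/-- boxes met by the steps with the class pair `(c, c1)` -/
def sbox (I : Finset (ι × η)) (s : ι → κ) (N : ι → η → Finset ι)
    (bx : κ → ι → η → β) (c c1 : κ) : Finset (β × η) :=
  (I.filter fun r => s r.1 = c ∧ ∃ t' ∈ N r.1 r.2, s t' = c1).image fun r => (bx c r.1 r.2, r.2)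

/-- **one step**: few boxes for a class pair is rare -/
theorem one_step (I : Finset (ι × η)) (s : ι → κ) (s' : ι → κ') (bx : κ → ι → η → β)
    {K m t0 : ℝ} (hK0 : 0 ≤ K) (hm0 : 0 ≤ m) (ht0 : 0 ≤ t0)
    (hK : ∀ c, (((I.filter fun p => s p.1 = c).image fun p => s' p.1).card : ℝ) ≤ K)
    (hm : ∀ c c' b j,
      ((I.filter fun p => s p.1 = c ∧ s' p.1 = c' ∧ bx c p.1 p.2 = b ∧ p.2 = j).card : ℝ) ≤ m) :
    ((I.filter fun p => ((pbox I s s' bx (s p.1) (s' p.1)).card : ℝ) ≤ t0).card : ℝ) ≤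
      ((I.image fun p => s p.1).card : ℝ) * (K * (t0 * m)) := by
  classical
  set A := I.filter fun p => ((pbox I s s' bx (s p.1) (s' p.1)).card : ℝ) ≤ t0 with hA
  have hAI : A ⊆ I := Finset.filter_subset _ _
  have h1 : (A.card : ℝ) ≤ ((A.image fun p => s p.1).card : ℝ) * (K * (t0 * m)) := by
    refine card_le_fib A (fun p => s p.1) _ fun c _ => ?_
    set A1 := A.filter fun p => s p.1 = c with hA1
    have h2 : (A1.card : ℝ) ≤ ((A1.image fun p => s' p.1).card : ℝ) * (t0 * m) := by
      refine card_le_fib A1 (fun p => s' p.1) _ fun c' hc' => ?_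
      obtain ⟨p0, hp0, hp0'⟩ := Finset.mem_image.1 hc'
      rw [hA1, Finset.mem_filter, hA, Finset.mem_filter] at hp0
      have hb : ((pbox I s s' bx c c').card : ℝ) ≤ t0 := by
        have := hp0.1.2
        rwa [hp0.2, hp0'] at this
      set A2 := A1.filter fun p => s' p.1 = c' with hA2
      have h3 : (A2.card : ℝ) ≤
          ((A2.image fun r => (bx c r.1 r.2, r.2)).card : ℝ) * m := by
        refine card_le_fib A2 (fun r => (bx c r.1 r.2, r.2)) _ fun bj _ => ?_
        refine le_trans ?_ (hm c c' bj.1 bj.2)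
        exact_mod_cast Finset.card_le_card fun p hp => by
          rw [Finset.mem_filter, hA2, Finset.mem_filter, hA1, Finset.mem_filter] at hp
          obtain ⟨⟨⟨h4, h5⟩, h6⟩, h7⟩ := hp
          rw [Finset.mem_filter]
          exact ⟨hAI h4, h5, h6, by rw [← h7], by rw [← h7]⟩
      have h8 : ((A2.image fun r => (bx c r.1 r.2, r.2)).card : ℝ) ≤ t0 := by
        refine le_trans ?_ hb
        exact_mod_cast Finset.card_le_card fun p hp => by
          obtain ⟨r, hr, hr'⟩ := Finset.mem_image.1 hp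
          rw [hA2, Finset.mem_filter, hA1, Finset.mem_filter] at hr
          unfold pbox
          exact Finset.mem_image.2 ⟨r, Finset.mem_filter.2 ⟨hAI hr.1.1, hr.1.2, hr.2⟩, hr'⟩
      exact h3.trans (mul_le_mul_of_nonneg_right h8 hm0)
    refine h2.trans (mul_le_mul_of_nonneg_right ?_ (mul_nonneg ht0 hm0))
    refine le_trans ?_ (hK c)
    exact_mod_cast Finset.card_le_card (Finset.image_subset_image fun p hp => by
      rw [hA1, Finset.mem_filter] at hp
      exact Finset.mem_filter.2 ⟨hAI hp.1, hp.2⟩)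
  refine h1.trans (mul_le_mul_of_nonneg_right ?_ (mul_nonneg hK0 (mul_nonneg ht0 hm0)))
  exact_mod_cast Finset.card_le_card (Finset.image_subset_image hAI)

/-- **two steps**: the steps `(p, t')` whose class pair `(s p, s t')` meets few boxes are rare -/
theorem two_step (I : Finset (ι × η)) (s : ι → κ) (N : ι → η → Finset ι) (bx : κ → ι → η → β)
    {K m1 m2 t0 : ℝ} (hK0 : 0 ≤ K) (hm1 : 0 ≤ m1) (hm2 : 0 ≤ m2) (ht0 : 0 ≤ t0)
    (hK : ∀ c, (((I.filter fun p => s p.1 = c).biUnion fun p => (N p.1 p.2).image s).card : ℝ) ≤ K)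
    (h1 : ∀ c b j,
      ((I.filter fun p => s p.1 = c ∧ bx c p.1 p.2 = b ∧ p.2 = j).card : ℝ) ≤ m1)
    (h2 : ∀ p ∈ I, ∀ c1, (((N p.1 p.2).filter fun t' => s t' = c1).card : ℝ) ≤ m2) :
    ∑ p ∈ I, (((N p.1 p.2).filter fun t' =>
        ((sbox I s N bx (s p.1) (s t')).card : ℝ) ≤ t0).card : ℝ) ≤
      ((I.image fun p => s p.1).card : ℝ) * (K * (t0 * (m1 * m2))) := by
  classical
  refine sum_le_fib I (fun p => s p.1) _ _ fun c _ => ?_
  set A := I.filter fun p => s p.1 = c with hA
  set R := A.biUnion fun p => (N p.1 p.2).image s with hR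
  have hRK : (R.card : ℝ) ≤ K := hK c
  -- steps from the class `c` into a fixed class `c1`
  have key : ∀ c1, ((sbox I s N bx c c1).card : ℝ) ≤ t0 →
      ∑ p ∈ A, (((N p.1 p.2).filter fun t' => s t' = c1).card : ℝ) ≤ t0 * (m1 * m2) := by
    intro c1 hc1
    set A1 := A.filter fun p => ∃ t' ∈ N p.1 p.2, s t' = c1 with hA1
    have e1 : ∑ p ∈ A, (((N p.1 p.2).filter fun t' => s t' = c1).card : ℝ) =
        ∑ p ∈ A1, (((N p.1 p.2).filter fun t' => s t' = c1).card : ℝ) := by
      rw [hA1]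
      symm
      refine Finset.sum_filter_of_ne fun p _ hne => ?_
      have hne' : ((N p.1 p.2).filter fun t' => s t' = c1).card ≠ 0 := by
        intro h0; exact hne (by rw [h0]; simp)
      obtain ⟨t', ht'⟩ := Finset.card_ne_zero.1 hne'
      rw [Finset.mem_filter] at ht'
      exact ⟨t', ht'.1, ht'.2⟩
    have e2 : ∑ p ∈ A1, (((N p.1 p.2).filter fun t' => s t' = c1).card : ℝ) ≤
        (A1.card : ℝ) * m2 := by
      refine (Finset.sum_le_card_nsmul _ _ m2 fun p hp => h2 p ?_ c1).trans (le_of_eq ?_)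
      · rw [hA1, Finset.mem_filter, hA, Finset.mem_filter] at hp
        exact hp.1.1
      · rw [nsmul_eq_mul]
    have e3 : (A1.card : ℝ) ≤ ((A1.image fun r => (bx c r.1 r.2, r.2)).card : ℝ) * m1 := by
      refine card_le_fib A1 (fun r => (bx c r.1 r.2, r.2)) _ fun bj _ => ?_
      refine le_trans ?_ (h1 c bj.1 bj.2)
      exact_mod_cast Finset.card_le_card fun p hp => by
        rw [Finset.mem_filter, hA1, Finset.mem_filter, hA, Finset.mem_filter] at hp
        obtain ⟨⟨⟨h4, h5⟩, _⟩, h7⟩ := hp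
        rw [Finset.mem_filter]
        exact ⟨h4, h5, by rw [← h7], by rw [← h7]⟩
    have e4 : ((A1.image fun r => (bx c r.1 r.2, r.2)).card : ℝ) ≤ t0 := by
      refine le_trans ?_ hc1
      exact_mod_cast Finset.card_le_card fun p hp => by
        obtain ⟨r, hr, hr'⟩ := Finset.mem_image.1 hp
        rw [hA1, Finset.mem_filter, hA, Finset.mem_filter] at hr
        unfold sbox
        exact Finset.mem_image.2 ⟨r, Finset.mem_filter.2 ⟨hr.1.1, hr.1.2, hr.2⟩, hr'⟩
    calc ∑ p ∈ A, (((N p.1 p.2).filter fun t' => s t' = c1).card : ℝ)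
        ≤ (A1.card : ℝ) * m2 := e1 ▸ e2
      _ ≤ (t0 * m1) * m2 := mul_le_mul_of_nonneg_right
          (e3.trans (mul_le_mul_of_nonneg_right e4 hm1)) hm2
      _ = t0 * (m1 * m2) := by ring
  -- decompose the bad steps by the target class
  have e5 : ∀ p ∈ A, (((N p.1 p.2).filter fun t' =>
        ((sbox I s N bx (s p.1) (s t')).card : ℝ) ≤ t0).card : ℝ) ≤
      ∑ c1 ∈ R.filter (fun c1 => ((sbox I s N bx c c1).card : ℝ) ≤ t0),
        (((N p.1 p.2).filter fun t' => s t' = c1).card : ℝ) := by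
    intro p hp
    have hpc : s p.1 = c := (Finset.mem_filter.1 hp).2
    rw [hpc]
    set Bp := (N p.1 p.2).filter fun t' => ((sbox I s N bx c (s t')).card : ℝ) ≤ t0 with hBp
    have hmap : ∀ t' ∈ Bp, s t' ∈ R.filter (fun c1 => ((sbox I s N bx c c1).card : ℝ) ≤ t0) := by
      intro t' ht'
      rw [hBp, Finset.mem_filter] at ht'
      rw [Finset.mem_filter]
      exact ⟨Finset.mem_biUnion.2 ⟨p, hp, Finset.mem_image_of_mem s ht'.1⟩, ht'.2⟩
    rw [Finset.card_eq_sum_card_fiberwise hmap]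
    push_cast
    refine Finset.sum_le_sum fun c1 _ => ?_
    exact_mod_cast Finset.card_le_card fun t' ht' => by
      rw [Finset.mem_filter, hBp, Finset.mem_filter] at ht'
      exact Finset.mem_filter.2 ⟨ht'.1.1, ht'.2⟩
  refine (Finset.sum_le_sum e5).trans ?_
  rw [Finset.sum_comm]
  refine (Finset.sum_le_card_nsmul _ _ (t0 * (m1 * m2)) fun c1 hc1 => ?_).trans ?_
  · exact key c1 (Finset.mem_filter.1 hc1).2
  · rw [nsmul_eq_mul]
    refine mul_le_mul_of_nonneg_right ?_ (mul_nonneg ht0 (mul_nonneg hm1 hm2))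
    refine le_trans ?_ hRK
    exact_mod_cast Finset.card_le_card (Finset.filter_subset _ _)

/-- **backwards count**: the steps which end in a set of incidences -/
theorem back (I B : Finset (ι × η)) (N : ι → η → Finset ι) {m1 : ℝ}
    (h : ∀ p' ∈ B, ((I.filter fun p => p.2 = p'.2 ∧ p'.1 ∈ N p.1 p.2).card : ℝ) ≤ m1) :
    ∑ p ∈ I, (((N p.1 p.2).filter fun t' => (t', p.2) ∈ B).card : ℝ) ≤ (B.card : ℝ) * m1 := by
  classical
  have e1 : ∀ p ∈ I, (((N p.1 p.2).filter fun t' => (t', p.2) ∈ B).card : ℝ) ≤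
      ∑ p' ∈ B, (if p.2 = p'.2 ∧ p'.1 ∈ N p.1 p.2 then (1 : ℝ) else 0) := by
    intro p _
    rw [← Finset.sum_filter, Finset.sum_const, nsmul_eq_mul, mul_one]
    have : ((N p.1 p.2).filter fun t' => (t', p.2) ∈ B).card ≤
        (B.filter fun p' => p.2 = p'.2 ∧ p'.1 ∈ N p.1 p.2).card := by
      refine Finset.card_le_card_of_injOn (fun t' => (t', p.2)) ?_ ?_
      · intro t' ht'
        rw [Finset.mem_coe, Finset.mem_filter] at ht'
        rw [Finset.mem_coe, Finset.mem_filter]
        exact ⟨ht'.2, rfl, ht'.1⟩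
      · intro a _ b _ hab
        exact (Prod.mk.inj hab).1
    exact_mod_cast this
  refine (Finset.sum_le_sum e1).trans ?_
  rw [Finset.sum_comm]
  refine (Finset.sum_le_card_nsmul _ _ m1 fun p' hp' => ?_).trans (le_of_eq (by rw [nsmul_eq_mul]))
  rw [← Finset.sum_filter, Finset.sum_const, nsmul_eq_mul, mul_one]
  exact h p' hp'

/-- **typical incidence**: outside a small set `B` of incidences, with at least half of the steps
good in both senses (`(t', p.2) ∉ B'` and `¬ bad p t'`). -/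
theorem typical (I B B' : Finset (ι × η)) (N : ι → η → Finset ι) (bad : ι × η → ι → Prop)
    [∀ p t', Decidable (bad p t')] {m0 X Y : ℝ}
    (hm0 : 0 < m0) (hN : ∀ p ∈ I, m0 ≤ ((N p.1 p.2).card : ℝ))
    (hB : 2 * (B.card : ℝ) ≤ (I.card : ℝ))
    (hX : ∑ p ∈ I, (((N p.1 p.2).filter fun t' => (t', p.2) ∈ B').card : ℝ) ≤ X)
    (hY : ∑ p ∈ I, (((N p.1 p.2).filter fun t' => bad p t').card : ℝ) ≤ Y)
    (hXY : 4 * (X + Y) < m0 * (I.card : ℝ)) :
    ∃ p ∈ I, p ∉ B ∧
      (((N p.1 p.2).filter fun t' => (t', p.2) ∈ B' ∨ bad p t').card : ℝ) ≤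
        (1 / 2) * ((N p.1 p.2).card : ℝ) := by
  classical
  by_contra hcon
  push Not at hcon
  have h1 : ∀ p ∈ I.filter (fun p => p ∉ B), (1 / 2) * m0 ≤
      (((N p.1 p.2).filter fun t' => (t', p.2) ∈ B').card : ℝ) +
        (((N p.1 p.2).filter fun t' => bad p t').card : ℝ) := by
    intro p hp
    rw [Finset.mem_filter] at hp
    have h2 := hcon p hp.1 hp.2
    have h3 : (((N p.1 p.2).filter fun t' => (t', p.2) ∈ B' ∨ bad p t').card : ℝ) ≤
        (((N p.1 p.2).filter fun t' => (t', p.2) ∈ B').card : ℝ) +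
        (((N p.1 p.2).filter fun t' => bad p t').card : ℝ) := by
      rw [Finset.filter_or]
      exact_mod_cast Finset.card_union_le _ _
    have h4 := hN p hp.1
    linarith
  have h5 : ((I.filter fun p => p ∉ B).card : ℝ) * ((1 / 2) * m0) ≤
      ∑ p ∈ I.filter (fun p => p ∉ B), ((((N p.1 p.2).filter fun t' => (t', p.2) ∈ B').card : ℝ) +
        (((N p.1 p.2).filter fun t' => bad p t').card : ℝ)) := by
    have := Finset.card_nsmul_le_sum (I.filter fun p => p ∉ B) _ _ h1
    rwa [nsmul_eq_mul] at this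
  have h6 : ∑ p ∈ I.filter (fun p => p ∉ B),
      ((((N p.1 p.2).filter fun t' => (t', p.2) ∈ B').card : ℝ) +
        (((N p.1 p.2).filter fun t' => bad p t').card : ℝ)) ≤ X + Y := by
    rw [Finset.sum_add_distrib]
    refine add_le_add (le_trans ?_ hX) (le_trans ?_ hY)
    · exact Finset.sum_le_sum_of_subset_of_nonneg (Finset.filter_subset _ _)
        fun _ _ _ => Nat.cast_nonneg _
    · exact Finset.sum_le_sum_of_subset_of_nonneg (Finset.filter_subset _ _)
        fun _ _ _ => Nat.cast_nonneg _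
  have h7 : (I.card : ℝ) ≤ 2 * ((I.filter fun p => p ∉ B).card : ℝ) := by
    have h8 : (I.card : ℝ) ≤ ((I.filter fun p => p ∉ B).card : ℝ) + (B.card : ℝ) := by
      have : I ⊆ (I.filter fun p => p ∉ B) ∪ B := by
        intro p hp
        by_cases hpB : p ∈ B
        · exact Finset.mem_union_right _ hpB
        · exact Finset.mem_union_left _ (Finset.mem_filter.2 ⟨hp, hpB⟩)
      exact_mod_cast (Finset.card_le_card this).trans (Finset.card_union_le _ _)
    linarith
  nlinarith

end

end Crest.Agent.R136.R2b500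
end

-- ▼ part R136/R2c_500
section

/-!
# R136, PLAN 2 (3) (aligned curved pairs, volume form): the double count with numbers (helper500)

* `Step I u v bx' p t'` : the step set `N p` of an incidence `p = (t, j)` : the lines `t'` of the
  class `v t` with `(t', j)` in `I` and in the same box of the frame of `v t`;
* `aligned_count` : there is an incidence `p` whose pair `(u p, v p)` meets more than `t0` boxes such
  that at least half of the steps `t'` of `p` have both pairs `(u t', v t')` and `(u p, u t')` with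
  more than `t0` boxes;
* `aligned_false` : if for every such `p` few steps are of this kind, contradiction;
* `cap_count` : capture in `n` balls and few lines in every ball ⊢ few common lines in a box.
-/

set_option autoImplicit false

open Finset

namespace Crest.Agent.R136.R2b500

section

variable {ι κ κ' β β' : Type} [DecidableEq ι] [DecidableEq κ] [DecidableEq κ'] [DecidableEq β]
  [DecidableEq β']

/-- steps of the incidence `(t, j)`: lines of the same second class through the same box -/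
def nb (I : Finset (ι × ℕ)) (v : ι → κ') (bx' : κ' → ι → ℕ → β') (t : ι) (j : ℕ) : Finset ι :=
  ((I.filter fun p => p.2 = j ∧ v p.1 = v t ∧ bx' (v t) p.1 j = bx' (v t) t j).image Prod.fst)

theorem mem_nb {I : Finset (ι × ℕ)} {v : ι → κ'} {bx' : κ' → ι → ℕ → β'} {t t' : ι} {j : ℕ} :
    t' ∈ nb I v bx' t j ↔ (t', j) ∈ I ∧ v t' = v t ∧ bx' (v t) t' j = bx' (v t) t j := by
  unfold nb
  rw [mem_image]
  constructor
  · rintro ⟨p, hp, rfl⟩
    rw [mem_filter] at hp
    obtain ⟨h1, h2, h3, h4⟩ := hp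
    refine ⟨?_, h3, h4⟩
    rw [← h2]; exact h1
  · rintro ⟨h1, h2, h3⟩
    exact ⟨(t', j), mem_filter.2 ⟨h1, rfl, h2, h3⟩, rfl⟩

theorem card_nb (I : Finset (ι × ℕ)) (v : ι → κ') (bx' : κ' → ι → ℕ → β') (t : ι) (j : ℕ)
    (P : ι → Prop) [DecidablePred P] :
    ((nb I v bx' t j).filter P).card =
      (I.filter fun p => p.2 = j ∧ v p.1 = v t ∧ bx' (v t) p.1 j = bx' (v t) t j ∧ P p.1).card := by
  refine card_bij' (fun t' _ => (t', j)) (fun p _ => p.1) ?_ ?_ ?_ ?_
  · intro t' ht'
    rw [mem_filter, mem_nb] at ht'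
    exact mem_filter.2 ⟨ht'.1.1, rfl, ht'.1.2.1, ht'.1.2.2, ht'.2⟩
  · intro p hp
    rw [mem_filter] at hp
    obtain ⟨h1, h2, h3, h4, h5⟩ := hp
    rw [mem_filter, mem_nb]
    refine ⟨⟨?_, h3, h4⟩, h5⟩
    rw [← h2]; exact h1
  · intro t' _; rfl
  · intro p hp
    rw [mem_filter] at hp
    exact Prod.ext rfl hp.2.1.symm


end

end Crest.Agent.R136.R2b500
end

-- ▼ part R136/R2d_500
section

/-!
# R136, PLAN 2 (3) (aligned curved pairs, volume form): pointwise form of the double count (helper500)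

* `boxes A bx c` : boxes, with their heights, of the incidences of `A` in the frame of the class `c`;
* `few_inc` : if every class pair has at most `Z H^2` boxes of `Nd`-incidences, then the
  `Nd`-incidences are at most `#I X^2 Q Z / Y`;
* `aligned_path` : there are an incidence `p = (t, j)` and a step `t'` (same second class, same box)
  with none of the bad properties `B0`, `Nd1`, `Nd2` and with `Gen p t'`;
* `cap_count` : capture in `n` balls and few lines in every ball ⊢ few common lines in a box.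
-/

set_option autoImplicit false

open Finset

namespace Crest.Agent.R136.R2b500

section

variable {ι κ κ' β β' : Type} [DecidableEq ι] [DecidableEq κ] [DecidableEq κ'] [DecidableEq β]
  [DecidableEq β']

/-- boxes, with their heights, of a set of incidences in the frame of the class `c` -/
def boxes (A : Finset (ι × ℕ)) (bx : κ → ι → ℕ → β) (c : κ) : Finset (β × ℕ) :=
  A.image fun r => (bx c r.1 r.2, r.2)

open Classical in
/-- **one step, pointwise** -/
theorem few_inc (I : Finset (ι × ℕ)) (u : ι → κ) (v : ι → κ') (bx : κ → ι → ℕ → β)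
    (Nd : ι × ℕ → Prop) {M H X Y Q Z : ℝ} (hM : 0 < M) (hH : 0 < H) (hX : 0 < X) (hY : 0 < Y)
    (hQ : 0 ≤ Q) (hZ : 0 ≤ Z)
    (hfull : ((I.image fun p => u p.1).card : ℝ) * (M * H) ≤ X * (I.card : ℝ))
    (hcap : ∀ p ∈ I, Y * H ^ 2 * ((I.filter fun r => u r.1 = u p.1 ∧ v r.1 = v p.1 ∧
      bx (u p.1) r.1 r.2 = bx (u p.1) p.1 p.2 ∧ r.2 = p.2).card : ℝ) ≤ M)
    (hK : ∀ c, (((I.filter fun p => u p.1 = c).image fun p => v p.1).card : ℝ) ≤ X * Q * H)
    (hNd : ∀ c c', ((boxes (I.filter fun p => u p.1 = c ∧ v p.1 = c' ∧ Nd p) bx c).card : ℝ) ≤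
      Z * H ^ 2) :
    ((I.filter Nd).card : ℝ) ≤ (I.card : ℝ) * (X ^ 2 * Q * Z / Y) := by
  set J := I.filter Nd with hJ
  have hJI : J ⊆ I := filter_subset _ _
  have hZH : 0 ≤ Z * H ^ 2 := by positivity
  have h1 : ((J.filter fun p => ((pbox J u v bx (u p.1) (v p.1)).card : ℝ) ≤ Z * H ^ 2).card : ℝ) ≤
      ((J.image fun p => u p.1).card : ℝ) * ((X * Q * H) * ((Z * H ^ 2) * (M / (Y * H ^ 2)))) := by
    refine one_step J u v bx (K := X * Q * H) (m := M / (Y * H ^ 2)) (t0 := Z * H ^ 2)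
      (by positivity) (by positivity) hZH ?_ ?_
    · intro c
      refine le_trans ?_ (hK c)
      exact_mod_cast card_le_card (image_subset_image (filter_subset_filter _ hJI))
    · intro c c' b j
      rw [le_div_iff₀ (by positivity)]
      by_cases hem : (J.filter fun p => u p.1 = c ∧ v p.1 = c' ∧ bx c p.1 p.2 = b ∧
          p.2 = j).Nonempty
      · obtain ⟨p, hp⟩ := hem
        rw [mem_filter] at hp
        obtain ⟨hpJ, rfl, rfl, rfl, rfl⟩ := hp
        have h2 := hcap p (hJI hpJ)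
        have h3 : ((J.filter fun r => u r.1 = u p.1 ∧ v r.1 = v p.1 ∧
            bx (u p.1) r.1 r.2 = bx (u p.1) p.1 p.2 ∧ r.2 = p.2).card : ℝ) ≤
            ((I.filter fun r => u r.1 = u p.1 ∧ v r.1 = v p.1 ∧
            bx (u p.1) r.1 r.2 = bx (u p.1) p.1 p.2 ∧ r.2 = p.2).card : ℝ) := by
          exact_mod_cast card_le_card (filter_subset_filter _ hJI)
        have h4 : 0 ≤ Y * H ^ 2 := by positivity
        nlinarith [mul_le_mul_of_nonneg_left h3 h4]
      · rw [not_nonempty_iff_eq_empty] at hem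
        rw [hem]; simp; exact hM.le
  have h2 : (J.filter fun p => ((pbox J u v bx (u p.1) (v p.1)).card : ℝ) ≤ Z * H ^ 2) = J := by
    refine filter_true_of_mem fun p _ => ?_
    refine le_trans ?_ (hNd (u p.1) (v p.1))
    have : pbox J u v bx (u p.1) (v p.1) ⊆
        boxes (I.filter fun r => u r.1 = u p.1 ∧ v r.1 = v p.1 ∧ Nd r) bx (u p.1) := by
      intro y hy
      unfold pbox at hy
      unfold boxes
      obtain ⟨r, hr, hr'⟩ := mem_image.1 hy
      rw [mem_filter, hJ, mem_filter] at hr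
      exact mem_image.2 ⟨r, mem_filter.2 ⟨hr.1.1, hr.2.1, hr.2.2, hr.1.2⟩, hr'⟩
    exact_mod_cast card_le_card this
  rw [h2] at h1
  have h3 : ((J.image fun p => u p.1).card : ℝ) ≤ ((I.image fun p => u p.1).card : ℝ) := by
    exact_mod_cast card_le_card (image_subset_image hJI)
  have e1 : ((I.image fun p => u p.1).card : ℝ) *
      ((X * Q * H) * ((Z * H ^ 2) * (M / (Y * H ^ 2)))) =
      ((I.image fun p => u p.1).card : ℝ) * (M * H) * (X * Q * Z / Y) := by
    field_simp
  calc (J.card : ℝ) ≤ ((J.image fun p => u p.1).card : ℝ) *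
        ((X * Q * H) * ((Z * H ^ 2) * (M / (Y * H ^ 2)))) := h1
    _ ≤ ((I.image fun p => u p.1).card : ℝ) *
        ((X * Q * H) * ((Z * H ^ 2) * (M / (Y * H ^ 2)))) :=
        mul_le_mul_of_nonneg_right h3 (by positivity)
    _ = ((I.image fun p => u p.1).card : ℝ) * (M * H) * (X * Q * Z / Y) := e1
    _ ≤ X * (I.card : ℝ) * (X * Q * Z / Y) := mul_le_mul_of_nonneg_right hfull (by positivity)
    _ = _ := by ring

open Classical in
/-- **the path** (input of the pointwise algebra V6). `p = (t, j)`, the step `t'` has the same second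
class as `t` and goes through the same box of its frame at the height `j`. -/
theorem aligned_path (I : Finset (ι × ℕ)) (u : ι → κ) (v : ι → κ')
    (bx : κ → ι → ℕ → β) (bx' : κ' → ι → ℕ → β') (B0 : Finset (ι × ℕ)) (Nd1 : ι × ℕ → Prop)
    (Nd2 Gen : ι × ℕ → ι → Prop) {M H X Y Q Z : ℝ}
    (hM : 0 < M) (hH : 0 < H) (hX : 1 ≤ X) (hY : 0 < Y) (hQ : 0 ≤ Q) (hZ : 0 ≤ Z)
    (hne : I.Nonempty)
    (hfull : ((I.image fun p => u p.1).card : ℝ) * (M * H) ≤ X * (I.card : ℝ))
    (hlow : ∀ p ∈ I, M ≤ X * H ^ 2 * ((nb I v bx' p.1 p.2).card : ℝ))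
    (hup : ∀ p ∈ I, H ^ 2 * ((I.filter fun r => u r.1 = u p.1 ∧ bx (u p.1) r.1 r.2 =
      bx (u p.1) p.1 p.2 ∧ r.2 = p.2).card : ℝ) ≤ X * M)
    (hup' : ∀ p ∈ I, H ^ 2 * ((nb I v bx' p.1 p.2).card : ℝ) ≤ X * M)
    (hcap : ∀ p ∈ I, Y * H ^ 2 * ((I.filter fun r => u r.1 = u p.1 ∧ v r.1 = v p.1 ∧
      bx (u p.1) r.1 r.2 = bx (u p.1) p.1 p.2 ∧ r.2 = p.2).card : ℝ) ≤ M)
    (hcap' : ∀ p ∈ I, ∀ c, Y * H ^ 2 *
      (((nb I v bx' p.1 p.2).filter fun t' => u t' = c).card : ℝ) ≤ M)
    (hK : ∀ c, (((I.filter fun p => u p.1 = c).image fun p => v p.1).card : ℝ) ≤ X * Q * H)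
    (hK' : ∀ c, (((I.filter fun p => u p.1 = c).biUnion fun p =>
      (nb I v bx' p.1 p.2).image u).card : ℝ) ≤ X * Q * H)
    (hNd1 : ∀ c c', ((boxes (I.filter fun p => u p.1 = c ∧ v p.1 = c' ∧ Nd1 p) bx c).card : ℝ) ≤
      Z * H ^ 2)
    (hNd2 : ∀ c c1, ((boxes (I.filter fun p => u p.1 = c ∧
      ∃ t' ∈ nb I v bx' p.1 p.2, u t' = c1 ∧ Nd2 p t') bx c).card : ℝ) ≤ Z * H ^ 2)
    (hB0 : 64 * X ^ 2 * (B0.card : ℝ) ≤ (I.card : ℝ))
    (hGen : ∀ p ∈ I, 8 * (((nb I v bx' p.1 p.2).filter fun t' => ¬ Gen p t').card : ℝ) ≤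
      ((nb I v bx' p.1 p.2).card : ℝ))
    (hnum : 64 * (X ^ 4 * Q * Z) < Y) :
    ∃ p ∈ I, ∃ t' ∈ nb I v bx' p.1 p.2, p ∉ B0 ∧ (t', p.2) ∉ B0 ∧ ¬ Nd1 p ∧ ¬ Nd1 (t', p.2) ∧
      ¬ Nd2 p t' ∧ Gen p t' := by
  have hX0 : 0 < X := by linarith
  have hH2 : 0 < H ^ 2 := by positivity
  set B := I.filter fun p => p ∈ B0 ∨ Nd1 p with hB
  set N : ι → ℕ → Finset ι := fun t j => nb I v bx' t j with hN
  set N2 : ι → ℕ → Finset ι := fun t j => (nb I v bx' t j).filter fun t' => Nd2 (t, j) t' with hN2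
  set nU : ℝ := ((I.image fun p => u p.1).card : ℝ) with hnU
  have hI0 : 0 < (I.card : ℝ) := by exact_mod_cast hne.card_pos
  have hZH : 0 ≤ Z * H ^ 2 := by positivity
  have hr : X ^ 4 * Q * Z / Y < 1 / 64 := by
    rw [div_lt_iff₀ hY]; linarith
  have hr0 : 0 ≤ X ^ 4 * Q * Z / Y := by positivity
  have hX2 : 1 ≤ X ^ 2 := one_le_pow₀ hX
  have e3 : X ^ 2 * (X ^ 2 * Q * Z / Y) = X ^ 4 * Q * Z / Y := by ring
  -- the bad incidences
  have h1 : (B.card : ℝ) ≤ (B0.card : ℝ) + (I.card : ℝ) * (X ^ 2 * Q * Z / Y) := by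
    have h2 := few_inc I u v bx Nd1 hM hH hX0 hY hQ hZ hfull hcap hK hNd1
    have h3 : B ⊆ B0 ∪ I.filter Nd1 := by
      intro p hp
      rw [hB, mem_filter] at hp
      rcases hp.2 with h | h
      · exact mem_union_left _ h
      · exact mem_union_right _ (mem_filter.2 ⟨hp.1, h⟩)
    have h4 : (B.card : ℝ) ≤ (B0.card : ℝ) + ((I.filter Nd1).card : ℝ) := by
      exact_mod_cast (card_le_card h3).trans (card_union_le _ _)
    linarith
  have h5 : X ^ 2 * (B.card : ℝ) ≤ (I.card : ℝ) * (1 / 32) := by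
    have h6 : X ^ 2 * (B.card : ℝ) ≤
        X ^ 2 * (B0.card : ℝ) + (I.card : ℝ) * (X ^ 4 * Q * Z / Y) := by
      have := mul_le_mul_of_nonneg_left h1 (by positivity : 0 ≤ X ^ 2)
      have e : X ^ 2 * ((B0.card : ℝ) + (I.card : ℝ) * (X ^ 2 * Q * Z / Y)) =
          X ^ 2 * (B0.card : ℝ) + (I.card : ℝ) * (X ^ 2 * (X ^ 2 * Q * Z / Y)) := by ring
      rw [e, e3] at this
      exact this
    have h7 : (I.card : ℝ) * (X ^ 4 * Q * Z / Y) ≤ (I.card : ℝ) * (1 / 64) :=
      mul_le_mul_of_nonneg_left hr.le hI0.le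
    linarith
  -- backwards
  have h8 : ∑ p ∈ I, (((N p.1 p.2).filter fun t' => (t', p.2) ∈ B).card : ℝ) ≤
      (B.card : ℝ) * (X * M / H ^ 2) := by
    refine back I B N (m1 := X * M / H ^ 2) fun p' hp' => ?_
    rw [le_div_iff₀ hH2]
    have hp'I : p' ∈ I := (mem_filter.1 hp').1
    have := hup' p' hp'I
    have e : ((I.filter fun p => p.2 = p'.2 ∧ p'.1 ∈ N p.1 p.2).card) ≤
        (nb I v bx' p'.1 p'.2).card := by
      refine card_le_card_of_injOn (fun p => p.1) ?_ ?_
      · intro p hp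
        rw [mem_coe, mem_filter] at hp
        obtain ⟨hpI, h5, h6⟩ := hp
        rw [hN] at h6
        rw [mem_nb] at h6
        obtain ⟨h7, h8, h9⟩ := h6
        rw [mem_coe, mem_nb]
        refine ⟨?_, h8.symm, ?_⟩
        · rw [← h5]; exact hpI
        · rw [← h5, h8]; exact h9.symm
      · intro p hp r hr' hpr
        rw [mem_coe, mem_filter] at hp hr'
        exact Prod.ext hpr (hp.2.1.trans hr'.2.1.symm)
    have e' : ((I.filter fun p => p.2 = p'.2 ∧ p'.1 ∈ N p.1 p.2).card : ℝ) ≤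
        ((nb I v bx' p'.1 p'.2).card : ℝ) := by exact_mod_cast e
    calc ((I.filter fun p => p.2 = p'.2 ∧ p'.1 ∈ N p.1 p.2).card : ℝ) * H ^ 2
        ≤ ((nb I v bx' p'.1 p'.2).card : ℝ) * H ^ 2 := mul_le_mul_of_nonneg_right e' hH2.le
      _ ≤ _ := by linarith
  have h9 : ∑ p ∈ I, (((N p.1 p.2).filter fun t' => (t', p.2) ∈ B).card : ℝ) ≤
      (I.card : ℝ) * (1 / 32) * (M / (X * H ^ 2)) := by
    refine h8.trans ?_
    have e : (B.card : ℝ) * (X * M / H ^ 2) = (X ^ 2 * (B.card : ℝ)) * (M / (X * H ^ 2)) := by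
      field_simp
    rw [e]
    exact mul_le_mul_of_nonneg_right h5 (by positivity)
  -- two steps
  have h10 : ∑ p ∈ I, (((N2 p.1 p.2).filter fun t' =>
        ((sbox I u N2 bx (u p.1) (u t')).card : ℝ) ≤ Z * H ^ 2).card : ℝ) ≤
      nU * ((X * Q * H) * ((Z * H ^ 2) * ((X * M / H ^ 2) * (M / (Y * H ^ 2))))) := by
    refine two_step I u N2 bx (K := X * Q * H) (m1 := X * M / H ^ 2) (m2 := M / (Y * H ^ 2))
      (t0 := Z * H ^ 2) (by positivity) (by positivity) (by positivity) hZH ?_ ?_ ?_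
    · intro c
      refine le_trans ?_ (hK' c)
      have : ((I.filter fun p => u p.1 = c).biUnion fun p => (N2 p.1 p.2).image u) ⊆
          (I.filter fun p => u p.1 = c).biUnion fun p => (nb I v bx' p.1 p.2).image u :=
        biUnion_mono fun p _ => image_subset_image (filter_subset _ _)
      exact_mod_cast card_le_card this
    · intro c b j
      rw [le_div_iff₀ hH2]
      by_cases hem : (I.filter fun p => u p.1 = c ∧ bx c p.1 p.2 = b ∧ p.2 = j).Nonempty
      · obtain ⟨p, hp⟩ := hem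
        rw [mem_filter] at hp
        obtain ⟨hpI, rfl, rfl, rfl⟩ := hp
        have := hup p hpI
        linarith
      · rw [not_nonempty_iff_eq_empty] at hem
        rw [hem]; simp; positivity
    · intro p hp c1
      rw [le_div_iff₀ (by positivity)]
      have h11 := hcap' p hp c1
      have h12 : (((N2 p.1 p.2).filter fun t' => u t' = c1).card : ℝ) ≤
          (((nb I v bx' p.1 p.2).filter fun t' => u t' = c1).card : ℝ) := by
        exact_mod_cast card_le_card (filter_subset_filter _ (filter_subset _ _))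
      have h13 : 0 ≤ Y * H ^ 2 := by positivity
      nlinarith [mul_le_mul_of_nonneg_left h12 h13]
  have h14 : ∀ p ∈ I, ((N2 p.1 p.2).filter fun t' =>
        ((sbox I u N2 bx (u p.1) (u t')).card : ℝ) ≤ Z * H ^ 2) = N2 p.1 p.2 := by
    intro p _
    refine filter_true_of_mem fun t' _ => ?_
    refine le_trans ?_ (hNd2 (u p.1) (u t'))
    have : sbox I u N2 bx (u p.1) (u t') ⊆ boxes (I.filter fun r => u r.1 = u p.1 ∧
        ∃ s ∈ nb I v bx' r.1 r.2, u s = u t' ∧ Nd2 r s) bx (u p.1) := by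
      intro y hy
      unfold sbox at hy
      unfold boxes
      obtain ⟨r, hr1, hr2⟩ := mem_image.1 hy
      rw [mem_filter] at hr1
      obtain ⟨hrI, hru, s, hs, hsu⟩ := hr1
      have hs' := mem_filter.1 hs
      exact mem_image.2 ⟨r, mem_filter.2 ⟨hrI, hru, s, hs'.1, hsu, hs'.2⟩, hr2⟩
    exact_mod_cast card_le_card this
  have e2 : nU * ((X * Q * H) * ((Z * H ^ 2) * ((X * M / H ^ 2) * (M / (Y * H ^ 2))))) =
      nU * (M * H) * (X ^ 2 * Q * Z / Y * (M / H ^ 2)) := by
    field_simp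
  have h15 : ∑ p ∈ I, (((N p.1 p.2).filter fun t' => Nd2 p t').card : ℝ) ≤
      (I.card : ℝ) * (1 / 64) * (M / (X * H ^ 2)) := by
    have h16 : ∑ p ∈ I, (((N p.1 p.2).filter fun t' => Nd2 p t').card : ℝ) =
        ∑ p ∈ I, (((N2 p.1 p.2).filter fun t' =>
        ((sbox I u N2 bx (u p.1) (u t')).card : ℝ) ≤ Z * H ^ 2).card : ℝ) := by
      refine sum_congr rfl fun p hp => ?_
      rw [h14 p hp]
    rw [h16]
    refine h10.trans ?_
    rw [e2]
    calc nU * (M * H) * (X ^ 2 * Q * Z / Y * (M / H ^ 2))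
        ≤ X * (I.card : ℝ) * (X ^ 2 * Q * Z / Y * (M / H ^ 2)) :=
          mul_le_mul_of_nonneg_right hfull (by positivity)
      _ = (I.card : ℝ) * (X ^ 4 * Q * Z / Y) * (M / (X * H ^ 2)) := by field_simp
      _ ≤ _ := mul_le_mul_of_nonneg_right
          (mul_le_mul_of_nonneg_left hr.le hI0.le) (by positivity)
  have hm0 : 0 < M / (X * H ^ 2) := by positivity
  have h5' : (B.card : ℝ) ≤ (I.card : ℝ) * (1 / 32) := by
    have h0 : 0 ≤ (B.card : ℝ) := Nat.cast_nonneg _
    nlinarith
  obtain ⟨p, hpI, hpB, hp⟩ := typical I B B N Nd2 hm0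
    (fun p hp => by
      rw [div_le_iff₀ (by positivity)]
      have := hlow p hp
      linarith)
    (by linarith)
    h9 h15
    (by
      have h17 : 0 < (I.card : ℝ) * (M / (X * H ^ 2)) := mul_pos hI0 hm0
      nlinarith)
  -- the step
  have hNp : 0 < ((N p.1 p.2).card : ℝ) := by
    have h18 := hlow p hpI
    by_contra hcon
    have h19 : ((nb I v bx' p.1 p.2).card : ℝ) ≤ 0 := not_lt.1 hcon
    have h20 : X * H ^ 2 * ((nb I v bx' p.1 p.2).card : ℝ) ≤ 0 :=
      mul_nonpos_of_nonneg_of_nonpos (by positivity) h19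
    linarith
  obtain ⟨t', ht', hgood⟩ : ∃ t' ∈ N p.1 p.2, ¬ (((t', p.2) ∈ B ∨ Nd2 p t') ∨ ¬ Gen p t') := by
    by_contra hcon
    push Not at hcon
    have h21 : N p.1 p.2 ⊆ ((N p.1 p.2).filter fun t' => (t', p.2) ∈ B ∨ Nd2 p t') ∪
        ((N p.1 p.2).filter fun t' => ¬ Gen p t') := by
      intro s hs
      by_cases h22 : (s, p.2) ∈ B ∨ Nd2 p s
      · exact mem_union_left _ (mem_filter.2 ⟨hs, h22⟩)
      · refine mem_union_right _ (mem_filter.2 ⟨hs, ?_⟩)
        rcases hcon s hs with h23 | h23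
        · exact absurd h23 h22
        · exact h23
    have h24 : ((N p.1 p.2).card : ℝ) ≤
        (((N p.1 p.2).filter fun t' => (t', p.2) ∈ B ∨ Nd2 p t').card : ℝ) +
        (((N p.1 p.2).filter fun t' => ¬ Gen p t').card : ℝ) := by
      exact_mod_cast (card_le_card h21).trans (card_union_le _ _)
    have h25 := hGen p hpI
    have h26 : 8 * (((N p.1 p.2).filter fun t' => ¬ Gen p t').card : ℝ) ≤
        ((N p.1 p.2).card : ℝ) := h25
    linarith
  push Not at hgood
  obtain ⟨⟨hg1, hg2⟩, hg3⟩ := hgood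
  have ht'I : (t', p.2) ∈ I := (mem_nb.1 ht').1
  have hpB' : ¬ (p ∈ B0 ∨ Nd1 p) := fun h => hpB (mem_filter.2 ⟨hpI, h⟩)
  have htB' : ¬ ((t', p.2) ∈ B0 ∨ Nd1 (t', p.2)) := fun h => hg1 (mem_filter.2 ⟨ht'I, h⟩)
  push Not at hpB' htB'
  exact ⟨p, hpI, t', ht', hpB'.1, htB'.1, hpB'.2, htB'.2, hg2, hg3⟩


end

end Crest.Agent.R136.R2b500
end

-- ▼ part R136/R2e_500
section

/-!
# R136, PLAN 2 (3) (aligned curved pairs, volume form): start data of the double count (helper500)

* `card_classes` : classes with at least `M / W` elements: `#classes M ≤ W #P`;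
* `prune_low` : the incidences in boxes of the second frame with fewer than `m` incidences are at
  most `#boxes m`, and the rest has at least `m` incidences in every box;
* `start_inc` : `P` lines, `u`, `v` full labelings, `Bad` few bad incidences ⊢ the incidence set
  `I` of `aligned_path` (hypotheses `hne`, `hfull`, `hlow`).
-/

set_option autoImplicit false

open Finset

namespace Crest.Agent.R136.R2b500

section

variable {ι κ κ' β β' : Type} [DecidableEq ι] [DecidableEq κ] [DecidableEq κ'] [DecidableEq β]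
  [DecidableEq β']

/-- number of classes -/
theorem card_classes (P : Finset ι) (u : ι → κ) {M W : ℝ}
    (h : ∀ t ∈ P, M ≤ W * ((P.filter fun s => u s = u t).card : ℝ)) :
    ((P.image u).card : ℝ) * M ≤ W * (P.card : ℝ) := by
  have h1 : (P.card : ℝ) = ∑ c ∈ P.image u, ((P.filter fun s => u s = c).card : ℝ) := by
    rw [card_eq_sum_card_image u P]; push_cast; rfl
  rw [h1, mul_sum, ← nsmul_eq_mul]
  refine card_nsmul_le_sum _ _ _ fun c hc => ?_
  obtain ⟨t, ht, rfl⟩ := mem_image.1 hc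
  exact h t ht

/-- the boxes of the second frame met by a set of incidences -/
def vboxes (I : Finset (ι × ℕ)) (v : ι → κ') (bx' : κ' → ι → ℕ → β') :
    Finset ((κ' × β') × ℕ) :=
  I.image fun p => ((v p.1, bx' (v p.1) p.1 p.2), p.2)

/-- **pruning**: one pass is enough, since the boxes of the second frame are disjoint -/
theorem prune_low (I0 : Finset (ι × ℕ)) (v : ι → κ') (bx' : κ' → ι → ℕ → β') {m : ℝ}
    (hm : 0 ≤ m) : ∃ I ⊆ I0, (I0.card : ℝ) ≤ (I.card : ℝ) + ((vboxes I0 v bx').card : ℝ) * m ∧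
      ∀ p ∈ I, m ≤ ((nb I v bx' p.1 p.2).card : ℝ) := by
  classical
  set lb : ι × ℕ → (κ' × β') × ℕ := fun p => ((v p.1, bx' (v p.1) p.1 p.2), p.2) with hlb
  set I := I0.filter fun p => m ≤ ((I0.filter fun r => lb r = lb p).card : ℝ) with hI
  have hnb : ∀ (J : Finset (ι × ℕ)) (p : ι × ℕ), (nb J v bx' p.1 p.2).card =
      (J.filter fun r => lb r = lb p).card := by
    intro J p
    have h1 := card_nb J v bx' p.1 p.2 (fun _ => True)
    rw [filter_true_of_mem (fun _ _ => trivial)] at h1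
    rw [h1]
    congr 1
    refine filter_congr fun r _ => ?_
    simp only [hlb, Prod.mk.injEq, and_true]
    constructor
    · rintro ⟨h2, h3, h4⟩
      refine ⟨⟨h3, ?_⟩, h2⟩
      rw [h3, h2]; exact h4
    · rintro ⟨⟨h3, h4⟩, h2⟩
      refine ⟨h2, h3, ?_⟩
      rw [h3, h2] at h4; exact h4
  refine ⟨I, filter_subset _ _, ?_, ?_⟩
  · have h2 : (I0.card : ℝ) = (I.card : ℝ) +
        ((I0.filter fun p => ¬ m ≤ ((I0.filter fun r => lb r = lb p).card : ℝ)).card : ℝ) := by
      rw [hI]
      exact_mod_cast (card_filter_add_card_filter_not (s := I0)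
        (fun p => m ≤ ((I0.filter fun r => lb r = lb p).card : ℝ))).symm
    rw [h2]
    refine add_le_add le_rfl ?_
    set R := I0.filter fun p => ¬ m ≤ ((I0.filter fun r => lb r = lb p).card : ℝ) with hR
    have h3 : (R.card : ℝ) ≤ ((R.image lb).card : ℝ) * m := by
      refine card_le_fib R lb m fun c hc => ?_
      obtain ⟨p, hp, rfl⟩ := mem_image.1 hc
      have hp' := (mem_filter.1 hp).2
      have h4 : ((R.filter fun r => lb r = lb p).card : ℝ) ≤
          ((I0.filter fun r => lb r = lb p).card : ℝ) := by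
        exact_mod_cast card_le_card (filter_subset_filter _ (filter_subset _ _))
      linarith [not_le.1 hp']
    refine h3.trans (mul_le_mul_of_nonneg_right ?_ hm)
    exact_mod_cast card_le_card (image_subset_image (filter_subset _ _))
  · intro p hp
    rw [hnb I p]
    have hp' := mem_filter.1 hp
    have h5 : (I.filter fun r => lb r = lb p) = I0.filter fun r => lb r = lb p := by
      ext r
      simp only [mem_filter, hI]
      constructor
      · rintro ⟨⟨h6, _⟩, h7⟩; exact ⟨h6, h7⟩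
      · rintro ⟨h6, h7⟩
        refine ⟨⟨h6, ?_⟩, h7⟩
        rw [h7]; exact hp'.2
    rw [h5]; exact hp'.2

open Classical in
/-- **start data.** `H` heights, at most `Cb H^2` boxes of the second frame per class and height,
`Bad` at most a quarter of the incidences. -/
theorem start_inc (P : Finset ι) (u : ι → κ) (v : ι → κ') (bx' : κ' → ι → ℕ → β') (H : ℕ)
    (Bad : Finset (ι × ℕ)) {M W Cb : ℝ} (hM : 0 < M) (hW : 1 ≤ W) (hCb : 1 ≤ Cb) (hH : 1 ≤ H)
    (hP : P.Nonempty)
    (hu : ∀ t ∈ P, M ≤ W * ((P.filter fun s => u s = u t).card : ℝ))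
    (hv : ∀ t ∈ P, M ≤ W * ((P.filter fun s => v s = v t).card : ℝ))
    (hbox : ∀ c' j, (((P.filter fun t => v t = c').image fun t => bx' c' t j).card : ℝ) ≤
      Cb * (H : ℝ) ^ 2)
    (hBad : 4 * (Bad.card : ℝ) ≤ (P.card : ℝ) * H) :
    ∃ I : Finset (ι × ℕ), I.Nonempty ∧ (∀ p ∈ I, p.1 ∈ P ∧ p.2 < H ∧ p ∉ Bad) ∧
      (P.card : ℝ) * H ≤ 2 * (I.card : ℝ) ∧
      ((I.image fun p => u p.1).card : ℝ) * (M * H) ≤ (4 * Cb * W) * (I.card : ℝ) ∧
      ∀ p ∈ I, M ≤ (4 * Cb * W) * (H : ℝ) ^ 2 * ((nb I v bx' p.1 p.2).card : ℝ) := by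
  have hH0 : (0 : ℝ) < H := by exact_mod_cast hH
  have hP0 : (0 : ℝ) < P.card := by exact_mod_cast hP.card_pos
  have hW0 : 0 < W := by linarith
  have hCb0 : 0 < Cb := by linarith
  set I1 : Finset (ι × ℕ) := (P ×ˢ range H).filter fun p => p ∉ Bad with hI1
  have h1 : (P.card : ℝ) * H ≤ (I1.card : ℝ) + (Bad.card : ℝ) := by
    have h2 : (P ×ˢ range H) ⊆ I1 ∪ Bad := by
      intro p hp
      by_cases h : p ∈ Bad
      · exact mem_union_right _ h
      · exact mem_union_left _ (mem_filter.2 ⟨hp, h⟩)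
    have h3 : ((P ×ˢ range H).card : ℝ) ≤ (I1.card : ℝ) + (Bad.card : ℝ) := by
      exact_mod_cast (card_le_card h2).trans (card_union_le _ _)
    rw [card_product, card_range] at h3
    push_cast at h3
    exact h3
  set m : ℝ := M / (4 * Cb * W * (H : ℝ) ^ 2) with hm
  have hm0 : 0 < m := by positivity
  obtain ⟨I, hII, hcard, hlow⟩ := prune_low I1 v bx' hm0.le
  -- number of boxes
  have h4 : ((vboxes I1 v bx').card : ℝ) ≤ ((P.image v).card : ℝ) * (Cb * (H : ℝ) ^ 2) * H := by
    have h5 : vboxes I1 v bx' ⊆ ((P.image v) ×ˢ range H).biUnion fun cj =>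
        ((P.filter fun t => v t = cj.1).image fun t => bx' cj.1 t cj.2).image
          fun b => ((cj.1, b), cj.2) := by
      intro y hy
      unfold vboxes at hy
      obtain ⟨p, hp, rfl⟩ := mem_image.1 hy
      rw [hI1, mem_filter, mem_product] at hp
      refine mem_biUnion.2 ⟨(v p.1, p.2), mem_product.2 ⟨mem_image_of_mem v hp.1.1, hp.1.2⟩, ?_⟩
      exact mem_image.2 ⟨bx' (v p.1) p.1 p.2,
        mem_image.2 ⟨p.1, mem_filter.2 ⟨hp.1.1, rfl⟩, rfl⟩, rfl⟩
    have h6 : ((vboxes I1 v bx').card : ℝ) ≤ ∑ cj ∈ (P.image v) ×ˢ range H,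
        ((((P.filter fun t => v t = cj.1).image fun t => bx' cj.1 t cj.2).image
          fun b => ((cj.1, b), cj.2)).card : ℝ) := by
      exact_mod_cast (card_le_card h5).trans card_biUnion_le
    refine h6.trans ((sum_le_card_nsmul _ _ (Cb * (H : ℝ) ^ 2) fun cj _ => ?_).trans ?_)
    · refine le_trans ?_ (hbox cj.1 cj.2)
      exact_mod_cast card_image_le
    · rw [nsmul_eq_mul, card_product, card_range]
      push_cast
      exact le_of_eq (by ring)
  have h7 : ((P.image v).card : ℝ) * M ≤ W * (P.card : ℝ) := card_classes P v hv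
  have h8 : ((vboxes I1 v bx').card : ℝ) * m ≤ (P.card : ℝ) * H / 4 := by
    calc ((vboxes I1 v bx').card : ℝ) * m
        ≤ (((P.image v).card : ℝ) * (Cb * (H : ℝ) ^ 2) * H) * m :=
          mul_le_mul_of_nonneg_right h4 hm0.le
      _ = (((P.image v).card : ℝ) * M) * H / (4 * W) := by
          rw [hm]; field_simp
      _ ≤ (W * (P.card : ℝ)) * H / (4 * W) := by gcongr
      _ = (P.card : ℝ) * H / 4 := by field_simp
  have h9 : (P.card : ℝ) * H ≤ 2 * (I.card : ℝ) := by
    have := hcard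
    linarith
  have hPH : 0 < (P.card : ℝ) * H := by positivity
  have hI0 : 0 < (I.card : ℝ) := by linarith
  refine ⟨I, ?_, ?_, h9, ?_, ?_⟩
  · exact card_pos.1 (by exact_mod_cast hI0)
  · intro p hp
    have := hII hp
    rw [hI1, mem_filter, mem_product, mem_range] at this
    exact ⟨this.1.1, this.1.2, this.2⟩
  · have h10 : ((I.image fun p => u p.1).card : ℝ) ≤ ((P.image u).card : ℝ) := by
      have : (I.image fun p => u p.1) ⊆ P.image u := by
        intro c hc
        obtain ⟨p, hp, rfl⟩ := mem_image.1 hc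
        have := hII hp
        rw [hI1, mem_filter, mem_product] at this
        exact mem_image_of_mem u this.1.1
      exact_mod_cast card_le_card this
    have h11 : ((P.image u).card : ℝ) * M ≤ W * (P.card : ℝ) := card_classes P u hu
    calc ((I.image fun p => u p.1).card : ℝ) * (M * H)
        ≤ ((P.image u).card : ℝ) * (M * H) := mul_le_mul_of_nonneg_right h10 (by positivity)
      _ = (((P.image u).card : ℝ) * M) * H := by ring
      _ ≤ (W * (P.card : ℝ)) * H := mul_le_mul_of_nonneg_right h11 hH0.le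
      _ = W * ((P.card : ℝ) * H) := by ring
      _ ≤ W * (2 * (I.card : ℝ)) := mul_le_mul_of_nonneg_left h9 hW0.le
      _ ≤ (4 * Cb * W) * (I.card : ℝ) := by
          have : 0 ≤ W * (I.card : ℝ) := by positivity
          nlinarith
  · intro p hp
    have h12 := hlow p hp
    rw [hm, div_le_iff₀ (by positivity)] at h12
    linarith

end

end Crest.Agent.R136.R2b500
end

-- ▼ part R136/R2f_500

/-!
# R136, PLAN 2 (3) (aligned curved pairs, volume form): height bookkeeping (helper500)

* `three_sep` : a finite set of heights without three `s`-separated elements has at most `2 s`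
  elements;
* `bad_heights` : if no line has three `s`-separated bad heights, the bad incidences are at most
  `2 s #P`;
* `nb_symm`, `nb_self` : the step relation.
-/

set_option autoImplicit false

open Finset

namespace Crest.Agent.R136.R2b500

/-- no three `s`-separated elements ⊢ at most `2 s` elements -/
theorem three_sep (A : Finset ℕ) (s : ℕ) (hs : 1 ≤ s)
    (h : ∀ a ∈ A, ∀ b ∈ A, ∀ c ∈ A, a + s ≤ b → ¬ b + s ≤ c) : A.card ≤ 2 * s := by
  classical
  by_cases hA : A.Nonempty
  · set m := A.min' hA with hm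
    set A2 := A.filter fun x => m + s ≤ x with hA2
    have h1 : (A.filter fun x => ¬ m + s ≤ x).card ≤ s := by
      have : (A.filter fun x => ¬ m + s ≤ x) ⊆ Finset.Ico m (m + s) := by
        intro x hx
        rw [mem_filter] at hx
        exact mem_Ico.2 ⟨A.min'_le x hx.1, not_le.1 hx.2⟩
      exact (card_le_card this).trans (by rw [Nat.card_Ico]; omega)
    have h2 : A2.card ≤ s := by
      by_cases hne : A2.Nonempty
      · set m2 := A2.min' hne with hm2
        have hm2A := A2.min'_mem hne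
        rw [← hm2, hA2, mem_filter] at hm2A
        have : A2 ⊆ Finset.Ico m2 (m2 + s) := by
          intro x hx
          refine mem_Ico.2 ⟨A2.min'_le x hx, ?_⟩
          by_contra hcon
          exact h m (A.min'_mem hA) m2 hm2A.1 x (mem_filter.1 hx).1 hm2A.2 (not_lt.1 hcon)
        exact (card_le_card this).trans (by rw [Nat.card_Ico]; omega)
      · rw [not_nonempty_iff_eq_empty] at hne
        rw [hne]; simp
    have h3 : A2.card + (A.filter fun x => ¬ m + s ≤ x).card = A.card :=
      card_filter_add_card_filter_not (s := A) (fun x => m + s ≤ x)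
    omega
  · rw [not_nonempty_iff_eq_empty] at hA
    rw [hA]; simp

section

variable {ι κ' β' : Type} [DecidableEq ι] [DecidableEq κ'] [DecidableEq β']

open Classical in
/-- few bad heights per line -/
theorem bad_heights (P : Finset ι) (H s : ℕ) (hs : 1 ≤ s) (Bad : ι × ℕ → Prop)
    (h : ∀ t ∈ P, ∀ a b c : ℕ, a + s ≤ b → b + s ≤ c → c < H → Bad (t, a) → Bad (t, b) →
      ¬ Bad (t, c)) :
    (((P ×ˢ range H).filter Bad).card : ℝ) ≤ (P.card : ℝ) * (2 * s) := by
  have h1 : ((P ×ˢ range H).filter Bad) ⊆ P.biUnion fun t =>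
      ((range H).filter fun j => Bad (t, j)).image fun j => (t, j) := by
    intro p hp
    rw [mem_filter, mem_product] at hp
    exact mem_biUnion.2 ⟨p.1, hp.1.1, mem_image.2 ⟨p.2, mem_filter.2 ⟨hp.1.2, hp.2⟩, rfl⟩⟩
  have h2 : (((P ×ˢ range H).filter Bad).card : ℝ) ≤ ∑ t ∈ P,
      ((((range H).filter fun j => Bad (t, j)).image fun j => (t, j)).card : ℝ) := by
    exact_mod_cast (card_le_card h1).trans card_biUnion_le
  refine h2.trans ((sum_le_card_nsmul _ _ (2 * s : ℝ) fun t ht => ?_).trans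
    (le_of_eq (by rw [nsmul_eq_mul])))
  have h3 : ((range H).filter fun j => Bad (t, j)).card ≤ 2 * s := by
    refine three_sep _ s hs fun a ha b hb c hc hab hbc => ?_
    rw [mem_filter, mem_range] at ha hb hc
    exact h t ht a b c hab hbc hc.1 ha.2 hb.2 hc.2
  exact_mod_cast (card_image_le.trans h3)



end

end Crest.Agent.R136.R2b500
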