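import Crest.Agent.R136.RL0_478
import Crest.Agent.R136.Gau4_66

-- ▼ part R136/RL1_478
section

/-!
# R136 (helper478): walls of the W-chart, positions of the windows

* `NatG Dr c` : natural off `Dr`; `BasX` of shifted windows (`basX_shift`), of the first record window
  (`basX_jt`).
* `IW.zoom` : zoom of a record window at record points.
-/

set_option autoImplicit false
set_option linter.unusedVariables false

open Finset Filter Topology

namespace Crest.Agent.R136.RL478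

open Crest.Agent.R136.Net191
open Crest.Agent.R136.NetW191
open Crest.Agent.R136.PrW464
open Crest.Agent.R136.NatW697
open Crest.Agent.R136.LadW697
open Crest.Agent.R136.LadG697
open Crest.Agent.R136.Zpr779
open Crest.Agent.R136.Qg926
open Crest.Agent.R136.EvW938
open Crest.Agent.R136.Bas938
open Crest.Agent.R136.AwJ774
open Crest.Agent.R136.K2S774
open Crest.Agent.R138.Ex926

/-- natural off `Dr` -/
def NatG (Dr : Set (Fin 18)) (c : Fin 18 → ℝ) : Prop :=
  ∀ k, k ∉ Dr → c k = grW (c 0) (c 1) (c 17) k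

/-- the slots `z, c, N` are not dropped -/
structure Dr3 (Dr : Set (Fin 18)) : Prop where
  h0 : (0 : Fin 18) ∉ Dr
  h1 : (1 : Fin 18) ∉ Dr
  h17 : (17 : Fin 18) ∉ Dr

theorem grW_0 (ζ χ ν : ℝ) : grW ζ χ ν 0 = ζ := by simp [grW, wz, wc, wn]
theorem grW_1 (ζ χ ν : ℝ) : grW ζ χ ν 1 = χ := by simp [grW, wz, wc, wn]
theorem grW_17 (ζ χ ν : ℝ) : grW ζ χ ν 17 = ν := by simp [grW, wz, wc, wn]

theorem grW_add (ζ χ ν ζ' χ' ν' : ℝ) (k : Fin 18) :
    grW (ζ + ζ') (χ + χ') (ν + ν') k = grW ζ χ ν k + grW ζ' χ' ν' k := by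
  simp only [grW]; ring

theorem grW_smul (t ζ χ ν : ℝ) (k : Fin 18) :
    grW (t * ζ) (t * χ) (t * ν) k = t * grW ζ χ ν k := by
  simp only [grW]; ring

section natG

variable {Dr : Set (Fin 18)} {c d : Fin 18 → ℝ}

theorem natG_of (hD : Dr3 Dr) {ζ χ ν : ℝ} (h : ∀ k, k ∉ Dr → c k = grW ζ χ ν k) : NatG Dr c := by
  intro k hk
  rw [h 0 hD.h0, h 1 hD.h1, h 17 hD.h17, grW_0, grW_1, grW_17]
  exact h k hk

theorem NatG.add (h : NatG Dr c) (h' : NatG Dr d) : NatG Dr (c + d) := by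
  intro k hk
  simp only [Pi.add_apply]
  rw [grW_add, ← h k hk, ← h' k hk]

theorem NatG.smul (h : NatG Dr c) (t : ℝ) : NatG Dr (t • c) := by
  intro k hk
  simp only [Pi.smul_apply, smul_eq_mul]
  rw [grW_smul, ← h k hk]

theorem NatG.list (h : NatG Dr c) {k : Fin 18} (hk : k ∉ Dr) {l : List (Fin 18)} (hl : l ∈ mlW k)
    (hs : ∀ s ∈ l, s ∉ Dr) : c k = (l.map c).sum := by
  rw [h k hk, ← grW_list _ _ _ k l hl]
  congr 1
  exact List.map_congr_left fun s hs' => (h s (hs s hs')).symm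

theorem nat_list (h : Nat QW (actW Dr) c) {k : Fin 18} (hk : k ∉ Dr) {l : List (Fin 18)}
    (hl : l ∈ mlW k) (hs : ∀ s ∈ l, s ∉ Dr) : c k = (l.map c).sum := by
  obtain ⟨w, rfl, h2, h3⟩ := list_wall hl
  rw [← h3]
  refine h w ⟨hk, fun s hsD => ?_⟩
  by_contra hne
  exact hs s ((co_ne h2 s).1 hne) hsD

theorem NatG.nat (h : NatG Dr c) : Nat QW (actW Dr) c := by
  intro w hw
  obtain ⟨l, hl, h2, h3⟩ := wall_list w
  rw [h3]
  exact h.list hw.1 hl fun s hs hsD => (co_ne h2 s).2 hs (hw.2 s hsD)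

end natG

/-- monomials of `mA monW (actW Dr)` in list form -/
theorem mem_mAW {Dr : Set (Fin 18)} {k : Fin 18} {e : Fin 18 → ℕ} :
    e ∈ (mA monW (actW Dr)).mon k ↔ k ∉ Dr ∧ ∃ l ∈ mlW k, (∀ s ∈ l, s ∉ Dr) ∧
      e = fun s => l.count s := (actM_mA Dr).iff k e

/-- all walls tight: natural -/
theorem natG_of_tight {c : Fin 18 → ℝ} (h : ∀ k, ∀ l ∈ mlW k, c k = (l.map c).sum) :
    NatG ∅ c := by
  intro k _
  have e2 : c 2 = c 1 + c 0 := by
    have := h 2 [1, 0] (by decide)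
    simpa using this
  have e3 : c 3 = c 1 + (c 1 + c 0) := by
    have := h 3 [1, 1, 0] (by decide)
    simpa using this
  have key : ∀ k : Fin 18, 4 ≤ k → k ≠ 17 → ∃ l ∈ mlW 17, k ∈ l ∧ ∀ s ∈ l.erase k, s < 4 := by
    decide
  have frame : ∀ s : Fin 18, s < 4 → c s = grW (c 0) (c 1) (c 17) s := by
    intro s hs
    have : s = 0 ∨ s = 1 ∨ s = 2 ∨ s = 3 := by
      revert s; decide
    rcases this with rfl | rfl | rfl | rfl
    · rw [grW_0]
    · rw [grW_1]
    · rw [e2]; simp [grW, wz, wc, wn]; ring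
    · rw [e3]; simp [grW, wz, wc, wn]; ring
  by_cases h4 : 4 ≤ k
  · by_cases h17 : k = 17
    · subst h17; rw [grW_17]
    · obtain ⟨l, hl, hkl, hs⟩ := key k h4 h17
      have h1 := h 17 l hl
      have h2 := grW_list (c 0) (c 1) (c 17) 17 l hl
      rw [grW_17] at h2
      have hp := (List.perm_cons_erase hkl).map c
      have hp' := (List.perm_cons_erase hkl).map (grW (c 0) (c 1) (c 17))
      have e1 : (l.map c).sum = c k + ((l.erase k).map c).sum := by
        rw [hp.sum_eq]; simp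
      have e4 : (l.map (grW (c 0) (c 1) (c 17))).sum = grW (c 0) (c 1) (c 17) k +
          ((l.erase k).map (grW (c 0) (c 1) (c 17))).sum := by
        rw [hp'.sum_eq]; simp
      have e5 : ((l.erase k).map c).sum = ((l.erase k).map (grW (c 0) (c 1) (c 17))).sum := by
        congr 1
        exact List.map_congr_left fun s hs' => frame s (hs s hs')
      linarith
  · exact frame k (not_le.1 h4)

/-! ### positions -/

section basx

variable {Dr : Set (Fin 18)} {X : ℕ → Fin 18 → ℝ} {w : ℕ → ℝ}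

theorem basX_shift (h : AwZ146.BasX monW (mA monW (actW Dr)) (mA monW (actW Dr)) X w)
    (hw : ∀ n, 0 < w n) {y : ℕ → Fin 18 → ℝ} (hy : ∀ n, Nat QW (actW Dr) (y n)) {b : ℝ}
    (hb : ∀ n, ‖y n‖ ≤ b) {v : ℕ → ℝ} (hv0 : ∀ n, 0 < v n) (hv : Tendsto v U (𝓝 0)) :
    AwZ146.BasX monW (mA monW (actW Dr)) (mA monW (actW Dr)) (fun n => X n + w n • y n)
      (fun n => w n * v n) where
  sub := h.sub
  act := fun k e he n => by
    obtain ⟨hk, l, hl, hs, rfl⟩ := mem_mAW.1 he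
    have h1 := h.act k _ he n
    rw [← sum_count] at h1 ⊢
    rw [sum_add']
    have e1 : (l.map (w n • y n)).sum = w n * (l.map (y n)).sum := by
      clear he hl h1 hs
      induction l with
      | nil => simp
      | cons a l ih =>
        simp only [List.map_cons, List.sum_cons, ih, Pi.smul_apply, smul_eq_mul]
        ring
    rw [e1, ← nat_list (hy n) hk hl hs, ← h1]
    simp
  gap := fun k e he he' R => by
    obtain ⟨l, hl, rfl⟩ := mem_monW.1 he
    filter_upwards [h.gap k _ he he' (|R| + b + l.length * b),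
      hv.eventually_lt_const (show (0:ℝ) < 1 by norm_num)] with n h1 h2
    rw [← sum_count] at h1 ⊢
    rw [sum_add']
    have hyb : ∀ s, |y n s| ≤ b := fun s => by
      have := norm_le_pi_norm (y n) s
      rw [Real.norm_eq_abs] at this
      exact this.trans (hb n)
    have hb0 : 0 ≤ b := (abs_nonneg _).trans (hyb 0)
    have e1 : -(l.length * b * w n) ≤ (l.map (w n • y n)).sum := by
      clear he he' hl h1
      induction l with
      | nil => simp
      | cons a l ih =>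
        simp only [List.map_cons, List.sum_cons, Pi.smul_apply, smul_eq_mul, List.length_cons,
          Nat.cast_add, Nat.cast_one]
        have := mul_le_mul_of_nonneg_left (neg_le_of_abs_le (hyb a)) (hw n).le
        linarith
    have e2 : w n * y n k ≤ w n * b :=
      mul_le_mul_of_nonneg_left ((le_abs_self _).trans (hyb k)) (hw n).le
    have e3 : R * (w n * v n) ≤ |R| * w n := by
      have h3 : R * (w n * v n) ≤ |R| * (w n * v n) :=
        mul_le_mul_of_nonneg_right (le_abs_self R) (mul_nonneg (hw n).le (hv0 n).le)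
      have h4 : |R| * (w n * v n) ≤ |R| * (w n * 1) :=
        mul_le_mul_of_nonneg_left (mul_le_mul_of_nonneg_left h2.le (hw n).le) (abs_nonneg R)
      rw [mul_one] at h4
      linarith
    simp only [Pi.add_apply, Pi.smul_apply, smul_eq_mul]
    linarith

/-- the first record window -/
theorem basX_jt (h : AwZ146.BasX monW monW monW X w) (hw : ∀ n, 0 < w n)
    {P : Set (Fin 18 → ℝ)} {ν own : (Fin 18 → ℝ) → ℝ} {r0 : Fin 18 → ℝ} {x : ℕ → Fin 18 → ℝ}
    {hh : ℕ → ℝ} {lam lo : (Fin 18 → ℝ) → ℝ}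
    (hJ : JT QW (actW Dr) P ν own r0 x hh lam lo) {k : ℕ → ℕ} (hk : Tendsto k U atTop) :
    AwZ146.BasX monW (mA monW (actW Dr)) (mA monW (actW Dr)) (fun n => X n + w n • x (k n))
      (fun n => w n * hh (k n)) where
  sub := fun k => mA_sub k
  act := fun k' e he n => by
    obtain ⟨hk', l, hl, hs, rfl⟩ := mem_mAW.1 he
    have h1 := h.act k' _ (mem_monW.2 ⟨l, hl, rfl⟩) n
    rw [← sum_count] at h1 ⊢
    rw [sum_add']
    have e1 : (l.map (w n • x (k n))).sum = w n * (l.map (x (k n))).sum := by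
      clear he hl h1 hs
      induction l with
      | nil => simp
      | cons a l ih =>
        simp only [List.map_cons, List.sum_cons, ih, Pi.smul_apply, smul_eq_mul]
        ring
    obtain ⟨w', h5, h2, h3⟩ := list_wall hl
    have h4 := hJ.nat (k n) w' ⟨by rw [h5]; exact hk', fun s hsD => by
      by_contra hne
      exact hs s ((co_ne h2 s).1 hne) hsD⟩
    rw [h5, h3, cst_QW, add_zero] at h4
    rw [e1, ← h4, ← h1]
    simp
  gap := fun k' e he he' R => by
    obtain ⟨l, hl, rfl⟩ := mem_monW.1 he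
    obtain ⟨w', h5, h2, h3⟩ := list_wall hl
    have hA : ¬ actW Dr w' := by
      intro hA
      refine he' (mem_mAW.2 ⟨by rw [← h5]; exact hA.1, l, hl, fun s hs hsD => ?_, rfl⟩)
      exact (co_ne h2 s).2 hs (hA.2 s hsD)
    have hg := hJ.gap w' hA R
    filter_upwards [hk.eventually hg] with n hn
    rw [h5, h3, cst_QW, add_zero] at hn
    have h1 := h.act k' _ he n
    rw [← sum_count] at h1 ⊢
    rw [sum_add']
    have e1 : (l.map (w n • x (k n))).sum = w n * (l.map (x (k n))).sum := by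
      clear he he' hl h1 hn h3 h2 hA hg
      induction l with
      | nil => simp
      | cons a l ih =>
        simp only [List.map_cons, List.sum_cons, ih, Pi.smul_apply, smul_eq_mul]
        ring
    rw [e1, ← h1]
    have := mul_le_mul_of_nonneg_left hn (hw n).le
    simp only [Pi.add_apply, Pi.smul_apply, smul_eq_mul]
    linarith

end basx

/-! ### zoom of a record window -/

theorem NatG.of_IW {B B' : Base} {I0 J : ℕ → Finset (ℕ × ℝ)} {κ : ℕ → ℝ} {u : ℕ → Fin 18 → ℝ}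
    {F : ℕ → ℕ × ℝ → FW} {X : ℕ → Fin 18 → ℝ} {w : ℕ → ℝ} {Dr : Set (Fin 18)} {Tn To : ℕ → ℝ}
    {lam lo : (Fin 18 → ℝ) → ℝ} (W : IW B B' I0 J κ u F X w Dr Tn To lam lo) (n : ℕ) :
    NatG Dr (X n) := fun k hk => W.nat n k hk

theorem natG_btW {Dr : Set (Fin 18)} (hD : Dr3 Dr) (θ : Fin 3 → ℝ) : NatG Dr (btW θ) :=
  natG_of hD fun k _ => rfl

/-- the interior direction -/
theorem natG_y {s : ℝ} (hD : Dr3 (DrW s)) (θ : Fin 3 → ℝ) (z : ℝ × ℝ) :
    NatG (DrW s) (Dg262.X 0 (TW s) (btW θ) z) := by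
  rw [X_zero]
  refine NatG.add (NatG.smul ?_ _) ((natG_btW hD θ).smul _)
  exact natG_of hD fun k hk => by rw [TW_of_not hk, saW_grW]

theorem _root_.Crest.Agent.R136.LadG697.IW.zoom {B B₁ B' : Base} {I0 J J' : ℕ → Finset (ℕ × ℝ)}
    {κ : ℕ → ℝ} {u : ℕ → Fin 18 → ℝ} {F : ℕ → ℕ × ℝ → FW} {X : ℕ → Fin 18 → ℝ} {w : ℕ → ℝ}
    {Dr : Set (Fin 18)} {Tn To Tn' To' : ℕ → ℝ} {lam lo lam' lo' : (Fin 18 → ℝ) → ℝ}
    (W : IW B B₁ I0 J κ u F X w Dr Tn To lam lo) {y : ℕ → Fin 18 → ℝ}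
    (hy : ∀ n, NatG Dr (y n)) {b : ℝ} (hb : ∀ n, ‖y n‖ ≤ b) {v : ℕ → ℝ} (hv0 : ∀ n, 0 < v n)
    (hv : Tendsto v U (𝓝 0)) (hTo : ∀ n, 0 < To' n)
    (hZ : ZWin B B' I0 J' (coU u κ F) monW 67 (fun n => X n + w n • y n)
      (fun n => w n * v n) (cn QW (actW Dr)) Tn' lam')
    (hO : ZProf B' J' (fun n a => zolb B I0 (coU u κ F) monW 67 X w n (y n + v n • a))
      (cn QW (actW Dr)) To' lo') (hκ : B'.Sub fun n => |κ n|⁻¹) :
    IW B B' I0 J' κ u F (fun n => X n + w n • y n) (fun n => w n * v n) Dr Tn' To' lam' lo' where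
  bas := basX_shift W.bas W.win.w0 (fun n => (hy n).nat) hb hv0 hv
  nat := fun n k hk => ((NatG.of_IW W n).add ((hy n).smul (w n))) k hk
  win := hZ
  own := by
    have e1 : (fun n a => zolb B I0 (coU u κ F) monW 67 X w n (y n + v n • a)) =
        zolb B I0 (coU u κ F) monW 67 (fun n => X n + w n • y n) (fun n => w n * v n) := by
      funext n a x
      unfold zolb zlab
      rw [← zoom_zoom]
    rw [e1] at hO
    exact hO
  To0 := hTo
  kap := hκ

end Crest.Agent.R136.RL478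
end

-- ▼ part R136/RL2_478
section

/-!
# R136 (helper478): walls of the W-chart, few labels on own classes

* `own_few` : own-wide exponents with the same `z` do not refine the own classes.
* **`few_core`** : an own class meets few labels at exponents `p` with `p 0 ≤ c 0`,
  `p k ≤ b k * c 0` on the visible slots.
-/

set_option autoImplicit false
set_option linter.unusedVariables false

open Finset Filter Topology

namespace Crest.Agent.R136.RL478

open Crest.Agent.R136.Net191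
open Crest.Agent.R136.NetW191
open Crest.Agent.R136.PrW464
open Crest.Agent.R136.NatW697
open Crest.Agent.R136.LadW697
open Crest.Agent.R136.LadG697
open Crest.Agent.R136.Zpr779
open Crest.Agent.R136.Qg926
open Crest.Agent.R136.EvW938
open Crest.Agent.R136.Bas938
open Crest.Agent.R136.AwJ774
open Crest.Agent.R136.K2S774
open Crest.Agent.R136.Gau66 (sub_rpow few_labels)
open Crest.Agent.R138.Ex926

theorem own_few {B1 : Base} {J : ℕ → Finset (ℕ × ℝ)} {κ' : Type*} [DecidableEq κ']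
    {gg : ∀ n : ℕ, (Fin 18 → ℝ) → ℕ × ℝ → κ'} {D : Set (Fin 18 → ℝ)} {To : ℕ → ℝ}
    {lo : (Fin 18 → ℝ) → ℝ} (HP : ZProf B1 J gg D To lo) {V : Set (Fin 18)} {b : Fin 18 → ℝ}
    (hown : ∀ c ∈ D, (∀ k ∈ V, c k ≤ b k * c 0) → lo c = -(c 0)) (K : ℝ) :
    ∃ f : ℕ → ℝ, B1.Sub f ∧ ∀ᶠ n in (U : Filter ℕ), ∀ c ∈ D, ‖c‖ ≤ K → ∀ c' ∈ D, ‖c'‖ ≤ K →
      c ≤ c' → c 0 = c' 0 → (∀ k ∈ V, c k ≤ b k * c 0) → (∀ k ∈ V, c' k ≤ b k * c' 0) →
      ∀ i ∈ J n, (((cls (J n) (gg n c) i).image (gg n c')).card : ℝ) ≤ f n := by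
  obtain ⟨k, hk, hk2⟩ := exists_diag (fun l n => ∀ c ∈ D, ‖c‖ ≤ K → ∀ c' ∈ D, ‖c'‖ ≤ K →
      c ≤ c' → c 0 = c' 0 → (∀ k ∈ V, c k ≤ b k * c 0) → (∀ k ∈ V, c' k ≤ b k * c' 0) →
      ∀ i ∈ J n, (((cls (J n) (gg n c) i).image (gg n c')).card : ℝ) ≤
        B1.d n ^ (-(1 / ((l : ℝ) + 1)))) (fun l => by
    filter_upwards [HP.num K (1 / ((l : ℝ) + 1)) (by positivity)] with n hn c hc hcK c' hc' hcK'
      hcc h0 h1 h2 i hi
    have := hn c hc hcK c' hc' hcK' hcc i hi
    rwa [hown c hc h1, hown c' hc' h2, h0, sub_self, zero_add] at this)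
  refine ⟨fun n => B1.d n ^ (-(1 / ((k n : ℝ) + 1))), sub_rpow ?_, ?_⟩
  · exact (tendsto_one_div_add_atTop_nhds_zero_nat (𝕜 := ℝ)).comp hk
  · filter_upwards [hk2] with n hn
    exact hn (k n) le_rfl

theorem card_image_two {α β γ : Type*} [DecidableEq α] [DecidableEq β] [DecidableEq γ]
    (A : Finset α) (g : α → β) (h : α → γ) {N : ℝ}
    (H : ∀ i ∈ A, (((cls A g i).image h).card : ℝ) ≤ N) :
    ((A.image h).card : ℝ) ≤ (A.image g).card * N := by
  have h1 : A.image h ⊆ (A.image g).biUnion fun y => (A.filter fun x => g x = y).image h := by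
    intro c hc
    obtain ⟨x, hx, rfl⟩ := mem_image.1 hc
    refine mem_biUnion.2 ⟨g x, mem_image_of_mem _ hx, mem_image_of_mem _ ?_⟩
    exact mem_filter.2 ⟨hx, rfl⟩
  have h2 : ((A.image h).card : ℝ) ≤
      ∑ y ∈ A.image g, (((A.filter fun x => g x = y).image h).card : ℝ) := by
    have := (card_le_card h1).trans card_biUnion_le
    exact_mod_cast this
  refine h2.trans ?_
  calc ∑ y ∈ A.image g, (((A.filter fun x => g x = y).image h).card : ℝ)
      ≤ ∑ y ∈ A.image g, N := by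
        refine sum_le_sum fun y hy => ?_
        obtain ⟨i, hi, rfl⟩ := mem_image.1 hy
        refine le_trans (Nat.cast_le.2 (card_le_card (image_subset_image fun x hx => ?_))) (H i hi)
        obtain ⟨a1, a2⟩ := mem_filter.1 hx
        exact mem_cls.2 ⟨a1, a2⟩
    _ = (A.image g).card * N := by rw [sum_const, nsmul_eq_mul]

/-- **few labels on own classes** -/
theorem few_core {B B1 : Base} {I0 J : ℕ → Finset (ℕ × ℝ)} {κ : ℕ → ℝ} {u : ℕ → Fin 18 → ℝ}
    {F : ℕ → ℕ × ℝ → FW} {X : ℕ → Fin 18 → ℝ} {w : ℕ → ℝ} {Dr : Set (Fin 18)} {Tn To : ℕ → ℝ}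
    {lam lo : (Fin 18 → ℝ) → ℝ} (W : IW B B1 I0 J κ u F X w Dr Tn To lam lo)
    {V : Set (Fin 18)} {b : Fin 18 → ℝ}
    (hown : ∀ c ∈ cn QW (actW Dr), (∀ k ∈ V, c k ≤ b k * c 0) → lo c = -(c 0)) (K : ℝ) :
    ∃ f : ℕ → ℝ, B1.Sub f ∧ ∀ᶠ n in (U : Filter ℕ), ∀ c ∈ cn QW (actW Dr), ‖c‖ ≤ K →
      (∀ k ∈ V, c k ≤ b k * c 0) → ∀ p ∈ cn QW (actW Dr), ‖p‖ ≤ K → p 0 ≤ c 0 →
      (∀ k ∈ V, p k ≤ b k * c 0) → ∀ i ∈ J n,
      (((cls (J n) (zolb B I0 (coU u κ F) monW 67 X w n c) i).image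
        (zlab B I0 (coU u κ F) monW 67 X w n p)).card : ℝ) ≤ f n := by
  obtain ⟨f, hf, hf2⟩ := own_few W.own hown K
  set N : ℝ := max 1 (cN monW 67 (cK0 monW 67)) with hN
  have hN1 : 1 ≤ N := le_max_left _ _
  refine ⟨fun n => f n * N, hf.mul (Base.Sub.const (by linarith)), ?_⟩
  filter_upwards [hf2, W.win.legal K, W.win.sub] with n h1 h2 h3 c hc hcK hcV p hp hpK hp0 hpV i hi
  have hcp : c ⊔ p ∈ cn QW (actW Dr) := cn_sup hc hp
  have hcpK : ‖c ⊔ p‖ ≤ K := by
    have hK0 : 0 ≤ K := (norm_nonneg c).trans hcK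
    refine (pi_norm_le_iff_of_nonneg hK0).2 fun s => ?_
    have a1 := (norm_le_pi_norm c s).trans hcK
    have a2 := (norm_le_pi_norm p s).trans hpK
    rw [Real.norm_eq_abs] at a1 a2 ⊢
    rw [abs_le] at a1 a2 ⊢
    simp only [Pi.sup_apply]
    exact ⟨a1.1.trans le_sup_left, sup_le a1.2 a2.2⟩
  have e0 : (c ⊔ p) 0 = c 0 := by
    simp only [Pi.sup_apply]; exact sup_eq_left.2 hp0
  have hcpV : ∀ k ∈ V, (c ⊔ p) k ≤ b k * (c ⊔ p) 0 := fun k hk => by
    rw [e0]
    simp only [Pi.sup_apply]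
    exact sup_le (hcV k hk) (hpV k hk)
  have h4 := h1 c hc hcK (c ⊔ p) hcp hcpK le_sup_left e0.symm hcV hcpV i hi
  set A := cls (J n) (zolb B I0 (coU u κ F) monW 67 X w n c) i with hA
  have h5 := card_image_two A (zolb B I0 (coU u κ F) monW 67 X w n (c ⊔ p))
    (zlab B I0 (coU u κ F) monW 67 X w n p) (N := N) (fun j hj => by
      have hjJ : j ∈ J n := (mem_cls.1 hj).1
      have h6 := few_labels (B := B) W.win.chart (h2 p hp hpK) (h2 (c ⊔ p) hcp hcpK) (by
        intro s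
        simp only [Pi.add_apply, Pi.smul_apply, smul_eq_mul, Pi.sup_apply]
        have := mul_le_mul_of_nonneg_left (le_sup_right : p s ≤ c s ⊔ p s) (W.win.w0 n).le
        linarith) h3 hjJ
      refine le_trans (Nat.cast_le.2 (card_le_card ?_)) (h6.trans (le_max_right _ _))
      refine image_subset_image fun x hx => ?_
      obtain ⟨g1, g2⟩ := mem_cls.1 hx
      refine mem_cls.2 ⟨(mem_cls.1 g1).1, ?_⟩
      exact congrArg Prod.snd g2)
  refine h5.trans ?_
  exact mul_le_mul_of_nonneg_right h4 (by linarith)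

end Crest.Agent.R136.RL478
end

-- ▼ part R136/RL3_478

/-!
# R136 (helper478): walls of the W-chart, the window chain

* `recLaw_core` : twin windows + interior law ⊢ `RecLaw` (66's `affW_core` for the W-chart).
* **`recLaw_of_iw`** : record window + stage + interior tangent with `IntLaw` ⊢ `RecLaw`.
-/

set_option autoImplicit false
set_option linter.unusedVariables false

open Finset Filter Topology

namespace Crest.Agent.R136.RL478

open Crest.Agent.R136.Net191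
open Crest.Agent.R136.NetW191
open Crest.Agent.R136.PrW464
open Crest.Agent.R136.NatW697
open Crest.Agent.R136.LadW697
open Crest.Agent.R136.LadG697
open Crest.Agent.R136.Zpr779
open Crest.Agent.R136.Qg926
open Crest.Agent.R136.EvW938
open Crest.Agent.R136.Bas938
open Crest.Agent.R136.AwJ774
open Crest.Agent.R136.K2S774
open Crest.Agent.R136.Gau66 (sub_rpow few_labels exists_twin exists_zoom_ref)
open Crest.Agent.R138.Ex926

/-- the interior direction -/
noncomputable def yI (s : ℝ) (θ : Fin 3 → ℝ) (z : ℝ × ℝ) : Fin 18 → ℝ :=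
  Dg262.X 0 (TW s) (btW θ) z

/-- slots of the wall of slope `s` : gauge slot `j`, own slots `Vs` -/
structure WallS (θ : Fin 3 → ℝ) (s : ℝ) (V : Set (Fin 18)) (j : Fin 14) (Vs : Finset (Fin 14)) :
    Prop where
  D3 : Dr3 (DrW s)
  vis : ∀ k ∈ V, 4 ≤ k ∧ k ∉ DrW s ∧ KW θ k ≤ s ∧ 0 ≤ btW θ k
  jT : TW s (Fin.natAdd 4 j) = 0
  jb : btW θ (Fin.natAdd 4 j) = 0
  qT : ∀ q ∈ Vs, TW s (Fin.natAdd 4 q) = btW θ (Fin.natAdd 4 q)
  q3 : ∀ q ∈ Vs, btW θ (Fin.natAdd 4 q) ≤ 3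

theorem yI_apply (s : ℝ) (θ : Fin 3 → ℝ) (z : ℝ × ℝ) (k : Fin 18) :
    yI s θ z k = z.1 * TW s k + z.2 * btW θ k := by
  unfold yI
  rw [X_zero]
  rfl

theorem btW_0 (θ : Fin 3 → ℝ) : btW θ 0 = 1 := by simp [btW, grW, wz, wc, wn]

section core

variable {θ : Fin 3 → ℝ} {g s : ℝ} {q : Fin 3 → ℝ} {V : Set (Fin 18)} {P : Set (Fin 18 → ℝ)}
  {ν own : (Fin 18 → ℝ) → ℝ} {r0 : Fin 18 → ℝ} {B B1 B2 : Base} {I0 J : ℕ → Finset (ℕ × ℝ)}
  {κ : ℕ → ℝ} {u : ℕ → Fin 18 → ℝ} {F : ℕ → ℕ × ℝ → FW} {X1 : ℕ → Fin 18 → ℝ} {w1 : ℕ → ℝ}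
  {Tn To : ℕ → ℝ} {lam0 lo0 lamI lamR loR : (Fin 18 → ℝ) → ℝ} {j : Fin 14}
  {Vs : Finset (Fin 14)} {z : ℝ × ℝ}

theorem stD_own {Dr : Set (Fin 18)} {lam lo : (Fin 18 → ℝ) → ℝ}
    (h : StD P ν own r0 θ g q V Dr lam lo) :
    ∀ c ∈ cn QW (actW Dr), (∀ k ∈ V, c k ≤ btW θ k * c 0) → lo c = -(c 0) := by
  intro c hc hk
  have := h.ownr c hc hk
  rwa [one_mul] at this



end core

end Crest.Agent.R136.RL478
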