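import Crest.Agent.R136.RL5_478

-- ▼ part R136/RL6_478
section

/-!
# R136 (helper478): walls of the W-chart, the window chain with D-max for all gauges

**`recLaw_of_iwg`** : enriched record window + stage + interior tangent with `IntLaw` ⊢ `RecLaw` and
`IWG` at the last record window.
-/

set_option autoImplicit false
set_option linter.unusedVariables false

open Finset Filter Topology

namespace Crest.Agent.R136.RL478

open Crest.Agent.R136.Net191
open Crest.Agent.R136.NetW191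
open Crest.Agent.R136.PrW464
open Crest.Agent.R136.NatW697
open Crest.Agent.R136.LadW697
open Crest.Agent.R136.LadG697
open Crest.Agent.R136.Zpr779
open Crest.Agent.R136.Qg926
open Crest.Agent.R136.EvW938
open Crest.Agent.R136.Bas938
open Crest.Agent.R136.AwJ774
open Crest.Agent.R136.K2S774
open Crest.Agent.R136.Gau66 (sub_rpow few_labels exists_zoom_ref base_ext tendsto_min)
open Crest.Agent.R138.Ex926

section core

variable {θ : Fin 3 → ℝ} {g s : ℝ} {q : Fin 3 → ℝ} {V : Set (Fin 18)} {P : Set (Fin 18 → ℝ)}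
  {ν own : (Fin 18 → ℝ) → ℝ} {r0 : Fin 18 → ℝ} {B B1 B2 : Base} {I0 J : ℕ → Finset (ℕ × ℝ)}
  {κ : ℕ → ℝ} {u : ℕ → Fin 18 → ℝ} {F : ℕ → ℕ × ℝ → FW} {X1 : ℕ → Fin 18 → ℝ} {w1 : ℕ → ℝ}
  {Tn To : ℕ → ℝ} {lam0 lo0 lamI lamR loR : (Fin 18 → ℝ) → ℝ} {j : Fin 14}
  {Vs : Finset (Fin 14)} {z : ℝ × ℝ}

/-- **from the twin windows to `RecLaw`** -/
theorem recLaw_coreG (hS : WallS θ s V j Vs) (u0 : ∀ n, GrU (u n)) (κ1 : ∀ n, |κ n| ≤ 1)
    (W1 : IW B B1 I0 J κ u F X1 w1 (DrW s) Tn To lam0 lo0)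
    (hz : z.1 < 0) {h2 : ℕ → ℝ} (h2pos : ∀ n, 0 < h2 n) (h20 : Tendsto h2 U (𝓝 0))
    (HI : IntLaw θ s V (DrW s) lamI j Vs)
    (SR : StD P ν own r0 θ g q V (DrW s) lamR loR) {TI TR ToR : ℕ → ℝ}
    (bb2 : ∀ n, B2.d n = B1.d n ^ h2 n)
    (ZI : ZWin B B2 I0 J (coU u κ F) monW 67 (fun n => X1 n + w1 n • yI s θ z)
      (fun n => w1 n * h2 n) (cn QW (actW (DrW s))) TI lamI)
    (W2 : IWG θ g q B B2 I0 J κ u F (fun n => X1 n + w1 n • ((z.1 + z.2) • btW θ))
      (fun n => w1 n * h2 n) (DrW s) TR ToR lamR loR) {K0 : ℝ}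
    (hK0 : ‖(z.1 + z.2) • btW θ‖ + ‖btW θ‖ + ‖yI s θ z‖ + 1 ≤ K0)
    {f : ℕ → ℝ} (hf : B2.Sub f)
    (hfew : ∀ᶠ n in (U : Filter ℕ), ∀ c ∈ cn QW (actW (DrW s)), ‖c‖ ≤ K0 →
      (∀ k ∈ V, c k ≤ btW θ k * c 0) → ∀ p ∈ cn QW (actW (DrW s)), ‖p‖ ≤ K0 → p 0 ≤ c 0 →
      (∀ k ∈ V, p k ≤ btW θ k * c 0) → ∀ i ∈ J n,
      (((cls (J n) (zolb B I0 (coU u κ F) monW 67 X1 w1 n c) i).image
        (zlab B I0 (coU u κ F) monW 67 X1 w1 n p)).card : ℝ) ≤ f n)
    (H : ℕ → ℕ → ℝ) (hH : ∀ i, B2.Sub (H i)) :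
    ∃ (B' : Base) (J' : ℕ → Finset (ℕ × ℝ)) (X : ℕ → Fin 18 → ℝ) (w Tn' To' : ℕ → ℝ)
      (lam lo : (Fin 18 → ℝ) → ℝ) (gl : ℕ → ℕ × ℝ → (ℕ × ℝ) × (ℕ × ℝ)) (e : ℕ → ℕ × ℝ → ℝ),
      RecLaw θ g q V (DrW s) P ν own r0 B B' I0 J' κ u F X w Tn' To' lam lo j Vs gl e ∧
      IWG θ g q B B' I0 J' κ u F X w (DrW s) Tn' To' lam lo ∧ ∀ i, B'.Sub (H i) := by
  classical
  have hD := hS.D3
  have nb := natG_btW hD θ
  have hD1 : ∀ n, 0 < B.d n := fun n => B.pos n
  have hb2 : ∀ n, B2.d n = B.d n ^ (w1 n * h2 n) := W2.iw.win.base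
  obtain ⟨C, hC, hG⟩ := W2.gdu
  obtain ⟨Hc, hHc, hcard⟩ := W2.card
  -- the interior laws for every exponent
  have key : ∀ l : ℕ, ∃ y₀ : ℝ, 0 < y₀ ∧ y₀ ≤ 1 ∧ ∃ c₀ ∈ cn QW (actW (DrW s)),
      ∃ c₁ ∈ cn QW (actW (DrW s)), OwC θ s V c₀ ∧ OwC θ s V c₁ ∧ ‖c₀‖ ≤ 1 ∧ ‖c₁‖ ≤ 1 ∧
      ∃ J1 : ℕ → Finset (ℕ × ℝ), (∀ n, J1 n ⊆ J n) ∧ ∀ᶠ n in (U : Filter ℕ),
        B2.d n ^ (3 * (1 / ((l : ℝ) + 2) ^ 2) * y₀) * ((J n).card : ℝ) ≤ ((J1 n).card : ℝ) ∧
        ∀ i ∈ J1 n, ∃ e : ℕ × ℝ → ℝ, OLaw (κ n) (F n) (u n)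
          (fun k => B.d n ^ (X1 n + w1 n • yI s θ z) k) j Vs
            (B2.d n ^ (-(2 * (1 / ((l : ℝ) + 2) ^ 2) * y₀))) (B2.d n ^ (y₀ / 2)) e
            (cls (J1 n) (fun x => (zlab B I0 (coU u κ F) monW 67
              (fun n => X1 n + w1 n • yI s θ z) (fun n => w1 n * h2 n) n c₀ x,
              zlab B I0 (coU u κ F) monW 67
              (fun n => X1 n + w1 n • yI s θ z) (fun n => w1 n * h2 n) n c₁ x)) i) := by
    intro l
    have hl : (0 : ℝ) < (l : ℝ) + 2 := by positivity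
    refine HI B B2 I0 J κ u F _ _ TI u0 κ1 W2.iw.kap ?_ ZI _ (by positivity) ?_
    · exact basX_shift W1.bas W1.win.w0 (fun n => (natG_y hD θ z).nat) (fun n => le_rfl) h2pos h20
    · rw [div_le_one (by positivity)]
      nlinarith
  choose y hy0 hy1 c0 hc0 c1 hc1 ow0 ow1 nc0 nc1 J1 hJ1 hst using key
  have hj2 : ∀ l : ℕ, (0 : ℝ) < (l : ℝ) + 2 := fun l => by positivity
  have hupos : ∀ l : ℕ, 0 < y l / ((l : ℝ) + 2) := fun l => div_pos (hy0 l) (hj2 l)
  have hu0 : Tendsto (fun l : ℕ => y l / ((l : ℝ) + 2)) atTop (𝓝 0) := by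
    have h3 : Tendsto (fun l : ℕ => 1 / ((l : ℝ) + 1)) atTop (𝓝 0) :=
      tendsto_one_div_add_atTop_nhds_zero_nat
    refine squeeze_zero (fun l => (hupos l).le) (fun l => ?_) h3
    rw [div_le_div_iff₀ (hj2 l) (by positivity)]
    have := hy1 l
    have := hy0 l
    nlinarith
  -- tangents at the moving record points
  obtain ⟨φ2, hφ2, lam', lo', t3, t3o, S3⟩ := SR.exists_recM (recW θ (DrW s) V)
    (y := fun l => (y l / 8) • btW θ) (σ := fun l => y l / 8) (fun l i _ => rfl) hupos hu0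
  have hφt := hφ2.tendsto_atTop
  have he : Tendsto (fun l : ℕ => 3 / (((φ2 l : ℕ) : ℝ) + 2)) atTop (𝓝 0) := by
    have h3 : Tendsto (fun l : ℕ => 3 / ((l : ℝ) + 2)) atTop (𝓝 0) :=
      tendsto_const_nhds.div_atTop (tendsto_natCast_atTop_atTop.atTop_add tendsto_const_nhds)
    exact h3.comp hφt
  set H' : ℕ → ℕ → ℝ := fun i => Nat.casesOn i f fun i => Nat.casesOn i (fun n => |κ n|⁻¹)
    fun i => Nat.casesOn i Hc H with hH'
  have hnb : ∀ l, ‖(y l / 8) • btW θ‖ ≤ ‖btW θ‖ := fun l => by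
    rw [norm_smul, Real.norm_of_nonneg (by have := hy0 l; positivity)]
    have h4 := hy1 l
    have h5 := norm_nonneg (btW θ)
    nlinarith
  obtain ⟨k3, hk3, B3, d3, L3, s3, J', hJ', hAff, ⟨S, hSS, hdJ⟩, ZF, OF⟩ := exists_zoom_ref
    W2.iw.win (x := fun l => (y (φ2 l) / 8) • btW θ) (b := ‖btW θ‖) (fun l => hnb _)
    (h := fun l => y (φ2 l) / (((φ2 l : ℕ) : ℝ) + 2)) (fun l => hupos (φ2 l))
    (hu0.comp hφt) cn_zero t3 W2.iw.To0 W2.iw.own cn_zero t3o H' (fun i => by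
      rcases i with _ | i
      · exact hf
      · rcases i with _ | i
        · exact W2.iw.kap
        · rcases i with _ | i
          · exact hHc
          · exact hH i) he
    (fun l n J1 => GdL θ g q C B B2 J κ u F (fun n => X1 n + w1 n • ((z.1 + z.2) • btW θ)) TR
      (fun l => y (φ2 l) / 8) (fun l => y (φ2 l) / (((φ2 l : ℕ) : ℝ) + 2)) l n ∧ ∀ i ∈ J1, ∃ e : ℕ × ℝ → ℝ, OLaw (κ n) (F n) (u n)
          (fun k => B.d n ^ (X1 n + w1 n • yI s θ z) k) j Vs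
            (B2.d n ^ (-(2 * (1 / (((φ2 l : ℕ) : ℝ) + 2) ^ 2) * y (φ2 l))))
            (B2.d n ^ (y (φ2 l) / 2)) e
            (cls J1 (fun x => (zlab B I0 (coU u κ F) monW 67
              (fun n => X1 n + w1 n • yI s θ z) (fun n => w1 n * h2 n) n (c0 (φ2 l)) x,
              zlab B I0 (coU u κ F) monW 67
              (fun n => X1 n + w1 n • yI s θ z) (fun n => w1 n * h2 n) n (c1 (φ2 l)) x)) i))
    (fun l => by
      filter_upwards [hst (φ2 l), hG.level (fun l => y (φ2 l) / 8)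
        (h := fun l => y (φ2 l) / (((φ2 l : ℕ) : ℝ) + 2)) (fun l => hupos (φ2 l)) l] with n hn hgn
      refine ⟨J1 (φ2 l) n, hJ1 _ n, ?_, hgn, hn.2⟩
      have e1 : 3 / (((φ2 l : ℕ) : ℝ) + 2) * (y (φ2 l) / (((φ2 l : ℕ) : ℝ) + 2)) =
          3 * (1 / (((φ2 l : ℕ) : ℝ) + 2) ^ 2) * y (φ2 l) := by
        have := (hj2 (φ2 l)).ne'
        field_simp
      rw [e1]
      exact hn.1)
  -- the record window
  have hToF : ∀ n, 0 < ToR n * B2.d n ^ (-(loR ((y (φ2 (k3 n)) / 8) • btW θ))) := fun n =>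
    mul_pos (W2.iw.To0 n) (Real.rpow_pos_of_pos (B2.pos n) _)
  have W3 := W2.zoom hS.D3 SR.rcd (σ := fun l => y (φ2 l) / 8) (S := 1) (fun l => by
      have a1 := hy0 (φ2 l)
      have a2 := hy1 (φ2 l)
      rw [abs_of_pos (by positivity)]
      linarith)
    (h := fun l => y (φ2 l) / (((φ2 l : ℕ) : ℝ) + 2)) (fun l => hupos _) (hu0.comp hφt) hk3
    (Eventually.of_forall hJ') d3 hC (hAff.mono fun n hn => hn.1) hToF ZF OF (s3 1) (s3 2) hcard
  have hjt : Tendsto (fun n => ((φ2 (k3 n) : ℕ) : ℝ) + 2) U atTop :=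
    (tendsto_natCast_atTop_atTop.comp (hφt.comp hk3)).atTop_add tendsto_const_nhds
  -- labels and gauges
  set gl : ℕ → ℕ × ℝ → (ℕ × ℝ) × (ℕ × ℝ) := fun n x =>
    (zlab B I0 (coU u κ F) monW 67 (fun n => X1 n + w1 n • yI s θ z) (fun n => w1 n * h2 n) n
      (c0 (φ2 (k3 n))) x,
      zlab B I0 (coU u κ F) monW 67 (fun n => X1 n + w1 n • yI s θ z) (fun n => w1 n * h2 n) n
      (c1 (φ2 (k3 n))) x) with hgl
  set Pn : ℕ → (ℕ × ℝ) × (ℕ × ℝ) → (ℕ × ℝ → ℝ) → Prop := fun n L ee =>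
    OLaw (κ n) (F n) (u n) (fun k => B.d n ^ (X1 n + w1 n • yI s θ z) k) j Vs
      (B2.d n ^ (-(2 * (1 / (((φ2 (k3 n) : ℕ) : ℝ) + 2) ^ 2) * y (φ2 (k3 n)))))
      (B2.d n ^ (y (φ2 (k3 n)) / 2)) ee ((J' n).filter fun x => gl n x = L) with hPn
  set pp : ℕ → (ℕ × ℝ) × (ℕ × ℝ) → ℕ × ℝ → ℝ := fun n L =>
    if h : ∃ ee, Pn n L ee then h.choose else 0 with hpp
  have hPp : ∀ᶠ n in (U : Filter ℕ), ∀ i ∈ J' n, Pn n (gl n i) (pp n (gl n i)) := by
    filter_upwards [hAff] with n hn i hi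
    obtain ⟨ee, h1⟩ := hn.2 i hi
    have hex : ∃ ee, Pn n (gl n i) ee := ⟨ee, h1⟩
    have e1 : pp n (gl n i) = hex.choose := dif_pos hex
    rw [e1]
    exact hex.choose_spec
  -- positions
  have ej : ∀ n, (X1 n + w1 n • yI s θ z) (Fin.natAdd 4 j) =
      (X1 n + w1 n • ((z.1 + z.2) • btW θ) + (w1 n * h2 n) • ((y (φ2 (k3 n)) / 8) • btW θ))
        (Fin.natAdd 4 j) := fun n => by
    simp only [Pi.add_apply, Pi.smul_apply, smul_eq_mul, yI_apply, hS.jT, hS.jb]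
    ring
  have eq' : ∀ n, ∀ q' ∈ Vs, B.d n ^ (X1 n + w1 n • ((z.1 + z.2) • btW θ) +
      (w1 n * h2 n) • ((y (φ2 (k3 n)) / 8) • btW θ)) (Fin.natAdd 4 q') =
      B.d n ^ (X1 n + w1 n • yI s θ z) (Fin.natAdd 4 q') *
        B2.d n ^ (y (φ2 (k3 n)) / 8 * btW θ (Fin.natAdd 4 q')) := fun n q' hq' => by
    rw [hb2, ← Real.rpow_mul (hD1 n).le, ← Real.rpow_add (hD1 n)]
    congr 1
    simp only [Pi.add_apply, Pi.smul_apply, smul_eq_mul, yI_apply, hS.qT q' hq']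
    ring
  have hd3 : ∀ n (t : ℝ), B3.d n ^ t = B2.d n ^ (y (φ2 (k3 n)) / (((φ2 (k3 n) : ℕ) : ℝ) + 2) * t) :=
    fun n t => by rw [d3, ← Real.rpow_mul (B2.pos n).le]
  have hanti : ∀ n {a b : ℝ}, a ≤ b → B2.d n ^ b ≤ B2.d n ^ a := fun n {a b} h =>
    Real.rpow_le_rpow_of_exponent_ge (B2.pos n) (B2.lt n).le h
  refine ⟨B3, J', _, _, _, _, lam', lo', gl, fun n i => pp n (gl n i) i,
    ⟨u0, κ1, W3.iw, S3, fun K => ⟨fun n => f n * f n, (s3 0).mul (s3 0), ?_⟩, fun ε hε => ?_,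
      fun K => ?_⟩, W3, fun i => s3 (i + 3)⟩
  · -- few labels
    have hz' : ∀ᶠ n in (U : Filter ℕ), ∀ k : Fin 18, KW θ k < s →
        h2 n ≤ -z.1 * (s - KW θ k) := by
      rw [Filter.eventually_all]
      intro k
      by_cases hk : KW θ k < s
      · filter_upwards [h20.eventually_lt_const
          (show 0 < -z.1 * (s - KW θ k) from mul_pos (by linarith) (by linarith))] with n hn _
        exact hn.le
      · exact Eventually.of_forall fun n h => absurd h hk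
    have hsm : Tendsto (fun n => h2 n * |K|) U (𝓝 0) := by
      have := h20.mul_const |K|
      rwa [zero_mul] at this
    filter_upwards [hfew, hz', hsm.eventually_lt_const (show (0:ℝ) < 1 by norm_num),
      h20.eventually_lt_const (show (0:ℝ) < 1 by norm_num),
      hjt.eventually_ge_atTop (8 * |K|)] with n n1 n2 n3 n4 n5 a ha haK haV i hi
    have hyp := hy0 (φ2 (k3 n))
    have hyl := hy1 (φ2 (k3 n))
    have hj := hj2 (φ2 (k3 n))
    have hj1 : (1 : ℝ) ≤ ((φ2 (k3 n) : ℕ) : ℝ) + 2 := by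
      have : (0 : ℝ) ≤ ((φ2 (k3 n) : ℕ) : ℝ) := Nat.cast_nonneg _
      linarith
    set yy := y (φ2 (k3 n)) with hyy
    set vv := yy / (((φ2 (k3 n) : ℕ) : ℝ) + 2) with hvv
    have hv0 : 0 < vv := hupos _
    have hv1 : vv ≤ 1 := by
      rw [hvv, div_le_one hj]; linarith
    have hv8 : vv * |K| ≤ yy / 8 := by
      rw [hvv, div_mul_eq_mul_div, div_le_div_iff₀ hj (by norm_num), mul_assoc]
      refine mul_le_mul_of_nonneg_left ?_ hyp.le
      linarith
    set cc : Fin 18 → ℝ := ((z.1 + z.2) + h2 n * (yy / 8)) • btW θ + (h2 n * vv) • a with hcc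
    have hcm : cc ∈ cn QW (actW (DrW s)) :=
      cn_nat_add ((nb.smul _).nat) ha (mul_nonneg (h2pos n).le hv0.le)
    have hcK : ‖cc‖ ≤ K0 := by
      have e1 : cc = (z.1 + z.2) • btW θ + (h2 n * (yy / 8)) • btW θ + (h2 n * vv) • a := by
        rw [hcc, add_smul]
      have t1 : ‖(h2 n * (yy / 8)) • btW θ‖ ≤ ‖btW θ‖ := by
        rw [norm_smul, Real.norm_of_nonneg (mul_nonneg (h2pos n).le (by positivity))]
        have : h2 n * (yy / 8) ≤ 1 := by
          have := mul_le_mul n4.le (show yy / 8 ≤ 1 by linarith) (by positivity) zero_le_one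
          linarith
        exact mul_le_of_le_one_left (norm_nonneg _) this
      have t2 : ‖(h2 n * vv) • a‖ ≤ 1 := by
        rw [norm_smul, Real.norm_of_nonneg (mul_nonneg (h2pos n).le hv0.le)]
        have h5 : ‖a‖ ≤ |K| := haK.trans (le_abs_self _)
        have h6 : h2 n * vv * ‖a‖ ≤ h2 n * 1 * |K| :=
          mul_le_mul (mul_le_mul_of_nonneg_left hv1 (h2pos n).le) h5 (norm_nonneg _)
            (by have := (h2pos n).le; positivity)
        rw [mul_one] at h6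
        linarith
      rw [e1]
      have t3 := norm_add_le ((z.1 + z.2) • btW θ + (h2 n * (yy / 8)) • btW θ) ((h2 n * vv) • a)
      have t4 := norm_add_le ((z.1 + z.2) • btW θ) ((h2 n * (yy / 8)) • btW θ)
      have t5 := norm_nonneg (yI s θ z)
      linarith
    have e0 : cc 0 = (z.1 + z.2) + h2 n * (yy / 8) + h2 n * vv * a 0 := by
      simp only [hcc, Pi.add_apply, Pi.smul_apply, smul_eq_mul, btW_0]
      ring
    have hcV : ∀ k ∈ V, cc k ≤ btW θ k * cc 0 := fun k hk => by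
      have h5 := mul_le_mul_of_nonneg_left (haV k hk) (mul_nonneg (h2pos n).le hv0.le)
      rw [e0]
      simp only [hcc, Pi.add_apply, Pi.smul_apply, smul_eq_mul]
      linarith
    have ha0 : 0 ≤ yy / 8 + vv * a 0 := by
      have h5 := norm_le_pi_norm a 0
      rw [Real.norm_eq_abs] at h5
      have h6 : -|K| ≤ a 0 := by
        have := (abs_le.1 (h5.trans (haK.trans (le_abs_self K)))).1
        exact this
      have := mul_le_mul_of_nonneg_left h6 hv0.le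
      linarith
    have hpc : ∀ c ∈ cn QW (actW (DrW s)), OwC θ s V c → ‖c‖ ≤ 1 →
        (((cls (J n) (zolb B I0 (coU u κ F) monW 67 X1 w1 n cc) i).image
          (zlab B I0 (coU u κ F) monW 67 (fun n => X1 n + w1 n • yI s θ z)
            (fun n => w1 n * h2 n) n c)).card : ℝ) ≤ f n := by
      intro c hc hoc hc1
      have hpm : yI s θ z + h2 n • c ∈ cn QW (actW (DrW s)) :=
        cn_nat_add ((natG_y hD θ z).nat) hc (h2pos n).le
      have hpK : ‖yI s θ z + h2 n • c‖ ≤ K0 := by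
        have t1 := norm_add_le (yI s θ z) (h2 n • c)
        have t2 : ‖h2 n • c‖ ≤ 1 := by
          rw [norm_smul, Real.norm_of_nonneg (h2pos n).le]
          have := mul_le_mul n4.le hc1 (norm_nonneg _) zero_le_one
          linarith
        have t3 := norm_nonneg (btW θ)
        have t4 := norm_nonneg ((z.1 + z.2) • btW θ)
        linarith
      have hp0 : (yI s θ z + h2 n • c) 0 ≤ cc 0 := by
        rw [e0]
        simp only [Pi.add_apply, Pi.smul_apply, smul_eq_mul, yI_apply, TW_z, btW_0]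
        have h5 : h2 n * c 0 ≤ 0 := mul_nonpos_of_nonneg_of_nonpos (h2pos n).le hoc.1
        have h6 := mul_nonneg (h2pos n).le ha0
        linarith
      have hpV : ∀ k ∈ V, (yI s θ z + h2 n • c) k ≤ btW θ k * cc 0 := fun k hk => by
        obtain ⟨v1, v2, v3, v4⟩ := hS.vis k hk
        rw [e0]
        simp only [Pi.add_apply, Pi.smul_apply, smul_eq_mul, yI_apply]
        have h5 : btW θ k * (h2 n * (yy / 8) + h2 n * vv * a 0) ≥ 0 := by
          have := mul_nonneg (h2pos n).le ha0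
          exact mul_nonneg v4 (by linarith)
        have h6 : TW s k - btW θ k = s - KW θ k := by
          rw [TW_flag v1 v2, LadT830.btW_KW θ v1]; ring
        have h7 : z.1 * (s - KW θ k) + h2 n * c k ≤ 0 := by
          rcases v3.eq_or_lt with h8 | h8
          · have := mul_nonpos_of_nonneg_of_nonpos (h2pos n).le (hoc.2 k hk h8)
            rw [h8, sub_self, mul_zero, zero_add]
            exact this
          · have h9 := n2 k h8
            have h10 : c k ≤ 1 := by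
              have := norm_le_pi_norm c k
              rw [Real.norm_eq_abs] at this
              exact (le_abs_self _).trans (this.trans hc1)
            have h11 := mul_le_mul_of_nonneg_left h10 (h2pos n).le
            linarith
        have h8 : z.1 * TW s k = z.1 * btW θ k + z.1 * (s - KW θ k) := by
          rw [← h6]; ring
        rw [h8]
        linarith
      have := n1 cc hcm hcK hcV _ hpm hpK hp0 hpV i (hJ' n hi)
      refine le_trans (le_of_eq ?_) this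
      congr 2
      refine image_congr fun x _ => ?_
      unfold zlab
      rw [zoom_zoom]
    have hcls : cls (J' n) (zolb B I0 (coU u κ F) monW 67 (fun n => X1 n +
        w1 n • ((z.1 + z.2) • btW θ) + (w1 n * h2 n) • ((y (φ2 (k3 n)) / 8) • btW θ))
        (fun n => w1 n * h2 n * (y (φ2 (k3 n)) / (((φ2 (k3 n) : ℕ) : ℝ) + 2))) n a) i ⊆
        cls (J n) (zolb B I0 (coU u κ F) monW 67 X1 w1 n cc) i := by
      intro x hx
      obtain ⟨g1, g2⟩ := mem_cls.1 hx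
      refine mem_cls.2 ⟨hJ' n g1, ?_⟩
      have e3 : ∀ x, zolb B I0 (coU u κ F) monW 67 (fun n => X1 n +
        w1 n • ((z.1 + z.2) • btW θ) + (w1 n * h2 n) • ((y (φ2 (k3 n)) / 8) • btW θ))
        (fun n => w1 n * h2 n * (y (φ2 (k3 n)) / (((φ2 (k3 n) : ℕ) : ℝ) + 2))) n a x =
          zolb B I0 (coU u κ F) monW 67 X1 w1 n cc x := by
        intro x
        unfold zolb zlab
        have e4 : X1 n + w1 n • ((z.1 + z.2) • btW θ) + (w1 n * h2 n) •
            ((y (φ2 (k3 n)) / 8) • btW θ) +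
            (w1 n * h2 n * (y (φ2 (k3 n)) / (((φ2 (k3 n) : ℕ) : ℝ) + 2))) • a =
            X1 n + w1 n • cc := by
          funext k
          simp only [hcc, Pi.add_apply, Pi.smul_apply, smul_eq_mul, hyy, hvv]
          ring
        rw [e4]
      rw [e3, e3] at g2
      exact g2
    have hc2 := card_image_two (cls (J n) (zolb B I0 (coU u κ F) monW 67 X1 w1 n cc) i)
      (fun x => (gl n x).1) (gl n) (N := f n) (fun x hx => by
        have h5 := hpc _ (hc1 (φ2 (k3 n))) (ow1 _) (nc1 _)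
        refine le_trans (Nat.cast_le.2 ?_) h5
        refine card_le_card_of_injOn (fun L => L.2) (fun L hL => ?_) (fun L hL L' hL' hLL => ?_)
        · obtain ⟨x', hx', rfl⟩ := mem_image.1 hL
          exact mem_image_of_mem _ (mem_cls.1 hx').1
        · obtain ⟨x', hx', rfl⟩ := mem_image.1 hL
          obtain ⟨x'', hx'', rfl⟩ := mem_image.1 hL'
          have g1 : (gl n x').1 = (gl n x).1 := (mem_cls.1 hx').2
          have g2 : (gl n x'').1 = (gl n x).1 := (mem_cls.1 hx'').2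
          exact Prod.ext (g1.trans g2.symm) hLL)
    have hc3 := hpc _ (hc0 (φ2 (k3 n))) (ow0 _) (nc0 _)
    have hf0 : 0 ≤ f n := (Nat.cast_nonneg _).trans hc3
    refine le_trans (Nat.cast_le.2 (card_le_card (image_subset_image hcls))) (hc2.trans ?_)
    exact mul_le_mul_of_nonneg_right hc3 hf0
  · -- size
    filter_upwards [hPp, hjt.eventually_ge_atTop (2 / ε)] with n hn hjn i hi
    have h1 := (hn i hi i (mem_filter.2 ⟨hi, rfl⟩)).1
    simp only at h1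
    rw [ej n] at h1
    refine h1.trans (mul_le_mul_of_nonneg_right ?_ (Real.rpow_pos_of_pos (hD1 n) _).le)
    rw [hd3]
    refine hanti n ?_
    have hyp := hy0 (φ2 (k3 n))
    have hj := hj2 (φ2 (k3 n))
    have h5 : 2 ≤ ε * (((φ2 (k3 n) : ℕ) : ℝ) + 2) := by
      rw [div_le_iff₀ hε] at hjn
      linarith
    have e5 : 2 * (1 / (((φ2 (k3 n) : ℕ) : ℝ) + 2) ^ 2) * y (φ2 (k3 n)) =
        y (φ2 (k3 n)) / (((φ2 (k3 n) : ℕ) : ℝ) + 2) * (2 / (((φ2 (k3 n) : ℕ) : ℝ) + 2)) := by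
      field_simp
    rw [e5]
    have h6 : 2 / (((φ2 (k3 n) : ℕ) : ℝ) + 2) ≤ ε := by
      rw [div_le_iff₀ hj]; exact h5
    have h7 := mul_le_mul_of_nonneg_left h6 (hupos (φ2 (k3 n))).le
    linarith
  · -- law
    filter_upwards [hPp, hjt.eventually_ge_atTop (8 * |K|)] with n hn hjn i hi i' hi' hl hg
    have hyp := hy0 (φ2 (k3 n))
    have hj := hj2 (φ2 (k3 n))
    have h1 := (hn i hi i (mem_filter.2 ⟨hi, rfl⟩)).2 i' (mem_filter.2 ⟨hi', hg.symm⟩) hl
    simp only at h1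
    obtain ⟨h2', h3⟩ := h1
    have hK8 : y (φ2 (k3 n)) / (((φ2 (k3 n) : ℕ) : ℝ) + 2) * K ≤ y (φ2 (k3 n)) / 8 := by
      rw [div_mul_eq_mul_div, div_le_div_iff₀ hj (by norm_num), mul_assoc]
      refine mul_le_mul_of_nonneg_left ?_ hyp.le
      have := le_abs_self K
      linarith
    refine ⟨?_, fun q' hq' => ?_⟩
    · rw [ej n] at h2'
      have e6 : pp n (gl n i') i' = pp n (gl n i) i' := by rw [← hg]
      rw [e6]
      refine h2'.trans (mul_le_mul_of_nonneg_right ?_ (Real.rpow_pos_of_pos (hD1 n) _).le)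
      rw [hd3]
      exact hanti n (by linarith)
    · refine (h3 q' hq').trans ?_
      rw [eq' n q' hq', hd3, mul_comm (B.d n ^ _), ← mul_assoc, ← Real.rpow_add (B2.pos n)]
      refine mul_le_mul_of_nonneg_right (hanti n ?_) (Real.rpow_pos_of_pos (hD1 n) _).le
      have h5 : y (φ2 (k3 n)) / 8 * btW θ (Fin.natAdd 4 q') ≤ y (φ2 (k3 n)) / 8 * 3 :=
        mul_le_mul_of_nonneg_left (hS.q3 q' hq') (by positivity)
      linarith

/-- **the window chain from an enriched record window** -/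
theorem recLaw_of_iwg (hS : WallS θ s V j Vs) (u0 : ∀ n, GrU (u n)) (κ1 : ∀ n, |κ n| ≤ 1)
    (W1 : IWG θ g q B B1 I0 J κ u F X1 w1 (DrW s) Tn To lam0 lo0)
    (S0 : StD P ν own r0 θ g q V (DrW s) lam0 lo0) (hz : z.1 < 0) {k : ℕ → ℝ}
    (kpos : ∀ l, 0 < k l) (k0 : Tendsto k atTop (𝓝 0))
    (tI : IsTan (cn QW (actW (DrW s))) (cn QW (actW (DrW s))) lam0
      (fun _ => Dg262.X 0 (TW s) (btW θ) z) k lamI)
    (HI : IntLaw θ s V (DrW s) lamI j Vs) (H : ℕ → ℕ → ℝ) (hH : ∀ i, B1.Sub (H i)) :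
    ∃ (B' : Base) (J' : ℕ → Finset (ℕ × ℝ)) (X : ℕ → Fin 18 → ℝ) (w Tn' To' : ℕ → ℝ)
      (lam lo : (Fin 18 → ℝ) → ℝ) (gl : ℕ → ℕ × ℝ → (ℕ × ℝ) × (ℕ × ℝ)) (e : ℕ → ℕ × ℝ → ℝ),
      RecLaw θ g q V (DrW s) P ν own r0 B B' I0 J' κ u F X w Tn' To' lam lo j Vs gl e ∧
      IWG θ g q B B' I0 J' κ u F X w (DrW s) Tn' To' lam lo ∧ ∀ i, B'.Sub (H i) := by
  classical
  -- own tangent at the interior point
  obtain ⟨φ0, hφ0, loI, hlo⟩ := exists_tanM (y := fun _ => yI s θ z) (k := k)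
    cn_closed S0.prf.K0 S0.prf.olip kpos cn_zero
    fun l c hc => cn_nat_add ((natG_y hS.D3 θ z).nat) hc (kpos l).le
  have tI' : IsTan (cn QW (actW (DrW s))) (cn QW (actW (DrW s))) lam0 (fun _ => yI s θ z)
      (fun l => k (φ0 l)) lamI := tan_sub tI hφ0.tendsto_atTop
  have kk0 : Tendsto (fun l => k (φ0 l)) atTop (𝓝 0) := k0.comp hφ0.tendsto_atTop
  set K0 : ℝ := ‖(z.1 + z.2) • btW θ‖ + ‖btW θ‖ + ‖yI s θ z‖ + 1 with hK0
  obtain ⟨f, hf, hfew⟩ := few_core W1.iw (stD_own S0) K0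
  set H' : ℕ → ℕ → ℝ := fun i => Nat.casesOn i f H with hH'
  obtain ⟨B2, h, TI, ToI, TR, ToR, lamR, loR, a1, a2, a3, a4, a5, a6, a7, a8, a9⟩ :=
    twin_iwg hS.D3 W1 S0 (z.1 + z.2) (fun l => kpos _) kk0 tI' hlo H' (fun i => by
      rcases i with _ | i
      · exact hf
      · exact hH i)
  exact recLaw_coreG hS u0 κ1 W1.iw hz a1 a2 HI a8 a3 a4 a7 le_rfl (a9 0) hfew H fun i => a9 (i + 1)

end core

end Crest.Agent.R136.RL478
end

-- ▼ part R136/RL7_478

/-!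
# R136 (helper478): walls of the W-chart, the first record window

* `near_path` : local legality and thickness near an interior record point.
* **`exists_iwg`** : an object + a stage at an interior record point ⊢ enriched record window.
-/

set_option autoImplicit false
set_option linter.unusedVariables false

open Finset Filter Topology

namespace Crest.Agent.R136.RL478

open Crest.Agent.R136.Net191
open Crest.Agent.R136.NetW191
open Crest.Agent.R136.PrW464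
open Crest.Agent.R136.NatW697
open Crest.Agent.R136.LadW697
open Crest.Agent.R136.LadG697
open Crest.Agent.R136.Zpr779
open Crest.Agent.R136.Qg926
open Crest.Agent.R136.EvW938
open Crest.Agent.R136.Bas938
open Crest.Agent.R136.AwJ774
open Crest.Agent.R136.K2S774
open Crest.Agent.R136.ThS830
open Crest.Agent.R136.GauW619
open Crest.Agent.R136.OwW831 (GdAt)
open Crest.Agent.R136.Gau66 (base_ext tendsto_min)
open Crest.Agent.R138.Ex926

section near

variable {θ : Fin 3 → ℝ} {w0 R T0 : ℝ}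

/-- local legality near a record point -/
theorem leg_near (big : BigW θ w0 R T0) {v1 : ℝ} (h0 : 0 < v1) (h1 : v1 < 1) :
    ∃ e0 : ℝ, 0 < e0 ∧ ∀ c ∈ cn QW (fun _ => True), ‖c‖ ≤ e0 →
      pathW θ w0 v1 + c ∈ Leg monW R := by
  obtain ⟨h, hp, hl⟩ := path_loc big h0.le h1.le 1
  have hh : 0 < h / 2 := by positivity
  refine ⟨h / 2, hh, fun c hc hcn => ?_⟩
  have h3 := hl (h / 2) hh (by linarith) ((h / 2)⁻¹ • c) (cn_smul hc (inv_pos.2 hh).le) (by
    rw [norm_smul, Real.norm_of_nonneg (inv_pos.2 hh).le, inv_mul_le_iff₀ hh, mul_one]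
    exact hcn)
  rwa [smul_smul, mul_inv_cancel₀ hh.ne', one_smul] at h3

/-- thickness near a record point -/
theorem near17 {v1 : ℝ} (h0 : 0 < v1) (h1 : v1 < 1) : ∃ e0 : ℝ, 0 < e0 ∧
    ∀ c : Fin 18 → ℝ, (θ 0 = 1 → c 17 ≤ 0) → ‖c‖ ≤ e0 →
      (pathW θ w0 v1 + c) 17 ≤ 9 * w0 + max 0 (1 - θ 0) := by
  have e : ∀ c : Fin 18 → ℝ, (pathW θ w0 v1 + c) 17 = 9 * w0 + (1 - θ 0) * v1 + c 17 := fun c => by
    have : pathW θ w0 v1 17 = 9 * w0 + (1 - θ 0) * v1 := by rw [pathW_nat, natW_N]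
    simp only [Pi.add_apply, this]
  have hc17 : ∀ c : Fin 18 → ℝ, c 17 ≤ ‖c‖ := fun c => by
    have := norm_le_pi_norm c 17
    rw [Real.norm_eq_abs] at this
    exact (le_abs_self _).trans this
  rcases lt_trichotomy (θ 0) 1 with h3 | h3 | h3
  · refine ⟨(1 - θ 0) * (1 - v1), mul_pos (by linarith) (by linarith), fun c _ hc => ?_⟩
    rw [e]
    have h5 : 1 - θ 0 ≤ max 0 (1 - θ 0) := le_max_right _ _
    have := hc17 c
    nlinarith
  · refine ⟨1, one_pos, fun c hd hc => ?_⟩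
    rw [e, h3]
    have h5 := hd h3
    have h6 : (0:ℝ) ≤ max 0 (1 - 1) := le_max_left _ _
    nlinarith
  · refine ⟨(θ 0 - 1) * v1, mul_pos (by linarith) h0, fun c _ hc => ?_⟩
    rw [e]
    have h5 : (0:ℝ) ≤ max 0 (1 - θ 0) := le_max_left _ _
    have := hc17 c
    nlinarith

end near

section first

variable {θ : Fin 3 → ℝ} {g : ℝ} {q : Fin 3 → ℝ} {V T : Set (Fin 18)} {w0 R T0 : ℝ}
  {B B' B1 : Base} {I0 I : ℕ → Finset (ℕ × ℝ)} {κ : ℕ → ℝ} {u : ℕ → Fin 18 → ℝ}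
  {F : ℕ → ℕ × ℝ → FW} {X : ℕ → Fin 18 → ℝ} {w : ℕ → ℝ} {Tn To : ℕ → ℝ}
  {PD : Set (Fin 18 → ℝ)} {ν own : (Fin 18 → ℝ) → ℝ} {c₀ : ℝ}

/-- D-max for all gauges, uniformly near the record point `v1` -/
def GdN (θ : Fin 3 → ℝ) (g : ℝ) (q : Fin 3 → ℝ) (w0 R v1 c₀ : ℝ) (B B' : Base)
    (I : ℕ → Finset (ℕ × ℝ)) (κ : ℕ → ℝ) (u : ℕ → Fin 18 → ℝ) (F : ℕ → ℕ × ℝ → FW)
    (X : ℕ → Fin 18 → ℝ) (Tn : ℕ → ℝ) : Prop :=
  ∃ C : ℝ, 0 < C ∧ ∃ δ : ℝ, 0 < δ ∧ ∀ K ε : ℝ, 1 ≤ K → 0 < ε → ∀ᶠ n in (U : Filter ℕ),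
    ∀ x ∈ Leg monW R, (∀ k, |x k - pathW θ w0 v1 k| ≤ δ) → x 17 ≤ 9 * w0 + max 0 (1 - θ 0) →
      GdAt B B' I κ u F X Tn C K n x (c₀ + DW g 0 q w0 x + ε)

/-- level statement of the first diagonal -/
def GdF (θ : Fin 3 → ℝ) (g : ℝ) (q : Fin 3 → ℝ) (w0 v1 c₀ C : ℝ) (B B' : Base)
    (I : ℕ → Finset (ℕ × ℝ)) (κ : ℕ → ℝ) (u : ℕ → Fin 18 → ℝ) (F : ℕ → ℕ × ℝ → FW)
    (X : ℕ → Fin 18 → ℝ) (Tn σ h : ℕ → ℝ) (l n : ℕ) : Prop :=
  ∀ d ∈ QdW θ, ‖d‖ ≤ (√(h l))⁻¹ → GdAt B B' I κ u F X Tn C (l + 1) n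
    (pathW θ w0 v1 + (σ l • btW θ + h l • d))
    (c₀ + DW g 0 q w0 (pathW θ w0 v1 + (σ l • btW θ + h l • d)) + h l / (l + 1))

theorem gdF_ev (big : BigW θ w0 R T0) {v1 : ℝ} (h0 : 0 < v1) (h1 : v1 < 1) {C δ : ℝ} (hδ : 0 < δ)
    (hG : ∀ K ε : ℝ, 1 ≤ K → 0 < ε → ∀ᶠ n in (U : Filter ℕ),
      ∀ x ∈ Leg monW R, (∀ k, |x k - pathW θ w0 v1 k| ≤ δ) → x 17 ≤ 9 * w0 + max 0 (1 - θ 0) →
        GdAt B B' I κ u F X Tn C K n x (c₀ + DW g 0 q w0 x + ε))
    {σ h : ℕ → ℝ} (hσ : Tendsto σ atTop (𝓝 0)) (hpos : ∀ l, 0 < h l)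
    (hh : Tendsto h atTop (𝓝 0)) :
    ∀ᶠ l in atTop, ∀ᶠ n in (U : Filter ℕ),
      GdF θ g q w0 v1 c₀ C B B' I κ u F X Tn σ h l n := by
  obtain ⟨e0, he0, hleg⟩ := leg_near big h0 h1
  obtain ⟨e1, he1, h17⟩ := near17 (θ := θ) (w0 := w0) h0 h1
  have hm : 0 < min δ (min e0 e1) := lt_min hδ (lt_min he0 he1)
  have hlim : Tendsto (fun l => |σ l| * ‖btW θ‖ + √(h l)) atTop (𝓝 0) := by
    have a1 : Tendsto (fun l => |σ l| * ‖btW θ‖) atTop (𝓝 (|0| * ‖btW θ‖)) :=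
      (hσ.abs).mul_const _
    have a2 : Tendsto (fun l => √(h l)) atTop (𝓝 (√0)) :=
      (Real.continuous_sqrt.tendsto 0).comp hh
    have := a1.add a2
    rwa [abs_zero, zero_mul, Real.sqrt_zero, add_zero] at this
  filter_upwards [hlim.eventually_lt_const hm] with l hl
  have hl0 : (0 : ℝ) ≤ l := Nat.cast_nonneg l
  have hs : 0 < √(h l) := Real.sqrt_pos.2 (hpos l)
  filter_upwards [hG (l + 1) (h l / (l + 1)) (by linarith) (div_pos (hpos l) (by positivity))]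
    with n hn d hd hdn
  have hcm : σ l • btW θ + h l • d ∈ QdW θ := rec_add_mem hd _ (hpos l).le
  have hcn : ‖σ l • btW θ + h l • d‖ ≤ min δ (min e0 e1) := by
    refine ((norm_add_le _ _).trans ?_).trans hl.le
    rw [norm_smul, norm_smul, Real.norm_eq_abs, Real.norm_of_nonneg (hpos l).le]
    have h3 : h l * ‖d‖ ≤ √(h l) := by
      refine (mul_le_mul_of_nonneg_left hdn (hpos l).le).trans (le_of_eq ?_)
      rw [← div_eq_mul_inv, div_eq_iff hs.ne', Real.mul_self_sqrt (hpos l).le]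
    linarith
  refine hn _ (hleg _ hcm.1 (hcn.trans ((min_le_right _ _).trans (min_le_left _ _))))
    (fun k => ?_) (h17 _ hcm.2 (hcn.trans ((min_le_right _ _).trans (min_le_right _ _))))
  have e : (pathW θ w0 v1 + (σ l • btW θ + h l • d)) k - pathW θ w0 v1 k =
      (σ l • btW θ + h l • d) k := by simp only [Pi.add_apply]; ring
  rw [e]
  have := norm_le_pi_norm (σ l • btW θ + h l • d) k
  rw [Real.norm_eq_abs] at this
  exact this.trans (hcn.trans (min_le_left _ _))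

theorem natG_path {Dr : Set (Fin 18)} (hD : Dr3 Dr) (v : ℝ) : NatG Dr (pathW θ w0 v) :=
  natG_of hD fun k _ => rfl

/-- the natural completion of a base point of the stage -/
theorem grW_pt {v1 σ : ℝ} {x : Fin 18 → ℝ} {Dr : Set (Fin 18)} (hD : Dr3 Dr)
    (hx : ∀ i, i ∉ Dr → x i = pathW θ w0 v1 i + σ * btW θ i) (k : Fin 18) :
    grW (x 0) (x 1) (x 17) k = (pathW θ w0 v1 + σ • btW θ) k := by
  have hE : Dr3 (∅ : Set (Fin 18)) := ⟨by simp, by simp, by simp⟩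
  have h1 : NatG ∅ (pathW θ w0 v1 + σ • btW θ) :=
    (natG_path hE v1).add ((natG_btW hE θ).smul σ)
  have h2 := h1 k (by simp)
  rw [h2, hx 0 hD.h0, hx 1 hD.h1, hx 17 hD.h17]
  simp only [Pi.add_apply, Pi.smul_apply, smul_eq_mul]

theorem natX_of_nat (hX : AwZ146.BasX monW monW monW X w) (n : ℕ) : NatG ∅ (X n) := by
  refine natG_of_tight fun k l hl => ?_
  have := hX.act k _ (mem_monW.2 ⟨l, hl, rfl⟩) n
  rw [← sum_count] at this
  exact this

/-- **the first record window** -/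
theorem exists_iwg (H : ZW θ g q V T w0 R T0 B B' I0 I κ u F X w Tn To PD ν own c₀)
    {v1 : ℝ} (h0 : 0 < v1) (h1 : v1 < 1)
    (hgd : GdN θ g q w0 R v1 c₀ B B' I κ u F X Tn)
    (hcard : ∃ Hc : ℕ → ℝ, B'.Sub Hc ∧
      ∀ᶠ n in (U : Filter ℕ), (Nat.log 2 (I n).card : ℝ) + 1 ≤ Hc n)
    {Dr Z V' : Set (Fin 18)} (hD : Dr3 Dr) {lam lo : (Fin 18 → ℝ) → ℝ}
    (S : Stage QW (Leg monW R) ν own 18 (pathW θ w0 v1) (btW θ) (DlW g q) (QdW θ) Z V' 0 (btW θ) 1
      (actW Dr) Dr lam lo) (Hf : ℕ → ℕ → ℝ) (hH : ∀ i, B'.Sub (Hf i)) :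
    ∃ (B1 : Base) (X1 : ℕ → Fin 18 → ℝ) (w1 T1 To1 : ℕ → ℝ),
      IWG θ g q B B1 I0 I κ u F X1 w1 Dr T1 To1 lam lo ∧ ∀ i, B1.Sub (Hf i) := by
  classical
  obtain ⟨x, h, hJ, -, σ, hx, hrec⟩ := S.jt
  obtain ⟨C, hC, δ, hδ, hG⟩ := hgd
  obtain ⟨Hc, hHc, hcd⟩ := hcard
  -- bounded base points
  obtain ⟨b, hb⟩ := hJ.base.norm.bddAbove_range
  have hxb : ∀ l, ‖x l‖ ≤ b := fun l => hb ⟨l, rfl⟩
  have hx0 : Tendsto (fun l => x l 0) atTop (𝓝 (pathW θ w0 v1 0)) :=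
    (continuous_apply 0).continuousAt.tendsto.comp hJ.base
  have hσ : Tendsto σ atTop (𝓝 0) := by
    have e1 : σ = fun l => x l 0 - pathW θ w0 v1 0 := by
      funext l
      have := hx l 0 hD.h0
      rw [btW_0] at this
      rw [this]; ring
    have := hx0.sub_const (pathW θ w0 v1 0)
    rw [sub_self] at this
    rw [e1]; exact this
  set H' : ℕ → ℕ → ℝ := fun i => Nat.casesOn i Hc fun i => Nat.casesOn i (fun n => |κ n|⁻¹) Hf
    with hH'
  have hs : ∀ i, B'.Sub (H' i) := fun i => by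
    rcases i with _ | i
    · exact hHc
    · rcases i with _ | i
      · exact H.κ0
      · exact hH i
  obtain ⟨k1, hk1, H1⟩ := H.ext.win.exists_zoom hxb hJ.pos hJ.zero cn_zero hJ.tan
    H.ext.oprof.pos H.ext.oprof.toZ cn_zero hJ.tano H' hs
  obtain ⟨k2, hk2, H2⟩ := exists_diag (fun l n =>
    (∀ᶠ m in (U : Filter ℕ), GdF θ g q w0 v1 c₀ C B B' I κ u F X Tn σ h l m) →
      GdF θ g q w0 v1 c₀ C B B' I κ u F X Tn σ h l n) (fun l => by
    by_cases hl : ∀ᶠ m in (U : Filter ℕ), GdF θ g q w0 v1 c₀ C B B' I κ u F X Tn σ h l m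
    · exact hl.mono fun n hn _ => hn
    · exact Eventually.of_forall fun n h => absurd h hl)
  set kk : ℕ → ℕ := fun n => min (k1 n) (k2 n) with hkk
  have hkt : Tendsto kk U atTop := tendsto_min hk1 hk2
  obtain ⟨B1, b1, b2, b3, b4, b5⟩ := H1 kk hkt (Eventually.of_forall fun n => min_le_left _ _)
  have hGF : ∀ᶠ n in (U : Filter ℕ), GdF θ g q w0 v1 c₀ C B B' I κ u F X Tn σ h (kk n) n := by
    filter_upwards [H2, hkt.eventually (gdF_ev H.big h0 h1 hδ hG hσ hJ.pos hJ.zero)] with n a1 a2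
    exact a1 _ (min_le_right _ _) a2
  have hw := H.ext.win.w0
  have hXn : ∀ n k, natX X n k = X n k := fun n k =>
    (natX_of_nat H.bas n k (by simp)).symm
  have hnx : ∀ n k, natX (fun n => X n + w n • x (kk n)) n k =
      X n k + w n * (pathW θ w0 v1 + σ (kk n) • btW θ) k := fun n k => by
    rw [natX_shift (fun n => x (kk n)), hXn, grW_pt hD (hx (kk n))]
  have hrec0 : c₀ + DW g 0 q w0 (pathW θ w0 v1) ≤ ν (pathW θ w0 v1) :=
    (H.ext.record v1 h0.le h1.le).2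
  refine ⟨B1, fun n => X n + w n • x (kk n), fun n => w n * h (kk n),
    fun n => Tn n * B'.d n ^ (-(ν (x (kk n)))), fun n => To n * B'.d n ^ (-(own (x (kk n)))),
    ⟨?_, ⟨C, hC, ?_⟩, ?_, Hc, b3 0, hcd⟩, fun i => b3 (i + 2)⟩
  · -- the window
    refine ⟨basX_jt H.bas hw hJ hkt, fun n k hk => ?_, b4,
      zprof_zolb (y := fun n => x (kk n)) (v := fun n => h (kk n)) b5,
      fun n => mul_pos (H.ext.oprof.pos n) (Real.rpow_pos_of_pos (B'.pos n) _), b3 1⟩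
    rw [hnx]
    simp only [Pi.add_apply, Pi.smul_apply, smul_eq_mul]
    rw [hx (kk n) k hk]
  · -- D-max
    intro R' K ε hK hε
    obtain ⟨N, hN⟩ := exists_nat_ge (max K (2 / ε))
    have hR : Tendsto (fun n => √(h (kk n))) U (𝓝 0) := by
      have a2 : Tendsto (fun l => √(h l)) atTop (𝓝 (√0)) :=
        (Real.continuous_sqrt.tendsto 0).comp hJ.zero
      rw [Real.sqrt_zero] at a2
      exact a2.comp hkt
    have hR' : ∀ᶠ n in (U : Filter ℕ), √(h (kk n)) * |R'| < 1 := by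
      have := hR.mul_const |R'|
      rw [zero_mul] at this
      exact this.eventually_lt_const one_pos
    have hr2 : ∀ᶠ n in (U : Filter ℕ), |(ν (x (kk n)) - ν (pathW θ w0 v1) -
        σ (kk n) * DlW g q (btW θ)) / h (kk n)| < ε / 2 := by
      have := (hrec.comp hkt).abs
      rw [abs_zero] at this
      exact this.eventually_lt_const (by positivity)
    filter_upwards [hGF, hkt.eventually_ge_atTop N, hR', hr2] with n a1 a2 a3 a4 d hd hdR
      e he i hi G hG' hbox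
    set l := kk n with hl
    have hlN : (N : ℝ) ≤ (l : ℝ) := by exact_mod_cast a2
    have hlK : K ≤ l := (le_max_left _ _).trans (hN.trans hlN)
    have hlε : 2 / ε ≤ l := (le_max_right _ _).trans (hN.trans hlN)
    have hl0 : (0 : ℝ) ≤ l := Nat.cast_nonneg _
    have hBp := B.pos n
    have hBp' := B'.pos n
    have hh := hJ.pos l
    have hs0 : 0 < √(h l) := Real.sqrt_pos.2 hh
    have hdn : ‖d‖ ≤ (√(h l))⁻¹ := by
      rw [← one_div, le_div_iff₀ hs0, mul_comm]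
      have := mul_le_mul_of_nonneg_left (hdR.trans (le_abs_self R')) hs0.le
      linarith
    have key := a1 d hd hdn e he i hi G hG' fun j hj k' => by
      refine (hbox j hj k').trans ?_
      have e3 : B.d n ^ natX (fun n => X n + w n • x (kk n)) n k' * B1.d n ^ d k' =
          B.d n ^ X n k' * B'.d n ^ (pathW θ w0 v1 + (σ l • btW θ + h l • d)) k' := by
        rw [hnx, Real.rpow_add hBp, mul_assoc, b1, Real.rpow_mul hBp.le, ← H.ext.win.base,
          ← Real.rpow_mul hBp'.le, ← Real.rpow_add hBp']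
        congr 2
        simp only [Pi.add_apply, Pi.smul_apply, smul_eq_mul, hl]
        ring
      rw [e3]
      exact mul_le_mul_of_nonneg_right (by linarith)
        (mul_pos (Real.rpow_pos_of_pos hBp _) (Real.rpow_pos_of_pos hBp' _)).le
    refine key.trans ?_
    rw [mul_assoc, b1, ← Real.rpow_mul hBp'.le, ← Real.rpow_add hBp']
    refine mul_le_mul_of_nonneg_left ?_ (H.ext.win.T0 n).le
    refine Real.rpow_le_rpow_of_exponent_ge hBp' (B'.lt n).le ?_
    rw [DW_add, map_add, map_smul, map_smul, smul_eq_mul, smul_eq_mul]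
    have h3 : h l / ((l : ℝ) + 1) ≤ h l * (ε / 2) := by
      rw [div_le_iff₀ (by positivity), mul_assoc]
      refine le_mul_of_one_le_right hh.le ?_
      rw [div_le_iff₀ hε] at hlε
      nlinarith
    rw [abs_div, abs_of_pos hh, div_lt_iff₀ hh] at a4
    have h4 := (abs_lt.1 a4).1
    have h5 : h l * (DlW g q d + ε) = h l * DlW g q d + h l * (ε / 2) + ε / 2 * h l := by ring
    linarith
  · -- positivity
    intro R'
    have hX0 : ∀ᶠ n in (U : Filter ℕ), ∀ k, 0 ≤ X n k := by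
      filter_upwards [H.ext.win.legal 0] with n hn k
      have := (hn 0 H.ext.win.zero (by simp)).nonneg k
      simpa using this
    have c1 : ∀ᶠ n in (U : Filter ℕ), h (kk n) * |R'| < 1 / 2 := by
      have := (hJ.zero.comp hkt).mul_const |R'|
      rw [zero_mul] at this
      exact this.eventually_lt_const (by norm_num)
    have c2 : ∀ᶠ n in (U : Filter ℕ), |σ (kk n)| * ‖btW θ‖ < 1 / 2 := by
      have := ((hσ.comp hkt).abs).mul_const ‖btW θ‖
      rw [abs_zero, zero_mul] at this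
      exact this.eventually_lt_const (by norm_num)
    filter_upwards [hX0, c1, c2] with n a1 a2 a3 k
    rw [hnx]
    simp only [Pi.add_apply, Pi.smul_apply, smul_eq_mul]
    have d1 := H.big.path_ge h0.le h1.le k
    have d2 : |σ (kk n) * btW θ k| ≤ 1 / 2 := by
      rw [abs_mul]
      have b1 := norm_le_pi_norm (btW θ) k
      rw [Real.norm_eq_abs] at b1
      exact (mul_le_mul_of_nonneg_left b1 (abs_nonneg _)).trans a3.le
    have d3 : 1 / 2 ≤ pathW θ w0 v1 k + σ (kk n) * btW θ k := by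
      have := (abs_le.1 d2).1
      linarith
    have d4 : R' * (w n * h (kk n)) ≤ w n * (1 / 2) := by
      have e1 : R' * (w n * h (kk n)) = w n * (R' * h (kk n)) := by ring
      rw [e1]
      refine mul_le_mul_of_nonneg_left ?_ (hw n).le
      have := mul_le_mul_of_nonneg_left (le_abs_self R') (hJ.pos (kk n)).le
      linarith
    have d5 := mul_le_mul_of_nonneg_left d3 (hw n).le
    have := a1 k
    linarith

end first

end Crest.Agent.R136.RL478
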