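import Crest.Agent.R138.TwF_501

-- ▼ part R136/Rg0_501
section

/-!
# R136: [RIG-0] a function of the height which is not affine up to a power has `σ ≤ a` (helper501)

Chart free form of the K3core argument, read backwards: in pinned fibres where the normal
coordinate moves by `(z k - z k₀) ΔP - (f k - f k₀) ΔX`, with `(P, X)` of joint loss `≥ s t`,
and where the normal coordinate has at most `ρ^(-a x)` cells, `a < s < σ`, the function `f`
agrees with an affine function of `z` up to a power of `ρ` on a heavy set of heights.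
-/

set_option autoImplicit false
set_option linter.unusedVariables false
set_option linter.unusedSectionVars false

open Filter Topology Finset

namespace Crest.Agent.R136.Rg0_501

open Crest.Agent.R138.Ex926 (Base U)
open Crest.Agent.R138.TwA501 (ev_const ev_const_mul dpow_pos dpow_anti dpow_add dpow_le_one
  energy pair_sum_le)


open Classical in
/-- pairs of heights with many near slopes -/
noncomputable def bpr (Z : Finset ℕ) (z f : ℕ → ℝ) (r c s : ℝ) : Finset (ℕ × ℕ) :=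
  (Z ×ˢ Z).filter fun q => r ^ c ≤ |z q.2 - z q.1| ∧ r ^ s * Z.card ≤
    ((Z.filter fun k => r ^ c ≤ |z k - z q.1| ∧
      |(f k - f q.1) / (z k - z q.1) - (f q.2 - f q.1) / (z q.2 - z q.1)| ≤ r).card : ℝ)

/-- Markov for pins: all but `J θ` of the pins are good. -/
theorem markov_compl (Z : Finset ℕ) (J : ℕ) (bad : ℕ → Finset (ℕ × ℕ)) {θ : ℝ} (hθ : 0 < θ)
    (hbad : ∀ l ∈ range J, ((bad l).card : ℝ) ≤ θ ^ 2 * (Z.card : ℝ) ^ 2) :
    ((Z \ (Z.filter fun k₀ => ∀ l ∈ range J,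
      ((Z.filter fun k => (k₀, k) ∈ bad l).card : ℝ) ≤ θ * Z.card)).card : ℝ) ≤
        J * (θ * Z.card) := by
  classical
  rcases Z.eq_empty_or_nonempty with rfl | hne
  · simp
  have hZc : (0 : ℝ) < Z.card := by exact_mod_cast card_pos.2 hne
  have h1 : ∀ l ∈ range J, ((Z.filter fun k₀ => θ * (Z.card : ℝ) <
      ((Z.filter fun k => (k₀, k) ∈ bad l).card : ℝ)).card : ℝ) ≤ θ * Z.card := by
    intro l hl
    set W := Z.filter fun k₀ => θ * (Z.card : ℝ) < ((Z.filter fun k => (k₀, k) ∈ bad l).card : ℝ)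
      with hW
    have h2 : (W.card : ℝ) * (θ * Z.card) ≤ ∑ k₀ ∈ W, ((Z.filter fun k => (k₀, k) ∈ bad l).card : ℝ) := by
      rw [← nsmul_eq_mul, ← sum_const]
      refine sum_le_sum fun k₀ hk₀ => ?_
      rw [hW, mem_filter] at hk₀
      exact hk₀.2.le
    have h3 : ∑ k₀ ∈ W, ((Z.filter fun k => (k₀, k) ∈ bad l).card : ℝ) ≤ (bad l).card := by
      have h4 : ∑ k₀ ∈ W, (Z.filter fun k => (k₀, k) ∈ bad l).card =
          ((W ×ˢ Z).filter fun q => q ∈ bad l).card := by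
        rw [card_filter, sum_product]
        refine sum_congr rfl fun k₀ _ => ?_
        rw [card_filter]
      have h5 : ((W ×ˢ Z).filter fun q => q ∈ bad l).card ≤ (bad l).card :=
        card_le_card fun q hq => (mem_filter.1 hq).2
      have h6 : (∑ k₀ ∈ W, (Z.filter fun k => (k₀, k) ∈ bad l).card) ≤ (bad l).card := h4 ▸ h5
      exact_mod_cast h6
    have h7 := h2.trans (h3.trans (hbad l hl))
    have h8 : (W.card : ℝ) * (θ * Z.card) ≤ (θ * Z.card) * (θ * Z.card) := by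
      refine h7.trans (le_of_eq ?_); ring
    exact le_of_mul_le_mul_right h8 (by positivity)
  set W := Z.filter fun k₀ => ∀ l ∈ range J,
      ((Z.filter fun k => (k₀, k) ∈ bad l).card : ℝ) ≤ θ * Z.card with hW
  have h2 : Z \ W ⊆ (range J).biUnion fun l => Z.filter fun k₀ => θ * (Z.card : ℝ) <
      ((Z.filter fun k => (k₀, k) ∈ bad l).card : ℝ) := by
    intro k hk
    rw [Finset.mem_sdiff, hW, mem_filter] at hk
    have h3 : ¬ ∀ l ∈ range J, ((Z.filter fun k' => (k, k') ∈ bad l).card : ℝ) ≤ θ * Z.card :=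
      fun h => hk.2 ⟨hk.1, h⟩
    push Not at h3
    obtain ⟨l, hl, h4⟩ := h3
    rw [mem_biUnion]
    exact ⟨l, hl, mem_filter.2 ⟨hk.1, h4⟩⟩
  have h4 := (card_le_card h2).trans card_biUnion_le
  calc ((Z \ W).card : ℝ) ≤ ∑ l ∈ range J, ((Z.filter fun k₀ => θ * (Z.card : ℝ) <
      ((Z.filter fun k => (k₀, k) ∈ bad l).card : ℝ)).card : ℝ) := by exact_mod_cast h4
    _ ≤ ∑ l ∈ range J, θ * (Z.card : ℝ) := sum_le_sum h1
    _ = J * (θ * Z.card) := by rw [sum_const, nsmul_eq_mul, card_range]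

/-- Frostman at all radii `r ∈ [ρ^x, 1]` simultaneously. -/
theorem frost_all' (B : Base) (Z : ℕ → Finset ℕ) (z : ℕ → ℕ → ℝ) {σ x : ℝ} (hσ0 : 0 ≤ σ)
    (hσ1 : σ ≤ 1) (hx : 0 < x)
    (hfr : ∀ y : ℝ, 0 ≤ y → y ≤ x → ∀ ε : ℝ, 0 < ε → ∀ᶠ n in (U : Filter ℕ), ∀ k ∈ Z n,
      (((Z n).filter fun k' => |z n k' - z n k| ≤ B.d n ^ y).card : ℝ) ≤
        B.d n ^ (σ * y - ε) * ((Z n).card : ℝ)) {ε : ℝ} (hε : 0 < ε) :
    ∀ᶠ n in (U : Filter ℕ), ∀ r : ℝ, B.d n ^ x ≤ r → r ≤ 1 → ∀ k ∈ Z n,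
      (((Z n).filter fun k' => |z n k' - z n k| ≤ r).card : ℝ) ≤
        B.d n ^ (-ε) * r ^ σ * (Z n).card := by
  obtain ⟨J, hJ⟩ : ∃ J : ℕ, 2 * x / ε < J := exists_nat_gt _
  have hJ0 : (0 : ℝ) < J := lt_of_le_of_lt (by positivity) hJ
  have hJ1 : x / J ≤ ε / 2 := by
    rw [div_le_iff₀ hJ0]
    rw [div_lt_iff₀ hε] at hJ
    linarith
  have hnet : ∀ᶠ n in (U : Filter ℕ), ∀ j ∈ range (J + 1), ∀ k ∈ Z n,
      (((Z n).filter fun k' => |z n k' - z n k| ≤ B.d n ^ (x * (j / J))).card : ℝ) ≤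
        B.d n ^ (σ * (x * (j / J)) - ε / 2) * ((Z n).card : ℝ) := by
    rw [Filter.eventually_all_finset]
    intro j hj
    have hj1 : (j : ℝ) ≤ J := by
      have : j ≤ J := by simpa [Nat.lt_succ_iff] using hj
      exact_mod_cast this
    have h01 : (j : ℝ) / J ≤ 1 := by rw [div_le_one hJ0]; exact hj1
    refine hfr _ (by positivity) ?_ (ε / 2) (half_pos hε)
    nlinarith
  filter_upwards [hnet] with n hn r hr0 hr1 k hk
  have hrpos : 0 < r := (dpow_pos B n x).trans_le hr0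
  have hex : ∃ j ≤ J, r ≤ B.d n ^ (x * (j / J)) ∧ B.d n ^ (x * ((j + 1 : ℕ) / J)) ≤ r := by
    by_contra hcon
    push Not at hcon
    have hall : ∀ j ≤ J, r ≤ B.d n ^ (x * (j / J)) := by
      intro j
      induction j with
      | zero => intro _; simpa using hr1
      | succ j ih =>
        intro hj
        exact (hcon j (by omega) (ih (by omega))).le
    have h1 := hcon J le_rfl (hall J le_rfl)
    have h2 : B.d n ^ (x * ((J + 1 : ℕ) / J)) ≤ B.d n ^ x := by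
      refine dpow_anti B n ?_
      have : (1 : ℝ) ≤ ((J + 1 : ℕ) : ℝ) / J := by
        rw [le_div_iff₀ hJ0]; push_cast; linarith
      nlinarith
    linarith
  obtain ⟨j, hj, hj1, hj2⟩ := hex
  have h1 := hn j (by simp; omega) k hk
  have h2 : (((Z n).filter fun k' => |z n k' - z n k| ≤ r).card : ℝ) ≤
      (((Z n).filter fun k' => |z n k' - z n k| ≤ B.d n ^ (x * (j / J))).card : ℝ) := by
    have : ((Z n).filter fun k' => |z n k' - z n k| ≤ r) ⊆
        (Z n).filter fun k' => |z n k' - z n k| ≤ B.d n ^ (x * (j / J)) := by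
      intro k' hk'
      rw [mem_filter] at hk' ⊢
      exact ⟨hk'.1, hk'.2.trans hj1⟩
    exact_mod_cast card_le_card this
  refine h2.trans (h1.trans ?_)
  refine mul_le_mul_of_nonneg_right ?_ (Nat.cast_nonneg _)
  have h3 : (B.d n ^ (x * ((j + 1 : ℕ) / J))) ^ σ ≤ r ^ σ :=
    Real.rpow_le_rpow (dpow_pos B n _).le hj2 hσ0
  have h4 : (B.d n ^ (x * ((j + 1 : ℕ) / J))) ^ σ = B.d n ^ (x * ((j + 1 : ℕ) / J) * σ) :=
    (Real.rpow_mul (B.pos n).le _ _).symm
  rw [h4] at h3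
  calc B.d n ^ (σ * (x * (j / J)) - ε / 2)
      ≤ B.d n ^ (-ε + x * ((j + 1 : ℕ) / J) * σ) := by
        refine dpow_anti B n ?_
        have e1 : x * (((j + 1 : ℕ) : ℝ) / J) * σ = σ * (x * (j / J)) + σ * (x / J) := by
          push_cast; field_simp
        rw [e1]
        have : σ * (x / J) ≤ 1 * (ε / 2) :=
          mul_le_mul hσ1 hJ1 (by positivity) (by norm_num)
        linarith
    _ = B.d n ^ (-ε) * B.d n ^ (x * ((j + 1 : ℕ) / J) * σ) := dpow_add B n _ _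
    _ ≤ B.d n ^ (-ε) * r ^ σ := mul_le_mul_of_nonneg_left h3 (dpow_pos B n _).le

/-! ## few common heights of a pair of lines -/

open Classical in
/-- away from the bad pairs, two lines at distance `> w` have few common near heights -/
theorem few_common (Z K : Finset ℕ) (z f : ℕ → ℝ) (hzf : ∀ k ∈ Z, |z k| ≤ 1 ∧ |f k| ≤ 1)
    {k₀ : ℕ} (hk₀ : k₀ ∈ Z) (hKZ : K ⊆ Z) (Q : ℕ → Prop) {DP DX e s1 w t c s : ℝ}
    (hQ : ∀ k ∈ K, Q k → |(z k - z k₀) * DP - (f k - f k₀) * DX| ≤ e) (hs1 : 0 < s1)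
    (hs11 : s1 ≤ 1) (hw0 : 0 < w) (ht0 : 0 ≤ t) (hw : w < max |DP| |DX|)
    (he : 2 * e ≤ s1 * w) (hes : 8 * e ≤ t * (s1 ^ 2 * w)) (hrs : t ^ c ≤ s1)
    (hK : ∀ k ∈ K, s1 < |z k - z k₀| ∧ (k₀, k) ∉ bpr Z z f t c s) :
    ((K.filter Q).card : ℝ) ≤ t ^ s * Z.card := by
  rcases (K.filter Q).eq_empty_or_nonempty with h0 | ⟨k', hk'⟩
  · rw [h0, card_empty, Nat.cast_zero]
    exact mul_nonneg (Real.rpow_nonneg ht0 _) (Nat.cast_nonneg _)
  rw [mem_filter] at hk'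
  obtain ⟨hk'K, hg'⟩ := hk'
  have hk'Z := hKZ hk'K
  obtain ⟨hk's, hk'b⟩ := hK k' hk'K
  have hff : ∀ k ∈ Z, |f k - f k₀| ≤ 2 := by
    intro k hk
    refine (abs_sub _ _).trans ?_
    have := (hzf k hk).2; have := (hzf k₀ hk₀).2; linarith
  have h1 : ¬ (t ^ s * (Z.card : ℝ) ≤ ((Z.filter fun k => t ^ c ≤ |z k - z k₀| ∧
      |(f k - f k₀) / (z k - z k₀) - (f k' - f k₀) / (z k' - z k₀)| ≤ t).card : ℝ)) := by
    intro h2
    apply hk'b
    unfold bpr
    rw [mem_filter, mem_product]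
    exact ⟨⟨hk₀, hk'Z⟩, hrs.trans hk's.le, h2⟩
  refine le_trans ?_ (not_le.1 h1).le
  have h3 : K.filter Q ⊆ Z.filter fun k => t ^ c ≤ |z k - z k₀| ∧
      |(f k - f k₀) / (z k - z k₀) - (f k' - f k₀) / (z k' - z k₀)| ≤ t := by
    intro k hk
    rw [mem_filter] at hk ⊢
    obtain ⟨hkK, hg⟩ := hk
    obtain ⟨hks, -⟩ := hK k hkK
    refine ⟨hKZ hkK, hrs.trans hks.le, ?_⟩
    have h4 := Crest.Agent.R138.TwC501.root_slope (hQ k hkK hg) (hQ k' hk'K hg')
      (hff k (hKZ hkK)) hs1 hs11 hks.le hk's.le hw0 hw he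
    have h5 : 0 < s1 ^ 2 * w := by positivity
    exact le_of_mul_le_mul_right (h4.trans hes) h5
  exact_mod_cast card_le_card h3

end Crest.Agent.R136.Rg0_501
end

-- ▼ part R136/Rg1_501

/-!
# R136: **[RIG-0]**, main theorem (helper501)

`rig0_ex`: chart free.  `a < s < σ` and the K3core data imply that `f` is affine in `z` up to a
power `ρ^(θ x)` on a `ρ^(η x)`-part of the heights; `θ` depends on `(σ, s, a, η)` only.
-/

set_option autoImplicit false
set_option linter.unusedVariables false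
set_option linter.unusedSectionVars false

open Filter Topology Finset

namespace Crest.Agent.R136.Rg1_501

open Crest.Agent.R138.Ex926 (Base U)
open Crest.Agent.R138.TwA501 (ev_const ev_const_mul dpow_pos dpow_anti dpow_add dpow_le_one
  energy pair_sum_le)
open Crest.Agent.R136.Rg0_501


theorem cast_sub {J j : ℕ} (hj : j < J) : ((J - 1 - j : ℕ) : ℝ) = (J : ℝ) - 1 - j := by
  have h1 : J - 1 - j + (j + 1) = J := by omega
  have h2 : ((J - 1 - j : ℕ) : ℝ) + ((j : ℝ) + 1) = J := by exact_mod_cast h1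
  linarith


open Classical in
/-- at all scales of the mesh there are few bad pairs, or there is a heavy strip -/
theorem few_bad' {σ s η : ℝ} (hσ0 : 0 < σ) (hs0 : 0 < s) (hsσ : s < σ) (hσ1 : σ ≤ 1)
    (hη : 0 < η) :
    ∃ α c : ℝ, 0 < α ∧ α ≤ 1 ∧ 0 < c ∧ c ≤ 1 / 10 ∧ ∀ (B : Base) (Z : ℕ → Finset ℕ)
      (z f : ℕ → ℕ → ℝ) (x hh : ℝ) (J : ℕ), 0 < hh → ((J : ℝ) + 1) * hh = x →
      (∀ᶠ n in (U : Filter ℕ), ∀ k ∈ Z n, |z n k| ≤ 1 ∧ |f n k| ≤ 1) →
      (∀ y : ℝ, 0 ≤ y → y ≤ x → ∀ ε : ℝ, 0 < ε → ∀ᶠ n in (U : Filter ℕ), ∀ k ∈ Z n,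
        (((Z n).filter fun k' => |z n k' - z n k| ≤ B.d n ^ y).card : ℝ) ≤
          B.d n ^ (σ * y - ε) * ((Z n).card : ℝ)) →
      (∀ᶠ n in (U : Filter ℕ), ¬ ∃ w μ : ℝ, B.d n ^ x ≤ w ∧ w ≤ B.d n ^ (α * hh) ∧
        |μ| ≤ B.d n ^ (-(η * x)) ∧ ∃ k₁ ∈ Z n, w ^ η * ((Z n).card : ℝ) ≤
          (((Z n).filter fun k => |f n k - f n k₁ - μ * (z n k - z n k₁)| ≤ w).card : ℝ)) →
      ∀ᶠ n in (U : Filter ℕ), ∀ l ∈ range J,
        ((bpr (Z n) (z n) (f n) (B.d n ^ (((l + 1 : ℕ) : ℝ) * hh)) c s).card : ℝ) ≤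
          (B.d n ^ (c * hh / 2)) ^ 2 * ((Z n).card : ℝ) ^ 2 := by
  have hs1 : s < 1 := hsσ.trans_le hσ1
  obtain ⟨α, c₀, hα, hα1, hc₀, HT⟩ :=
    Crest.Agent.R138.Pl187.thin_graph (s := σ) (σ := s) hσ0 hsσ hs1 hη
  set c : ℝ := min c₀ (min (1 / 10) (η / 2)) with hcdef
  have hc0 : 0 < c := lt_min hc₀ (lt_min (by norm_num) (by positivity))
  have hcc : c ≤ c₀ := min_le_left _ _
  have hc10 : c ≤ 1 / 10 := (min_le_right _ _).trans (min_le_left _ _)
  have hcη : c ≤ η / 2 := (min_le_right _ _).trans (min_le_right _ _)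
  clear_value c
  obtain ⟨r₀, hr₀, HR⟩ := HT c hc0 hcc
  refine ⟨α, c, hα, hα1, hc0, hc10, ?_⟩
  intro B Z z f x hh J hh0 hyh hzf hfr hcon
  rw [Filter.eventually_all_finset]
  intro l hl
  have hlJ : ((l + 1 : ℕ) : ℝ) ≤ J := by
    have : l + 1 ≤ J := by simpa using hl
    exact_mod_cast this
  have hl2 : (1 : ℝ) ≤ ((l + 1 : ℕ) : ℝ) := by
    push_cast; linarith [Nat.cast_nonneg (α := ℝ) l]
  set y : ℝ := ((l + 1 : ℕ) : ℝ) * hh with hy
  have hy0 : 0 < y := by positivity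
  have hyh1 : 1 * hh ≤ y := mul_le_mul_of_nonneg_right hl2 hh0.le
  have hyl : y ≤ x := by
    rw [← hyh, hy]
    exact mul_le_mul_of_nonneg_right (by linarith) hh0.le
  have hx : 0 < x := hy0.trans_le hyl
  clear_value y
  have hcy : 0 < c * y := by positivity
  have hexp : -(η * x) < -(c * y) := by
    have g1 : c * y ≤ η / 2 * x := mul_le_mul hcη hyl hy0.le (by positivity)
    have g2 : 0 < η * x := by positivity
    linarith
  filter_upwards [hcon, ev_const B r₀⁻¹ hy0, ev_const_mul B 2 hexp,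
    frost_all' B Z z hσ0.le hσ1 hx hfr hcy, hzf] with n hN hr h2 hfrn hzfn
  have hpos := dpow_pos B n y
  have hr' : B.d n ^ y ≤ r₀ := by
    rw [inv_mul_le_iff₀ hr₀, mul_one] at hr; exact hr
  have hsplit := HR (B.d n ^ y) hpos hr' (Z n) (z n) (f n) hzfn (by
      intro ρ h1 h2 k hk
      refine (hfrn ρ ((dpow_anti B n hyl).trans h1) h2 k hk).trans (le_of_eq ?_)
      rw [← Real.rpow_mul (B.pos n).le]
      congr 2; congr 1; ring)
  rcases hsplit with hstrip | hbad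
  · exfalso
    obtain ⟨k₁, hk₁, k₂, hk₂, hsep, μ, w, hμ, hμ2, hw1, hw2, hmass⟩ := hstrip
    refine hN ⟨w, μ, (dpow_anti B n hyl).trans hw1, hw2.trans ?_, hμ2.trans ?_, k₁, hk₁, hmass⟩
    · rw [← Real.rpow_mul (B.pos n).le]
      refine dpow_anti B n ?_
      rw [mul_comm α hh]
      exact mul_le_mul_of_nonneg_right (by linarith) hα.le
    · rw [← Real.rpow_mul (B.pos n).le]
      have g1 : y * -c = -(c * y) := by ring
      rw [g1]
      exact h2
  · unfold bpr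
    refine hbad.trans ?_
    refine mul_le_mul_of_nonneg_right ?_ (by positivity)
    rw [← Real.rpow_mul (B.pos n).le, sq, ← dpow_add]
    refine dpow_anti B n ?_
    have : c * (1 * hh) ≤ c * y := mul_le_mul_of_nonneg_left hyh1 hc0.le
    linarith

open Classical in
/-- the good pin and the good heights seen from it -/
theorem good_pin (Z P0 : Finset ℕ) (z f : ℕ → ℝ) (J : ℕ) (bad : ℕ → Finset (ℕ × ℕ))
    {θ de s1 : ℝ} (hθ : 0 < θ) (hde : 0 < de) (hZ : Z.Nonempty) (hPZ : P0 ⊆ Z)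
    (hbad : ∀ l ∈ range J, ((bad l).card : ℝ) ≤ θ ^ 2 * (Z.card : ℝ) ^ 2)
    (hJθ : 4 * (J : ℝ) * θ ≤ de) (hP0 : de * (Z.card : ℝ) ≤ (P0.card : ℝ))
    (hfr : ∀ k ∈ Z, ((Z.filter fun k' => |z k' - z k| ≤ s1).card : ℝ) ≤ de / 4 * Z.card) :
    ∃ k₀ ∈ P0, ∃ K ⊆ Z, ((Z \ K).card : ℝ) ≤ de / 2 * Z.card ∧
      ∀ k ∈ K, s1 < |z k - z k₀| ∧ ∀ l ∈ range J, (k₀, k) ∉ bad l := by
  have hZc : (0 : ℝ) < Z.card := by exact_mod_cast card_pos.2 hZ
  set Z' := Z.filter fun k₀ => ∀ l ∈ range J,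
    ((Z.filter fun k => (k₀, k) ∈ bad l).card : ℝ) ≤ θ * Z.card with hZ'
  have hmk : ((Z \ Z').card : ℝ) ≤ J * (θ * Z.card) := by
    have := markov_compl Z J bad hθ hbad
    convert this using 3
  have hJ1 : (J : ℝ) * (θ * Z.card) ≤ de / 4 * Z.card := by
    have : 4 * (J : ℝ) * θ * Z.card ≤ de * Z.card := mul_le_mul_of_nonneg_right hJθ hZc.le
    linarith
  obtain ⟨k₀, hk₀P, hk₀Z'⟩ : ∃ k₀ ∈ P0, k₀ ∈ Z' := by
    by_contra hno
    push Not at hno
    have g1 : P0 ⊆ Z \ Z' := fun k hk => Finset.mem_sdiff.2 ⟨hPZ hk, hno k hk⟩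
    have g2 : (P0.card : ℝ) ≤ (Z \ Z').card := by exact_mod_cast card_le_card g1
    have g3 : 0 < de * Z.card := by positivity
    linarith
  have hpin : ∀ l ∈ range J, ((Z.filter fun k => (k₀, k) ∈ bad l).card : ℝ) ≤ θ * Z.card := by
    rw [hZ', mem_filter] at hk₀Z'; exact hk₀Z'.2
  refine ⟨k₀, hk₀P, Z.filter fun k => s1 < |z k - z k₀| ∧ ∀ l ∈ range J, (k₀, k) ∉ bad l,
    filter_subset _ _, ?_, fun k hk => (mem_filter.1 hk).2⟩
  have hcard := Crest.Agent.R138.TwF501.sdiff_count Z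
    (Z.filter fun k' => |z k' - z k₀| ≤ s1) J
    (fun l => Z.filter fun k => (k₀, k) ∈ bad l)
    (fun k => s1 < |z k - z k₀| ∧ ∀ l ∈ range J, (k₀, k) ∉ bad l) (by
      intro k hk hgood
      by_cases hz : s1 < |z k - z k₀|
      · right
        have h3 : ¬ ∀ l ∈ range J, (k₀, k) ∉ bad l := fun h4 => hgood ⟨hz, h4⟩
        push Not at h3
        obtain ⟨l, hl, h4⟩ := h3
        exact ⟨l, hl, mem_filter.2 ⟨hk, h4⟩⟩
      · left
        rw [mem_filter]
        exact ⟨hk, not_lt.1 hz⟩) hpin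
  have h1 := hfr k₀ (hPZ hk₀P)
  refine le_trans (le_of_eq ?_) (hcard.trans ?_)
  · congr
  · linarith

open Classical in
/-- few common heights, on the mesh -/
theorem few_common_mesh (B : Base) (n : ℕ) (Z K : Finset ℕ) (z f : ℕ → ℝ)
    (hzf : ∀ k ∈ Z, |z k| ≤ 1 ∧ |f k| ≤ 1) {k₀ : ℕ} (hk₀ : k₀ ∈ Z) (hKZ : K ⊆ Z)
    {J j : ℕ} (hj : j < J) {hh c s x ε DP DX : ℝ} (hh0 : 0 < hh) (hc0 : 0 < c)
    (hyh : ((J : ℝ) + 1) * hh = x)
    (hex : ε + 2 * (c * hh) + hh / 2 ≤ hh) (hc16 : 16 * B.d n ^ (hh / 2) ≤ 1)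
    (hK : ∀ k ∈ K, B.d n ^ (c * hh) < |z k - z k₀| ∧ ∀ l ∈ range J,
      (k₀, k) ∉ bpr Z z f (B.d n ^ (((l + 1 : ℕ) : ℝ) * hh)) c s)
    (hD : B.d n ^ (((j + 1 : ℕ) : ℝ) * hh) < max |DP| |DX|) :
    ((K.filter fun k => |(z k - z k₀) * DP - (f k - f k₀) * DX| ≤
      2 * B.d n ^ (x - ε)).card : ℝ) ≤
        B.d n ^ (s * (((J - 1 - j : ℕ) : ℝ) * hh)) * Z.card := by
  set w := B.d n ^ (((j + 1 : ℕ) : ℝ) * hh) with hw
  set t := B.d n ^ (((J - 1 - j : ℕ) : ℝ) * hh) with ht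
  set s1 := B.d n ^ (c * hh) with hs1def
  have hs10 : 0 < s1 := dpow_pos B n _
  have hs11 : s1 ≤ 1 := dpow_le_one B n (by positivity)
  have hw0 : 0 < w := dpow_pos B n _
  have ht0 : 0 < t := dpow_pos B n _
  have ht1 : t ≤ 1 := dpow_le_one B n (by positivity)
  have hexp : B.d n ^ (s * (((J - 1 - j : ℕ) : ℝ) * hh)) = t ^ s := by
    rw [ht, ← Real.rpow_mul (B.pos n).le]
    congr 1; ring
  rw [hexp]
  rcases Nat.lt_or_ge (j + 1) J with hj1 | hj1
  · have hl : J - 2 - j ∈ range J := by simp; omega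
    have hl1 : J - 2 - j + 1 = J - 1 - j := by omega
    have hbig : 8 * (2 * B.d n ^ (x - ε)) ≤ t * (s1 ^ 2 * w) := by
      have g1 : t * (s1 ^ 2 * w) = B.d n ^ ((J : ℝ) * hh + 2 * (c * hh)) := by
        rw [ht, hs1def, hw, sq, ← dpow_add, ← dpow_add, ← dpow_add, cast_sub hj]
        congr 1
        push_cast
        ring
      rw [g1]
      have g2 : B.d n ^ (x - ε) ≤ B.d n ^ (hh / 2) * B.d n ^ ((J : ℝ) * hh + 2 * (c * hh)) := by
        rw [← dpow_add]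
        refine dpow_anti B n ?_
        rw [← hyh]
        linarith
      have g3 := dpow_pos B n ((J : ℝ) * hh + 2 * (c * hh))
      calc 8 * (2 * B.d n ^ (x - ε)) ≤
            16 * (B.d n ^ (hh / 2) * B.d n ^ ((J : ℝ) * hh + 2 * (c * hh))) := by linarith
        _ = (16 * B.d n ^ (hh / 2)) * B.d n ^ ((J : ℝ) * hh + 2 * (c * hh)) := by ring
        _ ≤ 1 * B.d n ^ ((J : ℝ) * hh + 2 * (c * hh)) :=
            mul_le_mul_of_nonneg_right hc16 g3.le
        _ = _ := one_mul _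
    have hrp := dpow_pos B n (x - ε)
    refine few_common Z K z f hzf hk₀ hKZ
      (fun k => |(z k - z k₀) * DP - (f k - f k₀) * DX| ≤ 2 * B.d n ^ (x - ε))
      (e := 2 * B.d n ^ (x - ε)) (s1 := s1) (w := w) (t := t) (c := c) (s := s)
      (fun k _ h => h) hs10 hs11 hw0 ht0.le hD ?_ hbig ?_ ?_
    · have g1 : t * (s1 ^ 2 * w) ≤ 1 * (s1 * 1 * w) := by
        refine mul_le_mul ht1 ?_ (by positivity) zero_le_one
        refine mul_le_mul_of_nonneg_right ?_ hw0.le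
        rw [sq]
        exact mul_le_mul_of_nonneg_left hs11 hs10.le
      linarith
    · rw [ht, hs1def, ← Real.rpow_mul (B.pos n).le]
      refine dpow_anti B n ?_
      rw [cast_sub hj]
      have g1 : (1 : ℝ) ≤ (J : ℝ) - 1 - j := by
        have : ((j + 1 + 1 : ℕ) : ℝ) ≤ J := by exact_mod_cast hj1
        push_cast at this; linarith
      have g2 : 0 < c * hh := by positivity
      have g3 : 1 * (c * hh) ≤ ((J : ℝ) - 1 - j) * (c * hh) :=
        mul_le_mul_of_nonneg_right g1 g2.le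
      linarith
    · intro k hk
      refine ⟨(hK k hk).1, ?_⟩
      have := (hK k hk).2 (J - 2 - j) hl
      rw [hl1] at this
      exact this
  · have hj2 : J - 1 - j = 0 := by omega
    have ht2 : t = 1 := by rw [ht, hj2]; simp
    rw [ht2, Real.one_rpow, one_mul]
    exact_mod_cast card_le_card ((filter_subset _ _).trans hKZ)



end Crest.Agent.R136.Rg1_501
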