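import Crest.Agent.R136.Gf1_356
import Crest.Agent.R136.WkE_344
import Crest.Agent.R136.Prn3_779

-- ▼ part R136/RgE1_344
section

/-!
# R136 (S0187): RIG_E, finite combinatorics I (helper344)

* `pairs_of_triples`: many meeting triples ⇒ many pairs of lines;
* `strip_pairs`: heavy subsets of one pencil meet often;
* `pop_val`: few parallel heavy strips ⇒ one popular strip;
* `two_strips`: two transversal strips meet in a small ball.
-/

set_option autoImplicit false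
set_option linter.unusedVariables false

open Finset

namespace Crest.Agent.R136.RgE344

/-- many triples (height, line, line) of meeting lines give many pairs of lines -/
theorem pairs_of_triples (L Z : Finset ℕ) (z x c : ℕ → ℝ) (T : Finset (ℕ × ℕ × ℕ)) {δ κ t K : ℝ}
    (hδ : 0 < δ) (ht : 0 < t) (hZ : Z.Nonempty)
    (hT : ∀ q ∈ T, q.1 ∈ Z ∧ q.2.1 ∈ L ∧ q.2.2 ∈ L ∧
      |(x q.2.2 + z q.1 * c q.2.2) - (x q.2.1 + z q.1 * c q.2.1)| ≤ δ)
    (hbig : κ * δ * (L.card : ℝ) ^ 2 * (Z.card : ℝ) ≤ (T.card : ℝ))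
    (hclose : ∀ k ∈ Z, ∀ l ∈ L, ((T.filter fun q => (q.1 = k ∧ q.2.1 = l) ∧
      |c q.2.2 - c l| ≤ t).card : ℝ) ≤ κ / 2 * δ * (L.card : ℝ))
    (hF : ∀ k ∈ Z, ((Z.filter fun k' => |z k' - z k| ≤ 2 * δ / t).card : ℝ) ≤ K * (Z.card : ℝ)) :
    κ / 2 * δ * (L.card : ℝ) ^ 2 ≤ K * ((T.image Prod.snd).card : ℝ) := by
  classical
  have hZ0 : (0 : ℝ) < Z.card := by exact_mod_cast hZ.card_pos
  set T1 := T.filter fun q => |c q.2.2 - c q.2.1| ≤ t with hT1
  set T2 := T.filter fun q => ¬ |c q.2.2 - c q.2.1| ≤ t with hT2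
  have h1 : (T1.card : ℝ) ≤ κ / 2 * δ * (L.card : ℝ) ^ 2 * (Z.card : ℝ) := by
    have e1 : T1.card = ∑ kl ∈ Z ×ˢ L, (T1.filter fun q => (q.1, q.2.1) = kl).card := by
      refine Finset.card_eq_sum_card_fiberwise fun q hq => ?_
      have hq' := hT q (Finset.mem_filter.1 hq).1
      exact Finset.mem_product.2 ⟨hq'.1, hq'.2.1⟩
    rw [e1]
    push_cast
    calc ∑ kl ∈ Z ×ˢ L, ((T1.filter fun q => (q.1, q.2.1) = kl).card : ℝ)
        ≤ ∑ kl ∈ Z ×ˢ L, κ / 2 * δ * (L.card : ℝ) := by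
          refine Finset.sum_le_sum fun kl hkl => ?_
          obtain ⟨hk, hl⟩ := Finset.mem_product.1 hkl
          refine le_trans ?_ (hclose kl.1 hk kl.2 hl)
          refine mod_cast Finset.card_le_card fun q hq => ?_
          obtain ⟨a1, a2⟩ := Finset.mem_filter.1 hq
          obtain ⟨a3, a4⟩ := Finset.mem_filter.1 a1
          have a5 : q.1 = kl.1 := by rw [← a2]
          have a6 : q.2.1 = kl.2 := by rw [← a2]
          refine Finset.mem_filter.2 ⟨a3, ⟨a5, a6⟩, ?_⟩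
          rw [← a6]
          exact a4
      _ = _ := by
          rw [Finset.sum_const, nsmul_eq_mul, Finset.card_product]
          push_cast
          ring
  have h2 : (T.card : ℝ) = T1.card + T2.card := by
    exact_mod_cast (Finset.card_filter_add_card_filter_not (s := T)
      (fun q => |c q.2.2 - c q.2.1| ≤ t)).symm
  have h3 : κ / 2 * δ * (L.card : ℝ) ^ 2 * (Z.card : ℝ) ≤ (T2.card : ℝ) := by nlinarith
  -- fibres over pairs
  have h4 : (T2.card : ℝ) ≤ ((T2.image Prod.snd).card : ℝ) * (K * (Z.card : ℝ)) := by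
    have e1 : T2.card = ∑ pr ∈ T2.image Prod.snd, (T2.filter fun q => q.2 = pr).card :=
      Finset.card_eq_sum_card_fiberwise fun q hq => Finset.mem_image_of_mem _ hq
    rw [e1]
    push_cast
    rw [← nsmul_eq_mul, ← Finset.sum_const]
    refine Finset.sum_le_sum fun pr hpr => ?_
    obtain ⟨q0, hq0, rfl⟩ := Finset.mem_image.1 hpr
    obtain ⟨b1, b2⟩ := Finset.mem_filter.1 hq0
    have b3 := hT q0 b1
    refine le_trans ?_ (hF q0.1 b3.1)
    have e2 : ((T2.filter fun q => q.2 = q0.2).card) ≤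
        ((T2.filter fun q => q.2 = q0.2).image Prod.fst).card := by
      rw [Finset.card_image_of_injOn]
      intro q hq q' hq' hqq
      have g1 := (Finset.mem_filter.1 hq).2
      have g2 := (Finset.mem_filter.1 hq').2
      exact Prod.ext hqq (by rw [g1, g2])
    have e2' : ((T2.filter fun q => q.2 = q0.2).card : ℝ) ≤
        (((T2.filter fun q => q.2 = q0.2).image Prod.fst).card : ℝ) := by exact_mod_cast e2
    refine le_trans e2' ?_
    refine mod_cast Finset.card_le_card fun k hk => ?_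
    obtain ⟨q, hq, rfl⟩ := Finset.mem_image.1 hk
    obtain ⟨g1, g2⟩ := Finset.mem_filter.1 hq
    obtain ⟨g3, g4⟩ := Finset.mem_filter.1 g1
    have g5 := hT q g3
    refine Finset.mem_filter.2 ⟨g5.1, ?_⟩
    rw [g2] at g5
    have g6 := g5.2.2.2
    have g7 := b3.2.2.2
    rw [not_le] at b2
    have g8 : |z q.1 - z q0.1| * |c q0.2.2 - c q0.2.1| ≤ 2 * δ := by
      rw [← abs_mul]
      have e3 : (z q.1 - z q0.1) * (c q0.2.2 - c q0.2.1) =
          ((x q0.2.2 + z q.1 * c q0.2.2) - (x q0.2.1 + z q.1 * c q0.2.1)) -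
          ((x q0.2.2 + z q0.1 * c q0.2.2) - (x q0.2.1 + z q0.1 * c q0.2.1)) := by ring
      rw [e3]
      exact (abs_sub _ _).trans (by linarith)
    rw [le_div_iff₀ ht]
    exact (mul_le_mul_of_nonneg_left b2.le (abs_nonneg _)).trans g8
  have h5 : ((T2.image Prod.snd).card : ℝ) ≤ ((T.image Prod.snd).card : ℝ) := by
    exact_mod_cast Finset.card_le_card (Finset.image_subset_image (Finset.filter_subset _ _))
  have hK : 0 ≤ K := by
    obtain ⟨k, hk⟩ := hZ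
    have := hF k hk
    by_contra hcon
    rw [not_le] at hcon
    have h6 : K * (Z.card : ℝ) < 0 := mul_neg_of_neg_of_pos hcon hZ0
    linarith [(Nat.cast_nonneg ((Z.filter fun k' => |z k' - z k| ≤ 2 * δ / t).card) : (0 : ℝ) ≤ _)]
  have h7 : κ / 2 * δ * (L.card : ℝ) ^ 2 * (Z.card : ℝ) ≤
      K * ((T.image Prod.snd).card : ℝ) * (Z.card : ℝ) := by
    calc _ ≤ _ := h3
      _ ≤ _ := h4
      _ ≤ ((T.image Prod.snd).card : ℝ) * (K * (Z.card : ℝ)) :=
          mul_le_mul_of_nonneg_right h5 (by positivity)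
      _ = _ := by ring
  exact le_of_mul_le_mul_right h7 hZ0

/-- heavy subsets `H i` of one set `Q` meet often -/
theorem strip_pairs {ι : Type*} [DecidableEq ι] (P Q : Finset ι) (H : ι → Finset ι)
    (hH : ∀ i ∈ P, H i ⊆ Q) {h : ℝ} (hh0 : 0 ≤ h) (hh : ∀ i ∈ P, h ≤ ((H i).card : ℝ))
    (hQ : Q.Nonempty) :
    h ^ 2 * (P.card : ℝ) ^ 2 ≤ 2 * (Q.card : ℝ) ^ 2 *
      (((P ×ˢ P).filter fun q => h ^ 2 ≤ 2 * (Q.card : ℝ) * ((H q.1 ∩ H q.2).card : ℝ)).card : ℝ) := by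
  classical
  have hQ0 : (0 : ℝ) < Q.card := by exact_mod_cast hQ.card_pos
  -- `∑_{i,i'} |H i ∩ H i'| = ∑_l m(l)^2`
  obtain ⟨m, hm⟩ : ∃ m : ι → ℝ, ∀ l, m l = ((P.filter fun i => l ∈ H i).card : ℝ) :=
    ⟨_, fun _ => rfl⟩
  have h1 : ∑ q ∈ P ×ˢ P, ((H q.1 ∩ H q.2).card : ℝ) = ∑ l ∈ Q, m l ^ 2 := by
    have e1 : ∀ q ∈ P ×ˢ P, ((H q.1 ∩ H q.2).card : ℝ) =
        ∑ l ∈ Q, (if l ∈ H q.1 then (1 : ℝ) else 0) * (if l ∈ H q.2 then (1 : ℝ) else 0) := by
      intro q hq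
      obtain ⟨hq1, hq2⟩ := Finset.mem_product.1 hq
      have e2 : H q.1 ∩ H q.2 = Q.filter fun l => l ∈ H q.1 ∧ l ∈ H q.2 := by
        ext l
        simp only [Finset.mem_inter, Finset.mem_filter]
        exact ⟨fun h => ⟨hH q.1 hq1 h.1, h⟩, fun h => h.2⟩
      rw [e2, Finset.card_filter]
      push_cast
      refine Finset.sum_congr rfl fun l _ => ?_
      by_cases a : l ∈ H q.1 <;> by_cases b : l ∈ H q.2 <;> simp [a, b]
    rw [Finset.sum_congr rfl e1, Finset.sum_comm]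
    refine Finset.sum_congr rfl fun l _ => ?_
    rw [Finset.sum_product]
    have e3 : ∀ i ∈ P, ∑ j ∈ P, (if l ∈ H i then (1 : ℝ) else 0) * (if l ∈ H j then (1 : ℝ) else 0) =
        (if l ∈ H i then (1 : ℝ) else 0) * m l := by
      intro i _
      rw [← Finset.mul_sum, hm]
      congr 1
      rw [Finset.card_filter]
      push_cast
      rfl
    have e4 : m l = ∑ i ∈ P, (if l ∈ H i then (1 : ℝ) else 0) := by
      rw [hm, Finset.card_filter]
      push_cast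
      rfl
    rw [Finset.sum_congr rfl e3, ← Finset.sum_mul, ← e4]
    ring
  have h2 : h * (P.card : ℝ) ≤ ∑ l ∈ Q, m l := by
    have e1 : ∑ l ∈ Q, m l = ∑ i ∈ P, ((H i).card : ℝ) := by
      have e2 : ∀ l ∈ Q, m l = ∑ i ∈ P, if l ∈ H i then (1 : ℝ) else 0 := by
        intro l _
        rw [hm, Finset.card_filter]
        push_cast
        rfl
      rw [Finset.sum_congr rfl e2, Finset.sum_comm]
      refine Finset.sum_congr rfl fun i hi => ?_
      have e3 : H i = Q.filter fun l => l ∈ H i := by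
        ext l
        simp only [Finset.mem_filter]
        exact ⟨fun h => ⟨hH i hi h, h⟩, fun h => h.2⟩
      conv_rhs => rw [e3]
      rw [Finset.card_filter]
      push_cast
      rfl
    rw [e1, mul_comm, ← nsmul_eq_mul, ← Finset.sum_const]
    exact Finset.sum_le_sum hh
  have h3 : (∑ l ∈ Q, m l) ^ 2 ≤ (Q.card : ℝ) * ∑ l ∈ Q, m l ^ 2 := sq_sum_le_card_mul_sum_sq
  have h4 : (h * (P.card : ℝ)) ^ 2 ≤ (Q.card : ℝ) * ∑ q ∈ P ×ˢ P, ((H q.1 ∩ H q.2).card : ℝ) := by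
    rw [h1]
    refine le_trans ?_ h3
    exact pow_le_pow_left₀ (by positivity) h2 2
  set W := (P ×ˢ P).filter fun q => h ^ 2 ≤ 2 * (Q.card : ℝ) * ((H q.1 ∩ H q.2).card : ℝ) with hW
  have h5 : ∑ q ∈ P ×ˢ P, ((H q.1 ∩ H q.2).card : ℝ) ≤
      (W.card : ℝ) * Q.card + (P.card : ℝ) ^ 2 * (h ^ 2 / (2 * Q.card)) := by
    rw [← Finset.sum_filter_add_sum_filter_not (P ×ˢ P)
      (fun q => h ^ 2 ≤ 2 * (Q.card : ℝ) * ((H q.1 ∩ H q.2).card : ℝ)), ← hW]
    refine add_le_add ?_ ?_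
    · rw [← nsmul_eq_mul, ← Finset.sum_const]
      refine Finset.sum_le_sum fun q hq => ?_
      have hq1 := (Finset.mem_product.1 (Finset.mem_filter.1 hq).1).1
      exact_mod_cast Finset.card_le_card (Finset.inter_subset_left.trans (hH _ hq1))
    · have e1 : ((P ×ˢ P).card : ℝ) = (P.card : ℝ) ^ 2 := by
        rw [Finset.card_product]; push_cast; ring
      rw [← e1]
      calc _ ≤ ∑ q ∈ (P ×ˢ P).filter (fun q => ¬ h ^ 2 ≤ 2 * (Q.card : ℝ) *
            ((H q.1 ∩ H q.2).card : ℝ)), h ^ 2 / (2 * (Q.card : ℝ)) := by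
            refine Finset.sum_le_sum fun q hq => ?_
            have := (Finset.mem_filter.1 hq).2
            rw [not_le] at this
            rw [le_div_iff₀ (by positivity)]
            linarith
        _ = _ := by rw [Finset.sum_const, nsmul_eq_mul]
        _ ≤ _ := by
            refine mul_le_mul_of_nonneg_right ?_ (by positivity)
            exact_mod_cast Finset.card_le_card (Finset.filter_subset _ _)
  have h6 : (Q.card : ℝ) * ((P.card : ℝ) ^ 2 * (h ^ 2 / (2 * Q.card))) =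
      (P.card : ℝ) ^ 2 * h ^ 2 / 2 := by
    field_simp
  nlinarith [mul_le_mul_of_nonneg_left h5 hQ0.le]

/-- few parallel heavy strips ⇒ one popular strip -/
theorem pop_val {ι : Type*} [DecidableEq ι] (P Q : Finset ι) (o : ι → ℝ) {w h : ℝ}
    (hw : 0 < w) (hh : 0 < h)
    (hP : ∀ i ∈ P, h ≤ ((Q.filter fun l => |o l - o i| ≤ w).card : ℝ)) :
    ∃ P' ⊆ P, h * (P.card : ℝ) ≤ 3 * (Q.card : ℝ) * (P'.card : ℝ) ∧
      ∀ i ∈ P', ∀ i' ∈ P', |o i' - o i| ≤ w := by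
  classical
  rcases P.eq_empty_or_nonempty with rfl | hne
  · exact ⟨∅, subset_rfl, by simp, by simp⟩
  set f : ι → ℤ := fun l => ⌊o l / w⌋ with hf
  have hfl : ∀ l, (f l : ℝ) * w ≤ o l ∧ o l < ((f l : ℝ) + 1) * w := by
    intro l
    constructor
    · have := Int.floor_le (o l / w)
      rwa [le_div_iff₀ hw] at this
    · have := Int.lt_floor_add_one (o l / w)
      rwa [div_lt_iff₀ hw] at this
  set C := P.image f with hC
  have hCne : C.Nonempty := hne.image f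
  have hC0 : (0 : ℝ) < C.card := by exact_mod_cast hCne.card_pos
  -- number of cells
  have h1 : h * (C.card : ℝ) ≤ 3 * (Q.card : ℝ) := by
    have e1 : ∀ a ∈ C, h ≤ ((Q.filter fun l => f l = a - 1).card : ℝ) +
        ((Q.filter fun l => f l = a).card : ℝ) + ((Q.filter fun l => f l = a + 1).card : ℝ) := by
      intro a ha
      obtain ⟨i, hi, rfl⟩ := Finset.mem_image.1 ha
      refine (hP i hi).trans ?_
      have e2 : (Q.filter fun l => |o l - o i| ≤ w) ⊆ ((Q.filter fun l => f l = f i - 1) ∪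
          (Q.filter fun l => f l = f i)) ∪ (Q.filter fun l => f l = f i + 1) := by
        intro l hl
        obtain ⟨l1, l2⟩ := Finset.mem_filter.1 hl
        have g1 := hfl l
        have g2 := hfl i
        rw [abs_le] at l2
        have g3 : (f l : ℝ) < f i + 2 := by
          by_contra hcon
          push Not at hcon
          have : ((f i : ℝ) + 2) * w ≤ (f l : ℝ) * w := mul_le_mul_of_nonneg_right hcon hw.le
          nlinarith [g1.1, g2.2]
        have g4 : (f i : ℝ) < f l + 2 := by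
          by_contra hcon
          push Not at hcon
          have : ((f l : ℝ) + 2) * w ≤ (f i : ℝ) * w := mul_le_mul_of_nonneg_right hcon hw.le
          nlinarith [g1.2, g2.1]
        have g3' : f l < f i + 2 := by exact_mod_cast g3
        have g4' : f i < f l + 2 := by exact_mod_cast g4
        simp only [Finset.mem_union, Finset.mem_filter]
        have : f l = f i - 1 ∨ f l = f i ∨ f l = f i + 1 := by omega
        rcases this with h | h | h
        · exact Or.inl (Or.inl ⟨l1, h⟩)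
        · exact Or.inl (Or.inr ⟨l1, h⟩)
        · exact Or.inr ⟨l1, h⟩
      have e3 := Finset.card_le_card e2
      have e4 := Finset.card_union_le ((Q.filter fun l => f l = f i - 1) ∪
          (Q.filter fun l => f l = f i)) (Q.filter fun l => f l = f i + 1)
      have e5 := Finset.card_union_le (Q.filter fun l => f l = f i - 1) (Q.filter fun l => f l = f i)
      exact_mod_cast (e3.trans (e4.trans (Nat.add_le_add_right e5 _)))
    have e6 : ∀ s : ℤ, ∑ a ∈ C, ((Q.filter fun l => f l = a + s).card : ℝ) ≤ (Q.card : ℝ) := by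
      intro s
      have : ∑ a ∈ C, (Q.filter fun l => f l = a + s).card ≤ Q.card := by
        rw [← Finset.card_biUnion]
        · exact Finset.card_le_card (Finset.biUnion_subset.2 fun a _ => Finset.filter_subset _ _)
        · intro a _ b _ hab
          rw [Function.onFun, Finset.disjoint_filter]
          intro l _ h1 h2
          exact hab (by omega)
      exact_mod_cast this
    have e7 : h * (C.card : ℝ) ≤ ∑ a ∈ C, (((Q.filter fun l => f l = a - 1).card : ℝ) +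
        ((Q.filter fun l => f l = a).card : ℝ) + ((Q.filter fun l => f l = a + 1).card : ℝ)) := by
      rw [mul_comm, ← nsmul_eq_mul, ← Finset.sum_const]
      exact Finset.sum_le_sum e1
    rw [Finset.sum_add_distrib, Finset.sum_add_distrib] at e7
    have e8 := e6 (-1)
    have e9 := e6 0
    have e10 := e6 1
    simp only [add_zero] at e9
    have e11 : ∀ a : ℤ, a + -1 = a - 1 := fun a => by ring
    simp only [e11] at e8
    linarith
  -- popular cell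
  obtain ⟨a, ha, hacard⟩ : ∃ a ∈ C, (P.card : ℝ) ≤ (C.card : ℝ) * ((P.filter fun i => f i = a).card : ℝ) := by
    by_contra hcon
    push Not at hcon
    have e1 : (P.card : ℝ) = ∑ a ∈ C, ((P.filter fun i => f i = a).card : ℝ) := by
      have : P.card = ∑ a ∈ C, (P.filter fun i => f i = a).card :=
        Finset.card_eq_sum_card_fiberwise fun i hi => Finset.mem_image_of_mem _ hi
      rw [this]; push_cast; rfl
    have e2 : ∑ a ∈ C, ((C.card : ℝ) * ((P.filter fun i => f i = a).card : ℝ)) <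
        ∑ _a ∈ C, (P.card : ℝ) := Finset.sum_lt_sum_of_nonempty hCne hcon
    rw [← Finset.mul_sum, ← e1, Finset.sum_const, nsmul_eq_mul] at e2
    exact lt_irrefl _ e2
  refine ⟨P.filter fun i => f i = a, Finset.filter_subset _ _, ?_, ?_⟩
  · calc h * (P.card : ℝ) ≤ h * ((C.card : ℝ) * ((P.filter fun i => f i = a).card : ℝ)) :=
          mul_le_mul_of_nonneg_left hacard hh.le
      _ = (h * (C.card : ℝ)) * ((P.filter fun i => f i = a).card : ℝ) := by ring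
      _ ≤ _ := mul_le_mul_of_nonneg_right h1 (Nat.cast_nonneg _)
  · intro i hi i' hi'
    have g1 := hfl i
    have g2 := hfl i'
    rw [(Finset.mem_filter.1 hi).2] at g1
    rw [(Finset.mem_filter.1 hi').2] at g2
    rw [abs_le]
    constructor <;> nlinarith [g1.1, g1.2, g2.1, g2.2]

/-- two transversal strips meet in a small ball -/
theorem two_strips {b b' D : Fin 2 → ℝ} (hb : b 0 ^ 2 + b 1 ^ 2 = 1)
    (hb' : b' 0 ^ 2 + b' 1 ^ 2 = 1) {w : ℝ} (h1 : |b 0 * D 0 + b 1 * D 1| ≤ w)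
    (h2 : |b' 0 * D 0 + b' 1 * D 1| ≤ w) (j : Fin 2) :
    |b 0 * b' 1 - b 1 * b' 0| * |D j| ≤ 2 * w := by
  have hle : ∀ {b : Fin 2 → ℝ}, b 0 ^ 2 + b 1 ^ 2 = 1 → ∀ j, |b j| ≤ 1 := by
    intro b hb j
    rw [← sq_le_one_iff_abs_le_one]
    fin_cases j
    · show b 0 ^ 2 ≤ 1
      nlinarith [sq_nonneg (b 1)]
    · show b 1 ^ 2 ≤ 1
      nlinarith [sq_nonneg (b 0)]
  have hw : 0 ≤ w := (abs_nonneg _).trans h1
  rw [← abs_mul]
  have key : ∀ s t : ℝ, |s| ≤ 1 → |t| ≤ 1 →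
      |s * (b 0 * D 0 + b 1 * D 1) - t * (b' 0 * D 0 + b' 1 * D 1)| ≤ 2 * w := by
    intro s t hs ht
    refine (abs_sub _ _).trans ?_
    rw [abs_mul, abs_mul]
    have a1 : |s| * |b 0 * D 0 + b 1 * D 1| ≤ 1 * w := mul_le_mul hs h1 (abs_nonneg _) (by norm_num)
    have a2 : |t| * |b' 0 * D 0 + b' 1 * D 1| ≤ 1 * w :=
      mul_le_mul ht h2 (abs_nonneg _) (by norm_num)
    linarith
  fin_cases j
  · show |(b 0 * b' 1 - b 1 * b' 0) * D 0| ≤ 2 * w
    have := key (b' 1) (b 1) (hle hb' 1) (hle hb 1)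
    have e : (b 0 * b' 1 - b 1 * b' 0) * D 0 =
      b' 1 * (b 0 * D 0 + b 1 * D 1) - b 1 * (b' 0 * D 0 + b' 1 * D 1) := by ring
    rw [e]; exact this
  · show |(b 0 * b' 1 - b 1 * b' 0) * D 1| ≤ 2 * w
    have := key (b' 0) (b 0) (hle hb' 0) (hle hb 0)
    have e : (b 0 * b' 1 - b 1 * b' 0) * D 1 =
      -(b' 0 * (b 0 * D 0 + b 1 * D 1) - b 0 * (b' 0 * D 0 + b' 1 * D 1)) := by ring
    rw [e, abs_neg]; exact this

end Crest.Agent.R136.RgE344
end

-- ▼ part R136/RgE2_344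
section

/-!
# R136 (S0187): RIG_E, finite combinatorics II (helper344): COH

One common normal for a dense set of incidences, from heavy strips.
-/

set_option autoImplicit false
set_option linter.unusedVariables false

open Finset

namespace Crest.Agent.R136.RgE344

/-- relative block velocity -/
def dv (w : ℕ → Fin 2 → ℝ) (c : ℕ → ℝ) (e : Fin 2 → ℝ) (i l : ℕ) : Fin 2 → ℝ := fun j =>
  (w l j - w i j) - e j * (c l - c i)

theorem dv_sub (w : ℕ → Fin 2 → ℝ) (c : ℕ → ℝ) (e : Fin 2 → ℝ) (i l l' : ℕ) (j : Fin 2) :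
    dv w c e l l' j = dv w c e i l' j - dv w c e i l j := by
  unfold dv; ring

/-- angle between the normals of two strips with many common lines -/
theorem angle_small {A δ β : ℝ} (hA : 2 ≤ A) (hδ : 0 < δ) (hβ : 0 < β) {b b' : Fin 2 → ℝ}
    (hb : b 0 ^ 2 + b 1 ^ 2 = 1) (hb' : b' 0 ^ 2 + b' 1 ^ 2 = 1) {N : ℝ} (hN : 0 < N)
    (S : Finset ℕ) (w : ℕ → Fin 2 → ℝ) (c : ℕ → ℝ) (e : Fin 2 → ℝ) (i i' : ℕ)
    (hS : δ * N ≤ 4 * A ^ 3 * (S.card : ℝ))
    (h1 : ∀ l ∈ S, |b 0 * dv w c e i l 0 + b 1 * dv w c e i l 1| ≤ A * δ)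
    (h2 : ∀ l ∈ S, |b' 0 * dv w c e i' l 0 + b' 1 * dv w c e i' l 1| ≤ A * δ)
    (hB : ∀ l ∈ S, ∀ r : ℝ, δ ≤ r → r ≤ 1 → ((S.filter fun l' => ∀ j, |dv w c e l l' j| ≤ r).card : ℝ) ≤
      A * δ * r ^ β * N) :
    |b 0 * b' 1 - b 1 * b' 0| ≤ A ^ (3 + 6 / β) * δ := by
  classical
  have hA0 : 0 < A := by linarith
  have hA1 : 1 ≤ A := by linarith
  set s := |b 0 * b' 1 - b 1 * b' 0| with hs
  have hs0 : 0 ≤ s := abs_nonneg _
  have hSne : S.Nonempty := by
    rw [← Finset.card_pos]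
    have : (0 : ℝ) < S.card := by
      by_contra hcon
      rw [not_lt] at hcon
      have h3 : 4 * A ^ 3 * (S.card : ℝ) ≤ 0 := mul_nonpos_of_nonneg_of_nonpos (by positivity) hcon
      have h4 : 0 < δ * N := by positivity
      linarith
    exact_mod_cast this
  have hpow : (1 : ℝ) ≤ A ^ (6 / β) := Real.one_le_rpow hA1 (by positivity)
  have hexp : A ^ (3 + 6 / β) = A ^ 3 * A ^ (6 / β) := by
    rw [Real.rpow_add hA0]
    norm_num
  rcases le_or_gt s (4 * A * δ) with hle | hgt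
  · refine hle.trans ?_
    rw [hexp]
    have h4 : 4 * A ≤ A ^ 3 := by nlinarith [mul_nonneg (show (0:ℝ) ≤ A - 2 by linarith) (show (0:ℝ) ≤ A + 2 by linarith)]
    have h5 : A ^ 3 ≤ A ^ 3 * A ^ (6 / β) := by nlinarith [pow_pos hA0 3]
    exact mul_le_mul_of_nonneg_right (h4.trans h5) hδ.le
  -- `r = 4 A δ / s`
  have hspos : 0 < s := lt_trans (by positivity) hgt
  have hs1 : s ≤ 2 := by
    have hle : ∀ {b : Fin 2 → ℝ}, b 0 ^ 2 + b 1 ^ 2 = 1 → ∀ j, |b j| ≤ 1 := by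
      intro b hb j
      rw [← sq_le_one_iff_abs_le_one]
      fin_cases j
      · show b 0 ^ 2 ≤ 1
        nlinarith [sq_nonneg (b 1)]
      · show b 1 ^ 2 ≤ 1
        nlinarith [sq_nonneg (b 0)]
    rw [hs]
    refine (abs_sub _ _).trans ?_
    rw [abs_mul, abs_mul]
    have a1 : |b 0| * |b' 1| ≤ 1 * 1 := mul_le_mul (hle hb 0) (hle hb' 1) (abs_nonneg _) (by norm_num)
    have a2 : |b 1| * |b' 0| ≤ 1 * 1 := mul_le_mul (hle hb 1) (hle hb' 0) (abs_nonneg _) (by norm_num)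
    linarith
  set r := 4 * A * δ / s with hr
  have hr0 : 0 < r := by positivity
  have hr1 : r ≤ 1 := by
    rw [hr, div_le_one hspos]
    exact hgt.le
  have hrδ : δ ≤ r := by
    rw [hr, le_div_iff₀ hspos]
    nlinarith
  obtain ⟨l0, hl0⟩ := hSne
  have hsub : S ⊆ S.filter fun l' => ∀ j, |dv w c e l0 l' j| ≤ r := by
    intro l' hl'
    refine Finset.mem_filter.2 ⟨hl', fun j => ?_⟩
    have g1 : |b 0 * dv w c e l0 l' 0 + b 1 * dv w c e l0 l' 1| ≤ 2 * A * δ := by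
      have e1 : b 0 * dv w c e l0 l' 0 + b 1 * dv w c e l0 l' 1 =
          (b 0 * dv w c e i l' 0 + b 1 * dv w c e i l' 1) -
            (b 0 * dv w c e i l0 0 + b 1 * dv w c e i l0 1) := by
        rw [dv_sub w c e i l0 l' 0, dv_sub w c e i l0 l' 1]; ring
      rw [e1]
      exact (abs_sub _ _).trans (by linarith [h1 l' hl', h1 l0 hl0])
    have g2 : |b' 0 * dv w c e l0 l' 0 + b' 1 * dv w c e l0 l' 1| ≤ 2 * A * δ := by
      have e1 : b' 0 * dv w c e l0 l' 0 + b' 1 * dv w c e l0 l' 1 =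
          (b' 0 * dv w c e i' l' 0 + b' 1 * dv w c e i' l' 1) -
            (b' 0 * dv w c e i' l0 0 + b' 1 * dv w c e i' l0 1) := by
        rw [dv_sub w c e i' l0 l' 0, dv_sub w c e i' l0 l' 1]; ring
      rw [e1]
      exact (abs_sub _ _).trans (by linarith [h2 l' hl', h2 l0 hl0])
    have g3 := two_strips hb hb' g1 g2 j
    rw [hr, le_div_iff₀ hspos]
    rw [← hs] at g3
    linarith
  have h3 : (S.card : ℝ) ≤ A * δ * r ^ β * N := by
    refine le_trans ?_ (hB l0 hl0 r hrδ hr1)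
    exact_mod_cast Finset.card_le_card hsub
  -- `r^β ≥ A^(-6)`
  have h4 : 1 ≤ A ^ 6 * r ^ β := by
    have h5 : δ * N ≤ 4 * A ^ 3 * (A * δ * r ^ β * N) := hS.trans (mul_le_mul_of_nonneg_left h3 (by positivity))
    have h6 : (1 : ℝ) * (δ * N) ≤ (4 * A ^ 4 * r ^ β) * (δ * N) := by nlinarith
    have h7 : (1 : ℝ) ≤ 4 * A ^ 4 * r ^ β := le_of_mul_le_mul_right h6 (by positivity)
    have h8 : 4 * A ^ 4 ≤ A ^ 6 := by
      have : (4 : ℝ) ≤ A ^ 2 := by nlinarith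
      nlinarith [pow_pos hA0 4]
    exact h7.trans (mul_le_mul_of_nonneg_right h8 (by positivity))
  have h5 : 1 ≤ A ^ (6 / β) * r := by
    have e1 : (A ^ (6 / β) * r) ^ β = A ^ 6 * r ^ β := by
      rw [Real.mul_rpow (by positivity) hr0.le, ← Real.rpow_mul hA0.le]
      have : 6 / β * β = (6 : ℕ) := by
        field_simp
        norm_num
      rw [this, Real.rpow_natCast]
    by_contra hcon
    rw [not_le] at hcon
    have h6 : (A ^ (6 / β) * r) ^ β < 1 := Real.rpow_lt_one (by positivity) hcon hβ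
    rw [e1] at h6
    linarith
  have h6 : s ≤ A ^ (6 / β) * (4 * A * δ) := by
    have : s * 1 ≤ s * (A ^ (6 / β) * r) := mul_le_mul_of_nonneg_left h5 hs0
    have e1 : s * (A ^ (6 / β) * r) = A ^ (6 / β) * (4 * A * δ) := by
      rw [hr]; field_simp
    linarith
  refine h6.trans ?_
  rw [hexp]
  have h7 : 4 * A ≤ A ^ 3 := by nlinarith [mul_nonneg (show (0:ℝ) ≤ A - 2 by linarith) (show (0:ℝ) ≤ A + 2 by linarith)]
  have h8 : A ^ (6 / β) * (4 * A * δ) = (4 * A) * (A ^ (6 / β) * δ) := by ring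
  rw [h8]
  have h9 : (4 * A) * (A ^ (6 / β) * δ) ≤ A ^ 3 * (A ^ (6 / β) * δ) :=
    mul_le_mul_of_nonneg_right h7 (by positivity)
  linarith [h9]

/-- number of mesh cells of `[-1, 1]` -/
theorem card_cells {h : ℝ} (hh : 0 < h) (hh1 : h ≤ 1) (S : Finset ℤ)
    (hS : ∀ a ∈ S, ∃ X : ℝ, |X| ≤ 1 ∧ a = ⌊X / h⌋) : (S.card : ℝ) ≤ 4 / h := by
  have h1 : S ⊆ Finset.Icc ⌊(-1 : ℝ) / h⌋ ⌊(1 : ℝ) / h⌋ := by
    intro a ha
    obtain ⟨X, hX, rfl⟩ := hS a ha
    rw [abs_le] at hX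
    rw [Finset.mem_Icc]
    exact ⟨Int.floor_le_floor (div_le_div_of_nonneg_right hX.1 hh.le),
      Int.floor_le_floor (div_le_div_of_nonneg_right hX.2 hh.le)⟩
  have h2 := Finset.card_le_card h1
  rw [Int.card_Icc] at h2
  have h3 : (⌊(1 : ℝ) / h⌋ : ℝ) ≤ 1 / h := Int.floor_le _
  have h4 : (-1 : ℝ) / h < ⌊(-1 : ℝ) / h⌋ + 1 := Int.lt_floor_add_one _
  have h5 : (⌊(-1 : ℝ) / h⌋ : ℤ) ≤ ⌊(1 : ℝ) / h⌋ :=
    Int.floor_le_floor (div_le_div_of_nonneg_right (by norm_num) hh.le)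
  have h6 : ((⌊(1 : ℝ) / h⌋ + 1 - ⌊(-1 : ℝ) / h⌋).toNat : ℝ) =
      (⌊(1 : ℝ) / h⌋ : ℝ) + 1 - (⌊(-1 : ℝ) / h⌋ : ℝ) := by
    have : ((⌊(1 : ℝ) / h⌋ + 1 - ⌊(-1 : ℝ) / h⌋).toNat : ℤ) =
      ⌊(1 : ℝ) / h⌋ + 1 - ⌊(-1 : ℝ) / h⌋ := Int.toNat_of_nonneg (by omega)
    exact_mod_cast this
  have h7 : (S.card : ℝ) ≤ (⌊(1 : ℝ) / h⌋ : ℝ) + 1 - (⌊(-1 : ℝ) / h⌋ : ℝ) := by
    rw [← h6]
    exact_mod_cast h2
  have h8 : (1 : ℝ) ≤ 1 / h := by rw [le_div_iff₀ hh]; linarith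
  have e1 : (-1 : ℝ) / h = -(1 / h) := by ring
  rw [e1] at h4
  have e2 : (4 : ℝ) / h = 4 * (1 / h) := by ring
  rw [e2]
  rw [e1] at h7
  linarith

end Crest.Agent.R136.RgE344
end

-- ▼ part R136/RgE3_344
section

/-!
# R136 (S0187): RIG_E, finite combinatorics III (helper344): COH, the theorem
-/

set_option autoImplicit false
set_option linter.unusedVariables false

open Finset

namespace Crest.Agent.R136.RgE344

/-- hypotheses of COH (losses are powers of `A`) -/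
structure CohData (A δ m β : ℝ) (L Z : Finset ℕ) (I Ig : Finset (ℕ × ℕ)) (z x c : ℕ → ℝ)
    (w e b : ℕ → Fin 2 → ℝ) (H : ℕ → ℕ → Finset ℕ) : Prop where
  A2 : 2 ≤ A
  δ0 : 0 < δ
  m0 : 0 < m
  m1 : m ≤ 1
  β0 : 0 < β
  small : A ^ (20 + 15 / m) * δ ≤ 1
  L0 : L.Nonempty
  Z0 : Z.Nonempty
  sub : I ⊆ L ×ˢ Z
  gsub : Ig ⊆ I
  bX : ∀ l k, (l, k) ∈ I → |x l + z k * c l| ≤ 1
  be : ∀ k ∈ Z, ∀ j, |e k j| ≤ 2
  bc : ∀ l ∈ L, |c l| ≤ 1 ∧ ∀ j, |w l j| ≤ 1
  unit : ∀ i, b i 0 ^ 2 + b i 1 ^ 2 = 1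
  frost : ∀ k ∈ Z, ∀ r : ℝ, δ ≤ r → r ≤ 1 →
    ((Z.filter fun k' => |z k' - z k| ≤ r).card : ℝ) ≤ A * r * (Z.card : ℝ)
  up : ∀ l k, (l, k) ∈ I → ∀ r : ℝ, δ ≤ r → r ≤ 2 →
    ((L.filter fun l' => (l', k) ∈ I ∧ |(x l' + z k * c l') - (x l + z k * c l)| ≤ 2 * δ ∧
      |c l' - c l| ≤ r).card : ℝ) ≤ A * δ * r ^ m * (L.card : ℝ)
  ball : ∀ l k, (l, k) ∈ I → ∀ r : ℝ, δ ≤ r → r ≤ 1 →
    ((L.filter fun l' => (l', k) ∈ I ∧ |(x l' + z k * c l') - (x l + z k * c l)| ≤ 2 * δ ∧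
      ∀ j, |dv w c (e k) l l' j| ≤ r).card : ℝ) ≤ A * δ * r ^ β * (L.card : ℝ)
  dens : (L.card : ℝ) * (Z.card : ℝ) ≤ A * (Ig.card : ℝ)
  H_sub : ∀ i k, (i, k) ∈ Ig → H i k ⊆ L.filter fun l => (l, k) ∈ I
  H_card : ∀ i k, (i, k) ∈ Ig → δ * (L.card : ℝ) ≤ A * ((H i k).card : ℝ)
  H_X : ∀ i k, (i, k) ∈ Ig → ∀ l ∈ H i k, |(x l + z k * c l) - (x i + z k * c i)| ≤ δ
  H_b : ∀ i k, (i, k) ∈ Ig → ∀ l ∈ H i k,
    |b i 0 * dv w c (e k) i l 0 + b i 1 * dv w c (e k) i l 1| ≤ δ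

/-- a set of incidences is the disjoint union of its pencils -/
theorem card_pencils (L Z : Finset ℕ) (S : Finset (ℕ × ℕ)) (hS : S ⊆ L ×ˢ Z) (cell : ℕ → ℕ → ℤ) :
    (S.card : ℝ) = ∑ ka ∈ S.image (fun q => (q.2, cell q.2 q.1)),
      ((L.filter fun i => (i, ka.1) ∈ S ∧ cell ka.1 i = ka.2).card : ℝ) := by
  classical
  have h1 : S.card = ∑ ka ∈ S.image (fun q => (q.2, cell q.2 q.1)),
      (S.filter fun q => (q.2, cell q.2 q.1) = ka).card :=
    Finset.card_eq_sum_card_fiberwise fun q hq => Finset.mem_image_of_mem _ hq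
  rw [h1]
  push_cast
  refine Finset.sum_congr rfl fun ka _ => ?_
  congr 1
  refine Finset.card_bij' (fun q _ => q.1) (fun i _ => (i, ka.1)) ?_ ?_ ?_ ?_
  · intro q hq
    obtain ⟨g1, g2⟩ := Finset.mem_filter.1 hq
    have g3 : q.2 = ka.1 := by rw [← g2]
    have g4 : cell q.2 q.1 = ka.2 := by rw [← g2]
    refine Finset.mem_filter.2 ⟨(Finset.mem_product.1 (hS g1)).1, ?_, ?_⟩
    · rw [← g3]; exact g1
    · rw [← g3]; exact g4
  · intro i hi
    obtain ⟨g1, g2, g3⟩ := Finset.mem_filter.1 hi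
    refine Finset.mem_filter.2 ⟨g2, ?_⟩
    exact Prod.ext rfl g3
  · intro q hq
    obtain ⟨g1, g2⟩ := Finset.mem_filter.1 hq
    have g3 : q.2 = ka.1 := by rw [← g2]
    exact Prod.ext rfl g3.symm
  · intro i hi
    rfl

/-- lines of large degree -/
theorem prune_lines (L Z : Finset ℕ) (S : Finset (ℕ × ℕ)) (hS : S ⊆ L ×ˢ Z) {A : ℝ} (hA : 0 < A)
    (h : (L.card : ℝ) * (Z.card : ℝ) ≤ A * (S.card : ℝ)) :
    ∃ L1 ⊆ L, (∀ l ∈ L1, (Z.card : ℝ) ≤ 2 * A * ((S.filter fun q => q.1 = l).card : ℝ)) ∧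
      (L.card : ℝ) * (Z.card : ℝ) ≤ 2 * A * ((S.filter fun q => q.1 ∈ L1).card : ℝ) := by
  classical
  set L1 := L.filter fun l => (Z.card : ℝ) ≤ 2 * A * ((S.filter fun q => q.1 = l).card : ℝ) with hL1
  refine ⟨L1, Finset.filter_subset _ _, fun l hl => (Finset.mem_filter.1 hl).2, ?_⟩
  have h1 : (S.card : ℝ) = ((S.filter fun q => q.1 ∈ L1).card : ℝ) +
      ((S.filter fun q => ¬ q.1 ∈ L1).card : ℝ) := by
    exact_mod_cast (Finset.card_filter_add_card_filter_not (s := S) (fun q => q.1 ∈ L1)).symm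
  have h2 : 2 * A * ((S.filter fun q => ¬ q.1 ∈ L1).card : ℝ) ≤ (L.card : ℝ) * (Z.card : ℝ) := by
    have e1 : (S.filter fun q => ¬ q.1 ∈ L1).card = ∑ l ∈ L \ L1,
        ((S.filter fun q => ¬ q.1 ∈ L1).filter fun q => q.1 = l).card := by
      refine Finset.card_eq_sum_card_fiberwise fun q hq => ?_
      obtain ⟨g1, g2⟩ := Finset.mem_filter.1 hq
      exact Finset.mem_sdiff.2 ⟨(Finset.mem_product.1 (hS g1)).1, g2⟩
    rw [e1]
    push_cast
    rw [Finset.mul_sum]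
    calc ∑ l ∈ L \ L1, 2 * A * (((S.filter fun q => ¬ q.1 ∈ L1).filter fun q => q.1 = l).card : ℝ)
        ≤ ∑ l ∈ L \ L1, (Z.card : ℝ) := by
          refine Finset.sum_le_sum fun l hl => ?_
          obtain ⟨g1, g2⟩ := Finset.mem_sdiff.1 hl
          have g3 : ¬ (Z.card : ℝ) ≤ 2 * A * ((S.filter fun q => q.1 = l).card : ℝ) := fun hcon =>
            g2 (Finset.mem_filter.2 ⟨g1, hcon⟩)
          rw [not_le] at g3
          refine le_trans ?_ g3.le
          refine mul_le_mul_of_nonneg_left ?_ (by positivity)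
          refine mod_cast Finset.card_le_card fun q hq => ?_
          obtain ⟨a1, a2⟩ := Finset.mem_filter.1 hq
          exact Finset.mem_filter.2 ⟨(Finset.mem_filter.1 a1).1, a2⟩
      _ = ((L \ L1).card : ℝ) * (Z.card : ℝ) := by rw [Finset.sum_const, nsmul_eq_mul]
      _ ≤ _ := by
          refine mul_le_mul_of_nonneg_right ?_ (Nat.cast_nonneg _)
          exact_mod_cast Finset.card_le_card Finset.sdiff_subset
  nlinarith

/-- restriction to lines of large degree -/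
theorem card_restr (Z : Finset ℕ) (S : Finset (ℕ × ℕ)) (L2 : Finset ℕ) {A : ℝ}
    (h : ∀ l ∈ L2, (Z.card : ℝ) ≤ 2 * A * ((S.filter fun q => q.1 = l).card : ℝ)) :
    (L2.card : ℝ) * (Z.card : ℝ) ≤ 2 * A * ((S.filter fun q => q.1 ∈ L2).card : ℝ) := by
  classical
  have e1 : (S.filter fun q => q.1 ∈ L2).card = ∑ l ∈ L2,
      ((S.filter fun q => q.1 ∈ L2).filter fun q => q.1 = l).card :=
    Finset.card_eq_sum_card_fiberwise fun q hq => (Finset.mem_filter.1 hq).2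
  rw [e1]
  push_cast
  rw [Finset.mul_sum, ← nsmul_eq_mul, ← Finset.sum_const]
  refine Finset.sum_le_sum fun l hl => (h l hl).trans (le_of_eq ?_)
  have e2 : (S.filter fun q => q.1 = l) =
      (S.filter fun q => q.1 ∈ L2).filter fun q => q.1 = l := by
    ext q
    simp only [Finset.mem_filter]
    constructor
    · rintro ⟨h0, h1⟩
      exact ⟨⟨h0, h1 ▸ hl⟩, h1⟩
    · rintro ⟨⟨h0, _⟩, h1⟩
      exact ⟨h0, h1⟩
  rw [e2]

/-- pairs of one pencil with close normals -/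
theorem pencil_pairs {A δ m β : ℝ} {L Z : Finset ℕ} {I Ig : Finset (ℕ × ℕ)} {z x c : ℕ → ℝ}
    {w e b : ℕ → Fin 2 → ℝ} {H : ℕ → ℕ → Finset ℕ} (D : CohData A δ m β L Z I Ig z x c w e b H)
    (k : ℕ) (P : Finset ℕ) (hP : ∀ i ∈ P, (i, k) ∈ Ig)
    (hPX : ∀ i ∈ P, ∀ i' ∈ P, |(x i' + z k * c i') - (x i + z k * c i)| ≤ δ) :
    (P.card : ℝ) ^ 2 ≤ 8 * A ^ 4 * (((P ×ˢ P).filter fun q =>
      |b q.1 0 * b q.2 1 - b q.1 1 * b q.2 0| ≤ A ^ (3 + 6 / β) * δ).card : ℝ) := by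
  classical
  rcases P.eq_empty_or_nonempty with rfl | ⟨i0, hi0⟩
  · simp
  have hA2 := D.A2
  have hA0 : 0 < A := by linarith
  have hδ := D.δ0
  have hm0 := D.m0
  have hm1 := D.m1
  have hL0 : (0 : ℝ) < L.card := by exact_mod_cast D.L0.card_pos
  have hi0I := D.gsub (hP i0 hi0)
  set Q := L.filter fun l' => (l', k) ∈ I ∧ |(x l' + z k * c l') - (x i0 + z k * c i0)| ≤ 2 * δ ∧
      |c l' - c i0| ≤ 2 with hQ
  have h2m : (2 : ℝ) ^ m ≤ 2 := by
    calc (2 : ℝ) ^ m ≤ 2 ^ (1 : ℝ) := Real.rpow_le_rpow_of_exponent_le (by norm_num) hm1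
      _ = 2 := Real.rpow_one 2
  have hδ2 : δ ≤ 2 := by
    have h1 : (1 : ℝ) ≤ A ^ (20 + 15 / m) := Real.one_le_rpow (by linarith) (by positivity)
    have := D.small
    nlinarith
  have hQc : (Q.card : ℝ) ≤ 2 * A * δ * L.card := by
    refine (D.up i0 k hi0I 2 hδ2 le_rfl).trans ?_
    have : A * δ * 2 ^ m * (L.card : ℝ) ≤ A * δ * 2 * (L.card : ℝ) := by gcongr
    linarith
  have hmemQ : ∀ i ∈ P, ∀ l ∈ H i k, l ∈ Q := by
    intro i hi l hl
    have g1 := D.H_sub i k (hP i hi) hl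
    obtain ⟨g2, g3⟩ := Finset.mem_filter.1 g1
    have g4 := D.H_X i k (hP i hi) l hl
    have g5 := hPX i0 hi0 i hi
    refine Finset.mem_filter.2 ⟨g2, g3, ?_, ?_⟩
    · rw [abs_le] at g4 g5 ⊢
      constructor <;> linarith [g4.1, g4.2, g5.1, g5.2]
    · have a1 := (D.bc l g2).1
      have a2 := (D.bc i0 (Finset.mem_product.1 (D.sub hi0I)).1).1
      exact (abs_sub _ _).trans (by linarith)
  have hi0Q : i0 ∈ Q := by
    refine Finset.mem_filter.2 ⟨(Finset.mem_product.1 (D.sub hi0I)).1, hi0I, ?_, ?_⟩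
    · simp; positivity
    · simp
  have key := strip_pairs P Q (fun i => H i k) (fun i hi l hl => hmemQ i hi l hl)
    (h := δ * L.card / A) (by positivity) (fun i hi => by
      rw [div_le_iff₀ hA0]
      have := D.H_card i k (hP i hi)
      linarith) ⟨i0, hi0Q⟩
  have hsub : ((P ×ˢ P).filter fun q => (δ * L.card / A) ^ 2 ≤
      2 * (Q.card : ℝ) * (((H q.1 k) ∩ (H q.2 k)).card : ℝ)) ⊆ (P ×ˢ P).filter fun q =>
      |b q.1 0 * b q.2 1 - b q.1 1 * b q.2 0| ≤ A ^ (3 + 6 / β) * δ := by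
    intro q hq
    obtain ⟨g1, g2⟩ := Finset.mem_filter.1 hq
    obtain ⟨g3, g4⟩ := Finset.mem_product.1 g1
    refine Finset.mem_filter.2 ⟨g1, ?_⟩
    refine angle_small hA2 hδ D.β0 (D.unit _) (D.unit _) hL0 ((H q.1 k) ∩ (H q.2 k)) w c (e k)
      q.1 q.2 ?_ ?_ ?_ ?_
    · -- size of the intersection
      have g5 : (δ * L.card / A) ^ 2 ≤ 2 * (2 * A * δ * L.card) *
          (((H q.1 k) ∩ (H q.2 k)).card : ℝ) := by
        refine g2.trans ?_
        exact mul_le_mul_of_nonneg_right (mul_le_mul_of_nonneg_left hQc (by norm_num))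
          (Nat.cast_nonneg _)
      have g6 : (δ * L.card / A) ^ 2 = (δ * L.card) * (δ * L.card) / A ^ 2 := by
        field_simp
      rw [g6, div_le_iff₀ (by positivity)] at g5
      have g7 : (δ * L.card) * (δ * L.card) ≤ (δ * L.card) *
          (4 * A ^ 3 * (((H q.1 k) ∩ (H q.2 k)).card : ℝ)) := by
        refine g5.trans (le_of_eq ?_)
        ring
      exact le_of_mul_le_mul_left g7 (by positivity)
    · intro l hl
      exact (D.H_b q.1 k (hP _ g3) l (Finset.mem_inter.1 hl).1).trans (by nlinarith)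
    · intro l hl
      exact (D.H_b q.2 k (hP _ g4) l (Finset.mem_inter.1 hl).2).trans (by nlinarith)
    · intro l hl r hr hr1
      have g5 := D.H_sub q.1 k (hP _ g3) (Finset.mem_inter.1 hl).1
      obtain ⟨g6, g7⟩ := Finset.mem_filter.1 g5
      refine le_trans ?_ (D.ball l k g7 r hr hr1)
      refine mod_cast Finset.card_le_card fun l' hl' => ?_
      obtain ⟨a1, a2⟩ := Finset.mem_filter.1 hl'
      obtain ⟨a3, a4⟩ := Finset.mem_inter.1 a1
      obtain ⟨a5, a6⟩ := Finset.mem_filter.1 (D.H_sub q.1 k (hP _ g3) a3)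
      refine Finset.mem_filter.2 ⟨a5, a6, ?_, a2⟩
      have b1 := D.H_X q.1 k (hP _ g3) l (Finset.mem_inter.1 hl).1
      have b2 := D.H_X q.1 k (hP _ g3) l' a3
      rw [abs_le] at b1 b2 ⊢
      constructor <;> linarith [b1.1, b1.2, b2.1, b2.2]
  set W := (P ×ˢ P).filter fun q =>
      |b q.1 0 * b q.2 1 - b q.1 1 * b q.2 0| ≤ A ^ (3 + 6 / β) * δ with hW
  have h1 : (δ * L.card / A) ^ 2 * (P.card : ℝ) ^ 2 ≤ 2 * (2 * A * δ * L.card) ^ 2 * (W.card : ℝ) := by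
    refine key.trans ?_
    have h2 := Finset.card_le_card hsub
    have h3 : (Q.card : ℝ) ^ 2 ≤ (2 * A * δ * L.card) ^ 2 := pow_le_pow_left₀ (Nat.cast_nonneg _) hQc 2
    have h4 : ((((P ×ˢ P).filter fun q => (δ * L.card / A) ^ 2 ≤
      2 * (Q.card : ℝ) * (((H q.1 k) ∩ (H q.2 k)).card : ℝ)).card : ℕ) : ℝ) ≤ (W.card : ℝ) := by
      exact_mod_cast h2
    calc _ ≤ 2 * (Q.card : ℝ) ^ 2 * (W.card : ℝ) := mul_le_mul_of_nonneg_left h4 (by positivity)
      _ ≤ _ := by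
        refine mul_le_mul_of_nonneg_right ?_ (Nat.cast_nonneg _)
        linarith
  have h2 : (δ * L.card / A) ^ 2 = (δ * L.card) ^ 2 / A ^ 2 := by rw [div_pow]
  rw [h2, div_mul_eq_mul_div, div_le_iff₀ (by positivity)] at h1
  have h3 : (δ * (L.card : ℝ)) ^ 2 * (P.card : ℝ) ^ 2 ≤ (δ * (L.card : ℝ)) ^ 2 *
      (8 * A ^ 4 * (W.card : ℝ)) := by
    refine h1.trans (le_of_eq ?_)
    ring
  exact le_of_mul_le_mul_left h3 (by positivity)

end Crest.Agent.R136.RgE344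
end

-- ▼ part R136/RgE4_344
section

/-!
# R136 (S0187): RIG_E, finite combinatorics IV (helper344): COH, end of the proof
-/

set_option autoImplicit false
set_option linter.unusedVariables false

open Finset

namespace Crest.Agent.R136.RgE344

variable {A δ m β : ℝ} {L Z : Finset ℕ} {I Ig : Finset (ℕ × ℕ)} {z x c : ℕ → ℝ}
    {w e b : ℕ → Fin 2 → ℝ} {H : ℕ → ℕ → Finset ℕ}

theorem floor_eq_close {h s t : ℝ} (hh : 0 < h) (hst : ⌊s / h⌋ = ⌊t / h⌋) : |t - s| ≤ h := by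
  have g1 := Int.floor_le (s / h)
  have g2 := Int.lt_floor_add_one (s / h)
  have g3 := Int.floor_le (t / h)
  have g4 := Int.lt_floor_add_one (t / h)
  rw [hst] at g1 g2
  rw [le_div_iff₀ hh] at g1 g3
  rw [div_lt_iff₀ hh] at g2 g4
  rw [abs_le]
  constructor <;> linarith

theorem CohData.small1 (D : CohData A δ m β L Z I Ig z x c w e b H) : A * δ ≤ 1 := by
  have hA2 := D.A2
  have hm0 := D.m0
  have h1 : A ≤ A ^ (20 + 15 / m) := by
    calc A = A ^ (1 : ℝ) := (Real.rpow_one A).symm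
      _ ≤ _ := Real.rpow_le_rpow_of_exponent_le (by linarith) (by
        have : 0 ≤ 15 / m := by positivity
        linarith)
  exact (mul_le_mul_of_nonneg_right h1 D.δ0.le).trans D.small

set_option maxHeartbeats 1000000 in
/-- many pairs of lines with close normals -/
theorem coh_pairs (D : CohData A δ m β L Z I Ig z x c w e b H) (S : Finset (ℕ × ℕ)) (hS : S ⊆ Ig)
    (hdens : (L.card : ℝ) * (Z.card : ℝ) ≤ 2 * A * (S.card : ℝ)) :
    ∃ W : Finset (ℕ × ℕ), (∀ q ∈ W, (∃ k, (q.1, k) ∈ S) ∧ (∃ k, (q.2, k) ∈ S) ∧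
        |b q.1 0 * b q.2 1 - b q.1 1 * b q.2 0| ≤ A ^ (3 + 6 / β) * δ) ∧
      (L.card : ℝ) ^ 2 ≤ A ^ (16 + 15 / m) * (W.card : ℝ) := by
  classical
  have hA2 := D.A2
  have hA0 : 0 < A := by linarith
  have hδ := D.δ0
  have hm0 := D.m0
  have hm1 := D.m1
  have hL0 : (0 : ℝ) < L.card := by exact_mod_cast D.L0.card_pos
  have hZ0 : (0 : ℝ) < Z.card := by exact_mod_cast D.Z0.card_pos
  have hAδ := D.small1
  have hI := D.sub
  have hSI : S ⊆ L ×ˢ Z := (hS.trans D.gsub).trans hI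
  obtain ⟨h, hh⟩ : ∃ h : ℝ, h = δ := ⟨δ, rfl⟩
  have hh0 : 0 < h := by rw [hh]; exact hδ
  have hh1 : h ≤ 1 := by rw [hh]; nlinarith
  set cell : ℕ → ℕ → ℤ := fun k l => ⌊(x l + z k * c l) / h⌋ with hcell
  set KA := S.image (fun q => (q.2, cell q.2 q.1)) with hKA
  set P : ℕ × ℤ → Finset ℕ := fun ka => L.filter fun i => (i, ka.1) ∈ S ∧ cell ka.1 i = ka.2 with hP
  have hPcard : (S.card : ℝ) = ∑ ka ∈ KA, ((P ka).card : ℝ) := card_pencils L Z S hSI cell
  set ϖ := A ^ (3 + 6 / β) * δ with hϖ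
  set T : Finset (ℕ × ℕ × ℕ) := (Z ×ˢ (L ×ˢ L)).filter fun q => (q.2.1, q.1) ∈ S ∧
    (q.2.2, q.1) ∈ S ∧ cell q.1 q.2.1 = cell q.1 q.2.2 ∧
    |b q.2.1 0 * b q.2.2 1 - b q.2.1 1 * b q.2.2 0| ≤ ϖ with hT
  -- number of cells
  have hKAc : (KA.card : ℝ) ≤ Z.card * (4 / h) := by
    have h1 : KA ⊆ Z ×ˢ (KA.image Prod.snd) := by
      intro ka hka
      refine Finset.mem_product.2 ⟨?_, Finset.mem_image_of_mem _ hka⟩
      obtain ⟨q, hq, rfl⟩ := Finset.mem_image.1 hka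
      exact (Finset.mem_product.1 (hSI hq)).2
    have h2 := Finset.card_le_card h1
    rw [Finset.card_product] at h2
    have h3 : ((KA.image Prod.snd).card : ℝ) ≤ 4 / h := by
      refine card_cells hh0 hh1 _ fun a ha => ?_
      obtain ⟨ka, hka, rfl⟩ := Finset.mem_image.1 ha
      obtain ⟨q, hq, rfl⟩ := Finset.mem_image.1 hka
      exact ⟨_, D.bX q.1 q.2 (D.gsub (hS hq)), rfl⟩
    calc (KA.card : ℝ) ≤ (Z.card : ℝ) * ((KA.image Prod.snd).card : ℝ) := by exact_mod_cast h2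
      _ ≤ _ := mul_le_mul_of_nonneg_left h3 hZ0.le
  -- pairs in one pencil
  have hpen : ∀ ka ∈ KA, ((P ka).card : ℝ) ^ 2 ≤ 8 * A ^ 4 *
      ((T.filter fun q => (q.1, cell q.1 q.2.1) = ka).card : ℝ) := by
    intro ka hka
    have hkZ : ka.1 ∈ Z := by
      obtain ⟨q, hq, rfl⟩ := Finset.mem_image.1 hka
      exact (Finset.mem_product.1 (hSI hq)).2
    have h1 := pencil_pairs D ka.1 (P ka) (fun i hi => hS (Finset.mem_filter.1 hi).2.1)
      (fun i hi i' hi' => by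
        have a1 := (Finset.mem_filter.1 hi).2.2
        have a2 := (Finset.mem_filter.1 hi').2.2
        rw [← hh]
        exact floor_eq_close hh0 (a1.trans a2.symm))
    refine h1.trans ?_
    refine mul_le_mul_of_nonneg_left ?_ (by positivity)
    have h2 : (((P ka) ×ˢ (P ka)).filter fun q =>
        |b q.1 0 * b q.2 1 - b q.1 1 * b q.2 0| ≤ A ^ (3 + 6 / β) * δ).image
        (fun q => ((ka.1, q) : ℕ × ℕ × ℕ)) ⊆ T.filter fun q => (q.1, cell q.1 q.2.1) = ka := by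
      intro r hr
      obtain ⟨q, hq, rfl⟩ := Finset.mem_image.1 hr
      obtain ⟨g1, g2⟩ := Finset.mem_filter.1 hq
      obtain ⟨g3, g4⟩ := Finset.mem_product.1 g1
      obtain ⟨a1, a2, a3⟩ := Finset.mem_filter.1 g3
      obtain ⟨b1, b2, b3⟩ := Finset.mem_filter.1 g4
      refine Finset.mem_filter.2 ⟨Finset.mem_filter.2 ⟨Finset.mem_product.2
        ⟨hkZ, Finset.mem_product.2 ⟨a1, b1⟩⟩, a2, b2, a3.trans b3.symm, g2⟩, ?_⟩
      exact Prod.ext rfl a3
    have h3 := Finset.card_le_card h2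
    rw [Finset.card_image_of_injective _ (fun a b hab => (Prod.ext_iff.1 hab).2)] at h3
    exact_mod_cast h3
  have hTsum : ∑ ka ∈ KA, ((T.filter fun q => (q.1, cell q.1 q.2.1) = ka).card : ℝ) = (T.card : ℝ) := by
    have : T.card = ∑ ka ∈ KA, (T.filter fun q => (q.1, cell q.1 q.2.1) = ka).card := by
      refine Finset.card_eq_sum_card_fiberwise fun q hq => ?_
      obtain ⟨_, g2, _⟩ := Finset.mem_filter.1 hq
      exact Finset.mem_image.2 ⟨(q.2.1, q.1), g2, rfl⟩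
    rw [this]; push_cast; rfl
  -- Cauchy-Schwarz
  have hCS : (S.card : ℝ) ^ 2 ≤ (KA.card : ℝ) * (8 * A ^ 4 * (T.card : ℝ)) := by
    have h1 : (∑ ka ∈ KA, ((P ka).card : ℝ)) ^ 2 ≤ (KA.card : ℝ) * ∑ ka ∈ KA, ((P ka).card : ℝ) ^ 2 :=
      sq_sum_le_card_mul_sum_sq
    rw [← hPcard] at h1
    refine h1.trans (mul_le_mul_of_nonneg_left ?_ (Nat.cast_nonneg _))
    calc ∑ ka ∈ KA, ((P ka).card : ℝ) ^ 2 ≤ ∑ ka ∈ KA, 8 * A ^ 4 *
          ((T.filter fun q => (q.1, cell q.1 q.2.1) = ka).card : ℝ) := Finset.sum_le_sum hpen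
      _ = _ := by rw [← Finset.mul_sum, hTsum]
  have hTbig : (A ^ 13)⁻¹ * h * (L.card : ℝ) ^ 2 * (Z.card : ℝ) ≤ (T.card : ℝ) := by
    have h1 : ((L.card : ℝ) * Z.card) ^ 2 ≤ (2 * A * (S.card : ℝ)) ^ 2 :=
      pow_le_pow_left₀ (by positivity) hdens 2
    have h2 : (S.card : ℝ) ^ 2 ≤ (Z.card * (4 / h)) * (8 * A ^ 4 * (T.card : ℝ)) :=
      hCS.trans (mul_le_mul_of_nonneg_right hKAc (by positivity))
    have h3 : ((L.card : ℝ) * Z.card) ^ 2 ≤ 4 * A ^ 2 * ((Z.card * (4 / h)) *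
        (8 * A ^ 4 * (T.card : ℝ))) := by nlinarith
    have h4 : 4 * A ^ 2 * (((Z.card : ℝ) * (4 / h)) * (8 * A ^ 4 * (T.card : ℝ))) =
        128 * A ^ 6 * (Z.card : ℝ) * (T.card : ℝ) / h := by
      field_simp; ring
    rw [h4, le_div_iff₀ hh0] at h3
    have h5 : (h * (L.card : ℝ) ^ 2 * Z.card) * (Z.card : ℝ) ≤ (128 * A ^ 6 * (T.card : ℝ)) * Z.card := by
      nlinarith
    have h6 : h * (L.card : ℝ) ^ 2 * Z.card ≤ 128 * A ^ 6 * (T.card : ℝ) :=
      le_of_mul_le_mul_right h5 hZ0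
    have h7 : (128 : ℝ) * A ^ 6 ≤ A ^ 13 := by
      have : (2 : ℝ) ^ 7 ≤ A ^ 7 := pow_le_pow_left₀ (by norm_num) hA2 7
      have h8 : (0 : ℝ) < A ^ 6 := by positivity
      nlinarith
    have h8 : h * (L.card : ℝ) ^ 2 * Z.card ≤ A ^ 13 * (T.card : ℝ) :=
      h6.trans (mul_le_mul_of_nonneg_right h7 (Nat.cast_nonneg _))
    have h9 : (A ^ 13)⁻¹ * h * (L.card : ℝ) ^ 2 * (Z.card : ℝ) =
        (A ^ 13)⁻¹ * (h * (L.card : ℝ) ^ 2 * Z.card) := by ring
    rw [h9, inv_mul_le_iff₀ (by positivity)]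
    exact h8
  -- distances
  set t : ℝ := (A ^ (15 / m))⁻¹ with ht
  have ht14 : (0 : ℝ) < A ^ (15 / m) := Real.rpow_pos_of_pos hA0 _
  have ht141 : (1 : ℝ) ≤ A ^ (15 / m) := Real.one_le_rpow (by linarith) (by positivity)
  have ht0 : 0 < t := inv_pos.2 ht14
  have ht1 : t ≤ 1 := inv_le_one_of_one_le₀ ht141
  have hbig : A ^ (20 + 15 / m) = A ^ 20 * A ^ (15 / m) := by
    rw [Real.rpow_add hA0]; norm_num
  have hsm : A ^ 20 * A ^ (15 / m) * δ ≤ 1 := by rw [← hbig]; exact D.small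
  have hA20 : 2 * A ≤ A ^ 20 := by
    calc 2 * A ≤ A * A := by nlinarith
      _ = A ^ 2 := by ring
      _ ≤ A ^ 20 := pow_le_pow_right₀ (by linarith) (by norm_num)
  have hδt : δ ≤ t := by
    rw [ht, le_inv_comm₀ hδ ht14]
    rw [← one_div, le_div_iff₀ hδ]
    refine le_trans ?_ hsm
    refine mul_le_mul_of_nonneg_right ?_ hδ.le
    have : (1 : ℝ) ≤ A ^ 20 := one_le_pow₀ (by linarith)
    nlinarith
  have htm : t ^ m = (A ^ 15)⁻¹ := by
    rw [ht, Real.inv_rpow ht14.le, ← Real.rpow_mul hA0.le]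
    have : 15 / m * m = (15 : ℕ) := by
      field_simp
      norm_num
    rw [this, Real.rpow_natCast]
  have hmain := pairs_of_triples L Z z x c T (δ := h) (κ := (A ^ 13)⁻¹) (t := t)
    (K := A * (2 * h / t)) hh0 ht0 D.Z0 ?_ hTbig ?_ ?_
  · refine ⟨T.image Prod.snd, ?_, ?_⟩
    · intro q hq
      obtain ⟨r, hr, rfl⟩ := Finset.mem_image.1 hq
      obtain ⟨g1, g2, g3, g4, g5⟩ := Finset.mem_filter.1 hr
      exact ⟨⟨r.1, g2⟩, ⟨r.1, g3⟩, g5⟩
    · -- final arithmetic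
      have e1 : A * (2 * h / t) = 2 * h * (A * A ^ (15 / m)) := by
        rw [ht, div_inv_eq_mul]; ring
      rw [e1] at hmain
      have e2 : (A ^ 13)⁻¹ / 2 * h * (L.card : ℝ) ^ 2 = h * ((A ^ 13)⁻¹ / 2 * (L.card : ℝ) ^ 2) := by
        ring
      have e3 : 2 * h * (A * A ^ (15 / m)) * (((T.image Prod.snd).card : ℕ) : ℝ) =
          h * (2 * A * A ^ (15 / m) * ((T.image Prod.snd).card : ℝ)) := by ring
      rw [e2, e3] at hmain
      have h1 := le_of_mul_le_mul_left hmain hh0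
      have h2 : (L.card : ℝ) ^ 2 ≤ 4 * A ^ 14 * A ^ (15 / m) * ((T.image Prod.snd).card : ℝ) := by
        have h3 : (A ^ 13)⁻¹ / 2 * (L.card : ℝ) ^ 2 = (L.card : ℝ) ^ 2 / (2 * A ^ 13) := by
          field_simp
        rw [h3, div_le_iff₀ (by positivity)] at h1
        refine h1.trans (le_of_eq ?_)
        ring
      refine h2.trans ?_
      refine mul_le_mul_of_nonneg_right ?_ (Nat.cast_nonneg _)
      have h3 : A ^ (16 + 15 / m) = A ^ 16 * A ^ (15 / m) := by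
        rw [Real.rpow_add hA0]; norm_num
      rw [h3]
      refine mul_le_mul_of_nonneg_right ?_ ht14.le
      have h4 : (4 : ℝ) ≤ A ^ 2 := by nlinarith
      have h5 : (0 : ℝ) < A ^ 14 := by positivity
      nlinarith
  · intro q hq
    obtain ⟨g1, g2, g3, g4, g5⟩ := Finset.mem_filter.1 hq
    obtain ⟨a1, a2⟩ := Finset.mem_product.1 g1
    obtain ⟨a3, a4⟩ := Finset.mem_product.1 a2
    exact ⟨a1, a3, a4, floor_eq_close hh0 g4⟩
  · intro k hk l hl
    by_cases hne : (T.filter fun q => (q.1 = k ∧ q.2.1 = l) ∧ |c q.2.2 - c l| ≤ t).Nonempty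
    swap
    · rw [Finset.not_nonempty_iff_eq_empty] at hne
      rw [hne]
      simp
      positivity
    obtain ⟨q0, hq0⟩ := hne
    obtain ⟨a0, ⟨a1, a2⟩, a3⟩ := Finset.mem_filter.1 hq0
    obtain ⟨g1, g2, g3, g4, g5⟩ := Finset.mem_filter.1 a0
    rw [a1, a2] at g2
    have hlI : (l, k) ∈ I := D.gsub (hS g2)
    have h1 : ((T.filter fun q => (q.1 = k ∧ q.2.1 = l) ∧ |c q.2.2 - c l| ≤ t).card : ℝ) ≤
        ((L.filter fun l' => (l', k) ∈ I ∧ |(x l' + z k * c l') - (x l + z k * c l)| ≤ 2 * δ ∧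
          |c l' - c l| ≤ t).card : ℝ) := by
      have h2 : (T.filter fun q => (q.1 = k ∧ q.2.1 = l) ∧ |c q.2.2 - c l| ≤ t).card ≤
          ((T.filter fun q => (q.1 = k ∧ q.2.1 = l) ∧ |c q.2.2 - c l| ≤ t).image
            fun q => q.2.2).card := by
        rw [Finset.card_image_of_injOn]
        intro q hq q' hq' hqq
        obtain ⟨_, ⟨b1, b2⟩, _⟩ := Finset.mem_filter.1 hq
        obtain ⟨_, ⟨c1, c2⟩, _⟩ := Finset.mem_filter.1 hq'
        exact Prod.ext (b1.trans c1.symm) (Prod.ext (b2.trans c2.symm) hqq)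
      have h3 : (((T.filter fun q => (q.1 = k ∧ q.2.1 = l) ∧ |c q.2.2 - c l| ≤ t).image
            fun q => q.2.2)) ⊆ (L.filter fun l' => (l', k) ∈ I ∧
            |(x l' + z k * c l') - (x l + z k * c l)| ≤ 2 * δ ∧ |c l' - c l| ≤ t) := by
        intro l' hl'
        obtain ⟨q, hq, rfl⟩ := Finset.mem_image.1 hl'
        obtain ⟨b0, ⟨b1, b2⟩, b3⟩ := Finset.mem_filter.1 hq
        obtain ⟨d1, d2, d3, d4, d5⟩ := Finset.mem_filter.1 b0
        obtain ⟨_, d6⟩ := Finset.mem_product.1 d1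
        refine Finset.mem_filter.2 ⟨(Finset.mem_product.1 d6).2, ?_, ?_, b3⟩
        · rw [← b1]; exact D.gsub (hS d3)
        · have := floor_eq_close hh0 d4
          rw [b1, b2] at this
          refine this.trans ?_
          rw [hh]; linarith
      exact_mod_cast h2.trans (Finset.card_le_card h3)
    refine h1.trans ((D.up l k hlI t hδt (by linarith)).trans ?_)
    rw [htm]
    have h4 : A * (A ^ 15)⁻¹ ≤ (A ^ 13)⁻¹ / 2 := by
      have e : A * (A ^ 15)⁻¹ = 1 / A ^ 14 := by field_simp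
      rw [e, inv_eq_one_div, div_div, div_le_div_iff₀ (by positivity) (by positivity)]
      have : (0 : ℝ) < A ^ 13 := by positivity
      nlinarith
    calc A * δ * (A ^ 15)⁻¹ * (L.card : ℝ) = h * (L.card : ℝ) * (A * (A ^ 15)⁻¹) := by rw [hh]; ring
      _ ≤ h * (L.card : ℝ) * ((A ^ 13)⁻¹ / 2) := mul_le_mul_of_nonneg_left h4 (by positivity)
      _ = _ := by ring
  · intro k hk
    have h1 : δ ≤ 2 * h / t := by
      rw [le_div_iff₀ ht0]
      have : δ * t ≤ δ * 1 := mul_le_mul_of_nonneg_left ht1 hδ.le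
      rw [hh]; nlinarith
    have h2 : 2 * h / t ≤ 1 := by
      rw [ht, div_inv_eq_mul, hh]
      refine le_trans ?_ hsm
      have : 2 * δ * A ^ (15 / m) = 2 * (A ^ (15 / m) * δ) := by ring
      rw [this]
      have e : A ^ 20 * A ^ (15 / m) * δ = A ^ 20 * (A ^ (15 / m) * δ) := by ring
      rw [e]
      exact mul_le_mul_of_nonneg_right (by linarith) (by positivity)
    exact D.frost k hk _ h1 h2

end Crest.Agent.R136.RgE344
end

-- ▼ part R136/RgE5_344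
section

/-!
# R136 (S0187): RIG_E, finite combinatorics V (helper344): COH, conclusion
-/

set_option autoImplicit false
set_option linter.unusedVariables false

open Finset

namespace Crest.Agent.R136.RgE344

/-- popular values in every pencil, then one parity class of the mesh cells: the value `o k l` is
determined by the `X`-cell -/
theorem pop_all {A δ ϖ : ℝ} (hA : 0 < A) (hδ : 0 < δ) (hϖ : 0 < ϖ) (L Z : Finset ℕ)
    (hL : L.Nonempty) (I S : Finset (ℕ × ℕ)) (hI : I ⊆ L ×ˢ Z) (hS : S ⊆ I) (X : ℕ → ℕ → ℝ)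
    (o : ℕ → ℕ → ℝ) (H : ℕ → ℕ → Finset ℕ)
    (hcard : ∀ i k, (i, k) ∈ I → ((L.filter fun l => (l, k) ∈ I ∧ |X k l - X k i| ≤ 2 * δ).card : ℝ) ≤
      2 * A * δ * (L.card : ℝ))
    (hsub : ∀ i k, (i, k) ∈ S → H i k ⊆ L.filter fun l => (l, k) ∈ I)
    (hHc : ∀ i k, (i, k) ∈ S → δ * (L.card : ℝ) ≤ A * ((H i k).card : ℝ))
    (hHX : ∀ i k, (i, k) ∈ S → ∀ l ∈ H i k, |X k l - X k i| ≤ δ)
    (hHo : ∀ i k, (i, k) ∈ S → ∀ l ∈ H i k, |o k l - o k i| ≤ ϖ) :
    ∃ S' ⊆ S, (S.card : ℝ) ≤ 12 * A ^ 2 * (S'.card : ℝ) ∧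
      ∀ k i l, (i, k) ∈ S' → (l, k) ∈ S' → |X k l - X k i| ≤ δ → |o k l - o k i| ≤ ϖ := by
  classical
  have hL0 : (0 : ℝ) < L.card := by exact_mod_cast hL.card_pos
  obtain ⟨h, hh⟩ : ∃ h : ℝ, h = δ := ⟨δ, rfl⟩
  have hh0 : 0 < h := by rw [hh]; exact hδ
  set cell : ℕ → ℕ → ℤ := fun k l => ⌊X k l / h⌋ with hcell
  have hSL : S ⊆ L ×ˢ Z := hS.trans hI
  set P : ℕ × ℤ → Finset ℕ := fun ka => L.filter fun i => (i, ka.1) ∈ S ∧ cell ka.1 i = ka.2 with hP
  set KA := S.image (fun q => (q.2, cell q.2 q.1)) with hKA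
  have hPcard : (S.card : ℝ) = ∑ ka ∈ KA, ((P ka).card : ℝ) := card_pencils L Z S hSL cell
  -- popular value in every pencil
  have hpop : ∀ ka : ℕ × ℤ, ∃ P' ⊆ P ka, ((P ka).card : ℝ) ≤ 6 * A ^ 2 * (P'.card : ℝ) ∧
      ∀ i ∈ P', ∀ i' ∈ P', |o ka.1 i' - o ka.1 i| ≤ ϖ := by
    intro ka
    rcases (P ka).eq_empty_or_nonempty with he | ⟨i0, hi0⟩
    · exact ⟨∅, Finset.empty_subset _, by rw [he]; simp, by simp⟩
    obtain ⟨i0L, i0S, i0c⟩ := Finset.mem_filter.1 hi0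
    set Q := L.filter fun l => (l, ka.1) ∈ I ∧ |X ka.1 l - X ka.1 i0| ≤ 2 * δ with hQ
    have hQc : (Q.card : ℝ) ≤ 2 * A * δ * L.card := hcard i0 ka.1 (hS i0S)
    obtain ⟨P', hP'1, hP'2, hP'3⟩ := pop_val (P ka) Q (o ka.1) (w := ϖ) (h := δ * L.card / A) hϖ
      (by positivity) (by
        intro i hi
        obtain ⟨iL, iS, ic⟩ := Finset.mem_filter.1 hi
        have g1 : δ * (L.card : ℝ) / A ≤ ((H i ka.1).card : ℝ) := by
          rw [div_le_iff₀ hA]
          have := hHc i ka.1 iS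
          linarith
        refine g1.trans ?_
        refine mod_cast Finset.card_le_card fun l hl => ?_
        obtain ⟨g2, g3⟩ := Finset.mem_filter.1 (hsub i ka.1 iS hl)
        refine Finset.mem_filter.2 ⟨Finset.mem_filter.2 ⟨g2, g3, ?_⟩, hHo i ka.1 iS l hl⟩
        have g4 := hHX i ka.1 iS l hl
        have g5 : |X ka.1 i - X ka.1 i0| ≤ h := floor_eq_close hh0 (i0c.trans ic.symm)
        rw [abs_le] at g4 g5 ⊢
        constructor <;> linarith [g4.1, g4.2, g5.1, g5.2])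
    refine ⟨P', hP'1, ?_, hP'3⟩
    have g1 : δ * L.card / A * ((P ka).card : ℝ) ≤ 3 * (2 * A * δ * L.card) * (P'.card : ℝ) :=
      hP'2.trans (mul_le_mul_of_nonneg_right (mul_le_mul_of_nonneg_left hQc (by norm_num))
        (Nat.cast_nonneg _))
    have g2 : δ * L.card / A * ((P ka).card : ℝ) = (δ * L.card) * ((P ka).card : ℝ) / A := by ring
    rw [g2, div_le_iff₀ hA] at g1
    have g3 : (δ * L.card) * ((P ka).card : ℝ) ≤ (δ * L.card) * (6 * A ^ 2 * (P'.card : ℝ)) := by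
      refine g1.trans (le_of_eq ?_)
      ring
    exact le_of_mul_le_mul_left g3 (by positivity)
  choose P' hP'1 hP'2 hP'3 using hpop
  set S4 := S.filter fun q => q.1 ∈ P' (q.2, cell q.2 q.1) with hS4
  have hS4c : (S.card : ℝ) ≤ 6 * A ^ 2 * (S4.card : ℝ) := by
    have e1 : S4.card = ∑ ka ∈ KA, (S4.filter fun q => (q.2, cell q.2 q.1) = ka).card :=
      Finset.card_eq_sum_card_fiberwise fun q hq =>
        Finset.mem_image_of_mem _ (Finset.mem_filter.1 hq).1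
    rw [hPcard, e1]
    push_cast
    rw [Finset.mul_sum]
    refine Finset.sum_le_sum fun ka _ => (hP'2 ka).trans ?_
    refine mul_le_mul_of_nonneg_left ?_ (by positivity)
    have e2 : (P' ka).image (fun i => ((i, ka.1) : ℕ × ℕ)) ⊆
        S4.filter fun q => (q.2, cell q.2 q.1) = ka := by
      intro q hq
      obtain ⟨i, hi, rfl⟩ := Finset.mem_image.1 hq
      obtain ⟨g1, g2, g3⟩ := Finset.mem_filter.1 (hP'1 ka hi)
      have g4 : ((ka.1, cell ka.1 i) : ℕ × ℤ) = ka := Prod.ext rfl g3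
      refine Finset.mem_filter.2 ⟨Finset.mem_filter.2 ⟨g2, ?_⟩, g4⟩
      show i ∈ P' (ka.1, cell ka.1 i)
      rw [g4]; exact hi
    have e3 := Finset.card_le_card e2
    rw [Finset.card_image_of_injective _ (fun a b hab => (Prod.ext_iff.1 hab).1)] at e3
    exact_mod_cast e3
  -- parity
  have hval : ∀ k i l, (i, k) ∈ S4 → (l, k) ∈ S4 → cell k i = cell k l → |o k l - o k i| ≤ ϖ := by
    intro k i l hi hl hc
    have g1 := (Finset.mem_filter.1 hi).2
    have g2 := (Finset.mem_filter.1 hl).2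
    simp only at g1 g2
    rw [← hc] at g2
    exact hP'3 (k, cell k i) i g1 l g2
  have hpar : ∀ p : ℤ → Prop, [DecidablePred p] → (∀ a b : ℤ, p a → p b → |a - b| ≤ 1 → a = b) →
      ∀ k i l, (i, k) ∈ S4.filter (fun q => p (cell q.2 q.1)) →
        (l, k) ∈ S4.filter (fun q => p (cell q.2 q.1)) →
        |X k l - X k i| ≤ δ → |o k l - o k i| ≤ ϖ := by
    intro p _ hp k i l hi hl hX
    obtain ⟨i1, i2⟩ := Finset.mem_filter.1 hi
    obtain ⟨l1, l2⟩ := Finset.mem_filter.1 hl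
    refine hval k i l i1 l1 (hp _ _ i2 l2 ?_)
    have g0 : |X k l / h - X k i / h| ≤ 1 := by
      rw [← sub_div, abs_div, abs_of_pos hh0, div_le_one hh0, hh]
      exact hX
    rw [abs_le] at g0
    have g1 : ⌊X k l / h⌋ ≤ ⌊X k i / h⌋ + 1 := by
      rw [← Int.floor_add_one]
      exact Int.floor_le_floor (by linarith [g0.2])
    have g2 : ⌊X k i / h⌋ ≤ ⌊X k l / h⌋ + 1 := by
      rw [← Int.floor_add_one]
      exact Int.floor_le_floor (by linarith [g0.1])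
    rw [abs_le]
    constructor
    · show -1 ≤ ⌊X k i / h⌋ - ⌊X k l / h⌋
      omega
    · show ⌊X k i / h⌋ - ⌊X k l / h⌋ ≤ 1
      omega
  have hsplit : (S4.card : ℝ) = ((S4.filter fun q => Even (cell q.2 q.1)).card : ℝ) +
      ((S4.filter fun q => ¬ Even (cell q.2 q.1)).card : ℝ) := by
    exact_mod_cast (Finset.card_filter_add_card_filter_not (s := S4)
      (fun q => Even (cell q.2 q.1))).symm
  rcases le_total ((S4.filter fun q => ¬ Even (cell q.2 q.1)).card : ℝ)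
    ((S4.filter fun q => Even (cell q.2 q.1)).card : ℝ) with hle | hle
  · refine ⟨S4.filter fun q => Even (cell q.2 q.1),
      (Finset.filter_subset _ _).trans (Finset.filter_subset _ _), ?_, ?_⟩
    · refine hS4c.trans ?_
      have : (S4.card : ℝ) ≤ 2 * ((S4.filter fun q => Even (cell q.2 q.1)).card : ℝ) := by linarith
      calc 6 * A ^ 2 * (S4.card : ℝ) ≤ 6 * A ^ 2 * (2 * ((S4.filter fun q =>
            Even (cell q.2 q.1)).card : ℝ)) := mul_le_mul_of_nonneg_left this (by positivity)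
        _ = _ := by ring
    · refine hpar (fun a => Even a) ?_
      intro a b ha hb hab
      obtain ⟨r, rfl⟩ := ha
      obtain ⟨s, rfl⟩ := hb
      rw [abs_le] at hab
      omega
  · refine ⟨S4.filter fun q => ¬ Even (cell q.2 q.1),
      (Finset.filter_subset _ _).trans (Finset.filter_subset _ _), ?_, ?_⟩
    · refine hS4c.trans ?_
      have : (S4.card : ℝ) ≤ 2 * ((S4.filter fun q => ¬ Even (cell q.2 q.1)).card : ℝ) := by
        linarith
      calc 6 * A ^ 2 * (S4.card : ℝ) ≤ 6 * A ^ 2 * (2 * ((S4.filter fun q =>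
            ¬ Even (cell q.2 q.1)).card : ℝ)) := mul_le_mul_of_nonneg_left this (by positivity)
        _ = _ := by ring
    · refine hpar (fun a => ¬ Even a) ?_
      intro a b ha hb hab
      rw [Int.not_even_iff_odd] at ha hb
      obtain ⟨r, rfl⟩ := ha
      obtain ⟨s, rfl⟩ := hb
      rw [abs_le] at hab
      omega

/-- a strip around `i` for one normal is a strip for a nearby normal -/
theorem turn_strip {u b D : Fin 2 → ℝ} {s t M : ℝ} (hu : u 0 ^ 2 + u 1 ^ 2 = 1)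
    (hb : b 0 ^ 2 + b 1 ^ 2 = 1) (hdet : |u 0 * b 1 - u 1 * b 0| ≤ s)
    (hD : |b 0 * D 0 + b 1 * D 1| ≤ t) (hM : ∀ j, |D j| ≤ M) :
    |u 0 * D 0 + u 1 * D 1| ≤ t + s * (2 * M) := by
  have hle : ∀ {b : Fin 2 → ℝ}, b 0 ^ 2 + b 1 ^ 2 = 1 → ∀ j, |b j| ≤ 1 := by
    intro b hb j
    rw [← sq_le_one_iff_abs_le_one]
    fin_cases j
    · show b 0 ^ 2 ≤ 1
      nlinarith [sq_nonneg (b 1)]
    · show b 1 ^ 2 ≤ 1
      nlinarith [sq_nonneg (b 0)]
  have hs0 : 0 ≤ s := (abs_nonneg _).trans hdet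
  have ht0 : 0 ≤ t := (abs_nonneg _).trans hD
  have hM0 : 0 ≤ M := (abs_nonneg _).trans (hM 0)
  have e1 : u 0 * D 0 + u 1 * D 1 = (u 0 * b 0 + u 1 * b 1) * (b 0 * D 0 + b 1 * D 1) +
      (u 0 * b 1 - u 1 * b 0) * (b 1 * D 0 - b 0 * D 1) := by
    have : u 0 * D 0 + u 1 * D 1 = (b 0 ^ 2 + b 1 ^ 2) * (u 0 * D 0 + u 1 * D 1) := by
      rw [hb, one_mul]
    rw [this]; ring
  have h1 : |u 0 * b 0 + u 1 * b 1| ≤ 1 := by
    rw [← sq_le_one_iff_abs_le_one]
    nlinarith [sq_nonneg (u 0 * b 1 - u 1 * b 0)]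
  have h2 : |b 1 * D 0 - b 0 * D 1| ≤ 2 * M := by
    refine (abs_sub _ _).trans ?_
    rw [abs_mul, abs_mul]
    have a1 : |b 1| * |D 0| ≤ 1 * M := mul_le_mul (hle hb 1) (hM 0) (abs_nonneg _) (by norm_num)
    have a2 : |b 0| * |D 1| ≤ 1 * M := mul_le_mul (hle hb 0) (hM 1) (abs_nonneg _) (by norm_num)
    linarith
  rw [e1]
  refine (abs_add_le _ _).trans ?_
  rw [abs_mul, abs_mul]
  have a1 : |u 0 * b 0 + u 1 * b 1| * |b 0 * D 0 + b 1 * D 1| ≤ 1 * t :=
    mul_le_mul h1 hD (abs_nonneg _) (by norm_num)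
  have a2 : |u 0 * b 1 - u 1 * b 0| * |b 1 * D 0 - b 0 * D 1| ≤ s * (2 * M) :=
    mul_le_mul hdet h2 (abs_nonneg _) hs0
  linarith

variable {A δ m β : ℝ} {L Z : Finset ℕ} {I Ig : Finset (ℕ × ℕ)} {z x c : ℕ → ℝ}
    {w e b : ℕ → Fin 2 → ℝ} {H : ℕ → ℕ → Finset ℕ}

set_option maxHeartbeats 1000000 in
/-- **COH**: one normal for a dense set of incidences -/
theorem coh (D : CohData A δ m β L Z I Ig z x c w e b H) :
    ∃ (u : Fin 2 → ℝ) (I' : Finset (ℕ × ℕ)), u 0 ^ 2 + u 1 ^ 2 = 1 ∧ I' ⊆ Ig ∧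
      (L.card : ℝ) * (Z.card : ℝ) ≤ A ^ (24 + 15 / m) * (I'.card : ℝ) ∧
      ∀ k i l, (i, k) ∈ I' → (l, k) ∈ I' →
        |(x l + z k * c l) - (x i + z k * c i)| ≤ δ →
        |(u 0 * w l 0 + u 1 * w l 1 - (u 0 * e k 0 + u 1 * e k 1) * c l) -
          (u 0 * w i 0 + u 1 * w i 1 - (u 0 * e k 0 + u 1 * e k 1) * c i)| ≤
            A ^ (7 + 6 / β) * δ := by
  classical
  have hA2 := D.A2
  have hA0 : 0 < A := by linarith
  have hA1 : 1 ≤ A := by linarith
  have hδ := D.δ0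
  have hm0 := D.m0
  have hm1 := D.m1
  have hL0 : (0 : ℝ) < L.card := by exact_mod_cast D.L0.card_pos
  have hZ0 : (0 : ℝ) < Z.card := by exact_mod_cast D.Z0.card_pos
  obtain ⟨L1, hL1, hdeg, hdens⟩ := prune_lines L Z Ig (D.gsub.trans D.sub) hA0 D.dens
  obtain ⟨W, hW1, hW2⟩ := coh_pairs D (Ig.filter fun q => q.1 ∈ L1) (Finset.filter_subset _ _) hdens
  set K : ℝ := 16 + 15 / m with hK
  set ϖ := A ^ (3 + 6 / β) * δ with hϖ
  have hAK : (0 : ℝ) < A ^ K := Real.rpow_pos_of_pos hA0 _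
  have hWL : ∀ q ∈ W, q.1 ∈ L1 ∧ q.2 ∈ L1 := by
    intro q hq
    obtain ⟨⟨k, hk⟩, ⟨k', hk'⟩, _⟩ := hW1 q hq
    exact ⟨(Finset.mem_filter.1 hk).2, (Finset.mem_filter.1 hk').2⟩
  -- a popular line
  obtain ⟨i0, hi0L, hi0⟩ : ∃ i0 ∈ L, (L.card : ℝ) ≤ A ^ K * ((W.filter fun q => q.1 = i0).card : ℝ) := by
    by_contra hcon
    push Not at hcon
    have e1 : (W.card : ℝ) = ∑ i ∈ L, ((W.filter fun q => q.1 = i).card : ℝ) := by
      have : W.card = ∑ i ∈ L, (W.filter fun q => q.1 = i).card :=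
        Finset.card_eq_sum_card_fiberwise fun q hq => hL1 (hWL q hq).1
      rw [this]; push_cast; rfl
    have e2 : ∑ i ∈ L, A ^ K * ((W.filter fun q => q.1 = i).card : ℝ) < ∑ _i ∈ L, (L.card : ℝ) :=
      Finset.sum_lt_sum_of_nonempty D.L0 hcon
    rw [← Finset.mul_sum, ← e1, Finset.sum_const, nsmul_eq_mul] at e2
    have : (L.card : ℝ) ^ 2 = L.card * L.card := sq _
    linarith
  set u := b i0 with hu
  have hu1 : u 0 ^ 2 + u 1 ^ 2 = 1 := D.unit i0
  set L2 := L1.filter fun l => |u 0 * b l 1 - u 1 * b l 0| ≤ ϖ with hL2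
  have hL2c : (L.card : ℝ) ≤ A ^ K * (L2.card : ℝ) := by
    refine hi0.trans (mul_le_mul_of_nonneg_left ?_ hAK.le)
    have h1 : ((W.filter fun q => q.1 = i0).image fun q => q.2) ⊆ L2 := by
      intro l hl
      obtain ⟨q, hq, rfl⟩ := Finset.mem_image.1 hl
      obtain ⟨g1, g2⟩ := Finset.mem_filter.1 hq
      refine Finset.mem_filter.2 ⟨(hWL q g1).2, ?_⟩
      have := (hW1 q g1).2.2
      rw [g2] at this
      exact this
    have h2 := Finset.card_le_card h1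
    rw [Finset.card_image_of_injOn] at h2
    · exact_mod_cast h2
    · intro q hq q' hq' hqq
      exact Prod.ext ((Finset.mem_filter.1 hq).2.trans (Finset.mem_filter.1 hq').2.symm) hqq
  set I3 := Ig.filter fun q => q.1 ∈ L2 with hI3
  have hI3c : (L.card : ℝ) * (Z.card : ℝ) ≤ A ^ (K + 2) * (I3.card : ℝ) := by
    have h1 := card_restr Z Ig L2 (A := A) (fun l hl => hdeg l (Finset.mem_filter.1 hl).1)
    calc (L.card : ℝ) * (Z.card : ℝ) ≤ (A ^ K * (L2.card : ℝ)) * Z.card :=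
          mul_le_mul_of_nonneg_right hL2c hZ0.le
      _ = A ^ K * ((L2.card : ℝ) * Z.card) := by ring
      _ ≤ A ^ K * (2 * A * (I3.card : ℝ)) := mul_le_mul_of_nonneg_left h1 hAK.le
      _ = (A ^ K * (2 * A)) * (I3.card : ℝ) := by ring
      _ ≤ _ := by
        refine mul_le_mul_of_nonneg_right ?_ (Nat.cast_nonneg _)
        have e3 : A ^ (K + 2) = A ^ K * A ^ 2 := by
          rw [Real.rpow_add hA0 K 2]; norm_num
        rw [e3]
        refine mul_le_mul_of_nonneg_left ?_ hAK.le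
        nlinarith
  -- strips around every line of `I3` for the common normal
  set o : ℕ → ℕ → ℝ := fun k l => u 0 * w l 0 + u 1 * w l 1 - (u 0 * e k 0 + u 1 * e k 1) * c l with ho
  have hodv : ∀ k i l, o k l - o k i = u 0 * dv w c (e k) i l 0 + u 1 * dv w c (e k) i l 1 := by
    intro k i l
    simp only [ho, dv]
    ring
  have hpow : (1 : ℝ) ≤ A ^ (3 + 6 / β) := Real.one_le_rpow hA1 (by
    have := D.β0
    positivity)
  have hpow2 : A ^ (7 + 6 / β) = A ^ 4 * A ^ (3 + 6 / β) := by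
    rw [show (7 : ℝ) + 6 / β = 4 + (3 + 6 / β) by ring, Real.rpow_add hA0]
    norm_num
  have hA4 : (16 : ℝ) ≤ A ^ 4 := by
    have : (2 : ℝ) ^ 4 ≤ A ^ 4 := pow_le_pow_left₀ (by norm_num) hA2 4
    norm_num at this
    exact this
  have hpop := pop_all (ϖ := A ^ (7 + 6 / β) * δ) hA0 hδ (by positivity) L Z D.L0 I I3 D.sub
    ((Finset.filter_subset _ _).trans D.gsub) (fun k l => x l + z k * c l) o H ?_ ?_ ?_ ?_ ?_
  · obtain ⟨I', hI'1, hI'2, hI'3⟩ := hpop
    refine ⟨u, I', hu1, hI'1.trans (Finset.filter_subset _ _), ?_, hI'3⟩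
    calc (L.card : ℝ) * (Z.card : ℝ) ≤ A ^ (K + 2) * (I3.card : ℝ) := hI3c
      _ ≤ A ^ (K + 2) * (12 * A ^ 2 * (I'.card : ℝ)) :=
          mul_le_mul_of_nonneg_left hI'2 (by positivity)
      _ = (A ^ (K + 2) * (12 * A ^ 2)) * (I'.card : ℝ) := by ring
      _ ≤ _ := by
        refine mul_le_mul_of_nonneg_right ?_ (Nat.cast_nonneg _)
        have e1 : (24 : ℝ) + 15 / m = (K + 2) + 6 := by rw [hK]; ring
        rw [e1, Real.rpow_add hA0 (K + 2) 6]
        refine mul_le_mul_of_nonneg_left ?_ (Real.rpow_pos_of_pos hA0 _).le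
        have e2 : A ^ (6 : ℝ) = A ^ 4 * A ^ 2 := by
          rw [show (6 : ℝ) = ((6 : ℕ) : ℝ) by norm_num, Real.rpow_natCast]
          ring
        rw [e2]
        refine mul_le_mul_of_nonneg_right ?_ (by positivity)
        linarith
  · intro i k hik
    have hiL := (Finset.mem_product.1 (D.sub hik)).1
    have h2m : (2 : ℝ) ^ m ≤ 2 := by
      calc (2 : ℝ) ^ m ≤ 2 ^ (1 : ℝ) := Real.rpow_le_rpow_of_exponent_le (by norm_num) hm1
        _ = 2 := Real.rpow_one 2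
    have hδ2 : δ ≤ 2 := by
      have h1 := D.small1
      nlinarith
    have h1 := D.up i k hik 2 hδ2 le_rfl
    refine le_trans ?_ (h1.trans ?_)
    · refine mod_cast Finset.card_le_card fun l hl => ?_
      obtain ⟨g1, g2, g3⟩ := Finset.mem_filter.1 hl
      refine Finset.mem_filter.2 ⟨g1, g2, g3, ?_⟩
      have a1 := (D.bc l g1).1
      have a2 := (D.bc i hiL).1
      exact (abs_sub _ _).trans (by linarith)
    · calc A * δ * 2 ^ m * (L.card : ℝ) ≤ A * δ * 2 * (L.card : ℝ) := by gcongr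
        _ = _ := by ring
  · intro i k hik
    exact D.H_sub i k (Finset.mem_filter.1 hik).1
  · intro i k hik
    exact D.H_card i k (Finset.mem_filter.1 hik).1
  · intro i k hik
    exact D.H_X i k (Finset.mem_filter.1 hik).1
  · intro i k hik l hl
    obtain ⟨g1, g2⟩ := Finset.mem_filter.1 hik
    obtain ⟨g3, g4⟩ := Finset.mem_filter.1 g2
    have hikI := D.gsub g1
    obtain ⟨hiL, hkZ⟩ := Finset.mem_product.1 (D.sub hikI)
    obtain ⟨g5, g6⟩ := Finset.mem_filter.1 (D.H_sub i k g1 hl)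
    rw [hodv]
    have h1 := turn_strip (M := 6) hu1 (D.unit i) g4 (D.H_b i k g1 l hl) (by
      intro j
      unfold dv
      have a1 := (D.bc l g5).2 j
      have a2 := (D.bc i hiL).2 j
      have a3 := (D.bc l g5).1
      have a4 := (D.bc i hiL).1
      have a5 := D.be k hkZ j
      have a6 : |c l - c i| ≤ 2 := (abs_sub _ _).trans (by linarith)
      have a7 : |e k j * (c l - c i)| ≤ 2 * 2 := by
        rw [abs_mul]
        exact mul_le_mul a5 a6 (abs_nonneg _) (by norm_num)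
      have a8 : |w l j - w i j| ≤ 2 := (abs_sub _ _).trans (by linarith)
      exact (abs_sub _ _).trans (by linarith))
    refine h1.trans ?_
    rw [hpow2, hϖ]
    have h2 : A * δ ≤ A ^ (3 + 6 / β) * δ := by
      refine mul_le_mul_of_nonneg_right ?_ hδ.le
      calc A = A ^ (1 : ℝ) := (Real.rpow_one A).symm
        _ ≤ _ := Real.rpow_le_rpow_of_exponent_le hA1 (by
          have := D.β0
          have : 0 ≤ 6 / β := by positivity
          linarith)
    have h3 : 13 * (A ^ (3 + 6 / β) * δ) ≤ A ^ 4 * (A ^ (3 + 6 / β) * δ) :=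
      mul_le_mul_of_nonneg_right (by linarith) (by positivity)
    nlinarith

end Crest.Agent.R136.RgE344
end

-- ▼ part R136/RgE6_344

/-!
# R136 (S0187): RIG_E, asymptotic wrapper I (helper344): counts of a window of case (E)
-/

set_option autoImplicit false
set_option linter.unusedVariables false
set_option linter.unusedSectionVars false

open Filter Topology Finset

namespace Crest.Agent.R136.RgE344

open Crest.Agent.R136.Sh605
open Crest.Agent.R138.Ex926 (Base U)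
open Crest.Agent.R136.Gf356
open Crest.Agent.R136.RgN344
open Crest.Agent.R136.Wk323 (coA one_le_rpow_neg ev_mul_le)

variable {B : Base} {G : ℕ → RCfg (Fin 11)} {Leg : Set (Fin 11 → ℝ)} {ν : (Fin 11 → ℝ) → ℝ}
  {D R x y m β : ℝ} {T : ℕ → ℕ → Ln4} {E fa fb : ℕ → ℕ → ℝ}

/-! ### uniformity in a real parameter -/

theorem ev_grid {s η : ℝ} (hs : 0 ≤ s) (hη : 0 < η) (Q : ℝ → ℕ → Prop)
    (h : ∀ t, 0 ≤ t → t ≤ s → ∀ᶠ n in (U : Filter ℕ), Q t n) :
    ∀ᶠ n in (U : Filter ℕ), ∀ t, 0 ≤ t → t ≤ s → ∃ t', 0 ≤ t' ∧ t' ≤ t ∧ t ≤ t' + η ∧ Q t' n := by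
  obtain ⟨J, hJ⟩ := exists_nat_gt (s / η)
  have hev : ∀ᶠ n in (U : Filter ℕ), ∀ j ∈ Finset.range (J + 1), η * j ≤ s → Q (η * j) n := by
    rw [Filter.eventually_all_finset]
    intro j hj
    by_cases hjs : η * j ≤ s
    · filter_upwards [h (η * j) (by positivity) hjs] with n hn _ using hn
    · exact Eventually.of_forall fun n hc => absurd hc hjs
  filter_upwards [hev] with n hn t ht0 hts
  have hfl : (⌊t / η⌋₊ : ℝ) ≤ t / η := Nat.floor_le (by positivity)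
  have hfl2 : t / η < (⌊t / η⌋₊ : ℝ) + 1 := Nat.lt_floor_add_one _
  have h1 : η * (⌊t / η⌋₊ : ℝ) ≤ t := by
    rw [le_div_iff₀ hη] at hfl
    linarith
  have h2 : t ≤ η * (⌊t / η⌋₊ : ℝ) + η := by
    rw [div_lt_iff₀ hη] at hfl2
    linarith
  refine ⟨η * ⌊t / η⌋₊, by positivity, h1, h2, hn _ ?_ (h1.trans hts)⟩
  rw [Finset.mem_range]
  have h3 : (⌊t / η⌋₊ : ℝ) < J := by
    refine lt_of_le_of_lt hfl (lt_of_le_of_lt ?_ hJ)
    exact div_le_div_of_nonneg_right hts hη.le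
  have h4 : ⌊t / η⌋₊ < J := by exact_mod_cast h3
  omega

theorem exists_exp (B : Base) (n : ℕ) {s r : ℝ} (hr : B.d n ^ s ≤ r) (hr1 : r ≤ 1) :
    ∃ t, 0 ≤ t ∧ t ≤ s ∧ B.d n ^ t = r := by
  have hr0 : 0 < r := lt_of_lt_of_le (rpos B n s) hr
  have hlogd : Real.log (B.d n) < 0 := Real.log_neg (B.pos n) (B.lt n)
  have hdy : B.d n ^ (Real.log r / Real.log (B.d n)) = r := by
    rw [Real.rpow_def_of_pos (B.pos n), mul_div_cancel₀ _ hlogd.ne, Real.exp_log hr0]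
  refine ⟨Real.log r / Real.log (B.d n), div_nonneg_of_nonpos (Real.log_nonpos hr0.le hr1) hlogd.le,
    ?_, hdy⟩
  by_contra hcon
  push Not at hcon
  have g1 := Real.rpow_lt_rpow_of_exponent_gt (B.pos n) (B.lt n) hcon
  rw [hdy] at g1
  linarith

/-- mesh point for a real number `r` -/
theorem ev_grid_r {s η : ℝ} (hs : 0 ≤ s) (hη : 0 < η) (Q : ℝ → ℕ → Prop)
    (h : ∀ t, 0 ≤ t → t ≤ s → ∀ᶠ n in (U : Filter ℕ), Q t n) :
    ∀ᶠ n in (U : Filter ℕ), ∀ r, B.d n ^ s ≤ r → r ≤ 1 →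
      ∃ t, 0 ≤ t ∧ t ≤ s ∧ r ≤ B.d n ^ t ∧ B.d n ^ t ≤ B.d n ^ (-η) * r ∧ Q t n := by
  filter_upwards [ev_grid hs hη Q h] with n hn r hr hr1
  obtain ⟨t, ht0, hts, rfl⟩ := exists_exp B n hr hr1
  obtain ⟨t', h1, h2, h3, h4⟩ := hn t ht0 hts
  refine ⟨t', h1, h2.trans hts, rpow_anti B n h2, ?_, h4⟩
  rw [← rpow_add']
  exact rpow_anti B n (by linarith)

/-! ### coordinates -/

theorem qE_le {a b c d z : ℝ} (hz : 0 ≤ z) (ha : a ≤ z) (hb : b ≤ z) (hc : c ≤ z) (hd : d ≤ z)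
    (s : Fin 11) : qE a b c d s ≤ z := by
  fin_cases s
  · exact hz
  · exact hz
  · exact hz
  · exact hz
  · exact hz
  · exact hc
  · exact hd
  · exact hd
  · exact ha
  · exact hb
  · exact hb

/-- relative coordinates small ⇒ absolute relative coordinates small -/
theorem AbsE.co_le (A : AbsE B G x T E fa fb) (H : RUnif B G Leg ν D) {p : Fin 11 → ℝ}
    (hp : ∀ s, p s ≤ x) {ε : ℝ} (hε : 0 < ε) :
    ∀ᶠ n in (U : Filter ℕ), ∀ k i l, (i, k) ∈ (G n).I → (l, k) ∈ (G n).I →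
      (G n).loose p ε k i l → ∀ s ∈ ({5, 6, 7, 8, 9, 10} : Finset (Fin 11)),
        |coA (T n i) (T n l) (E n k) (E n k) (fa n k) (fa n k) (fb n k) ((G n).z k) s| ≤
          2 * B.d n ^ (p s - ε) := by
  filter_upwards [A.rel ε hε] with n h k i l hi hl hlo s hs
  have h1 := h k i l hi hl s hs
  have h2 := hlo s
  rw [H.base n] at h2
  have h3 : B.d n ^ (x - ε) ≤ B.d n ^ (p s - ε) := rpow_anti B n (by linarith [hp s])
  rw [abs_le] at *
  constructor <;> linarith [h1.1, h1.2, h2.1, h2.2]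

/-- the two coordinates of `W'` -/
theorem dE_le {n k i l : ℕ} {z t : ℝ} (hfb : |fb n k| ≤ 1)
    (h6 : |coA (T n i) (T n l) (E n k) (E n k) (fa n k) (fa n k) (fb n k) z 6| ≤ t)
    (h7 : |coA (T n i) (T n l) (E n k) (E n k) (fa n k) (fa n k) (fb n k) z 7| ≤ t) (j : Fin 2) :
    |dE T E fa fb n k i l j| ≤ 2 * t := by
  have h6' : |((T n l).v 2 - (T n i).v 2) - E n k * ((T n l).v 1 - (T n i).v 1)| ≤ t := h6
  have h7' : |((T n l).v 0 - (T n i).v 0) - fa n k * ((T n l).v 1 - (T n i).v 1) -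
    fb n k * ((T n l).v 2 - (T n i).v 2)| ≤ t := h7
  have ht : 0 ≤ t := (abs_nonneg _).trans h6'
  have h8 : |fb n k * (((T n l).v 2 - (T n i).v 2) - E n k * ((T n l).v 1 - (T n i).v 1))| ≤ t := by
    rw [abs_mul]
    calc _ ≤ 1 * t := mul_le_mul hfb h6' (abs_nonneg _) (by norm_num)
      _ = t := one_mul t
  fin_cases j
  · show |((T n l).v 2 - (T n i).v 2) - E n k * ((T n l).v 1 - (T n i).v 1)| ≤ 2 * t
    linarith
  · show |((T n l).v 0 - (T n i).v 0) - (fa n k + fb n k * E n k) *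
      ((T n l).v 1 - (T n i).v 1)| ≤ 2 * t
    have e : ((T n l).v 0 - (T n i).v 0) - (fa n k + fb n k * E n k) *
      ((T n l).v 1 - (T n i).v 1) = (((T n l).v 0 - (T n i).v 0) -
        fa n k * ((T n l).v 1 - (T n i).v 1) - fb n k * ((T n l).v 2 - (T n i).v 2)) +
        fb n k * (((T n l).v 2 - (T n i).v 2) - E n k * ((T n l).v 1 - (T n i).v 1)) := by ring
    rw [e]
    exact (abs_add_le _ _).trans (by linarith)

/-- absolute coordinates small ⇒ relative coordinates small (`b = 0`) -/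
theorem AbsE.loose_of (A : AbsE B G x T E fa fb) (H : RUnif B G Leg ν D) {a c d : ℝ}
    (ha : a ≤ x) (hc : c ≤ x) (hd : d ≤ x) {ε : ℝ} (hε : 0 < ε) (K : ℝ) :
    ∀ᶠ n in (U : Filter ℕ), ∀ k i l, (i, k) ∈ (G n).I → (l, k) ∈ (G n).I →
      (0 < a → |(T n l).pos ((G n).z k) 1 - (T n i).pos ((G n).z k) 1| ≤ K * B.d n ^ (a - ε)) →
      (0 < c → |(T n l).v 1 - (T n i).v 1| ≤ K * B.d n ^ (c - ε)) →
      (0 < d → ∀ j, |dE T E fa fb n k i l j| ≤ K * B.d n ^ (d - ε)) →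
      (G n).loose (qE a 0 c d) (2 * ε) k i l := by
  filter_upwards [A.rel ε hε, A.bdr, A.bd, ev_const_le B hε (2 * |K| + 1)] with n h hbd hb hK
    k i l hi hl h1 h2 h3 s
  rw [H.base n]
  obtain ⟨_, _, _, _, _, bfb⟩ := hb i k hi
  have htriv : ∀ t : ℝ, t ≤ 0 → |(G n).rel k i l s| ≤ B.d n ^ (t - 2 * ε) := by
    intro t ht
    refine (hbd k i l hi hl s).trans ?_
    have := one_le_rpow_neg B n (t := 2 * ε - t) (by linarith)
    have e1 : -(2 * ε - t) = t - 2 * ε := by ring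
    rwa [e1] at this
  have hgen : ∀ t : ℝ, t ≤ x → s ∈ ({5, 6, 7, 8, 9, 10} : Finset (Fin 11)) →
      |coA (T n i) (T n l) (E n k) (E n k) (fa n k) (fa n k) (fb n k) ((G n).z k) s| ≤
        2 * |K| * B.d n ^ (t - ε) → |(G n).rel k i l s| ≤ B.d n ^ (t - 2 * ε) := by
    intro t ht hs hco
    have g1 := h k i l hi hl s hs
    have g3 : B.d n ^ (x - ε) ≤ B.d n ^ (t - ε) := rpow_anti B n (by linarith)
    have g4 : (2 * |K| + 1) * B.d n ^ (t - ε) ≤ B.d n ^ (t - 2 * ε) := by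
      have e1 : B.d n ^ (t - 2 * ε) = B.d n ^ (-ε) * B.d n ^ (t - ε) := by
        rw [← rpow_add']; congr 1; ring
      rw [e1]
      exact mul_le_mul_of_nonneg_right hK (rpos B n _).le
    refine le_trans ?_ g4
    rw [abs_le] at *
    constructor <;> linarith [g1.1, g1.2, hco.1, hco.2]
  have hKK : ∀ t : ℝ, K * B.d n ^ t ≤ |K| * B.d n ^ t := fun t =>
    mul_le_mul_of_nonneg_right (le_abs_self K) (rpos B n _).le
  have hK0 : ∀ t : ℝ, 0 ≤ |K| * B.d n ^ t := fun t => mul_nonneg (abs_nonneg _) (rpos B n _).le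
  fin_cases s
  · exact htriv 0 le_rfl
  · exact htriv 0 le_rfl
  · exact htriv 0 le_rfl
  · exact htriv 0 le_rfl
  · exact htriv 0 le_rfl
  · show |(G n).rel k i l 5| ≤ B.d n ^ (c - 2 * ε)
    rcases le_or_gt c 0 with h0 | h0
    · exact htriv c h0
    · refine hgen c hc (by decide) ?_
      show |(T n l).v 1 - (T n i).v 1| ≤ 2 * |K| * B.d n ^ (c - ε)
      linarith [h2 h0, hKK (c - ε), hK0 (c - ε)]
  · show |(G n).rel k i l 6| ≤ B.d n ^ (d - 2 * ε)
    rcases le_or_gt d 0 with h0 | h0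
    · exact htriv d h0
    · refine hgen d hd (by decide) ?_
      have := h3 h0 0
      have e0 : dE T E fa fb n k i l 0 = coA (T n i) (T n l) (E n k) (E n k) (fa n k) (fa n k)
        (fb n k) ((G n).z k) 6 := rfl
      rw [e0] at this
      have e1 : (⟨6, by decide⟩ : Fin 11) = 6 := rfl
      show |coA (T n i) (T n l) (E n k) (E n k) (fa n k) (fa n k)
        (fb n k) ((G n).z k) 6| ≤ 2 * |K| * B.d n ^ (d - ε)
      linarith [hKK (d - ε), hK0 (d - ε)]
  · show |(G n).rel k i l 7| ≤ B.d n ^ (d - 2 * ε)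
    rcases le_or_gt d 0 with h0 | h0
    · exact htriv d h0
    · refine hgen d hd (by decide) ?_
      have g0 := h3 h0 0
      have g1 := h3 h0 1
      have e0 : coA (T n i) (T n l) (E n k) (E n k) (fa n k) (fa n k)
        (fb n k) ((G n).z k) 7 = dE T E fa fb n k i l 1 - fb n k * dE T E fa fb n k i l 0 := by
        show ((T n l).v 0 - (T n i).v 0) - fa n k * ((T n l).v 1 - (T n i).v 1) -
          fb n k * ((T n l).v 2 - (T n i).v 2) =
          (((T n l).v 0 - (T n i).v 0) - (fa n k + fb n k * E n k) *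
          ((T n l).v 1 - (T n i).v 1)) - fb n k * (((T n l).v 2 - (T n i).v 2) -
          E n k * ((T n l).v 1 - (T n i).v 1))
        ring
      show |coA (T n i) (T n l) (E n k) (E n k) (fa n k) (fa n k)
        (fb n k) ((G n).z k) 7| ≤ 2 * |K| * B.d n ^ (d - ε)
      rw [e0]
      have g2 : |fb n k * dE T E fa fb n k i l 0| ≤ |K| * B.d n ^ (d - ε) := by
        rw [abs_mul]
        calc _ ≤ 1 * (K * B.d n ^ (d - ε)) := mul_le_mul bfb g0 (abs_nonneg _) (by norm_num)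
          _ ≤ _ := by linarith [hKK (d - ε)]
      refine (abs_sub _ _).trans ?_
      linarith [hKK (d - ε), hK0 (d - ε)]
  · show |(G n).rel k i l 8| ≤ B.d n ^ (a - 2 * ε)
    rcases le_or_gt a 0 with h0 | h0
    · exact htriv a h0
    · refine hgen a ha (by decide) ?_
      show |(T n l).pos ((G n).z k) 1 - (T n i).pos ((G n).z k) 1| ≤ 2 * |K| * B.d n ^ (a - ε)
      linarith [h1 h0, hKK (a - ε), hK0 (a - ε)]
  · exact htriv 0 le_rfl
  · exact htriv 0 le_rfl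

/-! ### counts -/

theorem bd_zero (A : AbsE B G x T E fa fb) (H : RUnif B G Leg ν D) :
    Bd G (qE 0 0 0 0) 1 := by
  intro ε hε
  filter_upwards [A.bdr] with n h k i l hi hl s
  rw [H.base n]
  refine (h k i l hi hl s).trans ?_
  have h1 : qE 0 0 0 0 s ≤ 0 := qE_le le_rfl le_rfl le_rfl le_rfl le_rfl s
  have := one_le_rpow_neg B n (t := 1 * ε - qE 0 0 0 0 s) (by linarith)
  have e1 : -(1 * ε - qE 0 0 0 0 s) = qE 0 0 0 0 s - 1 * ε := by ring
  rwa [e1] at this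

theorem ProfE.zero (P : ProfE Leg ν x y m β) : qE 0 0 0 0 ∈ Leg :=
  P.leg 0 0 0 0 le_rfl P.x0.le le_rfl P.x0.le le_rfl P.x0.le le_rfl P.x0.le

theorem L_pos (H : RUnif B G Leg ν D) (n : ℕ) : (0 : ℝ) < (G n).L.card := by
  obtain ⟨⟨i1, k1⟩, hI1⟩ := H.nonempty n
  have : (G n).L.Nonempty := ⟨i1, H.memL hI1⟩
  exact_mod_cast this.card_pos

/-- number of lines from below -/
theorem L_ge (H : RUnif B G Leg ν D) (P : ProfE Leg ν x y m β) {ε : ℝ} (hε : 0 < ε) :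
    ∀ᶠ n in (U : Filter ℕ), B.d n ^ (-ν (qE 0 0 0 0) + ε) ≤ ((G n).L.card : ℝ) := by
  filter_upwards [slice_ge H _ P.zero hε] with n h
  obtain ⟨⟨i1, k1⟩, hI1⟩ := H.nonempty n
  refine (h i1 k1 hI1).trans ?_
  exact mod_cast Finset.card_le_card (Finset.filter_subset _ _)

/-- upper bound of the number of lines near `i` -/
theorem cntUp (H : RUnif B G Leg ν D) (A : AbsE B G x T E fa fb) (P : ProfE Leg ν x y m β)
    {a c d : ℝ} (hd0 : 0 ≤ d) (hda : d ≤ a) (hax : a ≤ x) (hc0 : 0 ≤ c) (hcx : c ≤ x) {ε : ℝ}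
    (hε : 0 < ε) (K : ℝ) :
    ∀ᶠ n in (U : Filter ℕ), ∀ i k, (i, k) ∈ (G n).I → ∀ F ⊆ (G n).slice k,
      (∀ l ∈ F, (0 < a → |(T n l).pos ((G n).z k) 1 - (T n i).pos ((G n).z k) 1| ≤
          K * B.d n ^ (a - ε)) ∧
        (0 < c → |(T n l).v 1 - (T n i).v 1| ≤ K * B.d n ^ (c - ε)) ∧
        (0 < d → ∀ j, |dE T E fa fb n k i l j| ≤ K * B.d n ^ (d - ε))) →
      (F.card : ℝ) ≤ B.d n ^ (a + m * c + β * d - (2 * D + 1) * ε) * ((G n).L.card : ℝ) := by
  have hx := P.x0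
  have hleg : qE a 0 c d ∈ Leg := P.leg a 0 c d (hd0.trans hda) hax le_rfl hx.le hc0 hcx hd0
    (hda.trans hax)
  have h2ε : 0 < 2 * ε := by positivity
  filter_upwards [A.loose_of H hax hcx (hda.trans hax) hε K, H.up _ hleg _ h2ε, L_ge H P hε]
    with n h1 h2 h3 i k hik F hF hc
  have h4 : (F.card : ℝ) ≤ B.d n ^ (-ν (qE a 0 c d) - D * (2 * ε)) := by
    refine le_trans ?_ (h2 i k hik)
    refine mod_cast Finset.card_le_card fun l hl => RCfg.mem_box.2 ⟨hF hl, ?_⟩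
    obtain ⟨c1, c2, c3⟩ := hc l hl
    exact h1 k i l hik (H.memSlice.1 (hF hl)) c1 c2 c3
  rw [P.form a 0 c d hd0 hda hax le_rfl hx.le hc0 hcx] at h4
  refine h4.trans ?_
  have e1 : B.d n ^ (-(ν (qE 0 0 0 0) - (a + y * 0 + m * c + β * d)) - D * (2 * ε)) =
      B.d n ^ (a + m * c + β * d - (2 * D + 1) * ε) * B.d n ^ (-ν (qE 0 0 0 0) + ε) := by
    rw [← rpow_add']
    congr 1
    ring
  rw [e1]
  exact mul_le_mul_of_nonneg_left h3 (rpos B n _).le

/-- the `(X, C)`-count, uniform in the radius -/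
theorem upC (H : RUnif B G Leg ν D) (A : AbsE B G x T E fa fb) (P : ProfE Leg ν x y m β)
    {s : ℝ} (hs : 0 < s) (hsx : s ≤ x) {ε : ℝ} (hε : 0 < ε) :
    ∀ᶠ n in (U : Filter ℕ), ∀ i k, (i, k) ∈ (G n).I → ∀ r, B.d n ^ s ≤ r → r ≤ 2 →
      ∀ F ⊆ (G n).slice k,
      (∀ l ∈ F, |(T n l).pos ((G n).z k) 1 - (T n i).pos ((G n).z k) 1| ≤ 2 * B.d n ^ (s - ε) ∧
        |(T n l).v 1 - (T n i).v 1| ≤ r) →
      (F.card : ℝ) ≤ B.d n ^ (s - (2 * D + 2) * ε) * r ^ m * ((G n).L.card : ℝ) := by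
  have hx := P.x0
  have hm0 := P.m0
  have hm1 := P.m1
  filter_upwards [ev_grid_r (B := B) hs.le hε (fun t n => ∀ i k, (i, k) ∈ (G n).I →
      ∀ F ⊆ (G n).slice k,
      (∀ l ∈ F, (0 < s → |(T n l).pos ((G n).z k) 1 - (T n i).pos ((G n).z k) 1| ≤
          2 * B.d n ^ (s - ε)) ∧
        (0 < t → |(T n l).v 1 - (T n i).v 1| ≤ 2 * B.d n ^ (t - ε)) ∧
        ((0 : ℝ) < 0 → ∀ j, |dE T E fa fb n k i l j| ≤ 2 * B.d n ^ ((0 : ℝ) - ε))) →
      (F.card : ℝ) ≤ B.d n ^ (s + m * t + β * 0 - (2 * D + 1) * ε) * ((G n).L.card : ℝ))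
    (fun t ht0 hts => cntUp H A P le_rfl hs.le hsx ht0 (hts.trans hsx) hε 2)] with n h
    i k hik r hr hr2 F hF hc
  have hL := L_pos H n
  have hr0 : 0 < r := lt_of_lt_of_le (rpos B n s) hr
  -- the case of large radius is the radius one
  obtain ⟨r', hr'1, hr's, hr'r, hr'⟩ : ∃ r', r' ≤ 1 ∧ B.d n ^ s ≤ r' ∧ r' ≤ r ∧
      (r' < r → r' = 1) := by
    rcases le_or_gt r 1 with h1 | h1
    · exact ⟨r, h1, hr, le_rfl, fun h => absurd h (lt_irrefl _)⟩
    · exact ⟨1, le_rfl, Real.rpow_le_one (B.pos n).le (B.lt n).le hs.le, h1.le, fun _ => rfl⟩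
  obtain ⟨t, ht0, hts, h1, h2, h3⟩ := h r' hr's hr'1
  have hr'0 : 0 < r' := lt_of_lt_of_le (rpos B n s) hr's
  have h4 := h3 i k hik F hF (fun l hl => ⟨fun _ => (hc l hl).1, fun htp => ?_, fun h0 =>
    absurd h0 (lt_irrefl _)⟩)
  · refine h4.trans ?_
    refine mul_le_mul_of_nonneg_right ?_ hL.le
    have e1 : B.d n ^ (s + m * t + β * 0 - (2 * D + 1) * ε) =
        B.d n ^ (s - (2 * D + 1) * ε) * (B.d n ^ t) ^ m := by
      rw [← Real.rpow_mul (B.pos n).le, ← rpow_add']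
      congr 1
      ring
    rw [e1]
    have e2 : (B.d n ^ t) ^ m ≤ B.d n ^ (-ε) * r ^ m := by
      calc (B.d n ^ t) ^ m ≤ (B.d n ^ (-ε) * r') ^ m :=
            Real.rpow_le_rpow (rpos B n _).le h2 hm0.le
        _ = B.d n ^ (-ε * m) * r' ^ m := by
            rw [Real.mul_rpow (rpos B n _).le hr'0.le, ← Real.rpow_mul (B.pos n).le]
        _ ≤ B.d n ^ (-ε) * r ^ m := by
            refine mul_le_mul (rpow_anti B n (by nlinarith))
              (Real.rpow_le_rpow hr'0.le hr'r hm0.le) (Real.rpow_nonneg hr'0.le _) (rpos B n _).le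
    calc B.d n ^ (s - (2 * D + 1) * ε) * (B.d n ^ t) ^ m
        ≤ B.d n ^ (s - (2 * D + 1) * ε) * (B.d n ^ (-ε) * r ^ m) :=
          mul_le_mul_of_nonneg_left e2 (rpos B n _).le
      _ = _ := by
          rw [← mul_assoc, ← rpow_add']
          congr 2
          ring
  · -- the coordinate `C`
    have h5 := (hc l hl).2
    have h6 : B.d n ^ t ≤ B.d n ^ (t - ε) := rpow_anti B n (by linarith)
    have h7 : r ≤ 2 * r' := by
      rcases hr'r.lt_or_eq with h0 | h0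
      · rw [hr' h0]; linarith
      · rw [h0]; linarith
    have h8 : 0 < B.d n ^ (t - ε) := rpos B n _
    linarith

/-- the `(X, W')`-count, uniform in the radius -/
theorem upW (H : RUnif B G Leg ν D) (A : AbsE B G x T E fa fb) (P : ProfE Leg ν x y m β)
    {s : ℝ} (hs : 0 < s) (hsx : s ≤ x) {ε : ℝ} (hε : 0 < ε) :
    ∀ᶠ n in (U : Filter ℕ), ∀ i k, (i, k) ∈ (G n).I → ∀ r, B.d n ^ s ≤ r → r ≤ 1 →
      ∀ F ⊆ (G n).slice k,
      (∀ l ∈ F, |(T n l).pos ((G n).z k) 1 - (T n i).pos ((G n).z k) 1| ≤ 2 * B.d n ^ (s - ε) ∧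
        ∀ j, |dE T E fa fb n k i l j| ≤ r) →
      (F.card : ℝ) ≤ B.d n ^ (s - (2 * D + 1 + β) * ε) * r ^ β * ((G n).L.card : ℝ) := by
  have hx := P.x0
  have hβ := P.β0
  filter_upwards [ev_grid_r (B := B) hs.le hε (fun t n => t ≤ s → ∀ i k, (i, k) ∈ (G n).I →
      ∀ F ⊆ (G n).slice k,
      (∀ l ∈ F, (0 < s → |(T n l).pos ((G n).z k) 1 - (T n i).pos ((G n).z k) 1| ≤
          2 * B.d n ^ (s - ε)) ∧
        ((0 : ℝ) < 0 → |(T n l).v 1 - (T n i).v 1| ≤ 2 * B.d n ^ ((0 : ℝ) - ε)) ∧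
        (0 < t → ∀ j, |dE T E fa fb n k i l j| ≤ 2 * B.d n ^ (t - ε))) →
      (F.card : ℝ) ≤ B.d n ^ (s + m * 0 + β * t - (2 * D + 1) * ε) * ((G n).L.card : ℝ))
    (fun t ht0 hts => by
      filter_upwards [cntUp H A P ht0 hts hsx le_rfl hx.le hε 2] with n hn _ using hn)] with n h
    i k hik r hr hr1 F hF hc
  have hL := L_pos H n
  have hr0 : 0 < r := lt_of_lt_of_le (rpos B n s) hr
  obtain ⟨t, ht0, hts, h1, h2, h3⟩ := h r hr hr1
  have h4 := h3 hts i k hik F hF (fun l hl => ⟨fun _ => (hc l hl).1, fun h0 =>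
    absurd h0 (lt_irrefl _), fun htp j => ?_⟩)
  · refine h4.trans ?_
    refine mul_le_mul_of_nonneg_right ?_ hL.le
    have e1 : B.d n ^ (s + m * 0 + β * t - (2 * D + 1) * ε) =
        B.d n ^ (s - (2 * D + 1) * ε) * (B.d n ^ t) ^ β := by
      rw [← Real.rpow_mul (B.pos n).le, ← rpow_add']
      congr 1
      ring
    rw [e1]
    have e2 : (B.d n ^ t) ^ β ≤ B.d n ^ (-(β * ε)) * r ^ β := by
      calc (B.d n ^ t) ^ β ≤ (B.d n ^ (-ε) * r) ^ β :=
            Real.rpow_le_rpow (rpos B n _).le h2 hβ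
        _ = B.d n ^ (-ε * β) * r ^ β := by
            rw [Real.mul_rpow (rpos B n _).le hr0.le, ← Real.rpow_mul (B.pos n).le]
        _ = _ := by congr 2; ring
    calc B.d n ^ (s - (2 * D + 1) * ε) * (B.d n ^ t) ^ β
        ≤ B.d n ^ (s - (2 * D + 1) * ε) * (B.d n ^ (-(β * ε)) * r ^ β) :=
          mul_le_mul_of_nonneg_left e2 (rpos B n _).le
      _ = _ := by
          rw [← mul_assoc, ← rpow_add']
          congr 2
          ring
  · have h5 := (hc l hl).2 j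
    have h6 : B.d n ^ t ≤ B.d n ^ (t - ε) := rpow_anti B n (by linarith)
    have h8 : 0 < B.d n ^ (t - ε) := rpos B n _
    linarith

/-- Frostman heights, uniform in the radius -/
theorem frostE (H : RModel B G 1 R Leg ν D) {s : ℝ} (hs : 0 ≤ s) (hsR : s ≤ R) {ε : ℝ}
    (hε : 0 < ε) :
    ∀ᶠ n in (U : Filter ℕ), ∀ k ∈ (G n).Z, ∀ r, B.d n ^ s ≤ r → r ≤ 1 →
      (((G n).Z.filter fun k' => |(G n).z k' - (G n).z k| ≤ r).card : ℝ) ≤
        B.d n ^ (-(2 * ε)) * r * ((G n).Z.card : ℝ) := by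
  filter_upwards [ev_grid_r (B := B) hs hε (fun t n => ∀ k ∈ (G n).Z,
      (((G n).hbox t k).card : ℝ) ≤ B.d n ^ (1 * t - ε) * ((G n).Z.card : ℝ))
    (fun t ht0 hts => H.frost t ht0 (hts.trans hsR) ε hε)] with n h k hk r hr hr1
  obtain ⟨t, ht0, hts, h1, h2, h3⟩ := h r hr hr1
  have h4 := h3 k hk
  have h5 : (((G n).Z.filter fun k' => |(G n).z k' - (G n).z k| ≤ r).card : ℝ) ≤
      (((G n).hbox t k).card : ℝ) := by
    refine mod_cast Finset.card_le_card fun k' hk' => ?_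
    obtain ⟨g1, g2⟩ := Finset.mem_filter.1 hk'
    unfold RCfg.hbox
    refine Finset.mem_filter.2 ⟨g1, ?_⟩
    rw [H.base n]
    exact g2.trans h1
  refine h5.trans (h4.trans ?_)
  refine mul_le_mul_of_nonneg_right ?_ (Nat.cast_nonneg _)
  calc B.d n ^ (1 * t - ε) = B.d n ^ (-ε) * B.d n ^ t := by rw [← rpow_add']; congr 1; ring
    _ ≤ B.d n ^ (-ε) * (B.d n ^ (-ε) * r) := mul_le_mul_of_nonneg_left h2 (rpos B n _).le
    _ = _ := by rw [← mul_assoc, ← rpow_add']; congr 2; ring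

/-- density of the incidences -/
theorem densE (H : RModel B G 1 R Leg ν D) {ε : ℝ} (hε : 0 < ε) :
    ∀ᶠ n in (U : Filter ℕ), B.d n ^ ε * (((G n).L.card : ℝ) * ((G n).Z.card : ℝ)) ≤
      ((G n).I.card : ℝ) := by
  filter_upwards [Crest.Agent.R136.Prn779.card_lines H hε] with n hn
  have h1 := hn (G n).L (Finset.Subset.refl _)
  refine le_trans (le_of_eq ?_) (h1.trans ?_)
  · ring
  · exact mod_cast Finset.card_le_card (Finset.filter_subset _ _)

/-- all lines of a model are alive somewhere -/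
theorem hts_nonempty (H : RModel B G 1 R Leg ν D) :
    ∀ᶠ n in (U : Filter ℕ), ∀ i ∈ (G n).L, ∃ k, (i, k) ∈ (G n).I := by
  filter_upwards [H.line 1 one_pos] with n hn i hi
  have h1 := hn i hi
  have hZ : (0 : ℝ) < (G n).Z.card := by
    exact_mod_cast (Z_nonempty H.toRUnif n).card_pos
  have h2 : (0 : ℝ) < ((G n).hts i).card := lt_of_lt_of_le (mul_pos (rpos B n 1) hZ) h1
  have h3 : ((G n).hts i).Nonempty := by
    rw [← Finset.card_pos]
    exact_mod_cast h2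
  obtain ⟨k, hk⟩ := h3
  exact ⟨k, H.memHts.1 hk⟩

end Crest.Agent.R136.RgE344
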