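import Crest.Agent.R136.RgE6_344
import Crest.Agent.R136.Z2a_403

-- ▼ part R136/WkES1_501
section

/-!
# R136 (S0187), RIG_E: heavy strips, part 1 (helper501)

`strip_pin`: around every pin `(e, k0)` of a window of case (E) the narrow box `X_a, C_a ≤ ρ^x` has a
`ρ^δ`-part in one strip of the block velocity (strip alternative of helper403, KAKEYA), for the
scale `s < x (1 - y/2)`.
-/

set_option autoImplicit false
set_option linter.unusedVariables false

open Filter Topology Finset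

namespace Crest.Agent.R136.StripE501

open Crest.Agent.R136.Sh605
open Crest.Agent.R138.Ex926 (Base U)
open Crest.Agent.R136.Gf356
open Crest.Agent.R136.RgN344
open Crest.Agent.R136.RgE344
open Crest.Agent.R136.Wk323 (coA one_le_rpow_neg)

variable {B : Base} {G : ℕ → RCfg (Fin 11)} {Leg : Set (Fin 11 → ℝ)} {ν : (Fin 11 → ℝ) → ℝ}
  {D R x y m β : ℝ} {T : ℕ → ℕ → Ln4} {E fa fb : ℕ → ℕ → ℝ}

/-- block position -/
def pE (T : ℕ → ℕ → Ln4) (n l : ℕ) (z : ℝ) : Fin 2 → ℝ := ![(T n l).pos z 2, (T n l).pos z 0]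

/-- block position at height zero -/
def p0E (T : ℕ → ℕ → Ln4) (n l : ℕ) : Fin 2 → ℝ := ![(T n l).p 2, (T n l).p 0]

theorem pE_eq (T : ℕ → ℕ → Ln4) (n l : ℕ) (z : ℝ) (a : Fin 2) :
    pE T n l z a = p0E T n l a + z * wE T n l a := by
  fin_cases a <;> rfl

theorem qE_b {a b c d : ℝ} {s : Fin 11} (h9 : s ≠ 9) (h10 : s ≠ 10) :
    qE a b c d s = qE a 0 c d s := by
  fin_cases s
  · show (0 : ℝ) = 0
    rfl
  · show (0 : ℝ) = 0
    rfl
  · show (0 : ℝ) = 0
    rfl
  · show (0 : ℝ) = 0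
    rfl
  · show (0 : ℝ) = 0
    rfl
  · show c = c
    rfl
  · show d = d
    rfl
  · show d = d
    rfl
  · show a = a
    rfl
  · exact absurd rfl h9
  · exact absurd rfl h10

theorem loose_b (H : RUnif B G Leg ν D) {a b c d t : ℝ} {n k i l : ℕ}
    (h : (G n).loose (qE a 0 c d) t k i l) (h9 : |(G n).rel k i l 9| ≤ B.d n ^ (b - t))
    (h10 : |(G n).rel k i l 10| ≤ B.d n ^ (b - t)) : (G n).loose (qE a b c d) t k i l := by
  intro s
  by_cases e9 : s = 9
  · have e : qE a b c d 9 = b := rfl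
    rw [e9, e, H.base n]
    exact h9
  by_cases e10 : s = 10
  · have e : qE a b c d 10 = b := rfl
    rw [e10, e, H.base n]
    exact h10
  rw [qE_b e9 e10]
  exact h s

theorem pairE (H : RUnif B G Leg ν D) {p : Fin 11 → ℝ} (hp : p ∈ Leg) {ε : ℝ}
    (hε : 0 < ε) : ∀ᶠ n in (U : Filter ℕ), ∀ i0 k₀, (i0, k₀) ∈ (G n).I →
      ∀ i ∈ (G n).box p ε i0 k₀, ∀ i' ∈ (G n).box p ε i0 k₀,
      (G n).loose p (D * (D * ε)) k₀ i i' := by
  have hD := H.D1
  filter_upwards [H.symm p hp ε hε, H.tri p hp (D * ε) (by positivity)] with n h1 h2 i0 k₀ h0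
    i hi i' hi'
  obtain ⟨a1, a2⟩ := RCfg.mem_box.1 hi
  obtain ⟨b1, b2⟩ := RCfg.mem_box.1 hi'
  have a3 := H.memSlice.1 a1
  have b3 := H.memSlice.1 b1
  exact h2 k₀ i i0 i' a3 h0 b3 (h1 k₀ i0 i h0 a3 a2)
    (H.loose_mono (fun _ => le_rfl) (by nlinarith) b2)

/-- narrow in `X_a` and `C_a`: close at all heights -/
theorem near_of (H : RUnif B G Leg ν D) (A : AbsE B G x T E fa fb) (hx : 0 < x) {ε : ℝ}
    (hε : 0 < ε) :
    ∀ᶠ n in (U : Filter ℕ), ∀ k0 i l, (i, k0) ∈ (G n).I → (l, k0) ∈ (G n).I →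
      (G n).loose (qE x 0 x 0) ε k0 i l → |(T n l).v 1 - (T n i).v 1| ≤ 2 * B.d n ^ (x - ε) ∧
        ∀ z : ℝ, |z| ≤ 1 → |(T n l).pos z 1 - (T n i).pos z 1| ≤ 6 * B.d n ^ (x - ε) := by
  filter_upwards [A.co_le H (p := qE x 0 x 0)
    (fun s => qE_le hx.le le_rfl hx.le le_rfl hx.le s) hε, A.bd] with n h hb k0 i l hi hl hlo
  have h5 : |(T n l).v 1 - (T n i).v 1| ≤ 2 * B.d n ^ (x - ε) := h k0 i l hi hl hlo 5 (by decide)
  have h8 : |(T n l).pos ((G n).z k0) 1 - (T n i).pos ((G n).z k0) 1| ≤ 2 * B.d n ^ (x - ε) :=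
    h k0 i l hi hl hlo 8 (by decide)
  refine ⟨h5, fun z hz => ?_⟩
  have hz0 := (hb i k0 hi).1
  have e1 : (T n l).pos z 1 - (T n i).pos z 1 =
      ((T n l).pos ((G n).z k0) 1 - (T n i).pos ((G n).z k0) 1) +
        (z - (G n).z k0) * ((T n l).v 1 - (T n i).v 1) := by
    show ((T n l).p 1 + z * (T n l).v 1) - ((T n i).p 1 + z * (T n i).v 1) =
      (((T n l).p 1 + (G n).z k0 * (T n l).v 1) - ((T n i).p 1 + (G n).z k0 * (T n i).v 1)) +
        (z - (G n).z k0) * ((T n l).v 1 - (T n i).v 1)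
    ring
  rw [e1]
  have h9 : |z - (G n).z k0| ≤ 2 := (abs_sub _ _).trans (by linarith)
  have h10 : |(z - (G n).z k0) * ((T n l).v 1 - (T n i).v 1)| ≤ 2 * (2 * B.d n ^ (x - ε)) := by
    rw [abs_mul]
    exact mul_le_mul h9 h5 (abs_nonneg _) (by norm_num)
  exact (abs_add_le _ _).trans (by linarith)

theorem eE_le {n k : ℕ} (h1 : |E n k| ≤ 1) (h2 : |fa n k| ≤ 1) (h3 : |fb n k| ≤ 1) (j : Fin 2) :
    |eE E fa fb n k j| ≤ 2 := by
  fin_cases j
  · show |E n k| ≤ 2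
    linarith
  · show |fa n k + fb n k * E n k| ≤ 2
    have h4 : |fb n k * E n k| ≤ 1 := by
      rw [abs_mul]
      calc _ ≤ 1 * (1 : ℝ) := mul_le_mul h3 h1 (abs_nonneg _) (by norm_num)
        _ = 1 := one_mul 1
    exact (abs_add_le _ _).trans (by linarith)

/-- the block velocity from `W'` and `C_a` and conversely -/
theorem w_dE (n k i l : ℕ) (j : Fin 2) :
    wE T n l j - wE T n i j = dE T E fa fb n k i l j +
      eE E fa fb n k j * ((T n l).v 1 - (T n i).v 1) := by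
  unfold dE
  ring

theorem dE_of (n k i l : ℕ) (j : Fin 2) :
    dE T E fa fb n k i l j = (wE T n l j - wE T n i j) -
      eE E fa fb n k j * ((T n l).v 1 - (T n i).v 1) := rfl

/-- block positions from the relative coordinates -/
theorem pos_of (H : RUnif B G Leg ν D) (A : AbsE B G x T E fa fb) (hx : 0 < x) {ε : ℝ}
    (hε : 0 < ε) :
    ∀ᶠ n in (U : Filter ℕ), ∀ k i l, (i, k) ∈ (G n).I → (l, k) ∈ (G n).I →
      (G n).loose (qE x x x 0) ε k i l → ∀ a : Fin 2,
        |pE T n l ((G n).z k) a - pE T n i ((G n).z k) a| ≤ 8 * B.d n ^ (x - ε) := by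
  filter_upwards [A.co_le H (p := qE x x x 0)
    (fun s => qE_le hx.le le_rfl le_rfl le_rfl hx.le s) hε, A.bd] with n h hb k i l hi hl hlo
  obtain ⟨-, -, -, bE, bfa, bfb⟩ := hb i k hi
  have h8 : |(T n l).pos ((G n).z k) 1 - (T n i).pos ((G n).z k) 1| ≤ 2 * B.d n ^ (x - ε) :=
    h k i l hi hl hlo 8 (by decide)
  have h9 : |((T n l).pos ((G n).z k) 2 - (T n i).pos ((G n).z k) 2) -
      E n k * ((T n l).pos ((G n).z k) 1 - (T n i).pos ((G n).z k) 1)| ≤ 2 * B.d n ^ (x - ε) :=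
    h k i l hi hl hlo 9 (by decide)
  have h10 : |((T n l).pos ((G n).z k) 0 - (T n i).pos ((G n).z k) 0) -
      fa n k * ((T n l).pos ((G n).z k) 1 - (T n i).pos ((G n).z k) 1) -
      fb n k * ((T n l).pos ((G n).z k) 2 - (T n i).pos ((G n).z k) 2)| ≤ 2 * B.d n ^ (x - ε) :=
    h k i l hi hl hlo 10 (by decide)
  have hr := rpos B n (x - ε)
  set X := (T n l).pos ((G n).z k) 1 - (T n i).pos ((G n).z k) 1 with hX
  set Y := (T n l).pos ((G n).z k) 2 - (T n i).pos ((G n).z k) 2 with hY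
  set N := (T n l).pos ((G n).z k) 0 - (T n i).pos ((G n).z k) 0 with hN
  have g1 : |E n k * X| ≤ 1 * (2 * B.d n ^ (x - ε)) := by
    rw [abs_mul]; exact mul_le_mul bE h8 (abs_nonneg _) (by norm_num)
  have g2 : |fa n k * X| ≤ 1 * (2 * B.d n ^ (x - ε)) := by
    rw [abs_mul]; exact mul_le_mul bfa h8 (abs_nonneg _) (by norm_num)
  have hY' : |Y| ≤ 4 * B.d n ^ (x - ε) := by
    have e : Y = (Y - E n k * X) + E n k * X := by ring
    rw [e]
    exact (abs_add_le _ _).trans (by linarith)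
  have g3 : |fb n k * Y| ≤ 1 * (4 * B.d n ^ (x - ε)) := by
    rw [abs_mul]; exact mul_le_mul bfb hY' (abs_nonneg _) (by norm_num)
  intro a
  fin_cases a
  · show |Y| ≤ 8 * B.d n ^ (x - ε)
    linarith
  · show |N| ≤ 8 * B.d n ^ (x - ε)
    have e : N = (N - fa n k * X - fb n k * Y) + (fa n k * X + fb n k * Y) := by ring
    rw [e]
    refine (abs_add_le _ _).trans ?_
    have := abs_add_le (fa n k * X) (fb n k * Y)
    linarith

/-- narrow pairs with small block position and block velocity are in the finest box -/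
theorem loose_f (H : RUnif B G Leg ν D) (A : AbsE B G x T E fa fb) (hx : 0 < x) {s : ℝ}
    (hsx : s ≤ x) {t : ℝ} (ht : 0 < t) :
    ∀ᶠ n in (U : Filter ℕ), ∀ k i l, (i, k) ∈ (G n).I → (l, k) ∈ (G n).I →
      |(T n l).v 1 - (T n i).v 1| ≤ 2 * B.d n ^ (x - t) →
      |(T n l).pos ((G n).z k) 1 - (T n i).pos ((G n).z k) 1| ≤ 6 * B.d n ^ (x - t) →
      (∀ a : Fin 2, |pE T n l ((G n).z k) a - pE T n i ((G n).z k) a| ≤ B.d n ^ (x - t)) →
      (∀ a : Fin 2, |wE T n l a - wE T n i a| ≤ B.d n ^ (s - t)) →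
      (G n).loose (qE x x x s) (2 * t) k i l := by
  filter_upwards [A.loose_of H (a := x) (c := x) (d := s) le_rfl le_rfl hsx ht 6, A.bd,
    A.rel t ht, ev_const_le B ht 9] with n h hb hrel hK k i l hi hl hv hp hP hW
  obtain ⟨-, -, -, bE, bfa, bfb⟩ := hb i k hi
  have hr := rpos B n (x - t)
  have hrs := rpos B n (s - t)
  have hxs : B.d n ^ (x - t) ≤ B.d n ^ (s - t) := rpow_anti B n (by linarith)
  have h9c : (9 : ℝ) * B.d n ^ (x - t) ≤ B.d n ^ (x - 2 * t) := by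
    have := loss_mul B (s := x - t) hK
    have e1 : x - t - t = x - 2 * t := by ring
    rwa [e1] at this
  refine loose_b H (h k i l hi hl (fun _ => hp) (fun _ => hv.trans (by linarith)) ?_) ?_ ?_
  · intro _ j
    rw [dE_of]
    have h1 := hW j
    have h2 := eE_le (E := E) (fa := fa) (fb := fb) bE bfa bfb j
    have h3 : |eE E fa fb n k j * ((T n l).v 1 - (T n i).v 1)| ≤ 2 * (2 * B.d n ^ (x - t)) := by
      rw [abs_mul]; exact mul_le_mul h2 hv (abs_nonneg _) (by norm_num)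
    refine (abs_sub _ _).trans ?_
    linarith
  · refine le_trans ?_ h9c
    have h1 := hrel k i l hi hl 9 (by decide)
    have h2 : |(pE T n l ((G n).z k) 0 - pE T n i ((G n).z k) 0) -
        E n k * ((T n l).pos ((G n).z k) 1 - (T n i).pos ((G n).z k) 1)| ≤
        7 * B.d n ^ (x - t) := by
      have h3 : |E n k * ((T n l).pos ((G n).z k) 1 - (T n i).pos ((G n).z k) 1)| ≤
          1 * (6 * B.d n ^ (x - t)) := by
        rw [abs_mul]; exact mul_le_mul bE hp (abs_nonneg _) (by norm_num)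
      refine (abs_sub _ _).trans ?_
      linarith [hP 0]
    change |(G n).rel k i l 9 - ((pE T n l ((G n).z k) 0 - pE T n i ((G n).z k) 0) -
        E n k * ((T n l).pos ((G n).z k) 1 - (T n i).pos ((G n).z k) 1))| ≤ _ at h1
    rw [abs_le] at *
    constructor <;> linarith [h1.1, h1.2, h2.1, h2.2]
  · refine le_trans ?_ h9c
    have h1 := hrel k i l hi hl 10 (by decide)
    have h2 : |(pE T n l ((G n).z k) 1 - pE T n i ((G n).z k) 1) -
        fa n k * ((T n l).pos ((G n).z k) 1 - (T n i).pos ((G n).z k) 1) -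
        fb n k * (pE T n l ((G n).z k) 0 - pE T n i ((G n).z k) 0)| ≤
        8 * B.d n ^ (x - t) := by
      have h3 : |fa n k * ((T n l).pos ((G n).z k) 1 - (T n i).pos ((G n).z k) 1)| ≤
          1 * (6 * B.d n ^ (x - t)) := by
        rw [abs_mul]; exact mul_le_mul bfa hp (abs_nonneg _) (by norm_num)
      have h4 : |fb n k * (pE T n l ((G n).z k) 0 - pE T n i ((G n).z k) 0)| ≤
          1 * (1 * B.d n ^ (x - t)) := by
        rw [abs_mul]
        exact mul_le_mul bfb (by rw [one_mul]; exact hP 0) (abs_nonneg _) (by norm_num)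
      refine (abs_sub _ _).trans ?_
      have h5 := abs_sub (pE T n l ((G n).z k) 1 - pE T n i ((G n).z k) 1)
        (fa n k * ((T n l).pos ((G n).z k) 1 - (T n i).pos ((G n).z k) 1))
      linarith [hP 1]
    change |(G n).rel k i l 10 - ((pE T n l ((G n).z k) 1 - pE T n i ((G n).z k) 1) -
        fa n k * ((T n l).pos ((G n).z k) 1 - (T n i).pos ((G n).z k) 1) -
        fb n k * (pE T n l ((G n).z k) 0 - pE T n i ((G n).z k) 0))| ≤ _ at h1
    rw [abs_le] at *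
    constructor <;> linarith [h1.1, h1.2, h2.1, h2.2]

/-- block velocity in the class `Qc` -/
theorem vel_of (H : RUnif B G Leg ν D) (A : AbsE B G x T E fa fb) (hx : 0 < x) {s : ℝ}
    (hs : 0 ≤ s) (hsx : s ≤ x) {ε : ℝ} (hε : 0 < ε) :
    ∀ᶠ n in (U : Filter ℕ), ∀ k i l, (i, k) ∈ (G n).I → (l, k) ∈ (G n).I →
      (G n).loose (qE x 0 x s) ε k i l → ∀ a : Fin 2,
        |wE T n l a - wE T n i a| ≤ 8 * B.d n ^ (s - ε) := by
  filter_upwards [A.co_le H (p := qE x 0 x s)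
    (fun j => qE_le hx.le le_rfl hx.le le_rfl hsx j) hε, A.bd] with n h hb k i l hi hl hlo a
  obtain ⟨-, -, -, bE, bfa, bfb⟩ := hb i k hi
  have h5 : |(T n l).v 1 - (T n i).v 1| ≤ 2 * B.d n ^ (x - ε) := h k i l hi hl hlo 5 (by decide)
  have h6 := h k i l hi hl hlo 6 (by decide)
  have h7 := h k i l hi hl hlo 7 (by decide)
  have h8 := dE_le (T := T) (E := E) (fa := fa) (fb := fb) bfb h6 h7 a
  have h8' : |dE T E fa fb n k i l a| ≤ 2 * (2 * B.d n ^ (s - ε)) := h8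
  have hxs : B.d n ^ (x - ε) ≤ B.d n ^ (s - ε) := rpow_anti B n (by linarith)
  have h9 : |eE E fa fb n k a * ((T n l).v 1 - (T n i).v 1)| ≤ 2 * (2 * B.d n ^ (x - ε)) := by
    rw [abs_mul]
    exact mul_le_mul (eE_le bE bfa bfb a) h5 (abs_nonneg _) (by norm_num)
  rw [w_dE (E := E) (fa := fa) (fb := fb) n k i l a]
  exact (abs_add_le _ _).trans (by linarith)

end Crest.Agent.R136.StripE501
end

-- ▼ part R136/WkES2_501
section

/-!
# R136 (S0187), RIG_E: heavy strips, part 2 (helper501): `strip_pin`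
-/

set_option autoImplicit false
set_option linter.unusedVariables false

open Filter Topology Finset

namespace Crest.Agent.R136.StripE501

open Crest.Agent.R136.Sh605
open Crest.Agent.R138.Ex926 (Base U)
open Crest.Agent.R136.Gf356
open Crest.Agent.R136.RgN344
open Crest.Agent.R136.RgE344
open Crest.Agent.R136.Ful403 (strip_alt_R)
open Crest.Agent.R136.Wk323 (coA one_le_rpow_neg)

variable {B : Base} {G : ℕ → RCfg (Fin 11)} {Leg : Set (Fin 11 → ℝ)} {ν : (Fin 11 → ℝ) → ℝ}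
  {D R x y m β : ℝ} {T : ℕ → ℕ → Ln4} {E fa fb : ℕ → ℕ → ℝ}

/-- the conclusion at one pin -/
def Pin (B : Base) (G : ℕ → RCfg (Fin 11)) (x s δ ε : ℝ) (T : ℕ → ℕ → Ln4) (n e k0 : ℕ) : Prop :=
  ∃ b : Fin 2 → ℝ, b 0 ^ 2 + b 1 ^ 2 = 1 ∧ ∃ i1 ∈ (G n).box (qE x 0 x 0) ε e k0,
    ∃ T' ⊆ (G n).box (qE x 0 x 0) ε e k0,
      (∀ i ∈ T', |b 0 * (wE T n i 0 - wE T n i1 0) + b 1 * (wE T n i 1 - wE T n i1 1)| ≤
        B.d n ^ (s - δ)) ∧
      B.d n ^ δ * (((G n).box (qE x 0 x 0) ε e k0).card : ℝ) ≤ (T'.card : ℝ)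

theorem p_le {n l : ℕ} {z : ℝ} (hz : |z| ≤ 1) (hp : ∀ j, |(T n l).pos z j| ≤ 1)
    (hv : ∀ j, |(T n l).v j| ≤ 1) (j : Fin 3) : |(T n l).p j| ≤ 2 := by
  have h1 := hp j
  have h2 := hv j
  have e1 : (T n l).p j = (T n l).pos z j - z * (T n l).v j := by
    show (T n l).p j = ((T n l).p j + z * (T n l).v j) - z * (T n l).v j
    ring
  have h3 : |z * (T n l).v j| ≤ 1 * 1 := by
    rw [abs_mul]; exact mul_le_mul hz h2 (abs_nonneg _) (by norm_num)
  rw [e1]
  exact (abs_sub _ _).trans (by linarith)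

set_option maxHeartbeats 1000000 in
/-- **strip alternative along a sequence of pins** -/
theorem strip_seq (hKM : ∀ V : ℝ, Crest.Agent.R138.Tub70.KM32 V) (H : RModel B G 1 R Leg ν D)
    (hxR : x ≤ R) (A : AbsE B G x T E fa fb) (P : ProfE Leg ν x y m β) {s : ℝ} (hs : 0 < s)
    (hsx : s < x * (1 - y / 2)) (i0 k0 : ℕ → ℕ) (h0 : ∀ n, (i0 n, k0 n) ∈ (G n).I)
    {δ : ℝ} (hδ : 0 < δ) {ε : ℝ} (hε : 0 < ε) (hεδ : ε ≤ δ / (2 * D)) :
    ∀ᶠ n in (U : Filter ℕ), Pin B G x s δ ε T n (i0 n) (k0 n) := by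
  have hD := H.D1
  have hD0 : 0 < D := by linarith
  have hD2 : 1 ≤ D * D := by nlinarith
  have hx := P.x0
  have hy0 := P.y0
  have hy2 := P.y2
  have hm0 := P.m0
  have hβ0 := P.β0
  have hsx' : s ≤ x := by nlinarith
  have l1 : qE x 0 x 0 ∈ Leg := P.leg _ _ _ _ hx.le le_rfl le_rfl hx.le hx.le le_rfl le_rfl hx.le
  have l2 : qE x x x 0 ∈ Leg := P.leg _ _ _ _ hx.le le_rfl hx.le le_rfl hx.le le_rfl le_rfl hx.le
  have l3 : qE x 0 x s ∈ Leg := P.leg _ _ _ _ hx.le le_rfl le_rfl hx.le hx.le le_rfl hs.le hsx'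
  have l4 : qE x x x s ∈ Leg := P.leg _ _ _ _ hx.le le_rfl hx.le le_rfl hx.le le_rfl hs.le hsx'
  have f1 : ν (qE x 0 x 0) = ν (qE 0 0 0 0) - (x + y * 0 + m * x + β * 0) :=
    P.form _ _ _ _ le_rfl hx.le le_rfl le_rfl hx.le hx.le le_rfl
  have f2 : ν (qE x x x 0) = ν (qE 0 0 0 0) - (x + y * x + m * x + β * 0) :=
    P.form _ _ _ _ le_rfl hx.le le_rfl hx.le le_rfl hx.le le_rfl
  have f3 : ν (qE x 0 x s) = ν (qE 0 0 0 0) - (x + y * 0 + m * x + β * s) :=
    P.form _ _ _ _ hs.le hsx' le_rfl le_rfl hx.le hx.le le_rfl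
  have f4 : ν (qE x x x s) = ν (qE 0 0 0 0) - (x + y * x + m * x + β * s) :=
    P.form _ _ _ _ hs.le hsx' le_rfl hx.le le_rfl hx.le le_rfl
  have hTr : ∀ j, qE x 0 x 0 j ≤ qE x x x 0 j := by
    intro j
    by_cases h9 : j = 9
    · rw [h9]; show (0 : ℝ) ≤ x; exact hx.le
    by_cases h10 : j = 10
    · rw [h10]; show (0 : ℝ) ≤ x; exact hx.le
    exact (qE_b (b := x) h9 h10).symm.le
  have hSQ : ∀ j, qE x 0 x 0 j ≤ qE x 0 x s j := by
    intro j
    fin_cases j
    · show (0 : ℝ) ≤ 0; exact le_rfl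
    · show (0 : ℝ) ≤ 0; exact le_rfl
    · show (0 : ℝ) ≤ 0; exact le_rfl
    · show (0 : ℝ) ≤ 0; exact le_rfl
    · show (0 : ℝ) ≤ 0; exact le_rfl
    · show x ≤ x; exact le_rfl
    · show (0 : ℝ) ≤ s; exact hs.le
    · show (0 : ℝ) ≤ s; exact hs.le
    · show x ≤ x; exact le_rfl
    · show (0 : ℝ) ≤ 0; exact le_rfl
    · show (0 : ℝ) ≤ 0; exact le_rfl
  set C1 : ℝ := 2 * (D * D) + 2 with hC1
  have hC1p : 0 < C1 := by positivity
  -- facts
  have hpr : ∀ ε : ℝ, 0 < ε → ∀ᶠ n in (U : Filter ℕ),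
      ∀ i ∈ (G n).box (qE x 0 x 0) ε (i0 n) (k0 n), ∀ i' ∈ (G n).box (qE x 0 x 0) ε (i0 n) (k0 n),
      |(T n i').v 1 - (T n i).v 1| ≤ 2 * B.d n ^ (x - D * (D * ε)) ∧
        ∀ z : ℝ, |z| ≤ 1 → |(T n i').pos z 1 - (T n i).pos z 1| ≤ 6 * B.d n ^ (x - D * (D * ε)) := by
    intro ε hε
    filter_upwards [pairE H.toRUnif l1 hε, near_of H.toRUnif A hx (ε := D * (D * ε))
      (by positivity)] with n h1 h2 i hi i' hi'
    exact h2 (k0 n) i i' (H.memSlice.1 (RCfg.box_subset_slice hi))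
      (H.memSlice.1 (RCfg.box_subset_slice hi')) (h1 (i0 n) (k0 n) (h0 n) i hi i' hi')
  have hcst : ∀ (K : ℝ) (ε : ℝ), 0 < ε → ∀ᶠ n in (U : Filter ℕ), K ≤ B.d n ^ (-(C1 * ε)) := by
    intro K ε hε
    exact ev_const_le B (by positivity) K
  have key := strip_alt_R hKM H.toRUnif i0 k0 (Eventually.of_forall h0) (qE x 0 x 0) (qE x 0 x 0)
    (qE x x x 0) (qE x 0 x s) (qE x x x s) l1 l1 l2 l3 l4 hTr hSQ (x := x) (t := s) hx
    (fun n k l => pE T n l ((G n).z k)) (p0E T) (wE T) (fun n k => (G n).z k) (fun n => (G n).Z)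
    (Eventually.of_forall fun n => Z_nonempty H.toRUnif n) hC1p
    (by
      -- hφ
      intro ε hε
      filter_upwards [A.bd, hcst 1 ε hε, H.slice 1 one_pos] with n hb h1 hsl k hk
      have hLp := L_pos H.toRUnif n
      have h3 : (0 : ℝ) < ((G n).slice k).card :=
        lt_of_lt_of_le (mul_pos (rpos B n 1) hLp) (hsl k hk)
      have h4 : ((G n).slice k).Nonempty := by
        rw [← Finset.card_pos]; exact_mod_cast h3
      obtain ⟨l, hl⟩ := h4
      exact (hb l k (H.memSlice.1 hl)).1.trans h1)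
    (by
      -- hA
      intro ε hε
      filter_upwards [A.bd, hcst 4 ε hε] with n hb h1 i hi i' hi' a
      obtain ⟨z1, p1, v1, -⟩ := hb i (k0 n) (H.memSlice.1 (RCfg.box_subset_slice hi))
      obtain ⟨z2, p2, v2, -⟩ := hb i' (k0 n) (H.memSlice.1 (RCfg.box_subset_slice hi'))
      refine le_trans ?_ h1
      have g1 := p_le (T := T) z1 p1 v1
      have g2 := p_le (T := T) z2 p2 v2
      fin_cases a
      · show |(T n i').p 2 - (T n i).p 2| ≤ 4
        exact (abs_sub _ _).trans (by linarith [g1 2, g2 2])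
      · show |(T n i').p 0 - (T n i).p 0| ≤ 4
        exact (abs_sub _ _).trans (by linarith [g1 0, g2 0]))
    (by
      -- hV
      intro ε hε
      filter_upwards [A.bd, hcst 4 ε hε] with n hb h1 i hi i' hi' a
      obtain ⟨z1, p1, v1, -⟩ := hb i (k0 n) (H.memSlice.1 (RCfg.box_subset_slice hi))
      obtain ⟨z2, p2, v2, -⟩ := hb i' (k0 n) (H.memSlice.1 (RCfg.box_subset_slice hi'))
      refine le_trans ?_ h1
      fin_cases a
      · show |(T n i').v 2 - (T n i).v 2| ≤ 4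
        exact (abs_sub _ _).trans (by linarith [v1 2, v2 2])
      · show |(T n i').v 0 - (T n i).v 0| ≤ 4
        exact (abs_sub _ _).trans (by linarith [v1 0, v2 0]))
    (by
      -- hF
      intro ε hε
      refine Eventually.of_forall fun n k hk i hi hik i' hi' hi'k a => ?_
      have e1 : pE T n i' ((G n).z k) a - pE T n i ((G n).z k) a -
          ((p0E T n i' a - p0E T n i a) + (G n).z k * (wE T n i' a - wE T n i a)) = 0 := by
        rw [pE_eq, pE_eq]; ring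
      rw [e1, abs_zero]
      exact (rpos B n _).le)
    (by
      -- hlink
      intro ε hε
      filter_upwards [pos_of H.toRUnif A hx hε, ev_const_le B hε 8] with n h h8 k hk i hi hik l hl
        hlo a
      refine (h k i l hik hl hlo a).trans ((loss_mul B h8).trans (rpow_anti B n ?_))
      nlinarith)
    (by
      -- hT
      intro ε hε
      filter_upwards [hpr ε hε, A.loose_of H.toRUnif (a := x) (c := x) (d := 0) le_rfl le_rfl hx.le
        (ε := D * (D * ε)) (by positivity) 6, A.bd] with n h1 h2 hb k hk i hi i' hi' hik hi'k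
      obtain ⟨g1, g2⟩ := h1 i hi i' hi'
      have hr := rpos B n (x - D * (D * ε))
      have h3 := h2 k i i' hik hi'k (fun _ => g2 _ (hb i k hik).1) (fun _ => by linarith)
        (fun h => absurd h (lt_irrefl _))
      refine H.loose_mono (fun _ => le_rfl) ?_ h3
      nlinarith)
    (by
      -- hal
      intro ε hε
      filter_upwards [H.line ε hε] with n h i hi T' hT' hall
      have hiL : i ∈ (G n).L := (RCfg.mem_slice.1 (RCfg.box_subset_slice hi)).1
      have h1 := h i hiL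
      have h2 : (((G n).hts i).card : ℝ) ≤ (T'.card : ℝ) := by
        refine mod_cast Finset.card_le_card fun k hk => ?_
        obtain ⟨a1, a2⟩ := RCfg.mem_hts.1 hk
        exact hall k a1 a2
      refine le_trans (mul_le_mul_of_nonneg_right (rpow_anti B n ?_) (Nat.cast_nonneg _))
        (h1.trans h2)
      nlinarith)
    (by
      -- hfr
      intro t ht0 htx ε hε
      filter_upwards [H.frost t ht0 (htx.trans hxR) ε hε] with n h k hk T' hT' hcl
      have h1 := h k hk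
      rw [one_mul] at h1
      refine le_trans ?_ h1
      refine mod_cast Finset.card_le_card fun k' hk' => ?_
      unfold RCfg.hbox
      refine Finset.mem_filter.2 ⟨hT' hk', ?_⟩
      rw [H.base n]
      exact hcl k' hk')
    (by
      -- hqf
      intro C3 hC3
      refine ⟨2 * (C3 + D * D), by positivity, fun ε hε => ?_⟩
      have ht : 0 < (C3 + D * D) * ε := by positivity
      filter_upwards [hpr ε hε, loose_f H.toRUnif A hx hsx' ht, A.bd] with n h1 h2 hb k hk i hi hik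
        i' hi' hi'k hF hV
      obtain ⟨g1, g2⟩ := h1 i hi i' hi'
      have e1 : B.d n ^ (x - D * (D * ε)) ≤ B.d n ^ (x - (C3 + D * D) * ε) :=
        rpow_anti B n (by nlinarith)
      have h3 := h2 k i i' hik hi'k (g1.trans (by linarith))
        ((g2 _ (hb i k hik).1).trans (by linarith))
        (fun a => (hF a).trans (rpow_anti B n (by nlinarith)))
        (fun a => (hV a).trans (rpow_anti B n (by nlinarith)))
      have e2 : 2 * ((C3 + D * D) * ε) = 2 * (C3 + D * D) * ε := by ring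
      rwa [e2] at h3)
    (by
      -- hql
      intro ε hε
      filter_upwards [vel_of H.toRUnif A hx hs.le hsx' hε, ev_const_le B hε 8] with n h h8 i hi l hl
        hlo a
      have hI := H.memSlice.1 (RCfg.box_subset_slice hi)
      refine (h (k0 n) i l hI hl hlo a).trans ((loss_mul B h8).trans (rpow_anti B n ?_))
      nlinarith)
    (by rw [f1, f2, f3, f4]; linarith) le_rfl (by rw [f1, f2]; nlinarith) hδ ε hε hεδ
  exact key

/-- **strip alternative at all pins** -/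
theorem strip_pin (hKM : ∀ V : ℝ, Crest.Agent.R138.Tub70.KM32 V) (H : RModel B G 1 R Leg ν D)
    (hxR : x ≤ R) (A : AbsE B G x T E fa fb) (P : ProfE Leg ν x y m β) {s : ℝ} (hs : 0 < s)
    (hsx : s < x * (1 - y / 2)) {δ : ℝ} (hδ : 0 < δ) {ε : ℝ} (hε : 0 < ε)
    (hεδ : ε ≤ δ / (2 * D)) :
    ∀ᶠ n in (U : Filter ℕ), ∀ e k0, (e, k0) ∈ (G n).I → Pin B G x s δ ε T n e k0 := by
  classical
  have hc : ∀ n, ∃ q : ℕ × ℕ, (q.1, q.2) ∈ (G n).I ∧
      ((∃ q' : ℕ × ℕ, (q'.1, q'.2) ∈ (G n).I ∧ ¬ Pin B G x s δ ε T n q'.1 q'.2) →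
        ¬ Pin B G x s δ ε T n q.1 q.2) := by
    intro n
    by_cases hex : ∃ q' : ℕ × ℕ, (q'.1, q'.2) ∈ (G n).I ∧ ¬ Pin B G x s δ ε T n q'.1 q'.2
    · obtain ⟨q', h1, h2⟩ := hex
      exact ⟨q', h1, fun _ => h2⟩
    · obtain ⟨q, hq⟩ := H.nonempty n
      exact ⟨q, hq, fun h => absurd h hex⟩
  choose c hc1 hc2 using hc
  filter_upwards [strip_seq hKM H hxR A P hs hsx (fun n => (c n).1) (fun n => (c n).2) hc1 hδ hε
    hεδ] with n hn e k0 he
  by_contra hcon
  exact hc2 n ⟨(e, k0), he, hcon⟩ hn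

end Crest.Agent.R136.StripE501
end

-- ▼ part R136/WkES3_501
section

/-!
# R136 (S0187), RIG_E: heavy strips, part 3 (helper501): finite counting and the strip at one
incidence
-/

set_option autoImplicit false
set_option linter.unusedVariables false

open Filter Topology Finset

namespace Crest.Agent.R136.StripE501

open Crest.Agent.R136.Sh605
open Crest.Agent.R138.Ex926 (Base U)
open Crest.Agent.R136.Gf356
open Crest.Agent.R136.RgN344
open Crest.Agent.R136.RgE344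
open Crest.Agent.R136.Wk323 (coA one_le_rpow_neg)

/-! ### finite counting -/

open Classical in
/-- lines with many good heights -/
theorem good_part (al : ℕ → ℕ → Prop) [∀ i k, Decidable (al i k)] (good : ℕ → Prop)
    (Z T : Finset ℕ) {κ₀ : ℝ} (h0 : 0 < κ₀)
    (hZ : 0 < (Z.card : ℝ))
    (hline : ∀ i ∈ T, κ₀ * (Z.card : ℝ) ≤ ((Z.filter fun k => al i k).card : ℝ))
    (hbad : ∀ k, ¬ good k → ((T.filter fun j => al j k).card : ℝ) ≤ κ₀ / 2 * (T.card : ℝ)) :
    κ₀ / 4 * (T.card : ℝ) ≤ ((T.filter fun i => κ₀ / 4 * (Z.card : ℝ) ≤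
      ((Z.filter fun k => al i k ∧ good k).card : ℝ)).card : ℝ) := by
  obtain ⟨g, hg⟩ : ∃ g : ℕ → ℝ, ∀ i, ((Z.filter fun k => al i k ∧ good k).card : ℝ) = g i :=
    ⟨_, fun _ => rfl⟩
  simp only [hg]
  set T' := T.filter fun i => κ₀ / 4 * (Z.card : ℝ) ≤ g i with hT'
  -- split
  have h1 : ∑ i ∈ T, ((Z.filter fun k => al i k).card : ℝ) =
      ∑ i ∈ T, g i + ∑ i ∈ T, ((Z.filter fun k => al i k ∧ ¬ good k).card : ℝ) := by
    rw [← Finset.sum_add_distrib]
    refine Finset.sum_congr rfl fun i _ => ?_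
    have := Finset.card_filter_add_card_filter_not (s := Z.filter fun k => al i k) (fun k => good k)
    rw [Finset.filter_filter, Finset.filter_filter] at this
    rw [← hg]
    exact_mod_cast this.symm
  -- the bad part
  have h2 : ∑ i ∈ T, ((Z.filter fun k => al i k ∧ ¬ good k).card : ℝ) ≤
      κ₀ / 2 * (T.card : ℝ) * (Z.card : ℝ) := by
    have e1 : ∑ i ∈ T, ((Z.filter fun k => al i k ∧ ¬ good k).card : ℝ) =
        ∑ i ∈ T, ∑ k ∈ Z, (if al i k ∧ ¬ good k then (1 : ℝ) else 0) := by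
      refine Finset.sum_congr rfl fun i _ => ?_
      rw [Finset.card_filter]; push_cast; rfl
    rw [e1, Finset.sum_comm]
    have e2 : ∀ k ∈ Z, ∑ i ∈ T, (if al i k ∧ ¬ good k then (1 : ℝ) else 0) ≤
        κ₀ / 2 * (T.card : ℝ) := by
      intro k _
      by_cases hk : good k
      · have : ∑ i ∈ T, (if al i k ∧ ¬ good k then (1 : ℝ) else 0) = 0 := by
          refine Finset.sum_eq_zero fun i _ => ?_
          rw [if_neg]; exact fun h => h.2 hk
        rw [this]; positivity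
      · have : ∑ i ∈ T, (if al i k ∧ ¬ good k then (1 : ℝ) else 0) =
            ((T.filter fun j => al j k).card : ℝ) := by
          rw [Finset.card_filter]; push_cast
          refine Finset.sum_congr rfl fun i _ => ?_
          by_cases hi : al i k
          · rw [if_pos ⟨hi, hk⟩, if_pos hi]
          · rw [if_neg (fun h => hi h.1), if_neg hi]
        rw [this]
        exact hbad k hk
    calc _ ≤ ∑ k ∈ Z, κ₀ / 2 * (T.card : ℝ) := Finset.sum_le_sum e2
      _ = _ := by rw [Finset.sum_const, nsmul_eq_mul]; ring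
  have h3 : κ₀ * (Z.card : ℝ) * (T.card : ℝ) ≤ ∑ i ∈ T, ((Z.filter fun k => al i k).card : ℝ) := by
    calc κ₀ * (Z.card : ℝ) * (T.card : ℝ) = ∑ i ∈ T, κ₀ * (Z.card : ℝ) := by
          rw [Finset.sum_const, nsmul_eq_mul]; ring
      _ ≤ _ := Finset.sum_le_sum hline
  -- the lines of `T'`
  have h4 : ∑ i ∈ T, g i ≤ (T'.card : ℝ) * (Z.card : ℝ) + κ₀ / 4 * (Z.card : ℝ) * (T.card : ℝ) := by
    rw [← Finset.sum_filter_add_sum_filter_not T (fun i => κ₀ / 4 * (Z.card : ℝ) ≤ g i)]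
    refine add_le_add ?_ ?_
    · calc ∑ i ∈ T.filter (fun i => κ₀ / 4 * (Z.card : ℝ) ≤ g i), g i ≤
          ∑ i ∈ T.filter (fun i => κ₀ / 4 * (Z.card : ℝ) ≤ g i), (Z.card : ℝ) := by
            refine Finset.sum_le_sum fun i _ => ?_
            rw [← hg]
            exact_mod_cast Finset.card_le_card (Finset.filter_subset _ _)
        _ = _ := by rw [Finset.sum_const, nsmul_eq_mul]
    · calc ∑ i ∈ T.filter (fun i => ¬ κ₀ / 4 * (Z.card : ℝ) ≤ g i), g i ≤
          ∑ i ∈ T.filter (fun i => ¬ κ₀ / 4 * (Z.card : ℝ) ≤ g i), κ₀ / 4 * (Z.card : ℝ) := by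
            refine Finset.sum_le_sum fun i hi => ?_
            exact (not_le.1 (Finset.mem_filter.1 hi).2).le
        _ = ((T.filter (fun i => ¬ κ₀ / 4 * (Z.card : ℝ) ≤ g i)).card : ℝ) *
            (κ₀ / 4 * (Z.card : ℝ)) := by rw [Finset.sum_const, nsmul_eq_mul]
        _ ≤ (T.card : ℝ) * (κ₀ / 4 * (Z.card : ℝ)) := by
            refine mul_le_mul_of_nonneg_right ?_ (by positivity)
            exact_mod_cast Finset.card_le_card (Finset.filter_subset _ _)
        _ = _ := by ring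
  have h5 : κ₀ / 4 * (T.card : ℝ) * (Z.card : ℝ) ≤ (T'.card : ℝ) * (Z.card : ℝ) := by
    nlinarith
  exact le_of_mul_le_mul_right h5 hZ

/-- double count -/
theorem double_count (S M : Finset ℕ) (T' : ℕ → Finset ℕ) {a b : ℝ} (hM : ∀ e ∈ S, T' e ⊆ M)
    (ha : ∀ e ∈ S, a ≤ ((T' e).card : ℝ))
    (hb : ∀ i ∈ M, ((S.filter fun e => i ∈ T' e).card : ℝ) ≤ b) :
    (S.card : ℝ) * a ≤ (M.card : ℝ) * b := by
  calc (S.card : ℝ) * a = ∑ e ∈ S, a := by rw [Finset.sum_const, nsmul_eq_mul]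
    _ ≤ ∑ e ∈ S, ((T' e).card : ℝ) := Finset.sum_le_sum ha
    _ = ∑ e ∈ S, ∑ i ∈ M, (if i ∈ T' e then (1 : ℝ) else 0) := by
        refine Finset.sum_congr rfl fun e he => ?_
        have h1 : T' e = M.filter fun i => i ∈ T' e := by
          ext i
          rw [Finset.mem_filter]
          exact ⟨fun h => ⟨hM e he h, h⟩, fun h => h.2⟩
        conv_lhs => rw [h1]
        rw [Finset.card_filter]; push_cast; rfl
    _ = ∑ i ∈ M, ∑ e ∈ S, (if i ∈ T' e then (1 : ℝ) else 0) := Finset.sum_comm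
    _ = ∑ i ∈ M, ((S.filter fun e => i ∈ T' e).card : ℝ) := by
        refine Finset.sum_congr rfl fun i _ => ?_
        rw [Finset.card_filter]; push_cast; rfl
    _ ≤ ∑ i ∈ M, b := Finset.sum_le_sum hb
    _ = _ := by rw [Finset.sum_const, nsmul_eq_mul]

open Classical in
/-- incidences over a set of lines -/
theorem inc_count (I : Finset (ℕ × ℕ)) (M Z : Finset ℕ) (good : ℕ → ℕ → Prop) {a : ℝ}
    (h : ∀ i ∈ M, a ≤ ((Z.filter fun k => (i, k) ∈ I ∧ good i k).card : ℝ)) :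
    (M.card : ℝ) * a ≤ ((I.filter fun q => q.1 ∈ M ∧ good q.1 q.2).card : ℝ) := by
  have h1 : (I.filter fun q => q.1 ∈ M ∧ good q.1 q.2).card =
      ∑ i ∈ M, ((I.filter fun q => q.1 ∈ M ∧ good q.1 q.2).filter fun q => q.1 = i).card :=
    Finset.card_eq_sum_card_fiberwise fun q hq => (Finset.mem_filter.1 hq).2.1
  rw [h1]
  push_cast
  calc (M.card : ℝ) * a = ∑ i ∈ M, a := by rw [Finset.sum_const, nsmul_eq_mul]
    _ ≤ _ := by
        refine Finset.sum_le_sum fun i hi => (h i hi).trans ?_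
        refine mod_cast Finset.card_le_card_of_injOn (fun k => (i, k)) ?_ ?_
        · intro k hk
          obtain ⟨b1, b2, b3⟩ := Finset.mem_filter.1 (Finset.mem_coe.1 hk)
          refine Finset.mem_coe.2 (Finset.mem_filter.2 ⟨Finset.mem_filter.2 ⟨b2, hi, b3⟩, rfl⟩)
        · intro k _ k' _ hkk
          exact (Prod.mk.inj hkk).2

/-! ### the strip at one incidence -/

variable {B : Base} {G : ℕ → RCfg (Fin 11)} {Leg : Set (Fin 11 → ℝ)} {ν : (Fin 11 → ℝ) → ℝ}
  {D R x y m β : ℝ} {T : ℕ → ℕ → Ln4} {E fa fb : ℕ → ℕ → ℝ}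

theorem dE_add (n k i l m : ℕ) (j : Fin 2) :
    dE T E fa fb n k i m j = dE T E fa fb n k i l j + dE T E fa fb n k l m j := by
  unfold dE
  ring

theorem unit_le {b : Fin 2 → ℝ} (hb : b 0 ^ 2 + b 1 ^ 2 = 1) (j : Fin 2) : |b j| ≤ 1 := by
  rw [← sq_le_one_iff_abs_le_one]
  fin_cases j
  · show b 0 ^ 2 ≤ 1
    nlinarith [sq_nonneg (b 1)]
  · show b 1 ^ 2 ≤ 1
    nlinarith [sq_nonneg (b 0)]

theorem dot_le {b v : Fin 2 → ℝ} (hb : b 0 ^ 2 + b 1 ^ 2 = 1) {t : ℝ} (h : ∀ j, |v j| ≤ t) :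
    |b 0 * v 0 + b 1 * v 1| ≤ 2 * t := by
  have h0 : |b 0 * v 0| ≤ 1 * t := by
    rw [abs_mul]; exact mul_le_mul (unit_le hb 0) (h 0) (abs_nonneg _) (by norm_num)
  have h1 : |b 1 * v 1| ≤ 1 * t := by
    rw [abs_mul]; exact mul_le_mul (unit_le hb 1) (h 1) (abs_nonneg _) (by norm_num)
  exact (abs_add_le _ _).trans (by linarith)

open Classical in
set_option maxHeartbeats 1000000 in
/-- **the strip at one incidence**: a `ρ^(δ - ν pS + 3 ε)`-set `S` of lines in one narrow box and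
one strip, all alive at `k`, gives `ρ^(s + ε₀) #L` lines of the slice in the strip around each of
its points -/
theorem strip_inc (H : RModel B G 1 R Leg ν D) (A : AbsE B G x T E fa fb)
    (P : ProfE Leg ν x y m β) {s : ℝ} (hs : 0 < s) (hsx : s ≤ x) {ε₀ δ ε : ℝ} (hε₀ : 0 < ε₀)
    (hδ : δ ≤ ε₀ / 4) (hδ0 : 0 < δ) (hε : 0 < ε) (hεδ : D * D * ε ≤ δ)
    (hεs : (9 + D + D * (2 * (D * D))) * ε ≤ ε₀ / 4) :
    ∀ᶠ n in (U : Filter ℕ), ∀ e k0, (e, k0) ∈ (G n).I → ∀ k, ∀ b : Fin 2 → ℝ,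
      b 0 ^ 2 + b 1 ^ 2 = 1 → ∀ S ⊆ (G n).box (qE x 0 x 0) ε e k0, (∀ i ∈ S, (i, k) ∈ (G n).I) →
      (∀ i ∈ S, ∀ l ∈ S, |b 0 * (wE T n l 0 - wE T n i 0) + b 1 * (wE T n l 1 - wE T n i 1)| ≤
        2 * B.d n ^ (s - δ)) →
      B.d n ^ (δ - ν (qE x 0 x 0) + 3 * ε) ≤ (S.card : ℝ) → ∀ i ∈ S,
      ∃ W ⊆ (G n).slice k, B.d n ^ (s + ε₀) * ((G n).L.card : ℝ) ≤ (W.card : ℝ) ∧
      ∀ l ∈ W, |(T n l).pos ((G n).z k) 1 - (T n i).pos ((G n).z k) 1| ≤ B.d n ^ (s - ε₀) ∧
        |b 0 * dE T E fa fb n k i l 0 + b 1 * dE T E fa fb n k i l 1| ≤ B.d n ^ (s - ε₀) := by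
  have hD := H.D1
  have hD0 : 0 < D := by linarith
  have hD2 : 1 ≤ D * D := by nlinarith
  have hx := P.x0
  have hm0 := P.m0
  have hβ0 := P.β0
  have l1 : qE x 0 x 0 ∈ Leg := P.leg _ _ _ _ hx.le le_rfl le_rfl hx.le hx.le le_rfl le_rfl hx.le
  have l3 : qE x 0 x s ∈ Leg := P.leg _ _ _ _ hx.le le_rfl le_rfl hx.le hx.le le_rfl hs.le hsx
  have l5 : qE s 0 0 s ∈ Leg := P.leg _ _ _ _ hs.le hsx le_rfl hx.le le_rfl hx.le hs.le hsx
  have f1 : ν (qE x 0 x 0) = ν (qE 0 0 0 0) - (x + y * 0 + m * x + β * 0) :=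
    P.form _ _ _ _ le_rfl hx.le le_rfl le_rfl hx.le hx.le le_rfl
  have f3 : ν (qE x 0 x s) = ν (qE 0 0 0 0) - (x + y * 0 + m * x + β * s) :=
    P.form _ _ _ _ hs.le hsx le_rfl le_rfl hx.le hx.le le_rfl
  have f5 : ν (qE s 0 0 s) = ν (qE 0 0 0 0) - (s + y * 0 + m * 0 + β * s) :=
    P.form _ _ _ _ hs.le le_rfl hsx le_rfl hx.le le_rfl hx.le
  have hε1 : 0 < D * (D * ε) := by positivity
  filter_upwards [pairE H.toRUnif l1 hε, near_of H.toRUnif A hx (ε := D * (D * ε)) hε1,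
    A.loose_of H.toRUnif (a := x) (c := x) (d := s) le_rfl le_rfl hsx (ε := D * (D * ε)) hε1 6,
    card_le_lab H.toRUnif (qE x 0 x s) l3 (C := 2 * (D * D)) (by positivity) hε, A.bd,
    A.co_le H.toRUnif (p := qE s 0 0 s) (fun j => qE_le hx.le hsx hx.le hx.le hsx j) hε,
    H.low (qE s 0 0 s) l5 ε hε,
    lines_le H (qE 0 0 0 0) P.zero (Cb := 1) one_pos (bd_zero A H.toRUnif) hε,
    ev_const_le B (t := ε₀ / 2) (by positivity) 18, ev_const_le B hε 10]
    with n hpair hnear hloose hlab hb hco hlow hL h18 h10 e k0 he k b hbu S hS hSk hstrip hcard i hi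
  have hpow : ∀ t : ℝ, 0 < B.d n ^ t := fun t => rpos B n t
  have heε : B.d n ^ (x - D * (D * ε)) ≤ B.d n ^ (s - δ) := rpow_anti B n (by nlinarith)
  have hesδ : B.d n ^ (s - ε) ≤ B.d n ^ (s - δ) := rpow_anti B n (by nlinarith)
  have h18' : 18 * B.d n ^ (s - δ) ≤ B.d n ^ (s - ε₀) := by
    refine (loss_mul B (s := s - δ) h18).trans (rpow_anti B n (by linarith))
  have hSI : ∀ l ∈ S, (l, k0) ∈ (G n).I := fun l hl =>
    H.memSlice.1 (RCfg.box_subset_slice (hS hl))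
  have hSn : ∀ l ∈ S, ∀ l' ∈ S, |(T n l').v 1 - (T n l).v 1| ≤ 2 * B.d n ^ (x - D * (D * ε)) ∧
      |(T n l').pos ((G n).z k) 1 - (T n l).pos ((G n).z k) 1| ≤ 6 * B.d n ^ (x - D * (D * ε)) := by
    intro l hl l' hl'
    obtain ⟨g1, g2⟩ := hnear k0 l l' (hSI l hl) (hSI l' hl')
      (hpair e k0 he l (hS hl) l' (hS hl'))
    exact ⟨g1, g2 _ (hb l k (hSk l hl)).1⟩
  obtain ⟨-, -, -, bE, bfa, bfb⟩ := hb i k (hSk i hi)
  -- strip for `dE` inside `S`
  have hdS : ∀ l ∈ S, |b 0 * dE T E fa fb n k i l 0 + b 1 * dE T E fa fb n k i l 1| ≤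
      10 * B.d n ^ (s - δ) := by
    intro l hl
    have g1 := hstrip i hi l hl
    have g2 := (hSn i hi l hl).1
    have g3 : |b 0 * (eE E fa fb n k 0 * ((T n l).v 1 - (T n i).v 1)) +
        b 1 * (eE E fa fb n k 1 * ((T n l).v 1 - (T n i).v 1))| ≤
        2 * (2 * (2 * B.d n ^ (x - D * (D * ε)))) := by
      refine dot_le (v := fun j => eE E fa fb n k j * ((T n l).v 1 - (T n i).v 1)) hbu fun j => ?_
      rw [abs_mul]
      exact mul_le_mul (eE_le bE bfa bfb j) g2 (abs_nonneg _) (by norm_num)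
    have e1 : b 0 * dE T E fa fb n k i l 0 + b 1 * dE T E fa fb n k i l 1 =
        (b 0 * (wE T n l 0 - wE T n i 0) + b 1 * (wE T n l 1 - wE T n i 1)) -
        (b 0 * (eE E fa fb n k 0 * ((T n l).v 1 - (T n i).v 1)) +
        b 1 * (eE E fa fb n k 1 * ((T n l).v 1 - (T n i).v 1))) := by
      rw [dE_of, dE_of]; ring
    rw [e1]
    refine (abs_sub _ _).trans ?_
    linarith
  set F : ℕ → Fin 2 → ℝ := fun l j => wE T n l j - eE E fa fb n k j * (T n l).v 1 with hF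
  have hFd : ∀ l l' j, F l' j - F l j = dE T E fa fb n k l l' j := by
    intro l l' j
    rw [hF, dE_of]; ring
  -- number of labels
  have hlabS := hlab k S (fun l hl => H.memSlice.2 (hSk l hl)) (Fin 2 → ℤ)
    (fun l => gl (B.d n ^ s) (F l)) (by
      intro l hl l' hl' heq
      obtain ⟨g1, g2⟩ := hSn l hl l' hl'
      have h3 := hloose k l l' (hSk l hl) (hSk l' hl') (fun _ => g2)
        (fun _ => g1.trans (by linarith [hpow (x - D * (D * ε))])) (by
          intro _ j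
          have g3 := abs_sub_lt_of_gl_eq (hpow s) heq.symm j
          rw [hFd] at g3
          have g4 : B.d n ^ s ≤ B.d n ^ (s - D * (D * ε)) := rpow_anti B n (by linarith)
          linarith [hpow (s - D * (D * ε))])
      have e1 : 2 * (D * (D * ε)) = 2 * (D * D) * ε := by ring
      rwa [e1] at h3)
  set N : ℝ := ((S.image fun l => gl (B.d n ^ s) (F l)).card : ℝ) with hN
  set W := ((G n).slice k).filter fun l =>
    |(T n l).pos ((G n).z k) 1 - (T n i).pos ((G n).z k) 1| ≤ B.d n ^ (s - ε₀) ∧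
    |b 0 * dE T E fa fb n k i l 0 + b 1 * dE T E fa fb n k i l 1| ≤ B.d n ^ (s - ε₀) with hW
  refine ⟨W, Finset.filter_subset _ _, ?_, fun l hl => (Finset.mem_filter.1 hl).2⟩
  have hgrid := grid_count S W F (δ := B.d n ^ s) (w := 4 * B.d n ^ (s - ε))
    (m0 := B.d n ^ (-ν (qE s 0 0 s) + ε)) (hpow s)
    (mul_nonneg (by norm_num) (hpow _).le) (by
      intro l hl
      have hlk := hSk l hl
      obtain ⟨-, -, -, bE', bfa', bfb'⟩ := hb l k hlk
      refine ⟨(G n).box (qE s 0 0 s) ε l k, ?_, ?_, hlow l k hlk⟩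
      · intro l' hl'
        obtain ⟨m1, m2⟩ := RCfg.mem_box.1 hl'
        have hI' := H.memSlice.1 m1
        have c8 : |(T n l').pos ((G n).z k) 1 - (T n l).pos ((G n).z k) 1| ≤
          2 * B.d n ^ (s - ε) := hco k l l' hlk hI' m2 8 (by decide)
        have c6 := hco k l l' hlk hI' m2 6 (by decide)
        have c7 := hco k l l' hlk hI' m2 7 (by decide)
        have hd : ∀ j, |dE T E fa fb n k l l' j| ≤ 2 * (2 * B.d n ^ (s - ε)) := fun j =>
          dE_le (T := T) (E := E) (fa := fa) (fb := fb) bfb' c6 c7 j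
        rw [hW, Finset.mem_filter]
        refine ⟨m1, ?_, ?_⟩
        · have g1 := (hSn i hi l hl).2
          have g2 := abs_sub_le ((T n l').pos ((G n).z k) 1) ((T n l).pos ((G n).z k) 1)
            ((T n i).pos ((G n).z k) 1)
          linarith [hpow (s - δ)]
        · have g1 := hdS l hl
          have g2 := dot_le (v := dE T E fa fb n k l l') hbu hd
          rw [dE_add n k i l l' 0, dE_add n k i l l' 1]
          have e1 : b 0 * (dE T E fa fb n k i l 0 + dE T E fa fb n k l l' 0) +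
              b 1 * (dE T E fa fb n k i l 1 + dE T E fa fb n k l l' 1) =
              (b 0 * dE T E fa fb n k i l 0 + b 1 * dE T E fa fb n k i l 1) +
              (b 0 * dE T E fa fb n k l l' 0 + b 1 * dE T E fa fb n k l l' 1) := by ring
          rw [e1]
          refine (abs_add_le _ _).trans ?_
          linarith
      · intro l' hl' j
        obtain ⟨m1, m2⟩ := RCfg.mem_box.1 hl'
        have hI' := H.memSlice.1 m1
        have c6 := hco k l l' hlk hI' m2 6 (by decide)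
        have c7 := hco k l l' hlk hI' m2 7 (by decide)
        have hd : |dE T E fa fb n k l l' j| ≤ 2 * (2 * B.d n ^ (s - ε)) :=
          dE_le (T := T) (E := E) (fa := fa) (fb := fb) bfb' c6 c7 j
        rw [hFd]
        linarith)
  rw [← hN] at hgrid
  have hwt : 2 * (4 * B.d n ^ (s - ε)) / B.d n ^ s + 2 ≤ B.d n ^ (-(2 * ε)) := by
    have e1 : B.d n ^ (s - ε) = B.d n ^ (-ε) * B.d n ^ s := by
      rw [← rpow_add']; congr 1; ring
    have e2 : 2 * (4 * B.d n ^ (s - ε)) / B.d n ^ s = 8 * B.d n ^ (-ε) := by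
      rw [e1]
      have := (hpow s).ne'
      field_simp
      ring
    have e3 : (1 : ℝ) ≤ B.d n ^ (-ε) := one_le_rpow_neg B n hε.le
    have e4 : B.d n ^ (-(2 * ε)) = B.d n ^ (-ε) * B.d n ^ (-ε) := by
      rw [← rpow_add']; congr 1; ring
    rw [e2, e4]
    have e5 : 10 * B.d n ^ (-ε) ≤ B.d n ^ (-ε) * B.d n ^ (-ε) :=
      mul_le_mul_of_nonneg_right h10 (hpow _).le
    linarith
  have hWlow : N * B.d n ^ (-ν (qE s 0 0 s) + ε) ≤ B.d n ^ (-(4 * ε)) * (W.card : ℝ) := by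
    refine hgrid.trans (mul_le_mul_of_nonneg_right ?_ (Nat.cast_nonneg _))
    calc (2 * (4 * B.d n ^ (s - ε)) / B.d n ^ s + 2) ^ 2 ≤ (B.d n ^ (-(2 * ε))) ^ 2 :=
          pow_le_pow_left₀ (by
            have h1 := hpow (s - ε)
            have h2 := hpow s
            have h3 : 0 ≤ 2 * (4 * B.d n ^ (s - ε)) / B.d n ^ s := div_nonneg (by linarith) h2.le
            linarith) hwt 2
      _ = B.d n ^ (-(4 * ε)) := by rw [sq, ← rpow_add']; congr 1; ring
  have hNlow : B.d n ^ (δ - ν (qE x 0 x 0) + ν (qE x 0 x s) + (3 + D * (2 * (D * D))) * ε) ≤ N := by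
    have h1 := hcard.trans hlabS
    have e1 : B.d n ^ (δ - ν (qE x 0 x 0) + 3 * ε) =
        B.d n ^ (δ - ν (qE x 0 x 0) + ν (qE x 0 x s) + (3 + D * (2 * (D * D))) * ε) *
          B.d n ^ (-ν (qE x 0 x s) - D * (2 * (D * D)) * ε) := by
      rw [← rpow_add']; congr 1; ring
    rw [e1] at h1
    exact le_of_mul_le_mul_right h1 (hpow _)
  have hfin : B.d n ^ (δ - ν (qE 0 0 0 0) + s + (8 + D * (2 * (D * D))) * ε) ≤ (W.card : ℝ) := by
    have h1 := (mul_le_mul_of_nonneg_right hNlow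
      (hpow (-ν (qE s 0 0 s) + ε)).le).trans hWlow
    have e1 : B.d n ^ (δ - ν (qE x 0 x 0) + ν (qE x 0 x s) + (3 + D * (2 * (D * D))) * ε) *
        B.d n ^ (-ν (qE s 0 0 s) + ε) =
        B.d n ^ (-(4 * ε)) * B.d n ^ (δ - ν (qE 0 0 0 0) + s + (8 + D * (2 * (D * D))) * ε) := by
      rw [← rpow_add', ← rpow_add']
      congr 1
      rw [f1, f3, f5]
      ring
    rw [e1] at h1
    exact le_of_mul_le_mul_left h1 (hpow _)
  refine le_trans ?_ hfin
  calc B.d n ^ (s + ε₀) * ((G n).L.card : ℝ)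
      ≤ B.d n ^ (s + ε₀) * B.d n ^ (-ν (qE 0 0 0 0) - (D * 1 + 1) * ε) :=
        mul_le_mul_of_nonneg_left hL (hpow _).le
    _ = B.d n ^ (s + ε₀ + (-ν (qE 0 0 0 0) - (D * 1 + 1) * ε)) := by rw [← rpow_add']
    _ ≤ _ := rpow_anti B n (by nlinarith)

end Crest.Agent.R136.StripE501
end

-- ▼ part R136/WkES4_501

/-!
# R136 (S0187), RIG_E: heavy strips, part 4 (helper501): `stripsE`
-/

set_option autoImplicit false
set_option linter.unusedVariables false

open Filter Topology Finset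

namespace Crest.Agent.R136.StripE501

open Crest.Agent.R136.Sh605
open Crest.Agent.R138.Ex926 (Base U)
open Crest.Agent.R136.Gf356
open Crest.Agent.R136.RgN344
open Crest.Agent.R136.RgE344
open Crest.Agent.R136.Wk323 (coA one_le_rpow_neg)

variable {B : Base} {G : ℕ → RCfg (Fin 11)} {Leg : Set (Fin 11 → ℝ)} {ν : (Fin 11 → ℝ) → ℝ}
  {D R x y m β : ℝ} {T : ℕ → ℕ → Ln4} {E fa fb : ℕ → ℕ → ℝ}

open Classical in
set_option maxHeartbeats 1000000 in
/-- **heavy strips**: at most incidences `(i, k)` the strip around `i` with the normal `b i` holds a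
`ρ^(s + ε)`-part of all lines. -/
theorem stripsE (hKM : ∀ V : ℝ, Crest.Agent.R138.Tub70.KM32 V) (H : RModel B G 1 R Leg ν D)
    (hxR : x ≤ R) (A : AbsE B G x T E fa fb) (P : ProfE Leg ν x y m β) (hβ : 0 < β) {s : ℝ}
    (hs : 0 < s) (hsx : s < x * (1 - y / 2)) : StripsE B G s T E fa fb := by
  intro ε₀ hε₀
  have hD := H.D1
  have hD0 : 0 < D := by linarith
  have hD2 : 1 ≤ D * D := by nlinarith
  have hx := P.x0
  have hy0 := P.y0
  have hsx' : s ≤ x := by nlinarith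
  have l1 : qE x 0 x 0 ∈ Leg := P.leg _ _ _ _ hx.le le_rfl le_rfl hx.le hx.le le_rfl le_rfl hx.le
  set δ : ℝ := ε₀ / 4 with hδd
  have hδ : 0 < δ := by positivity
  set K : ℝ := 9 + 2 * D + D * D + D * (2 * (D * D)) with hK
  have hK0 : 0 < K := by positivity
  set ε : ℝ := δ / K with hεd
  have hε : 0 < ε := by positivity
  have hKε : K * ε = δ := by
    rw [hεd]; field_simp
  have q1 : 0 ≤ D * ε := by positivity
  have q2 : 0 ≤ D * D * ε := by positivity
  have q3 : 0 ≤ D * (2 * (D * D)) * ε := by positivity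
  have hKε' : 9 * ε + 2 * (D * ε) + D * D * ε + D * (2 * (D * D)) * ε = δ := by
    rw [← hKε, hK]; ring
  have a1 : D * D * ε ≤ δ := by linarith
  have a2 : (9 + D + D * (2 * (D * D))) * ε ≤ ε₀ / 4 := by
    have e1 : (9 + D + D * (2 * (D * D))) * ε = 9 * ε + D * ε + D * (2 * (D * D)) * ε := by ring
    rw [e1]; linarith
  have a3 : ε ≤ δ / (2 * D) := by
    rw [le_div_iff₀ (by positivity)]
    linarith
  have a4 : δ + (6 + D * D) * ε ≤ ε₀ := by
    have e1 : (6 + D * D) * ε = 6 * ε + D * D * ε := by ring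
    rw [e1]; linarith
  filter_upwards [strip_pin hKM H hxR A P hs hsx hδ hε a3,
    strip_inc H A P hs hsx' hε₀ le_rfl hδ hε a1 a2, H.low (qE x 0 x 0) l1 ε hε,
    H.up (qE x 0 x 0) l1 (D * ε) (by positivity), H.symm (qE x 0 x 0) l1 ε hε, H.line ε hε,
    H.slice ε hε, ev_const_le B hε 4] with n hpin hinc hlow hup hsymm hline hslice h4
  obtain ⟨⟨i1, k0⟩, hI1⟩ := H.nonempty n
  have hk0 : k0 ∈ (G n).Z := H.memZ hI1
  have hpow : ∀ t : ℝ, 0 < B.d n ^ t := fun t => rpos B n t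
  have hZpos : (0 : ℝ) < (G n).Z.card := by exact_mod_cast (Finset.card_pos.2 ⟨k0, hk0⟩)
  have hLpos := L_pos H.toRUnif n
  -- `ρ^ε ≤ 1/4`
  have hquart : B.d n ^ ε * 4 ≤ 1 := by
    have e1 : B.d n ^ ε * B.d n ^ (-ε) = 1 := by rw [← rpow_add', add_neg_cancel, Real.rpow_zero]
    calc B.d n ^ ε * 4 ≤ B.d n ^ ε * B.d n ^ (-ε) := mul_le_mul_of_nonneg_left h4 (hpow _).le
      _ = 1 := e1
  have hstep : ∀ t c : ℝ, 1 / 4 ≤ c → B.d n ^ (t + ε) ≤ c * B.d n ^ t := by
    intro t c hc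
    rw [rpow_add']
    have := hpow t
    nlinarith
  -- the strips at the pins over the height `k0`
  have hpin' : ∀ e, ∃ (b : Fin 2 → ℝ) (T' : Finset ℕ), b 0 ^ 2 + b 1 ^ 2 = 1 ∧
      (e ∈ (G n).slice k0 → T' ⊆ (G n).box (qE x 0 x 0) ε e k0 ∧
      (∀ i ∈ T', ∀ l ∈ T', |b 0 * (wE T n l 0 - wE T n i 0) + b 1 * (wE T n l 1 - wE T n i 1)| ≤
        2 * B.d n ^ (s - δ)) ∧ B.d n ^ (δ - ν (qE x 0 x 0) + ε) ≤ (T'.card : ℝ)) := by
    intro e
    by_cases he : e ∈ (G n).slice k0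
    · have heI := H.memSlice.1 he
      obtain ⟨b, hb, i2, -, T', hT', hstr, hc⟩ := hpin e k0 heI
      refine ⟨b, T', hb, fun _ => ⟨hT', fun i hi l hl => ?_, ?_⟩⟩
      · have g1 := hstr i hi
        have g2 := hstr l hl
        have e1 : b 0 * (wE T n l 0 - wE T n i 0) + b 1 * (wE T n l 1 - wE T n i 1) =
            (b 0 * (wE T n l 0 - wE T n i2 0) + b 1 * (wE T n l 1 - wE T n i2 1)) -
            (b 0 * (wE T n i 0 - wE T n i2 0) + b 1 * (wE T n i 1 - wE T n i2 1)) := by ring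
        rw [e1]
        exact (abs_sub _ _).trans (by linarith)
      · refine le_trans ?_ hc
        calc B.d n ^ (δ - ν (qE x 0 x 0) + ε) = B.d n ^ δ * B.d n ^ (-ν (qE x 0 x 0) + ε) := by
              rw [← rpow_add']; congr 1; ring
          _ ≤ _ := mul_le_mul_of_nonneg_left (hlow e k0 heI) (hpow _).le
    · exact ⟨![1, 0], ∅, by simp, fun h => absurd h he⟩
  choose b Te hb hTe using hpin'
  obtain ⟨good, hgood⟩ : ∃ good : ℕ → ℕ → Prop, ∀ e k, good e k ↔
      B.d n ^ ε / 2 * ((Te e).card : ℝ) ≤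
        (((Te e).filter fun j => (j, k) ∈ (G n).I).card : ℝ) := ⟨_, fun _ _ => Iff.rfl⟩
  set T' : ℕ → Finset ℕ := fun e => (Te e).filter fun i => B.d n ^ ε / 4 * ((G n).Z.card : ℝ) ≤
    (((G n).Z.filter fun k => (i, k) ∈ (G n).I ∧ good e k).card : ℝ) with hT'
  have hT'sub : ∀ e, T' e ⊆ Te e := fun e => Finset.filter_subset _ _
  have hTeS : ∀ e ∈ (G n).slice k0, Te e ⊆ (G n).slice k0 := fun e he =>
    (hTe e he).1.trans RCfg.box_subset_slice
  have hT'c : ∀ e ∈ (G n).slice k0, B.d n ^ (δ - ν (qE x 0 x 0) + 3 * ε) ≤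
      ((T' e).card : ℝ) := by
    intro e he
    have h1 := good_part (fun i k => (i, k) ∈ (G n).I) (good e) (G n).Z (Te e) (hpow ε) hZpos
      (fun i hi => by
        have hiL : i ∈ (G n).L := (RCfg.mem_slice.1 (hTeS e he hi)).1
        refine (hline i hiL).trans ?_
        refine mod_cast Finset.card_le_card fun k hk => ?_
        obtain ⟨c1, c2⟩ := RCfg.mem_hts.1 hk
        exact Finset.mem_filter.2 ⟨c1, c2⟩)
      (fun k hk => by
        rw [hgood] at hk
        exact (not_le.1 hk).le)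
    refine le_trans ?_ h1
    have h2 := (hTe e he).2.2
    have h3 : B.d n ^ (δ - ν (qE x 0 x 0) + 3 * ε) ≤
        1 / 4 * B.d n ^ (δ - ν (qE x 0 x 0) + 2 * ε) := by
      have := hstep (δ - ν (qE x 0 x 0) + 2 * ε) (1 / 4) le_rfl
      have e1 : δ - ν (qE x 0 x 0) + 2 * ε + ε = δ - ν (qE x 0 x 0) + 3 * ε := by ring
      rwa [e1] at this
    refine h3.trans ?_
    have e2 : B.d n ^ (δ - ν (qE x 0 x 0) + 2 * ε) =
        B.d n ^ ε * B.d n ^ (δ - ν (qE x 0 x 0) + ε) := by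
      rw [← rpow_add']; congr 1; ring
    rw [e2]
    have h5 := mul_le_mul_of_nonneg_left h2 (hpow ε).le
    linarith
  set M : Finset ℕ := ((G n).slice k0).biUnion T' with hM
  have hMc : ∀ i ∈ M, ((((G n).slice k0).filter fun e => i ∈ T' e).card : ℝ) ≤
      B.d n ^ (-ν (qE x 0 x 0) - D * (D * ε)) := by
    intro i hi
    obtain ⟨e, he, hie⟩ := Finset.mem_biUnion.1 hi
    have hiS := hTeS e he (hT'sub e hie)
    have hiI := H.memSlice.1 hiS
    refine le_trans ?_ (hup i k0 hiI)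
    refine mod_cast Finset.card_le_card fun e' he' => ?_
    obtain ⟨d1, d2⟩ := Finset.mem_filter.1 he'
    refine RCfg.mem_box.2 ⟨d1, ?_⟩
    exact hsymm k0 e' i (H.memSlice.1 d1) hiI
      (RCfg.mem_box.1 ((hTe e' d1).1 (hT'sub e' d2))).2
  have hdc := double_count ((G n).slice k0) M T' (fun e he => Finset.subset_biUnion_of_mem T' he)
    hT'c hMc
  have hMlow : B.d n ^ (δ + (4 + D * D) * ε) * ((G n).L.card : ℝ) ≤ (M.card : ℝ) := by
    have h1 := mul_le_mul_of_nonneg_right (hslice k0 hk0)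
      (hpow (δ - ν (qE x 0 x 0) + 3 * ε)).le
    have h2 := h1.trans hdc
    have e1 : B.d n ^ ε * ((G n).L.card : ℝ) * B.d n ^ (δ - ν (qE x 0 x 0) + 3 * ε) =
        B.d n ^ (δ + (4 + D * D) * ε) * ((G n).L.card : ℝ) *
          B.d n ^ (-ν (qE x 0 x 0) - D * (D * ε)) := by
      have : B.d n ^ ε * B.d n ^ (δ - ν (qE x 0 x 0) + 3 * ε) =
          B.d n ^ (δ + (4 + D * D) * ε) * B.d n ^ (-ν (qE x 0 x 0) - D * (D * ε)) := by
        rw [← rpow_add', ← rpow_add']; congr 1; ring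
      calc B.d n ^ ε * ((G n).L.card : ℝ) * B.d n ^ (δ - ν (qE x 0 x 0) + 3 * ε)
          = (B.d n ^ ε * B.d n ^ (δ - ν (qE x 0 x 0) + 3 * ε)) * ((G n).L.card : ℝ) := by ring
        _ = _ := by rw [this]; ring
    rw [e1] at h2
    exact le_of_mul_le_mul_right h2 (hpow _)
  -- the pins of the lines
  have hpins : ∀ i, ∃ e, i ∈ M → e ∈ (G n).slice k0 ∧ i ∈ T' e := by
    intro i
    by_cases hi : i ∈ M
    · obtain ⟨e, he, hie⟩ := Finset.mem_biUnion.1 hi
      exact ⟨e, fun _ => ⟨he, hie⟩⟩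
    · exact ⟨0, fun h => absurd h hi⟩
  choose ec hec using hpins
  refine ⟨fun i => b (ec i), (G n).I.filter fun q => q.1 ∈ M ∧ good (ec q.1) q.2,
    fun i => hb _, Finset.filter_subset _ _, ?_, ?_⟩
  · -- number of incidences
    have h1 := inc_count (G n).I M (G n).Z (fun i k => good (ec i) k)
      (a := B.d n ^ ε / 4 * ((G n).Z.card : ℝ)) (fun i hi =>
        (Finset.mem_filter.1 (hec i hi).2).2)
    refine le_trans ?_ h1
    have h2 : B.d n ^ (2 * ε) ≤ B.d n ^ ε / 4 := by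
      have := hstep ε (1 / 4) le_rfl
      have e1 : ε + ε = 2 * ε := by ring
      rw [e1] at this
      linarith
    have h3 : B.d n ^ ε₀ ≤ B.d n ^ (δ + (4 + D * D) * ε) * B.d n ^ (2 * ε) := by
      rw [← rpow_add']
      refine rpow_anti B n ?_
      have e1 : δ + (4 + D * D) * ε + 2 * ε = δ + (6 + D * D) * ε := by ring
      rw [e1]; exact a4
    calc B.d n ^ ε₀ * (((G n).L.card : ℝ) * ((G n).Z.card : ℝ))
        ≤ B.d n ^ (δ + (4 + D * D) * ε) * B.d n ^ (2 * ε) *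
            (((G n).L.card : ℝ) * ((G n).Z.card : ℝ)) :=
          mul_le_mul_of_nonneg_right h3 (by positivity)
      _ = (B.d n ^ (δ + (4 + D * D) * ε) * ((G n).L.card : ℝ)) *
            (B.d n ^ (2 * ε) * ((G n).Z.card : ℝ)) := by ring
      _ ≤ (M.card : ℝ) * (B.d n ^ ε / 4 * ((G n).Z.card : ℝ)) := by
          refine mul_le_mul hMlow (mul_le_mul_of_nonneg_right h2 hZpos.le) ?_ (Nat.cast_nonneg _)
          exact mul_nonneg (hpow _).le hZpos.le
  · intro i k hik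
    obtain ⟨hI, hiM, hg⟩ := Finset.mem_filter.1 hik
    obtain ⟨heS, hiT⟩ := hec i hiM
    have hg' := (hgood _ _).1 hg
    obtain ⟨t1, t2, t3⟩ := hTe (ec i) heS
    have hres := hinc (ec i) k0 (H.memSlice.1 heS) k (b (ec i)) (hb _)
      ((Te (ec i)).filter fun j => (j, k) ∈ (G n).I) ((Finset.filter_subset _ _).trans t1)
      (fun j hj => (Finset.mem_filter.1 hj).2)
      (fun j hj l hl => t2 j (Finset.mem_filter.1 hj).1 l (Finset.mem_filter.1 hl).1)
      (by
        refine le_trans ?_ hg'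
        have h3 : B.d n ^ (δ - ν (qE x 0 x 0) + 3 * ε) ≤
            1 / 2 * B.d n ^ (δ - ν (qE x 0 x 0) + 2 * ε) := by
          have := hstep (δ - ν (qE x 0 x 0) + 2 * ε) (1 / 2) (by norm_num)
          have e1 : δ - ν (qE x 0 x 0) + 2 * ε + ε = δ - ν (qE x 0 x 0) + 3 * ε := by ring
          rwa [e1] at this
        refine h3.trans ?_
        have e2 : B.d n ^ (δ - ν (qE x 0 x 0) + 2 * ε) =
            B.d n ^ ε * B.d n ^ (δ - ν (qE x 0 x 0) + ε) := by
          rw [← rpow_add']; congr 1; ring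
        rw [e2]
        have h5 := mul_le_mul_of_nonneg_left t3 (hpow ε).le
        linarith)
      i (Finset.mem_filter.2 ⟨hT'sub _ hiT, hI⟩)
    exact hres

end Crest.Agent.R136.StripE501
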