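import Crest.Agent.R136.LA4_501
import Crest.Agent.R136.RgE8_344
import Crest.Agent.R136.WkES4_501
import Crest.Agent.R138.KMs_630
import Crest.Agent.R136.WkE_344
import Crest.Agent.R136.Gr2_356

-- ▼ part R136/LA5_501
section

/-!
# R136 [RIG_E], Lemma A (for helper344), part 5 (helper501): **`lemA`**
-/

set_option autoImplicit false
set_option linter.unusedVariables false
set_option linter.unusedSectionVars false

open Finset

namespace Crest.Agent.R136.LA501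

open Crest.Agent.R138.TwA501 (sq_card_le card_le_of_fibers)

section

variable {δ e m : ℝ} {L Z : Finset ℕ} {I : Finset (ℕ × ℕ)} {z f x c p : ℕ → ℝ}

theorem floor_near {a b : ℝ} (h : |a - b| ≤ 1) : |⌊a⌋ - ⌊b⌋| ≤ 1 := by
  rw [abs_le] at h
  have h1 := Int.floor_le a
  have h2 := Int.lt_floor_add_one a
  have h3 := Int.floor_le b
  have h4 := Int.lt_floor_add_one b
  have g1 : (⌊a⌋ : ℝ) < ((⌊b⌋ + 2 : ℤ) : ℝ) := by push_cast; linarith [h.1, h.2]
  have g2 : (⌊b⌋ : ℝ) < ((⌊a⌋ + 2 : ℤ) : ℝ) := by push_cast; linarith [h.1, h.2]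
  have g3 : ⌊a⌋ < ⌊b⌋ + 2 := by exact_mod_cast g1
  have g4 : ⌊b⌋ < ⌊a⌋ + 2 := by exact_mod_cast g2
  rw [abs_le]
  omega

/-- heavy level sets: few values -/
theorem values_le {L L' : Finset ℕ} (hL' : L' ⊆ L) (hLn : L.Nonempty) {q : ℕ → ℝ} {W τ : ℝ}
    (hW : 0 < W) (hτ : 0 < τ)
    (h : ∀ l ∈ L', τ * L.card ≤ ((L.filter fun l' => |q l' - q l| ≤ W).card : ℝ)) :
    ((L'.image fun l => ⌊q l / W⌋).card : ℝ) ≤ 3 / τ := by
  classical
  have hLc : (0 : ℝ) < L.card := by exact_mod_cast hLn.card_pos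
  set V := L'.image fun l => ⌊q l / W⌋ with hV
  have h1 : ∀ v ∈ V, τ * L.card ≤ ((L.filter fun l' => |⌊q l' / W⌋ - v| ≤ 1).card : ℝ) := by
    intro v hv
    obtain ⟨l, hl, rfl⟩ := mem_image.1 hv
    refine (h l hl).trans ?_
    exact_mod_cast card_le_card fun l' hl' => by
      rw [mem_filter] at hl' ⊢
      refine ⟨hl'.1, floor_near ?_⟩
      rw [← sub_div, abs_div, abs_of_pos hW, div_le_one hW]
      exact hl'.2
  have h2 : ∑ v ∈ V, ((L.filter fun l' => |⌊q l' / W⌋ - v| ≤ 1).card : ℝ) ≤ 3 * L.card := by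
    have g1 : ∀ v ∈ V, ((L.filter fun l' => |⌊q l' / W⌋ - v| ≤ 1).card : ℝ) =
        ∑ l' ∈ L, (if |⌊q l' / W⌋ - v| ≤ 1 then (1 : ℝ) else 0) := by
      intro v _
      rw [card_filter]
      push_cast
      rfl
    rw [sum_congr rfl g1, sum_comm]
    have g2 : ∀ l' ∈ L, ∑ v ∈ V, (if |⌊q l' / W⌋ - v| ≤ 1 then (1 : ℝ) else 0) ≤ 3 := by
      intro l' _
      have g3 : ∑ v ∈ V, (if |⌊q l' / W⌋ - v| ≤ 1 then (1 : ℝ) else 0) =
          ((V.filter fun v => |⌊q l' / W⌋ - v| ≤ 1).card : ℝ) := by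
        rw [card_filter]
        push_cast
        rfl
      rw [g3]
      have g4 : (V.filter fun v => |⌊q l' / W⌋ - v| ≤ 1) ⊆
          Finset.Icc (⌊q l' / W⌋ - 1) (⌊q l' / W⌋ + 1) := by
        intro v hv
        rw [mem_filter, abs_le] at hv
        rw [Finset.mem_Icc]
        omega
      have g5 := card_le_card g4
      rw [Int.card_Icc] at g5
      have g6 : (⌊q l' / W⌋ + 1 + 1 - (⌊q l' / W⌋ - 1)).toNat = 3 := by
        have : ⌊q l' / W⌋ + 1 + 1 - (⌊q l' / W⌋ - 1) = 3 := by ring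
        rw [this]; rfl
      rw [g6] at g5
      exact_mod_cast g5
    refine (sum_le_sum g2).trans (le_of_eq ?_)
    rw [sum_const, nsmul_eq_mul, mul_comm]
  have h3 : (V.card : ℝ) * (τ * L.card) ≤ 3 * L.card := by
    refine le_trans ?_ h2
    rw [← nsmul_eq_mul, ← sum_const]
    exact sum_le_sum h1
  rw [le_div_iff₀ hτ]
  refine le_of_mul_le_mul_right (a := (L.card : ℝ)) ?_ hLc
  calc (V.card : ℝ) * τ * L.card = (V.card : ℝ) * (τ * L.card) := by ring
    _ ≤ _ := h3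

/-- **all heights**: a dense set of lines with few values of `q` -/
theorem spread (H : Cfg δ e m L Z I z f x c p) {L' : Finset ℕ} (hL' : L' ⊆ L)
    (hLd : e ^ 4 * L.card ≤ (L'.card : ℝ)) {q : ℕ → ℝ} {W τ s : ℝ} (hW : 0 < W) (hτ : 0 < τ)
    (h : ∀ l ∈ L', τ * L.card ≤ ((L.filter fun l' => |q l' - q l| ≤ W).card : ℝ))
    (hs1 : δ ≤ s) (hs2 : s ≤ 2) (hsm : s ^ m ≤ e ^ 12 * τ) :
    ∃ Z' ⊆ Z, e ^ 6 * Z.card ≤ (Z'.card : ℝ) ∧ ∀ k ∈ Z', ∃ l l' : ℕ, (l, k) ∈ I ∧ (l', k) ∈ I ∧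
      |XX z x c l' k - XX z x c l k| ≤ δ ∧ |q l' - q l| ≤ W ∧ s < |c l' - c l| := by
  classical
  have hδ := H.δ0
  have he := H.e0
  have he1 : e ≤ 1 := by linarith [H.e1]
  have hLc : (0 : ℝ) < L.card := by exact_mod_cast H.nL.card_pos
  have hZc : (0 : ℝ) < Z.card := by exact_mod_cast H.nZ.card_pos
  have hV := values_le hL' H.nL hW hτ h
  set A : ℕ → Finset ℕ := fun k => L'.filter fun l => (l, k) ∈ I with hA
  have hAL : ∀ k, A k ⊆ L := fun k => (filter_subset _ _).trans hL'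
  have hAI : ∀ k, ∀ l ∈ A k, (l, k) ∈ I := fun k l hl => (mem_filter.1 hl).2
  set Z' := Z.filter fun k => e ^ 5 / 2 * L.card ≤ ((A k).card : ℝ) with hZ'
  refine ⟨Z', filter_subset _ _, ?_, ?_⟩
  · -- many heights
    have h1 : e ^ 4 * L.card * (e * Z.card) ≤ ∑ k ∈ Z, ((A k).card : ℝ) := by
      have g1 : ∑ k ∈ Z, ((A k).card : ℝ) = ∑ l ∈ L', ((Z.filter fun k => (l, k) ∈ I).card : ℝ) := by
        rw [← res_card, res_card']
      rw [g1]
      calc e ^ 4 * L.card * (e * Z.card) ≤ L'.card * (e * Z.card) :=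
            mul_le_mul_of_nonneg_right hLd (by positivity)
        _ = ∑ l ∈ L', e * (Z.card : ℝ) := by rw [sum_const, nsmul_eq_mul]
        _ ≤ _ := sum_le_sum fun l hl => H.degL l (hL' hl)
    have h2 : ∑ k ∈ Z, ((A k).card : ℝ) ≤ Z'.card * (L.card : ℝ) +
        Z.card * (e ^ 5 / 2 * L.card) := by
      have g1 : ∑ k ∈ Z, ((A k).card : ℝ) = ∑ k ∈ Z', ((A k).card : ℝ) +
          ∑ k ∈ Z \ Z', ((A k).card : ℝ) := by
        rw [add_comm, sum_sdiff (filter_subset _ _)]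
      rw [g1]
      refine add_le_add ?_ ?_
      · refine (sum_le_sum (g := fun _ => (L.card : ℝ)) fun k _ => ?_).trans (le_of_eq ?_)
        · exact_mod_cast card_le_card (hAL k)
        · rw [sum_const, nsmul_eq_mul]
      · refine (sum_le_sum (g := fun _ => (e ^ 5 / 2 * L.card : ℝ)) fun k hk => ?_).trans ?_
        · by_contra hcon
          push Not at hcon
          rw [mem_sdiff] at hk
          exact hk.2 (mem_filter.2 ⟨hk.1, hcon.le⟩)
        · rw [sum_const, nsmul_eq_mul]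
          refine mul_le_mul_of_nonneg_right ?_ (by positivity)
          exact_mod_cast card_le_card sdiff_subset
    have h3 : (e ^ 5 / 2 * Z.card) * L.card ≤ Z'.card * (L.card : ℝ) := by
      have := h1.trans h2
      linarith
    have h4 := le_of_mul_le_mul_right h3 hLc
    refine le_trans (mul_le_mul_of_nonneg_right ?_ hZc.le) h4
    calc e ^ 6 = e ^ 5 * e := by ring
      _ ≤ e ^ 5 * (1 / 2) := mul_le_mul_of_nonneg_left (by linarith [H.e1]) (by positivity)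
      _ = _ := by ring
  · intro k hk
    rw [hZ', mem_filter] at hk
    by_contra hcon
    push Not at hcon
    have h1 := sq_card_le (A k) (fun l => (cell δ z x c k l, ⌊q l / W⌋))
    have h2 : (((A k).image fun l => (cell δ z x c k l, ⌊q l / W⌋)).card : ℝ) ≤
        8 / δ * (3 / τ) := by
      have g1 : ((A k).image fun l => (cell δ z x c k l, ⌊q l / W⌋)) ⊆
          ((A k).image (cell δ z x c k)) ×ˢ (L'.image fun l => ⌊q l / W⌋) := by
        intro w hw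
        obtain ⟨l, hl, rfl⟩ := mem_image.1 hw
        rw [mem_product]
        exact ⟨mem_image_of_mem _ hl, mem_image.2 ⟨l, (mem_filter.1 hl).1, rfl⟩⟩
      have g2 := card_le_card g1
      rw [card_product] at g2
      have g3 : (((A k).image fun l => (cell δ z x c k l, ⌊q l / W⌋)).card : ℝ) ≤
          (((A k).image (cell δ z x c k)).card : ℝ) *
            ((L'.image fun l => ⌊q l / W⌋).card : ℝ) := by exact_mod_cast g2
      exact g3.trans (mul_le_mul (cells_card H hk.1 (hAL k)) hV (Nat.cast_nonneg _)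
        (by positivity))
    have h3 : (((A k ×ˢ A k).filter fun w => (cell δ z x c k w.1, ⌊q w.1 / W⌋) =
        (cell δ z x c k w.2, ⌊q w.2 / W⌋)).card : ℝ) ≤
        (A k).card * (δ * s ^ m / e * L.card) := by
      refine le_trans ?_ (near_le H (hAL k) (hAI k) hs1 hs2)
      exact_mod_cast card_le_card fun w hw => by
        rw [mem_filter, mem_product] at hw
        obtain ⟨⟨w1, w2⟩, w3⟩ := hw
        rw [Prod.mk.injEq] at w3
        rw [mem_filter, mem_product]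
        refine ⟨⟨w1, w2⟩, w3.1, ?_⟩
        refine hcon w.1 w.2 (hAI k _ w1) (hAI k _ w2) (cell_close hδ w3.1) ?_
        have g1 := Int.abs_sub_lt_one_of_floor_eq_floor w3.2
        rw [← sub_div, abs_div, abs_of_pos hW, div_lt_one hW] at g1
        rw [abs_sub_comm]
        exact g1.le
    have hAc : 0 < ((A k).card : ℝ) := by
      have : 0 < e ^ 5 / 2 * L.card := by positivity
      linarith [hk.2]
    have h4 : ((A k).card : ℝ) * (A k).card ≤
        (8 / δ * (3 / τ) * (δ * s ^ m / e * L.card)) * (A k).card := by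
      calc ((A k).card : ℝ) * (A k).card = ((A k).card : ℝ) ^ 2 := by ring
        _ ≤ _ := h1
        _ ≤ (8 / δ * (3 / τ)) * ((A k).card * (δ * s ^ m / e * L.card)) :=
            mul_le_mul h2 h3 (Nat.cast_nonneg _) (by positivity)
        _ = _ := by ring
    have h5 := le_of_mul_le_mul_right h4 hAc
    have h6 : 8 / δ * (3 / τ) * (δ * s ^ m / e * L.card) ≤ 24 * e ^ 11 * L.card := by
      have g1 : 8 / δ * (3 / τ) * (δ * s ^ m / e * L.card) = 24 * (s ^ m / (τ * e)) * L.card := by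
        field_simp
        ring
      rw [g1]
      refine mul_le_mul_of_nonneg_right ?_ hLc.le
      refine mul_le_mul_of_nonneg_left ?_ (by norm_num)
      rw [div_le_iff₀ (by positivity)]
      calc s ^ m ≤ e ^ 12 * τ := hsm
        _ = _ := by ring
    have h7 : (e ^ 5 / 2) * L.card ≤ (24 * e ^ 11) * L.card := hk.2.trans (h5.trans h6)
    have h8 := le_of_mul_le_mul_right h7 hLc
    have h9 : e ^ 6 ≤ 1 / 100 := by
      calc e ^ 6 = e ^ 5 * e := by ring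
        _ ≤ 1 * (1 / 100) := mul_le_mul (pow_le_one₀ he.le he1) H.e1 he.le zero_le_one
        _ = _ := by ring
    have h10 : 24 * e ^ 11 ≤ 24 * (e ^ 5 * (1 / 100)) := by
      refine mul_le_mul_of_nonneg_left ?_ (by norm_num)
      calc e ^ 11 = e ^ 5 * e ^ 6 := by ring
        _ ≤ _ := mul_le_mul_of_nonneg_left h9 (by positivity)
    have h11 : 0 < e ^ 5 := by positivity
    linarith

/-- the invariant of the lines -/
def qq (μ g0 : ℝ) (x c p : ℕ → ℝ) (l : ℕ) : ℝ := p l + μ * x l - g0 * c l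

theorem qq_sub (μ g0 : ℝ) (z f x c p : ℕ → ℝ) (l l' k : ℕ) :
    qq μ g0 x c p l' - qq μ g0 x c p l = (p l' - p l - f k * (c l' - c l)) +
      μ * (XX z x c l' k - XX z x c l k) + (f k - μ * z k - g0) * (c l' - c l) := by
  unfold qq XX
  ring

theorem qq_close (H : Cfg δ e m L Z I z f x c p) {μ g0 w : ℝ} {l l' k : ℕ} (h1 : (l, k) ∈ I)
    (h2 : (l', k) ∈ I) (h3 : |XX z x c l' k - XX z x c l k| ≤ δ)
    (hg : |f k - μ * z k - g0| ≤ w) :
    |qq μ g0 x c p l' - qq μ g0 x c p l| ≤ δ / e + |μ| * δ + 2 * w := by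
  have hl := H.lb l (mem_product.1 (H.sub h1)).1
  have hl' := H.lb l' (mem_product.1 (H.sub h2)).1
  have hw : 0 ≤ w := (abs_nonneg _).trans hg
  have hcc : |c l' - c l| ≤ 2 := by
    refine (abs_sub _ _).trans ?_
    linarith [hl.2.1, hl'.2.1]
  rw [qq_sub μ g0 z f x c p l l' k]
  refine (abs_add_le _ _).trans (add_le_add ((abs_add_le _ _).trans (add_le_add ?_ ?_)) ?_)
  · exact H.star _ _ _ h1 h2 h3
  · rw [abs_mul]
    exact mul_le_mul_of_nonneg_left h3 (abs_nonneg _)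
  · rw [abs_mul]
    calc |f k - μ * z k - g0| * |c l' - c l| ≤ w * 2 :=
          mul_le_mul hg hcc (abs_nonneg _) hw
      _ = _ := mul_comm _ _

theorem gk_le (H : Cfg δ e m L Z I z f x c p) {μ g0 W s : ℝ} {l l' k : ℕ} (h1 : (l, k) ∈ I)
    (h2 : (l', k) ∈ I) (h3 : |XX z x c l' k - XX z x c l k| ≤ δ)
    (hq : |qq μ g0 x c p l' - qq μ g0 x c p l| ≤ W) (hs : 0 < s) (hc : s < |c l' - c l|) :
    |f k - μ * z k - g0| ≤ (W + (δ / e + |μ| * δ)) / s := by
  have h4 := H.star _ _ _ h1 h2 h3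
  have h5 : |μ * (XX z x c l' k - XX z x c l k)| ≤ |μ| * δ := by
    rw [abs_mul]
    exact mul_le_mul_of_nonneg_left h3 (abs_nonneg _)
  have e1 : (f k - μ * z k - g0) * (c l' - c l) = (qq μ g0 x c p l' - qq μ g0 x c p l) -
      (p l' - p l - f k * (c l' - c l)) - μ * (XX z x c l' k - XX z x c l k) := by
    rw [qq_sub μ g0 z f x c p l l' k]; ring
  have h6 : |f k - μ * z k - g0| * |c l' - c l| ≤ W + (δ / e + |μ| * δ) := by
    rw [← abs_mul, e1]
    have g1 := abs_sub ((qq μ g0 x c p l' - qq μ g0 x c p l) -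
      (p l' - p l - f k * (c l' - c l))) (μ * (XX z x c l' k - XX z x c l k))
    have g2 := abs_sub (qq μ g0 x c p l' - qq μ g0 x c p l) (p l' - p l - f k * (c l' - c l))
    linarith
  rw [le_div_iff₀ hs]
  exact (mul_le_mul_of_nonneg_left hc.le (abs_nonneg _)).trans h6

/-- **assembly at one scale** -/
theorem asm (H : Cfg δ e m L Z I z f x c p) {M : ℕ} (hM : 1 ≤ (M : ℝ) * m)
    {μ g0 w W w1 W2 : ℝ} (hw : 0 < w) (hw1' : w ≤ 1)
    (hS : w ^ (m / 4) * (Z.card : ℝ) ≤ ((Z.filter fun k => |f k - μ * z k - g0| ≤ w).card : ℝ))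
    (hδ4 : 2 * δ ≤ e ^ (4 * M)) (hW : δ / e + |μ| * δ + 2 * w ≤ W)
    (hs : δ ≤ e ^ ((4 * M + 16) * M) * w ^ (1 / 4 : ℝ))
    (hw1 : 2 * W / (e ^ ((4 * M + 16) * M) * w ^ (1 / 4 : ℝ)) ≤ w1) (hw11 : w1 ≤ 1)
    (hδ9 : 2 * δ ≤ (e ^ 9) ^ (4 * M)) (hδ9' : 2 * δ ≤ e ^ 9)
    (hW2 : δ / e ^ 9 + |μ| * δ + 2 * w1 ≤ W2) :
    ∃ q0 : ℝ, ∃ I' ⊆ I, e ^ (36 * M + 55) * L.card * Z.card ≤ (I'.card : ℝ) ∧
      |μ| ≤ (e ^ 10)⁻¹ ∧ ∀ l k : ℕ, (l, k) ∈ I' → |f k - μ * z k - g0| ≤ w1 ∧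
        |p l + μ * x l - g0 * c l - q0| ≤ W2 := by
  classical
  have hδ := H.δ0
  have he := H.e0
  have he1 : e ≤ 1 := by linarith [H.e1]
  have hLc : (0 : ℝ) < L.card := by exact_mod_cast H.nL.card_pos
  have hZc : (0 : ℝ) < Z.card := by exact_mod_cast H.nZ.card_pos
  have hwm : 0 < w ^ (m / 4) := Real.rpow_pos_of_pos hw _
  have hW0 : 0 < W := by
    have : 0 ≤ |μ| * δ := by positivity
    have : 0 < δ / e := by positivity
    linarith
  -- the strip
  set S := Z.filter fun k => |f k - μ * z k - g0| ≤ w with hSdef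
  have hSn : S.Nonempty := by
    rw [← card_pos]
    have : (0 : ℝ) < S.card := lt_of_lt_of_le (by positivity) hS
    exact_mod_cast this
  have hlev := level H hM hδ4 (S := S) (filter_subset _ _) hSn (q := qq μ g0 x c p) (W := W)
    (fun k hk l l' h1 h2 h3 =>
      (qq_close H h1 h2 h3 (mem_filter.1 hk).2).trans hW)
  set L' := L.filter fun l => (S.card : ℝ) / Z.card * e ^ (4 * M + 4) * L.card ≤
    ((L.filter fun l' => |qq μ g0 x c p l' - qq μ g0 x c p l| ≤ W).card : ℝ) with hL'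
  set s : ℝ := e ^ ((4 * M + 16) * M) * w ^ (1 / 4 : ℝ) with hsdef
  have hw4 : 0 < w ^ (1 / 4 : ℝ) := Real.rpow_pos_of_pos hw _
  have hs0 : 0 < s := by positivity
  have hs1 : s ≤ 1 := by
    have a1 : w ^ (1 / 4 : ℝ) ≤ 1 := Real.rpow_le_one hw.le hw1' (by norm_num)
    have a2 : e ^ ((4 * M + 16) * M) ≤ 1 := pow_le_one₀ he.le he1
    calc s ≤ 1 * 1 := mul_le_mul a2 a1 hw4.le zero_le_one
      _ = 1 := one_mul 1
  obtain ⟨Z', hZ', hZ'c, hZ'k⟩ := spread H (L' := L') (filter_subset _ _) hlev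
    (q := qq μ g0 x c p) (W := W) (τ := w ^ (m / 4) * e ^ (4 * M + 4)) (s := s) hW0
    (by positivity) (by
      intro l hl
      refine le_trans ?_ (mem_filter.1 hl).2
      refine mul_le_mul_of_nonneg_right ?_ hLc.le
      refine mul_le_mul_of_nonneg_right ?_ (by positivity)
      rw [le_div_iff₀ hZc]
      exact hS) hs (hs1.trans (by norm_num)) (by
      rw [hsdef, Real.mul_rpow (by positivity) hw4.le, ← Real.rpow_mul hw.le]
      have a1 := pow_rpow_le he he1 hM (4 * M + 16)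
      have a2 : (1 / 4 : ℝ) * m = m / 4 := by ring
      rw [a2]
      calc (e ^ ((4 * M + 16) * M)) ^ m * w ^ (m / 4) ≤ e ^ (4 * M + 16) * w ^ (m / 4) :=
            mul_le_mul_of_nonneg_right a1 hwm.le
        _ = _ := by ring)
  have hg : ∀ k ∈ Z', |f k - μ * z k - g0| ≤ w1 := by
    intro k hk
    obtain ⟨l, l', h1, h2, h3, h4, h5⟩ := hZ'k k hk
    refine (gk_le H h1 h2 h3 h4 hs0 h5).trans (le_trans ?_ hw1)
    refine div_le_div_of_nonneg_right ?_ hs0.le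
    linarith
  -- second configuration
  have hZ'c0 : (0 : ℝ) < Z'.card := by
    have : 0 < e ^ 6 * Z.card := by positivity
    linarith
  have hZ'n : Z'.Nonempty := card_pos.1 (by exact_mod_cast hZ'c0)
  have hraw := H.raw.res hδ he (Subset.refl L) hZ' (τ := e ^ 6) (by positivity)
    (pow_le_one₀ he.le he1) (by
      calc e ^ 6 * (L.card : ℝ) ≤ 1 * L.card :=
            mul_le_mul_of_nonneg_right (pow_le_one₀ he.le he1) hLc.le
        _ = _ := one_mul _) hZ'c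
  have h7 : e * e ^ 6 ≤ 1 / 100 := by
    calc e * e ^ 6 ≤ 1 / 100 * 1 :=
          mul_le_mul H.e1 (pow_le_one₀ he.le he1) (by positivity) (by norm_num)
      _ = _ := by ring
  have hdens : e * L.card * Z'.card ≤ ((res (res I L Z') L Z').card : ℝ) := by
    rw [res_card']
    calc e * (L.card : ℝ) * Z'.card = ∑ k ∈ Z', e * (L.card : ℝ) := by
          rw [sum_const, nsmul_eq_mul]; ring
      _ ≤ _ := sum_le_sum fun k hk => by
          refine (H.degZ k (hZ' hk)).trans ?_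
          exact_mod_cast card_le_card fun l hl => by
            rw [mem_filter] at hl ⊢
            exact ⟨hl.1, mem_res.2 ⟨⟨hl.1, hk⟩, hl.2⟩⟩
  obtain ⟨L2, hL2, Z2, hZ2, hL2c, hZ2c, H2⟩ := hraw.cfg hδ (by positivity) h7 H.m0 H.m1 H.nL hZ'n
    (d := e) (e' := e ^ 9) he he1 hdens (by positivity) (by
      have a1 : e ^ 9 = (e * e ^ 6 * e) * e := by ring
      rw [a1, div_eq_mul_inv]
      refine mul_le_mul_of_nonneg_left ?_ (by positivity)
      linarith [H.e1]) (by linarith)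
  have hL2c0 : (0 : ℝ) < L2.card := by exact_mod_cast H2.nL.card_pos
  have hZ2c0 : (0 : ℝ) < Z2.card := by exact_mod_cast H2.nZ.card_pos
  have hlev2 := level H2 hM hδ9 (S := Z2) (Subset.refl _) H2.nZ (q := qq μ g0 x c p) (W := W2)
    (fun k hk l l' h1 h2 h3 =>
      (qq_close H2 h1 h2 h3 (hg k (hZ2 hk))).trans hW2)
  obtain ⟨l0, hl0⟩ : (L2.filter fun l => (Z2.card : ℝ) / Z2.card * (e ^ 9) ^ (4 * M + 4) *
      L2.card ≤ ((L2.filter fun l' => |qq μ g0 x c p l' - qq μ g0 x c p l| ≤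
        W2).card : ℝ)).Nonempty := by
    rw [← card_pos]
    have : (0 : ℝ) < (e ^ 9) ^ 4 * L2.card := by positivity
    exact_mod_cast this.trans_le hlev2
  rw [mem_filter, div_self hZ2c0.ne', one_mul] at hl0
  set G := L2.filter fun l' => |qq μ g0 x c p l' - qq μ g0 x c p l0| ≤ W2 with hG
  refine ⟨qq μ g0 x c p l0, res (res (res I L Z') L2 Z2) G Z2, ?_, ?_, ?_, ?_⟩
  · intro q hq
    obtain ⟨l, k⟩ := q
    exact (mem_res.1 (mem_res.1 (mem_res.1 hq).2).2).2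
  · rw [res_card]
    have h1 : (G.card : ℝ) * (e ^ 9 * Z2.card) ≤
        ∑ l ∈ G, ((Z2.filter fun k => (l, k) ∈ res (res I L Z') L2 Z2).card : ℝ) := by
      calc (G.card : ℝ) * (e ^ 9 * Z2.card) = ∑ l ∈ G, e ^ 9 * (Z2.card : ℝ) := by
            rw [sum_const, nsmul_eq_mul]
        _ ≤ _ := sum_le_sum fun l hl => H2.degL l (mem_filter.1 hl).1
    refine le_trans ?_ h1
    have a1 : e ^ 2 * (L.card : ℝ) ≤ L2.card := by
      refine le_trans (mul_le_mul_of_nonneg_right ?_ hLc.le) hL2c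
      have : e ^ 2 = e * e := by ring
      rw [this, div_eq_mul_inv]
      exact mul_le_mul_of_nonneg_left (by linarith [H.e1]) he.le
    have a2 : e ^ 8 * (Z.card : ℝ) ≤ Z2.card := by
      have b1 : e ^ 2 * (Z'.card : ℝ) ≤ Z2.card := by
        refine le_trans (mul_le_mul_of_nonneg_right ?_ hZ'c0.le) hZ2c
        have : e ^ 2 = e * e := by ring
        rw [this, div_eq_mul_inv]
        exact mul_le_mul_of_nonneg_left (by linarith [H.e1]) he.le
      refine le_trans ?_ b1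
      calc e ^ 8 * (Z.card : ℝ) = e ^ 2 * (e ^ 6 * Z.card) := by ring
        _ ≤ _ := mul_le_mul_of_nonneg_left hZ'c (by positivity)
    calc e ^ (36 * M + 55) * L.card * Z.card
        = ((e ^ 9) ^ (4 * M + 4) * (e ^ 2 * L.card)) * (e ^ 9 * (e ^ 8 * Z.card)) := by ring
      _ ≤ ((e ^ 9) ^ (4 * M + 4) * L2.card) * (e ^ 9 * Z2.card) := by
          refine mul_le_mul (mul_le_mul_of_nonneg_left a1 (by positivity))
            (mul_le_mul_of_nonneg_left a2 (by positivity)) (by positivity) (by positivity)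
      _ ≤ _ := mul_le_mul_of_nonneg_right hl0.2 (by positivity)
  · -- bound of the slope
    obtain ⟨k1, hk1⟩ := H2.nZ
    have h1 := H2.hz k1 hk1 (e ^ 9 / 2) (by linarith) (by
      have : e ^ 9 ≤ 1 := pow_le_one₀ he.le he1
      linarith)
    have h2 : e ^ 9 / 2 / e ^ 9 * (Z2.card : ℝ) = Z2.card / 2 := by field_simp
    rw [h2] at h1
    obtain ⟨k2, hk2, hk12⟩ : ∃ k2 ∈ Z2, e ^ 9 / 2 < |z k2 - z k1| := by
      by_contra hcon
      push Not at hcon
      have : (Z2.filter fun k' => |z k' - z k1| ≤ e ^ 9 / 2) = Z2 :=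
        filter_true_of_mem hcon
      rw [this] at h1
      linarith
    have g1 := hg k1 (hZ2 hk1)
    have g2 := hg k2 (hZ2 hk2)
    have f1 := (H2.zf k1 hk1).2
    have f2 := (H2.zf k2 hk2).2
    have h3 : |μ| * |z k2 - z k1| ≤ 4 := by
      rw [← abs_mul]
      have e1 : μ * (z k2 - z k1) = (f k2 - f k1) - ((f k2 - μ * z k2 - g0) -
          (f k1 - μ * z k1 - g0)) := by ring
      rw [e1]
      have b1 := abs_sub (f k2 - f k1) ((f k2 - μ * z k2 - g0) - (f k1 - μ * z k1 - g0))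
      have b2 := abs_sub (f k2) (f k1)
      have b3 := abs_sub (f k2 - μ * z k2 - g0) (f k1 - μ * z k1 - g0)
      linarith
    have h4 : |μ| * (e ^ 9 / 2) ≤ 4 := (mul_le_mul_of_nonneg_left hk12.le (abs_nonneg _)).trans h3
    rw [← one_div, le_div_iff₀ (by positivity)]
    have h5 : |μ| * e ^ 9 ≤ 8 := by linarith
    calc |μ| * e ^ 10 = (|μ| * e ^ 9) * e := by ring
      _ ≤ 8 * (1 / 100) := mul_le_mul h5 H.e1 he.le (by norm_num)
      _ ≤ 1 := by norm_num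
  · intro l k hlk
    have h1 := mem_res.1 hlk
    refine ⟨hg k (hZ2 h1.1.2), ?_⟩
    exact (mem_filter.1 h1.1.1).2

end

end Crest.Agent.R136.LA501
end

-- ▼ part R136/LA6_501
section

/-!
# R136 [RIG_E]: **Lemma A** (for helper344), part 6 (helper501)

`lemA`: lines `(x l, c l, p l)` and heights `(z k, f k)`; if two lines which meet at `k` satisfy
`p l' - p l = f k * (c l' - c l)` (up to `δ ^ (1 - ε)`), the lines of a pencil are spread in `c`
(exponent `m > 0`) and the heights are spread in `z` (exponent `1`), then on a `δ ^ (C ε)`-part of the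
incidences `f k = μ z k + c0` and `p l + μ x l = c0 c l + q0` up to a power `δ ^ θ`, `θ = θ(m)`.
-/

set_option autoImplicit false
set_option linter.unusedVariables false
set_option linter.unusedSectionVars false

open Finset

namespace Crest.Agent.R136.LA501

/-- **LEMMA A** -/
theorem lemA {m : ℝ} (hm : 0 < m) (hm1 : m ≤ 1) : ∃ θ : ℝ, 0 < θ ∧ ∃ C : ℝ, 1 ≤ C ∧
    ∃ ε₀ : ℝ, 0 < ε₀ ∧ ∀ ε : ℝ, 0 < ε → ε ≤ ε₀ → ∃ δ₀ : ℝ, 0 < δ₀ ∧ ∀ δ : ℝ, 0 < δ → δ ≤ δ₀ →
    ∀ (L Z : Finset ℕ) (I : Finset (ℕ × ℕ)) (z f x c p : ℕ → ℝ), I ⊆ L ×ˢ Z → I.Nonempty →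
      δ ^ ε * L.card * Z.card ≤ (I.card : ℝ) →
      (∀ k ∈ Z, |z k| ≤ 1 ∧ |f k| ≤ 1) →
      (∀ l ∈ L, |x l| ≤ 2 ∧ |c l| ≤ 1 ∧ |p l| ≤ 1) →
      (∀ k ∈ Z, ∀ r : ℝ, δ ≤ r → r ≤ 1 →
        ((Z.filter fun k' => |z k' - z k| ≤ r).card : ℝ) ≤ δ ^ (-ε) * r * Z.card) →
      (∀ l k : ℕ, (l, k) ∈ I → ∀ r : ℝ, δ ≤ r → r ≤ 2 →
        ((L.filter fun l' => (l', k) ∈ I ∧ |(x l' + z k * c l') - (x l + z k * c l)| ≤ δ ∧
          |c l' - c l| ≤ r).card : ℝ) ≤ δ ^ (-ε) * δ * r ^ m * L.card) →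
      (∀ l l' k : ℕ, (l, k) ∈ I → (l', k) ∈ I →
        |(x l' + z k * c l') - (x l + z k * c l)| ≤ δ →
        |p l' - p l - f k * (c l' - c l)| ≤ δ ^ (1 - ε)) →
      ∃ μ c0 q0 : ℝ, |μ| ≤ δ ^ (-(C * ε)) ∧ ∃ I' ⊆ I, δ ^ (C * ε) * L.card * Z.card ≤ (I'.card : ℝ) ∧
        ∀ l k : ℕ, (l, k) ∈ I' → |f k - μ * z k - c0| ≤ δ ^ θ ∧
          |p l + μ * x l - c0 * c l - q0| ≤ δ ^ θ := by
  obtain ⟨M, hM⟩ : ∃ M : ℕ, 1 / m ≤ M := exists_nat_ge _
  have hMm : 1 ≤ (M : ℝ) * m := by rw [div_le_iff₀ hm] at hM; exact hM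
  obtain ⟨a, c₀, ha, ha1, hc₀, HS⟩ := strip hm hm1
  set c1 : ℝ := min c₀ (a / 64) with hc1
  have hc10 : 0 < c1 := lt_min hc₀ (by positivity)
  have hc1a : c1 ≤ a / 64 := min_le_right _ _
  obtain ⟨ε₁, hε₁, HS⟩ := HS c1 hc10 (min_le_left _ _)
  set K : ℕ := (4 * M + 16) * M with hK
  set K2 : ℝ := 3 * (K : ℝ) + 108 * M + 27 with hK2
  have hK20 : 0 < K2 := by positivity
  refine ⟨a / 5, by positivity, 108 * M + 169, by
    have : (0 : ℝ) ≤ M := Nat.cast_nonneg _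
    linarith, min (ε₁ / 3) (min (1 / (4 * K2)) (c1 / K2)), by positivity, fun ε hε hεε => ?_⟩
  have e1 : 3 * ε ≤ ε₁ := by
    have : ε ≤ ε₁ / 3 := hεε.trans (min_le_left _ _)
    linarith
  have e2 : K2 * ε ≤ 1 / 4 := by
    have : ε ≤ 1 / (4 * K2) := hεε.trans ((min_le_right _ _).trans (min_le_left _ _))
    calc K2 * ε ≤ K2 * (1 / (4 * K2)) := mul_le_mul_of_nonneg_left this hK20.le
      _ = _ := by field_simp
  have e3 : K2 * ε ≤ c1 := by
    have : ε ≤ c1 / K2 := hεε.trans ((min_le_right _ _).trans (min_le_right _ _))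
    calc K2 * ε ≤ K2 * (c1 / K2) := mul_le_mul_of_nonneg_left this hK20.le
      _ = _ := by field_simp
  have hKε : 0 ≤ (K : ℝ) * ε := by positivity
  have hMε : 0 ≤ (M : ℝ) * ε := by positivity
  have hexp : K2 * ε = 3 * (K * ε) + 108 * (M * ε) + 27 * ε := by rw [hK2]; ring
  obtain ⟨δ₁, hδ₁, HS⟩ := HS (3 * ε) (by positivity) e1
  obtain ⟨d1, hd1, hd11, HD1⟩ := exists_small_rpow (t := ε) (b := 1 / 100) hε (by norm_num)
  obtain ⟨d2, hd2, hd21, HD2⟩ := exists_small_rpow (t := 1 / 2) (b := 1 / 2) (by norm_num)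
    (by norm_num)
  obtain ⟨d3, hd3, hd31, HD3⟩ := exists_small_rpow (t := c1) (b := 1 / 5) hc10 (by norm_num)
  obtain ⟨d4, hd4, hd41, HD4⟩ := exists_small_rpow (t := a / 20) (b := 1 / 5) (by positivity)
    (by norm_num)
  refine ⟨min δ₁ (min (min d1 d2) (min d3 d4)), by positivity, ?_⟩
  intro δ hδ hδδ L Z I z f x c p hsub hne hdens hzf hlb hhz hpen hstar
  have hδ1 : δ ≤ δ₁ := hδδ.trans (min_le_left _ _)
  have q1 := HD1 δ hδ (hδδ.trans ((min_le_right _ _).trans ((min_le_left _ _).trans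
    (min_le_left _ _))))
  have q2 := HD2 δ hδ (hδδ.trans ((min_le_right _ _).trans ((min_le_left _ _).trans
    (min_le_right _ _))))
  have q3 := HD3 δ hδ (hδδ.trans ((min_le_right _ _).trans ((min_le_right _ _).trans
    (min_le_left _ _))))
  have q4 := HD4 δ hδ (hδδ.trans ((min_le_right _ _).trans ((min_le_right _ _).trans
    (min_le_right _ _))))
  have hd : δ ≤ 1 := (hδδ.trans ((min_le_right _ _).trans ((min_le_left _ _).trans
    (min_le_left _ _)))).trans hd11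
  obtain ⟨⟨l₀, k₀⟩, h₀⟩ := hne
  have hmem := mem_product.1 (hsub h₀)
  have hLn : L.Nonempty := ⟨l₀, hmem.1⟩
  have hZn : Z.Nonempty := ⟨k₀, hmem.2⟩
  have hLc : (0 : ℝ) < L.card := by exact_mod_cast hLn.card_pos
  have hZc : (0 : ℝ) < Z.card := by exact_mod_cast hZn.card_pos
  have hp : ∀ t : ℝ, 0 < δ ^ t := fun t => Real.rpow_pos_of_pos hδ t
  have hδε : δ ^ (-ε) = 1 / δ ^ ε := by rw [Real.rpow_neg hδ.le, one_div]
  -- raw hypotheses
  have hraw : Raw δ (δ ^ ε) m L Z I z f x c p :=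
    { zf := hzf
      lb := hlb
      hz := fun k hk r h1 h2 => (hhz k hk r h1 h2).trans (le_of_eq (by rw [hδε]; ring))
      pen := fun l k hlk r h1 h2 => (hpen l k hlk r h1 h2).trans
        (le_of_eq (by rw [hδε]; ring))
      star := fun l l' k h1 h2 h3 => (hstar l l' k h1 h2 h3).trans
        (le_of_eq (by rw [Real.rpow_sub hδ, Real.rpow_one])) }
  have hres : (res I L Z) = I := by
    unfold res
    ext q
    rw [mem_filter]
    exact ⟨fun h => h.2, fun h => ⟨hsub h, h⟩⟩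
  set e : ℝ := δ ^ (3 * ε) with he
  have he0 : 0 < e := hp _
  have he3 : e = δ ^ ε * δ ^ ε * δ ^ ε := by
    rw [he, ← Real.rpow_add hδ, ← Real.rpow_add hδ]; congr 1; ring
  have hpw : ∀ n : ℕ, e ^ n = δ ^ (3 * ((n : ℝ) * ε)) := by
    intro n
    rw [he, ← Real.rpow_natCast (δ ^ (3 * ε)) n, ← Real.rpow_mul hδ.le]
    congr 1; ring
  have hδe : δ ≤ e := by
    calc δ = δ ^ (1 : ℝ) := (Real.rpow_one δ).symm
      _ ≤ _ := rp_anti hδ hd (by linarith)
  obtain ⟨L1, hL1, Z1, hZ1, hL1c, hZ1c, H⟩ := hraw.cfg hδ (hp _) q1 hm hm1 hLn hZn (d := δ ^ ε)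
    (e' := e) (hp _) (q1.trans (by norm_num)) (by rw [hres]; exact hdens) he0 (by
      rw [he3, div_eq_mul_inv]
      refine mul_le_mul_of_nonneg_left ?_ (by positivity)
      linarith) hδe
  obtain ⟨μ, g0, w, hμ, hδw, hwa, hmass⟩ := HS δ hδ hδ1 L1 Z1 (res I L1 Z1) z f x c p H
  have hw : 0 < w := hδ.trans_le hδw
  have hw1 : w ≤ 1 := hwa.trans (Real.rpow_le_one hδ.le hd (by positivity))
  -- numbers
  have n0 : ∀ s t : ℝ, s ≤ t → δ ^ t ≤ δ ^ s := fun s t h => rp_anti hδ hd h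
  have n1 : δ / e ≤ δ ^ (-c1) * w := by
    rw [div_le_iff₀ he0]
    have g1 : (1 : ℝ) ≤ δ ^ (-c1) * e := by
      rw [he, ← Real.rpow_add hδ]
      calc (1 : ℝ) = δ ^ (0 : ℝ) := (Real.rpow_zero δ).symm
        _ ≤ _ := n0 _ _ (by linarith)
    calc δ ≤ w := hδw
      _ = 1 * w := (one_mul w).symm
      _ ≤ (δ ^ (-c1) * e) * w := mul_le_mul_of_nonneg_right g1 hw.le
      _ = _ := by ring
  have n2 : |μ| * δ ≤ 2 * (δ ^ (-c1) * w) := by
    calc |μ| * δ ≤ (2 * δ ^ (-c1)) * w := mul_le_mul hμ hδw hδ.le (by have := hp (-c1); positivity)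
      _ = _ := by ring
  have n3 : w ≤ δ ^ (-c1) * w := by
    have : (1 : ℝ) ≤ δ ^ (-c1) := by
      calc (1 : ℝ) = δ ^ (0 : ℝ) := (Real.rpow_zero δ).symm
        _ ≤ _ := n0 _ _ (by linarith)
    calc w = 1 * w := (one_mul w).symm
      _ ≤ _ := mul_le_mul_of_nonneg_right this hw.le
  have n4 : 5 * δ ^ (-c1) ≤ δ ^ (-(2 * c1)) := by
    have g1 : δ ^ (-(2 * c1)) = δ ^ (-c1) * δ ^ (-c1) := by
      rw [← Real.rpow_add hδ]; congr 1; ring
    rw [g1]
    refine mul_le_mul_of_nonneg_right ?_ (hp _).le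
    rw [Real.rpow_neg hδ.le, ← one_div, le_div_iff₀ (hp _)]
    linarith
  have hKexp : 3 * ((K : ℝ) * ε) ≤ c1 := by linarith
  have hKexp' : 3 * ((K : ℝ) * ε) ≤ 1 / 4 := by linarith
  have n5 : δ ^ (1 / 4 : ℝ) ≤ e ^ K := by
    rw [hpw]; exact n0 _ _ hKexp'
  have n6 : δ ^ (1 / 4 : ℝ) ≤ w ^ (1 / 4 : ℝ) := Real.rpow_le_rpow hδ.le hδw (by norm_num)
  have hw14 : 0 < w ^ (1 / 4 : ℝ) := Real.rpow_pos_of_pos hw _
  have hK0 : 0 < e ^ K := by positivity
  have n7 : δ ≤ e ^ K * w ^ (1 / 4 : ℝ) := by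
    calc δ = δ ^ (1 : ℝ) := (Real.rpow_one δ).symm
      _ ≤ δ ^ (1 / 4 + 1 / 4 : ℝ) := n0 _ _ (by norm_num)
      _ = δ ^ (1 / 4 : ℝ) * δ ^ (1 / 4 : ℝ) := Real.rpow_add hδ _ _
      _ ≤ _ := mul_le_mul n5 n6 (hp _).le hK0.le
  have n8 : 2 * (δ ^ (-(2 * c1)) * w) / (e ^ K * w ^ (1 / 4 : ℝ)) ≤ δ ^ (a / 4) := by
    rw [div_le_iff₀ (by positivity), hpw]
    have g1 : w = w ^ (3 / 4 : ℝ) * w ^ (1 / 4 : ℝ) := by
      rw [← Real.rpow_add hw]; norm_num
    have g2 : w ^ (3 / 4 : ℝ) ≤ δ ^ (3 * a / 8) := by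
      calc w ^ (3 / 4 : ℝ) ≤ (δ ^ (a / 2)) ^ (3 / 4 : ℝ) :=
            Real.rpow_le_rpow hw.le hwa (by norm_num)
        _ = _ := by rw [← Real.rpow_mul hδ.le]; congr 1; ring
    have g3 : (2 : ℝ) ≤ δ ^ (-c1) := by
      rw [Real.rpow_neg hδ.le, ← one_div, le_div_iff₀ (hp _)]
      linarith
    have g4 : 2 * (δ ^ (-(2 * c1)) * w ^ (3 / 4 : ℝ)) ≤ δ ^ (a / 4) * δ ^ (3 * ((K : ℝ) * ε)) := by
      calc 2 * (δ ^ (-(2 * c1)) * w ^ (3 / 4 : ℝ))
          ≤ δ ^ (-c1) * (δ ^ (-(2 * c1)) * δ ^ (3 * a / 8)) := by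
            refine mul_le_mul g3 (mul_le_mul_of_nonneg_left g2 (hp _).le) ?_ (hp _).le
            have := Real.rpow_pos_of_pos hw (3 / 4)
            have := hp (-(2 * c1))
            positivity
        _ = δ ^ (-c1 + (-(2 * c1) + 3 * a / 8)) := by
            rw [← Real.rpow_add hδ, ← Real.rpow_add hδ]
        _ ≤ δ ^ (a / 4 + 3 * ((K : ℝ) * ε)) := n0 _ _ (by linarith)
        _ = _ := Real.rpow_add hδ _ _
    calc 2 * (δ ^ (-(2 * c1)) * w) = 2 * (δ ^ (-(2 * c1)) * w ^ (3 / 4 : ℝ)) * w ^ (1 / 4 : ℝ) := by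
          rw [mul_assoc 2, mul_assoc (δ ^ (-(2 * c1))), ← g1]
      _ ≤ (δ ^ (a / 4) * δ ^ (3 * ((K : ℝ) * ε))) * w ^ (1 / 4 : ℝ) :=
          mul_le_mul_of_nonneg_right g4 hw14.le
      _ = _ := by ring
  have hhalf : ∀ n : ℕ, 3 * ((n : ℝ) * ε) ≤ 1 / 2 → 2 * δ ≤ e ^ n := by
    intro n hn
    rw [hpw]
    have g1 : δ = δ ^ (1 / 2 : ℝ) * δ ^ (1 / 2 : ℝ) := by
      rw [← Real.rpow_add hδ]; norm_num
    calc 2 * δ = (2 * δ ^ (1 / 2 : ℝ)) * δ ^ (1 / 2 : ℝ) := by rw [mul_assoc, ← g1]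
      _ ≤ 1 * δ ^ (1 / 2 : ℝ) := mul_le_mul_of_nonneg_right (by linarith) (hp _).le
      _ = δ ^ (1 / 2 : ℝ) := one_mul _
      _ ≤ _ := n0 _ _ hn
  have h4M : 2 * δ ≤ e ^ (4 * M) := hhalf _ (by push_cast; linarith)
  have h9 : 2 * δ ≤ e ^ 9 := hhalf _ (by push_cast; linarith)
  have h94 : 2 * δ ≤ (e ^ 9) ^ (4 * M) := by
    rw [← pow_mul]
    exact hhalf _ (by push_cast; linarith)
  have n9 : δ / e ^ 9 + |μ| * δ + 2 * δ ^ (a / 4) ≤ δ ^ (a / 5) := by
    have g1 : δ / e ^ 9 ≤ δ ^ (a / 4) := by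
      rw [div_le_iff₀ (by positivity), hpw, ← Real.rpow_add hδ]
      calc δ = δ ^ (1 : ℝ) := (Real.rpow_one δ).symm
        _ ≤ _ := n0 _ _ (by push_cast; linarith)
    have g2 : |μ| * δ ≤ 2 * δ ^ (a / 4) := by
      calc |μ| * δ ≤ (2 * δ ^ (-c1)) * δ := mul_le_mul_of_nonneg_right hμ hδ.le
        _ = 2 * (δ ^ (-c1) * δ ^ (1 : ℝ)) := by rw [Real.rpow_one]; ring
        _ = 2 * δ ^ (-c1 + 1) := by rw [← Real.rpow_add hδ]
        _ ≤ _ := mul_le_mul_of_nonneg_left (n0 _ _ (by linarith)) (by norm_num)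
    have g3 : 5 * δ ^ (a / 4) ≤ δ ^ (a / 5) := by
      have g4 : δ ^ (a / 4) = δ ^ (a / 20) * δ ^ (a / 5) := by
        rw [← Real.rpow_add hδ]; congr 1; ring
      rw [g4]
      calc 5 * (δ ^ (a / 20) * δ ^ (a / 5)) = (5 * δ ^ (a / 20)) * δ ^ (a / 5) := by ring
        _ ≤ 1 * δ ^ (a / 5) := mul_le_mul_of_nonneg_right (by linarith) (hp _).le
        _ = _ := one_mul _
    linarith
  obtain ⟨q0, I', hI', hI'c, hμ', hrel⟩ := asm H hMm (μ := μ) (g0 := g0) (w := w)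
    (W := δ ^ (-(2 * c1)) * w) (w1 := δ ^ (a / 4)) (W2 := δ ^ (a / 5)) hw hw1 hmass h4M (by
      have g1 : 5 * δ ^ (-c1) * w ≤ δ ^ (-(2 * c1)) * w := mul_le_mul_of_nonneg_right n4 hw.le
      linarith) n7 n8 (Real.rpow_le_one hδ.le hd (by positivity)) h94 h9 n9
  refine ⟨μ, g0, q0, ?_, I', fun q hq => ?_, ?_, ?_⟩
  · refine hμ'.trans ?_
    rw [hpw, ← Real.rpow_neg hδ.le]
    refine n0 _ _ ?_
    push_cast
    linarith
  · obtain ⟨l, k⟩ := q
    exact (mem_res.1 (hI' hq)).2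
  · refine le_trans ?_ hI'c
    have g1 : δ ^ ε * δ ^ ε * (L.card : ℝ) ≤ L1.card := by
      refine le_trans (mul_le_mul_of_nonneg_right ?_ hLc.le) hL1c
      rw [div_eq_mul_inv]
      exact mul_le_mul_of_nonneg_left (by linarith) (hp _).le
    have g2 : δ ^ ε * δ ^ ε * (Z.card : ℝ) ≤ Z1.card := by
      refine le_trans (mul_le_mul_of_nonneg_right ?_ hZc.le) hZ1c
      rw [div_eq_mul_inv]
      exact mul_le_mul_of_nonneg_left (by linarith) (hp _).le
    have g3 : δ ^ ((108 * (M : ℝ) + 169) * ε) = e ^ (36 * M + 55) * (δ ^ ε * δ ^ ε) *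
        (δ ^ ε * δ ^ ε) := by
      rw [hpw, ← Real.rpow_add hδ, ← Real.rpow_add hδ, ← Real.rpow_add hδ]
      congr 1
      push_cast
      ring
    rw [g3]
    calc e ^ (36 * M + 55) * (δ ^ ε * δ ^ ε) * (δ ^ ε * δ ^ ε) * L.card * Z.card
        = e ^ (36 * M + 55) * ((δ ^ ε * δ ^ ε * L.card) * (δ ^ ε * δ ^ ε * Z.card)) := by ring
      _ ≤ e ^ (36 * M + 55) * (L1.card * Z1.card) := by
          refine mul_le_mul_of_nonneg_left ?_ (by positivity)
          exact mul_le_mul g1 g2 (by have := hp ε; positivity) (Nat.cast_nonneg _)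
      _ = _ := by ring
  · intro l k hlk
    obtain ⟨r1, r2⟩ := hrel l k hlk
    refine ⟨r1.trans (n0 _ _ (by linarith)), r2⟩

end Crest.Agent.R136.LA501
end

-- ▼ part R136/RgE9_344
section

/-!
# R136 (S0187): RIG_E, final assembly (helper344)
-/

set_option autoImplicit false
set_option linter.unusedVariables false
set_option linter.unusedSectionVars false

open Filter Topology Finset

namespace Crest.Agent.R136.RgE344

open Crest.Agent.R136.Sh605
open Crest.Agent.R138.Ex926 (Base U exists_diag)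
open Crest.Agent.R138.Dp76 (Dense)
open Crest.Agent.R136.Gf356
open Crest.Agent.R136.RgN344
open Crest.Agent.R136.Prn779 (restr RModel.refine)
open Crest.Agent.R136.Wk323 (coA one_le_rpow_neg ev_mul_le)

theorem lemA_all {m : ℝ} (hm : 0 < m) (hm1 : m ≤ 1) : LemA m := by
  obtain ⟨θ, hθ, C, hC, ε₀, hε₀, h⟩ := Crest.Agent.R136.LA501.lemA hm hm1
  refine ⟨θ, hθ, C, hC, ε₀, hε₀, fun ε hε hεε => ?_⟩
  obtain ⟨δ₀, hδ₀, h2⟩ := h ε hε hεε
  refine ⟨δ₀, hδ₀, fun δ hδ hδδ => ?_⟩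
  intro L Z I z f x c p h1 h2' h3 h4 h5 h6 h7 h8
  exact h2 δ hδ hδδ L Z I z f x c p h1 h2' h3 h4 h5 h6 h7 h8

/-- the rows step (210) -/
def RowsE : Prop :=
  ∀ (B : Base) (G : ℕ → RCfg (Fin 11)) (Leg : Set (Fin 11 → ℝ)) (ν : (Fin 11 → ℝ) → ℝ)
    (D R x y m β : ℝ) (T : ℕ → ℕ → Ln4) (E fa fb : ℕ → ℕ → ℝ),
    RModel B G 1 R Leg ν D → x ≤ R → AbsE B G x T E fa fb → ProfE Leg ν x y m β → 0 < β →
    ∀ τ : ℝ, 0 < τ → τ ≤ x → ∀ (u : ℕ → Fin 2 → ℝ), (∀ n, u n 0 ^ 2 + u n 1 ^ 2 = 1) →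
    ∀ μ c0 q0 : ℕ → ℝ,
    (∀ ε : ℝ, 0 < ε → ∀ᶠ n in (U : Filter ℕ), ∀ l k, (l, k) ∈ (G n).I →
      |u n 0 * eE E fa fb n k 0 + u n 1 * eE E fa fb n k 1 - μ n * (G n).z k - c0 n| ≤
        B.d n ^ (τ - ε) ∧
      |u n 0 * wE T n l 0 + u n 1 * wE T n l 1 + μ n * (T n l).p 1 - c0 n * (T n l).v 1 - q0 n| ≤
        B.d n ^ (τ - ε)) →
    (∀ ε : ℝ, 0 < ε → ∀ᶠ n in (U : Filter ℕ), |μ n| ≤ B.d n ^ (-ε)) →
    ∀ ε : ℝ, 0 < ε → ∀ᶠ n in (U : Filter ℕ), |μ n| ≤ B.d n ^ ((2 - y) * τ - ε)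

/-- the strips step (501) -/
def StripsAll : Prop :=
  ∀ (B : Base) (G : ℕ → RCfg (Fin 11)) (Leg : Set (Fin 11 → ℝ)) (ν : (Fin 11 → ℝ) → ℝ)
    (D R x y m β : ℝ) (T : ℕ → ℕ → Ln4) (E fa fb : ℕ → ℕ → ℝ),
    RModel B G 1 R Leg ν D → x ≤ R → AbsE B G x T E fa fb → ProfE Leg ν x y m β → 0 < β →
    ∀ s : ℝ, 0 < s → s < x * (1 - y / 2) → StripsE B G s T E fa fb

variable {B : Base} {G : ℕ → RCfg (Fin 11)} {Leg : Set (Fin 11 → ℝ)} {ν : (Fin 11 → ℝ) → ℝ}
  {D R x y m β : ℝ} {T : ℕ → ℕ → Ln4} {E fa fb : ℕ → ℕ → ℝ}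

/-- the absolute window of a part of the incidences -/
theorem AbsE.restr (A : AbsE B G x T E fa fb) {I' : ℕ → Finset (ℕ × ℕ)}
    (h : ∀ n, I' n ⊆ (G n).I) :
    AbsE B (fun n => restr (G n) (I' n)) x T E fa fb where
  bd := by
    filter_upwards [A.bd] with n hn l k hlk using hn l k (h n hlk)
  bdr := by
    filter_upwards [A.bdr] with n hn k i l hi hl s using hn k i l (h n hi) (h n hl) s
  rel := fun ε hε => by
    filter_upwards [A.rel ε hε] with n hn k i l hi hl s hs using hn k i l (h n hi) (h n hl) s hs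

/-- `ρ^ε #L #Z` is at least `ρ^ε #I` -/
theorem dens_I (H : RUnif B G Leg ν D) {n : ℕ} {ε c : ℝ}
    (h : B.d n ^ ε * (((G n).L.card : ℝ) * ((G n).Z.card : ℝ)) ≤ c) :
    B.d n ^ ε * ((G n).I.card : ℝ) ≤ c := by
  refine le_trans (mul_le_mul_of_nonneg_left ?_ (rpos B n _).le) h
  have := Finset.card_le_card (H.sub n)
  rw [Finset.card_product] at this
  exact_mod_cast this

/-- **RIG_E, `β = 0`** -/
theorem rig_zero (H : RModel B G 1 R Leg ν D) (hxR : x ≤ R) (A : AbsE B G x T E fa fb)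
    (P : ProfE Leg ν x y m 0) {s : ℝ} (hs : 0 < s) (hsx : s ≤ x) {θ C ε₀ : ℝ} (hθ : 0 < θ)
    (hC : 1 ≤ C) (hε₀ : 0 < ε₀)
    (hLA : ∀ ε : ℝ, 0 < ε → ε ≤ ε₀ → ∃ δ₀ : ℝ, 0 < δ₀ ∧ ∀ δ : ℝ, 0 < δ → δ ≤ δ₀ →
      LemAIn m θ C ε δ) {θ' : ℝ} (hθ' : 2 * θ' ≤ s * θ / 2) (hθ'0 : 0 < θ') {ε : ℝ} (hε : 0 < ε) :
    ∀ᶠ n in (U : Filter ℕ), ∃ (u : Fin 2 → ℝ) (e0 c0 : ℝ),
      u 0 ^ 2 + u 1 ^ 2 = 1 ∧ ∃ I' ⊆ (G n).I, B.d n ^ ε * ((G n).I.card : ℝ) ≤ (I'.card : ℝ) ∧
        ∀ l k, (l, k) ∈ I' →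
          |u 0 * eE E fa fb n k 0 + u 1 * eE E fa fb n k 1 - e0| ≤ B.d n ^ θ' ∧
          |u 0 * wE T n l 0 + u 1 * wE T n l 1 - e0 * (T n l).v 1 - c0| ≤ B.d n ^ θ' := by
  obtain ⟨ε₁, hε₁, hε₁ε, h1⟩ := lemA_step H hxR A P hs hsx hθ hC hε₀ hLA hε
  obtain ⟨ε₂, hε₂, hε₂ε, h2⟩ := lemA_step H hxR A P hs hsx hθ hC hε₀ hLA hε₁
  filter_upwards [h1, h2, star_zero H hxR A P hs hsx hε₂, ev_const_le B hθ'0 2] with n h1 h2 h3 h4
  obtain ⟨I0, hI0, hI0c, hst0, hst1⟩ := h3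
  obtain ⟨μ0, a0, b0, _, I1, hI1, hI1c, hr0⟩ := h2 ![1, 0] I0 (by simp) hI0 hI0c hst0
  obtain ⟨μ1, a1, b1, _, I2, hI2, hI2c, hr1⟩ := h1 ![0, 1] I1 (by simp) (hI1.trans hI0) hI1c
    (hst1.mono hI1 hε₂ε)
  -- a unit vector orthogonal to `(μ0, μ1)`
  obtain ⟨u, hu, huμ⟩ : ∃ u : Fin 2 → ℝ, u 0 ^ 2 + u 1 ^ 2 = 1 ∧ u 0 * μ0 + u 1 * μ1 = 0 := by
    by_cases h0 : μ0 = 0 ∧ μ1 = 0
    · exact ⟨![1, 0], by simp, by simp [h0.1, h0.2]⟩
    · have hpos : 0 < μ0 ^ 2 + μ1 ^ 2 := by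
        by_contra hcon
        rw [not_lt] at hcon
        have e0 : μ0 ^ 2 = 0 := le_antisymm (by nlinarith [sq_nonneg μ1]) (sq_nonneg _)
        have e1 : μ1 ^ 2 = 0 := le_antisymm (by nlinarith [sq_nonneg μ0]) (sq_nonneg _)
        exact h0 ⟨by simpa using e0, by simpa using e1⟩
      set r := Real.sqrt (μ0 ^ 2 + μ1 ^ 2) with hr
      have hr0 : 0 < r := Real.sqrt_pos.2 hpos
      have hr2 : r ^ 2 = μ0 ^ 2 + μ1 ^ 2 := Real.sq_sqrt hpos.le
      refine ⟨![μ1 / r, -μ0 / r], ?_, ?_⟩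
      · show (μ1 / r) ^ 2 + (-μ0 / r) ^ 2 = 1
        rw [div_pow, div_pow, ← add_div, neg_sq, add_comm, ← hr2, div_self (by positivity)]
      · show μ1 / r * μ0 + -μ0 / r * μ1 = 0
        ring
  have hu1 : ∀ j, |u j| ≤ 1 := by
    intro j
    rw [← sq_le_one_iff_abs_le_one]
    fin_cases j
    · show u 0 ^ 2 ≤ 1
      nlinarith [sq_nonneg (u 1)]
    · show u 1 ^ 2 ≤ 1
      nlinarith [sq_nonneg (u 0)]
  have hdot : ∀ (a b M : ℝ), |a| ≤ M → |b| ≤ M → |u 0 * a + u 1 * b| ≤ 2 * M := by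
    intro a b M ha hb
    have hM : 0 ≤ M := (abs_nonneg _).trans ha
    refine (abs_add_le _ _).trans ?_
    rw [abs_mul, abs_mul]
    have e1 : |u 0| * |a| ≤ 1 * M := mul_le_mul (hu1 0) ha (abs_nonneg _) (by norm_num)
    have e2 : |u 1| * |b| ≤ 1 * M := mul_le_mul (hu1 1) hb (abs_nonneg _) (by norm_num)
    linarith
  have herr : 2 * B.d n ^ (s * θ / 2) ≤ B.d n ^ θ' := by
    have e1 : B.d n ^ (s * θ / 2) ≤ B.d n ^ (2 * θ') := rpow_anti B n hθ'
    have e2 : B.d n ^ θ' = B.d n ^ (-θ') * B.d n ^ (2 * θ') := by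
      rw [← rpow_add']; congr 1; ring
    rw [e2]
    exact mul_le_mul h4 e1 (rpos B n _).le (rpos B n _).le
  refine ⟨u, u 0 * a0 + u 1 * a1, u 0 * b0 + u 1 * b1, hu, I2, (hI2.trans hI1).trans hI0,
    dens_I H.toRUnif hI2c, fun l k hlk => ?_⟩
  obtain ⟨r1, r2⟩ := hr0 l k (hI2 hlk)
  obtain ⟨r3, r4⟩ := hr1 l k hlk
  simp only [Matrix.cons_val_zero, Matrix.cons_val_one, one_mul, zero_mul, add_zero,
    zero_add] at r1 r2 r3 r4
  refine ⟨?_, ?_⟩
  · have e1 : u 0 * eE E fa fb n k 0 + u 1 * eE E fa fb n k 1 - (u 0 * a0 + u 1 * a1) =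
        u 0 * (eE E fa fb n k 0 - μ0 * (G n).z k - a0) +
        u 1 * (eE E fa fb n k 1 - μ1 * (G n).z k - a1) + (u 0 * μ0 + u 1 * μ1) * (G n).z k := by
      ring
    rw [e1, huμ, zero_mul, add_zero]
    exact (hdot _ _ _ r1 r3).trans herr
  · have e1 : u 0 * wE T n l 0 + u 1 * wE T n l 1 - (u 0 * a0 + u 1 * a1) * (T n l).v 1 -
        (u 0 * b0 + u 1 * b1) =
        u 0 * (wE T n l 0 + μ0 * (T n l).p 1 - a0 * (T n l).v 1 - b0) +
        u 1 * (wE T n l 1 + μ1 * (T n l).p 1 - a1 * (T n l).v 1 - b1) -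
        (u 0 * μ0 + u 1 * μ1) * (T n l).p 1 := by
      ring
    rw [e1, huμ, zero_mul, sub_zero]
    exact (hdot _ _ _ r2 r4).trans herr

open Classical in
set_option maxHeartbeats 1000000 in
/-- **RIG_E, `β > 0`** -/
theorem rig_pos (hRows : RowsE) (hSt : StripsAll) (H : RModel B G 1 R Leg ν D) (hxR : x ≤ R)
    (A : AbsE B G x T E fa fb) (P : ProfE Leg ν x y m β) (hβ : 0 < β) {s : ℝ} (hs : 0 < s)
    (hsx : s ≤ x) (hsy : s < x * (1 - y / 2)) {θ C ε₀ : ℝ} (hθ : 0 < θ)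
    (hC : 1 ≤ C) (hε₀ : 0 < ε₀)
    (hLA : ∀ ε : ℝ, 0 < ε → ε ≤ ε₀ → ∃ δ₀ : ℝ, 0 < δ₀ ∧ ∀ δ : ℝ, 0 < δ → δ ≤ δ₀ →
      LemAIn m θ C ε δ) {τ θ' : ℝ} (hτ : 0 < τ) (hτs : τ ≤ s) (hτθ : τ ≤ s * θ / 2)
    (hθ' : 2 * θ' ≤ τ) (hθ'2 : 4 * θ' ≤ (2 - y) * τ) (hθ'0 : 0 < θ') {ε : ℝ} (hε : 0 < ε) :
    ∀ᶠ n in (U : Filter ℕ), ∃ (u : Fin 2 → ℝ) (e0 c0 : ℝ),
      u 0 ^ 2 + u 1 ^ 2 = 1 ∧ ∃ I' ⊆ (G n).I, B.d n ^ ε * ((G n).I.card : ℝ) ≤ (I'.card : ℝ) ∧
        ∀ l k, (l, k) ∈ I' →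
          |u 0 * eE E fa fb n k 0 + u 1 * eE E fa fb n k 1 - e0| ≤ B.d n ^ θ' ∧
          |u 0 * wE T n l 0 + u 1 * wE T n l 1 - e0 * (T n l).v 1 - c0| ≤ B.d n ^ θ' := by
  have hStr := hSt B G Leg ν D R x y m β T E fa fb H hxR A P hβ s hs hsy
  -- the relations at every scale of losses
  set Pr : ℕ → ℕ → ((Fin 2 → ℝ) × ℝ × ℝ × ℝ × Finset (ℕ × ℕ)) → Prop := fun j n a =>
    a.1 0 ^ 2 + a.1 1 ^ 2 = 1 ∧ |a.2.1| ≤ B.d n ^ (-(1 / ((j : ℝ) + 1))) ∧
    a.2.2.2.2 ⊆ (G n).I ∧ B.d n ^ (1 / ((j : ℝ) + 1)) * ((G n).I.card : ℝ) ≤ (a.2.2.2.2.card : ℝ) ∧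
    ∀ l k, (l, k) ∈ a.2.2.2.2 →
      |a.1 0 * eE E fa fb n k 0 + a.1 1 * eE E fa fb n k 1 - a.2.1 * (G n).z k - a.2.2.1| ≤
        B.d n ^ τ ∧
      |a.1 0 * wE T n l 0 + a.1 1 * wE T n l 1 + a.2.1 * (T n l).p 1 - a.2.2.1 * (T n l).v 1 -
        a.2.2.2.1| ≤ B.d n ^ τ with hPr
  have hex : ∀ j : ℕ, ∀ᶠ n in (U : Filter ℕ), ∃ a, Pr j n a := by
    intro j
    have hj : (0 : ℝ) < 1 / ((j : ℝ) + 1) := by positivity
    obtain ⟨ε₁, hε₁, hε₁ε, h1⟩ := lemA_step H hxR A P hs hsx hθ hC hε₀ hLA hj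
    filter_upwards [h1, star_pos H hxR A P hβ hs hsx hStr hε₁] with n h1 h3
    obtain ⟨u, I0, hu, hI0, hI0c, hst⟩ := h3
    obtain ⟨μ, c0, q0, hμ, I1, hI1, hI1c, hr⟩ := h1 u I0 hu hI0 hI0c hst
    refine ⟨(u, μ, c0, q0, I1), hu, hμ, hI1.trans hI0, dens_I H.toRUnif hI1c, fun l k hlk => ?_⟩
    obtain ⟨r1, r2⟩ := hr l k hlk
    exact ⟨r1.trans (rpow_anti B n hτθ), r2.trans (rpow_anti B n hτθ)⟩
  obtain ⟨j, hj, hj2⟩ := exists_diag (fun j n => ∃ a, Pr j n a) hex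
  set a : ℕ → ((Fin 2 → ℝ) × ℝ × ℝ × ℝ × Finset (ℕ × ℕ)) := fun n =>
    if h : ∃ a, Pr (j n) n a then h.choose else (![1, 0], 0, 0, 0, ∅) with ha
  have haP : ∀ᶠ n in (U : Filter ℕ), Pr (j n) n (a n) := by
    filter_upwards [hj2] with n hn
    have h := hn (j n) le_rfl
    show Pr (j n) n (if h : ∃ a, Pr (j n) n a then h.choose else (![1, 0], 0, 0, 0, ∅))
    rw [dif_pos h]
    exact h.choose_spec
  have hau : ∀ n, (a n).1 0 ^ 2 + (a n).1 1 ^ 2 = 1 := by
    intro n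
    by_cases h : ∃ a, Pr (j n) n a
    · have : a n = h.choose := dif_pos h
      rw [this]
      exact h.choose_spec.1
    · have : a n = (![1, 0], 0, 0, 0, ∅) := dif_neg h
      rw [this]
      simp
  have hjs : ∀ η : ℝ, 0 < η → ∀ᶠ n in (U : Filter ℕ), 1 / ((j n : ℝ) + 1) ≤ η := by
    intro η hη
    have h6 := (tendsto_one_div_add_atTop_nhds_zero_nat.comp hj).eventually_lt_const hη
    filter_upwards [h6] with n hn using hn.le
  have hJ : Dense B (fun n => (a n).2.2.2.2) (fun n => (G n).I) := by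
    refine ⟨?_, fun η hη => ?_⟩
    · filter_upwards [haP] with n hn using hn.2.2.1
    · filter_upwards [haP, hjs η hη] with n hn h2
      refine le_trans ?_ hn.2.2.2.1
      exact mul_le_mul_of_nonneg_right (rpow_anti B n h2) (Nat.cast_nonneg _)
  obtain ⟨I', hI'1, hI'2, hI'3, H'⟩ := RModel.refine H hJ
  have hI'D : Dense B I' (fun n => (G n).I) := hI'3.trans hJ
  have A' := A.restr hI'1
  have hμ0 : ∀ ε : ℝ, 0 < ε → ∀ᶠ n in (U : Filter ℕ), |(a n).2.1| ≤ B.d n ^ (-ε) := by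
    intro ε hε
    filter_upwards [haP, hjs ε hε] with n hn h2
    exact hn.2.1.trans (rpow_anti B n (by linarith))
  have h2y : 0 < (2 - y) * τ / 2 := by
    have := P.y2
    have h2 : 0 < 2 - y := by linarith
    positivity
  have hμ := hRows B (fun n => restr (G n) (I' n)) Leg ν D R x y m β T E fa fb H' hxR A' P hβ
    τ hτ (hτs.trans hsx) (fun n => (a n).1) hau (fun n => (a n).2.1) (fun n => (a n).2.2.1)
    (fun n => (a n).2.2.2.1) (by
      intro ε hε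
      filter_upwards [haP, hI'2] with n hn h2 l k hlk
      obtain ⟨r1, r2⟩ := hn.2.2.2.2 l k (h2 hlk)
      exact ⟨r1.trans (rpow_anti B n (by linarith)), r2.trans (rpow_anti B n (by linarith))⟩)
    hμ0 _ h2y
  filter_upwards [hμ, haP, hI'2, hI'D.2 ε hε, ev_const_le B hθ'0 3, bdsE H A] with n g1 g2 g3 g4 g5 g6
  obtain ⟨b1, b2, b3⟩ := g6
  have hpos : ∀ t : ℝ, 0 < B.d n ^ t := fun t => rpos B n t
  have hbig : B.d n ^ θ' = B.d n ^ (-θ') * B.d n ^ (2 * θ') := by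
    rw [← rpow_add']; congr 1; ring
  have herr : 3 * B.d n ^ (2 * θ') ≤ B.d n ^ θ' := by
    rw [hbig]
    exact mul_le_mul_of_nonneg_right g5 (hpos _).le
  have hτ' : B.d n ^ τ ≤ B.d n ^ (2 * θ') := rpow_anti B n hθ'
  have hμ' : |(a n).2.1| ≤ B.d n ^ (2 * θ') := g1.trans (rpow_anti B n (by linarith))
  refine ⟨(a n).1, (a n).2.2.1, (a n).2.2.2.1, hau n, I' n, hI'1 n, g4, fun l k hlk => ?_⟩
  obtain ⟨r1, r2⟩ := g2.2.2.2.2 l k (g3 hlk)
  have hlk' := hI'1 n hlk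
  obtain ⟨hlL, hkZ⟩ := Finset.mem_product.1 (H.sub n hlk')
  have m1 : |(a n).2.1 * (G n).z k| ≤ B.d n ^ (2 * θ') := by
    rw [abs_mul]
    calc _ ≤ B.d n ^ (2 * θ') * 1 := mul_le_mul hμ' (b2 k hkZ).1 (abs_nonneg _) (hpos _).le
      _ = _ := mul_one _
  have m2 : |(a n).2.1 * (T n l).p 1| ≤ B.d n ^ (2 * θ') * 2 := by
    rw [abs_mul]
    exact mul_le_mul hμ' (b3 l hlL).1 (abs_nonneg _) (hpos _).le
  refine ⟨?_, ?_⟩
  · have e1 : (a n).1 0 * eE E fa fb n k 0 + (a n).1 1 * eE E fa fb n k 1 - (a n).2.2.1 =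
        ((a n).1 0 * eE E fa fb n k 0 + (a n).1 1 * eE E fa fb n k 1 - (a n).2.1 * (G n).z k -
          (a n).2.2.1) + (a n).2.1 * (G n).z k := by ring
    rw [e1]
    exact (abs_add_le _ _).trans (by linarith [hpos (2 * θ')])
  · have e1 : (a n).1 0 * wE T n l 0 + (a n).1 1 * wE T n l 1 - (a n).2.2.1 * (T n l).v 1 -
        (a n).2.2.2.1 = ((a n).1 0 * wE T n l 0 + (a n).1 1 * wE T n l 1 +
          (a n).2.1 * (T n l).p 1 - (a n).2.2.1 * (T n l).v 1 - (a n).2.2.2.1) -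
          (a n).2.1 * (T n l).p 1 := by ring
    rw [e1]
    exact (abs_sub _ _).trans (by linarith)

/-- **RIG_E** from the rows and the strips -/
theorem rigE_of (hRows : RowsE) (hSt : StripsAll) : RigE' := by
  intro x y m β hx hy hy2 hm hm1 hβ
  obtain ⟨θ, hθ, C, hC, ε₀, hε₀, hLA⟩ := lemA_all hm hm1
  have h1y : 0 < 1 - y / 2 := by linarith
  have h2y : 0 < 2 - y := by linarith
  set s : ℝ := x * (1 - y / 2) / 2 with hs
  have hs0 : 0 < s := by positivity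
  have hsy : s < x * (1 - y / 2) := by
    have : 0 < x * (1 - y / 2) := by positivity
    linarith
  have hsx : s ≤ x := by
    have : x * (1 - y / 2) ≤ x * 1 := mul_le_mul_of_nonneg_left (by linarith) hx.le
    linarith
  set τ : ℝ := min s (s * θ / 2) with hτ
  have hτ0 : 0 < τ := lt_min hs0 (by positivity)
  set θ' : ℝ := min (τ / 2) ((2 - y) * τ / 4) with hθ'
  have hθ'0 : 0 < θ' := lt_min (by positivity) (by positivity)
  have hθ'1 : 2 * θ' ≤ τ := by
    have := min_le_left (τ / 2) ((2 - y) * τ / 4)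
    linarith
  have hθ'2 : 4 * θ' ≤ (2 - y) * τ := by
    have := min_le_right (τ / 2) ((2 - y) * τ / 4)
    linarith
  have hτs : τ ≤ s := min_le_left _ _
  have hτθ : τ ≤ s * θ / 2 := min_le_right _ _
  refine ⟨θ', hθ'0, ?_⟩
  intro B G Leg ν D R T E fa fb H hxR A P ε hε
  rcases hβ.eq_or_lt with h0 | h0
  · subst h0
    exact rig_zero H hxR A P hs0 hsx hθ hC hε₀ hLA (hθ'1.trans hτθ) hθ'0 hε
  · exact rig_pos hRows hSt H hxR A P h0 hs0 hsx hsy hθ hC hε₀ hLA hτ0 hτs hτθ hθ'1 hθ'2 hθ'0 hε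

end Crest.Agent.R136.RgE344
end

-- ▼ part R136/WkES5_501
section

/-!
# R136 (S0187), RIG_E: heavy strips, unconditional (helper501)

`strips_all : StripsAll`.
-/

set_option autoImplicit false

namespace Crest.Agent.R136.StripE501

open Crest.Agent.R136.RgE344

theorem strips_all : StripsAll := by
  intro B G Leg ν D R x y m β T E fa fb H hxR A P hβ s hs hsx
  exact stripsE Crest.Agent.R138.KMs630.km32 H hxR A P hβ hs hsx

end Crest.Agent.R136.StripE501
end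

-- ▼ part R136/RgR1_210
section

/-!
# R136 (S0187): RIG_E, piece ROWS, part 1 (helper210)

Absolute coordinates of a case (E) window: `Xc` (position along), `Wc` (block position), `Nr` (row
coordinate `u · W`), `Fr` (coordinate along the row).  Loose boxes in absolute coordinates; the row
identity and its difference form; finite lemmas.
-/

set_option autoImplicit false
set_option linter.unusedVariables false
set_option linter.unusedSectionVars false

open Filter Topology Finset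

namespace Crest.Agent.R136.RgR210

open Crest.Agent.R136.Sh605
open Crest.Agent.R138.Ex926 (Base U)
open Crest.Agent.R136.Gf356
open Crest.Agent.R136.Wk323 (coA one_le_rpow_neg ev_mul_le)
open Crest.Agent.R136.RgN344
open Crest.Agent.R136.RgE344

variable {B : Base} {G : ℕ → RCfg (Fin 11)} {Leg : Set (Fin 11 → ℝ)} {ν : (Fin 11 → ℝ) → ℝ}
  {D R x y m β : ℝ} {T : ℕ → ℕ → Ln4} {E fa fb : ℕ → ℕ → ℝ}

/-! ### finite lemmas -/

/-- cells of `f` against cells of `g` -/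
theorem image_card_le {ι α γ : Type*} [DecidableEq ι] [DecidableEq α] [DecidableEq γ]
    (S : Finset ι) (f : ι → α) (g : ι → γ) {M : ℝ}
    (h : ∀ s ∈ S, (((S.filter fun i => g i = g s).image f).card : ℝ) ≤ M) :
    ((S.image f).card : ℝ) ≤ ((S.image g).card : ℝ) * M := by
  have h1 : S.image f ⊆ (S.image g).biUnion fun c => (S.filter fun i => g i = c).image f := by
    intro a ha
    obtain ⟨i, hi, rfl⟩ := Finset.mem_image.1 ha
    exact Finset.mem_biUnion.2 ⟨g i, Finset.mem_image_of_mem _ hi,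
      Finset.mem_image_of_mem _ (Finset.mem_filter.2 ⟨hi, rfl⟩)⟩
  calc ((S.image f).card : ℝ)
      ≤ (((S.image g).biUnion fun c => (S.filter fun i => g i = c).image f).card : ℝ) := by
        exact_mod_cast Finset.card_le_card h1
    _ ≤ ∑ c ∈ S.image g, (((S.filter fun i => g i = c).image f).card : ℝ) := by
        exact_mod_cast Finset.card_biUnion_le
    _ ≤ ∑ _c ∈ S.image g, M := by
        refine Finset.sum_le_sum fun c hc => ?_
        obtain ⟨s, hs, rfl⟩ := Finset.mem_image.1 hc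
        exact h s hs
    _ = _ := by rw [Finset.sum_const, nsmul_eq_mul]

/-- number of grid labels of a set of small diameter -/
theorem gl_card_le {ι : Type*} [DecidableEq ι] {r : ℕ} (S : Finset ι) (F : ι → Fin r → ℝ)
    {δ w : ℝ} (hδ : 0 < δ) (hw : 0 ≤ w) (h : ∀ i ∈ S, ∀ i' ∈ S, ∀ j, |F i j - F i' j| ≤ w) :
    ((S.image fun i => gl δ (F i)).card : ℝ) ≤ (2 * w / δ + 2) ^ r := by
  classical
  rcases S.eq_empty_or_nonempty with rfl | ⟨i0, hi0⟩
  · simp only [Finset.image_empty, Finset.card_empty, Nat.cast_zero]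
    positivity
  · refine le_trans ?_ (card_gl_box hδ hw (F i0))
    refine mod_cast Finset.card_le_card ?_
    intro c hc
    obtain ⟨i, hi, rfl⟩ := Finset.mem_image.1 hc
    exact gl_mem_box hδ fun j => h i hi i0 hi0 j

/-- a height outside a small set of bad heights at which many elements of `S` are alive -/
theorem far_height {ι : Type*} [DecidableEq ι] (S : Finset ι) (Z : Finset ℕ) (al : ι → ℕ → Prop)
    [∀ i, DecidablePred (al i)] (bad : ℕ → Prop) [DecidablePred bad] {θ : ℝ} (hθ : 0 ≤ θ)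
    (hS : S.Nonempty) (hZ : Z.Nonempty)
    (hal : ∀ l ∈ S, θ * (Z.card : ℝ) ≤ ((Z.filter fun k => al l k).card : ℝ))
    (hbad : 2 * ((Z.filter bad).card : ℝ) < θ * (Z.card : ℝ)) :
    ∃ k ∈ Z, ¬ bad k ∧ θ / 2 * (S.card : ℝ) ≤ ((S.filter fun l => al l k).card : ℝ) := by
  classical
  by_contra hcon
  push Not at hcon
  have hS0 : (0 : ℝ) < S.card := by exact_mod_cast hS.card_pos
  have hZ0 : (0 : ℝ) < Z.card := by exact_mod_cast hZ.card_pos
  have h1 : ∑ l ∈ S, ((Z.filter fun k => al l k).card : ℝ) =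
      ∑ k ∈ Z, ((S.filter fun l => al l k).card : ℝ) := by
    have : ∑ l ∈ S, (Z.filter fun k => al l k).card = ∑ k ∈ Z, (S.filter fun l => al l k).card := by
      simp only [Finset.card_filter]
      exact Finset.sum_comm
    exact_mod_cast this
  have h2 : (S.card : ℝ) * (θ * (Z.card : ℝ)) ≤ ∑ k ∈ Z, ((S.filter fun l => al l k).card : ℝ) := by
    rw [← h1, ← nsmul_eq_mul, ← Finset.sum_const]
    exact Finset.sum_le_sum hal
  have h3 : ∑ k ∈ Z, ((S.filter fun l => al l k).card : ℝ) =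
      ∑ k ∈ Z.filter bad, ((S.filter fun l => al l k).card : ℝ) +
      ∑ k ∈ Z.filter (fun k => ¬ bad k), ((S.filter fun l => al l k).card : ℝ) :=
    (Finset.sum_filter_add_sum_filter_not Z bad _).symm
  have h4 : ∑ k ∈ Z.filter bad, ((S.filter fun l => al l k).card : ℝ) ≤
      ((Z.filter bad).card : ℝ) * (S.card : ℝ) := by
    rw [← nsmul_eq_mul, ← Finset.sum_const]
    refine Finset.sum_le_sum fun k _ => ?_
    exact_mod_cast Finset.card_le_card (Finset.filter_subset _ _)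
  have h5 : ∑ k ∈ Z.filter (fun k => ¬ bad k), ((S.filter fun l => al l k).card : ℝ) ≤
      (Z.card : ℝ) * (θ / 2 * (S.card : ℝ)) := by
    calc _ ≤ ∑ k ∈ Z.filter (fun k => ¬ bad k), θ / 2 * (S.card : ℝ) := by
          refine Finset.sum_le_sum fun k hk => ?_
          obtain ⟨a1, a2⟩ := Finset.mem_filter.1 hk
          exact (hcon k a1 a2).le
      _ = ((Z.filter fun k => ¬ bad k).card : ℝ) * (θ / 2 * (S.card : ℝ)) := by
          rw [Finset.sum_const, nsmul_eq_mul]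
      _ ≤ _ := by
          refine mul_le_mul_of_nonneg_right ?_ (by positivity)
          exact_mod_cast Finset.card_le_card (Finset.filter_subset _ _)
  have h6 : 2 * ((Z.filter bad).card : ℝ) * (S.card : ℝ) < θ * (Z.card : ℝ) * (S.card : ℝ) :=
    mul_lt_mul_of_pos_right hbad hS0
  nlinarith

/-! ### coordinates -/

/-- position along the window -/
def Xc (G : ℕ → RCfg (Fin 11)) (T : ℕ → ℕ → Ln4) (n k l : ℕ) : ℝ := (T n l).pos ((G n).z k) 1

/-- block position at the level cell `k` -/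
def Wc (G : ℕ → RCfg (Fin 11)) (T : ℕ → ℕ → Ln4) (E fa fb : ℕ → ℕ → ℝ) (n k l : ℕ) : Fin 2 → ℝ :=
  ![(T n l).pos ((G n).z k) 2 - eE E fa fb n k 0 * Xc G T n k l,
    (T n l).pos ((G n).z k) 0 - eE E fa fb n k 1 * Xc G T n k l]

/-- row coordinate -/
def Nr (G : ℕ → RCfg (Fin 11)) (T : ℕ → ℕ → Ln4) (E fa fb : ℕ → ℕ → ℝ) (u : ℕ → Fin 2 → ℝ)
    (n k l : ℕ) : ℝ := u n 0 * Wc G T E fa fb n k l 0 + u n 1 * Wc G T E fa fb n k l 1

/-- coordinate along the row -/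
def Fr (G : ℕ → RCfg (Fin 11)) (T : ℕ → ℕ → Ln4) (E fa fb : ℕ → ℕ → ℝ) (u : ℕ → Fin 2 → ℝ)
    (n k l : ℕ) : ℝ := u n 0 * Wc G T E fa fb n k l 1 - u n 1 * Wc G T E fa fb n k l 0

theorem qE_le {a b c d r : ℝ} (hr : 0 ≤ r) (ha : a ≤ r) (hb : b ≤ r) (hc : c ≤ r) (hd : d ≤ r)
    (s : Fin 11) : qE a b c d s ≤ r := by
  unfold qE
  fin_cases s <;> simp <;> assumption

theorem qE_mono {a b c d a' b' c' d' : ℝ} (ha : a ≤ a') (hb : b ≤ b') (hc : c ≤ c') (hd : d ≤ d')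
    (s : Fin 11) : qE a b c d s ≤ qE a' b' c' d' s := by
  unfold qE
  fin_cases s <;> simp <;> assumption

theorem u_le {b : Fin 2 → ℝ} (hb : b 0 ^ 2 + b 1 ^ 2 = 1) (j : Fin 2) : |b j| ≤ 1 := by
  rw [← sq_le_one_iff_abs_le_one]
  fin_cases j
  · show b 0 ^ 2 ≤ 1
    nlinarith [sq_nonneg (b 1)]
  · show b 1 ^ 2 ≤ 1
    nlinarith [sq_nonneg (b 0)]

/-- loose boxes are small in absolute coordinates -/
theorem co_le (A : AbsE B G x T E fa fb) (H : RUnif B G Leg ν D) (hx : 0 ≤ x) {a b c d : ℝ}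
    (ha : a ≤ x) (hb : b ≤ x) (hc : c ≤ x) (hd : d ≤ x) {ε : ℝ} (hε : 0 < ε) :
    ∀ᶠ n in (U : Filter ℕ), ∀ k i l, (i, k) ∈ (G n).I → (l, k) ∈ (G n).I →
      (G n).loose (qE a b c d) ε k i l →
        |Xc G T n k l - Xc G T n k i| ≤ 2 * B.d n ^ (a - ε) ∧
        (∀ j, |Wc G T E fa fb n k l j - Wc G T E fa fb n k i j| ≤ 4 * B.d n ^ (b - ε)) ∧
        |(T n l).v 1 - (T n i).v 1| ≤ 2 * B.d n ^ (c - ε) := by
  filter_upwards [A.rel ε hε, A.bd] with n h hbd k i l hi hl hlo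
  obtain ⟨-, -, -, hE1, hfa1, hfb1⟩ := hbd i k hi
  have key : ∀ s ∈ ({5, 6, 7, 8, 9, 10} : Finset (Fin 11)),
      |coA (T n i) (T n l) (E n k) (E n k) (fa n k) (fa n k) (fb n k) ((G n).z k) s| ≤
        2 * B.d n ^ (qE a b c d s - ε) := by
    intro s hs
    have h1 := h k i l hi hl s hs
    have h2 := hlo s
    rw [H.base n] at h2
    have h3 : B.d n ^ (x - ε) ≤ B.d n ^ (qE a b c d s - ε) :=
      rpow_anti B n (by linarith [qE_le hx ha hb hc hd s])
    rw [abs_le] at *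
    constructor <;> linarith [h1.1, h1.2, h2.1, h2.2]
  have k5 := key 5 (by simp)
  have k8 := key 8 (by simp)
  have k9 := key 9 (by simp)
  have k10 := key 10 (by simp)
  change |(T n l).v 1 - (T n i).v 1| ≤ 2 * B.d n ^ (c - ε) at k5
  change |(T n l).pos ((G n).z k) 1 - (T n i).pos ((G n).z k) 1| ≤ 2 * B.d n ^ (a - ε) at k8
  change |((T n l).pos ((G n).z k) 2 - (T n i).pos ((G n).z k) 2) -
    E n k * ((T n l).pos ((G n).z k) 1 - (T n i).pos ((G n).z k) 1)| ≤ 2 * B.d n ^ (b - ε) at k9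
  change |((T n l).pos ((G n).z k) 0 - (T n i).pos ((G n).z k) 0) -
    fa n k * ((T n l).pos ((G n).z k) 1 - (T n i).pos ((G n).z k) 1) -
    fb n k * ((T n l).pos ((G n).z k) 2 - (T n i).pos ((G n).z k) 2)| ≤ 2 * B.d n ^ (b - ε) at k10
  refine ⟨k8, ?_, k5⟩
  have hp := rpos B n (b - ε)
  intro j
  fin_cases j
  · show |((T n l).pos ((G n).z k) 2 - E n k * (T n l).pos ((G n).z k) 1) -
      ((T n i).pos ((G n).z k) 2 - E n k * (T n i).pos ((G n).z k) 1)| ≤ _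
    have e : ((T n l).pos ((G n).z k) 2 - E n k * (T n l).pos ((G n).z k) 1) -
      ((T n i).pos ((G n).z k) 2 - E n k * (T n i).pos ((G n).z k) 1) =
      ((T n l).pos ((G n).z k) 2 - (T n i).pos ((G n).z k) 2) -
      E n k * ((T n l).pos ((G n).z k) 1 - (T n i).pos ((G n).z k) 1) := by ring
    rw [e]
    linarith
  · show |((T n l).pos ((G n).z k) 0 - (fa n k + fb n k * E n k) * (T n l).pos ((G n).z k) 1) -
      ((T n i).pos ((G n).z k) 0 - (fa n k + fb n k * E n k) * (T n i).pos ((G n).z k) 1)| ≤ _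
    have e : ((T n l).pos ((G n).z k) 0 - (fa n k + fb n k * E n k) * (T n l).pos ((G n).z k) 1) -
      ((T n i).pos ((G n).z k) 0 - (fa n k + fb n k * E n k) * (T n i).pos ((G n).z k) 1) =
      (((T n l).pos ((G n).z k) 0 - (T n i).pos ((G n).z k) 0) -
      fa n k * ((T n l).pos ((G n).z k) 1 - (T n i).pos ((G n).z k) 1) -
      fb n k * ((T n l).pos ((G n).z k) 2 - (T n i).pos ((G n).z k) 2)) +
      fb n k * (((T n l).pos ((G n).z k) 2 - (T n i).pos ((G n).z k) 2) -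
      E n k * ((T n l).pos ((G n).z k) 1 - (T n i).pos ((G n).z k) 1)) := by ring
    rw [e]
    refine (abs_add_le _ _).trans ?_
    have h5 : |fb n k * (((T n l).pos ((G n).z k) 2 - (T n i).pos ((G n).z k) 2) -
      E n k * ((T n l).pos ((G n).z k) 1 - (T n i).pos ((G n).z k) 1))| ≤
        1 * (2 * B.d n ^ (b - ε)) := by
      rw [abs_mul]
      exact mul_le_mul hfb1 k9 (abs_nonneg _) (by norm_num)
    linarith

/-- absolute coordinates small ⇒ loose -/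
theorem loose_of (A : AbsE B G x T E fa fb) (H : RUnif B G Leg ν D) (hx : 0 ≤ x) {a b c d : ℝ}
    (ha : a ≤ x) (hb : b ≤ x) (hc : c ≤ x) (hd : d ≤ x) {ε : ℝ} (hε : 0 < ε) (K : ℝ) :
    ∀ᶠ n in (U : Filter ℕ), ∀ k i l, (i, k) ∈ (G n).I → (l, k) ∈ (G n).I →
      (0 < a → |Xc G T n k l - Xc G T n k i| ≤ K * B.d n ^ (a - ε)) →
      (0 < b → ∀ j, |Wc G T E fa fb n k l j - Wc G T E fa fb n k i j| ≤ K * B.d n ^ (b - ε)) →
      (0 < c → |(T n l).v 1 - (T n i).v 1| ≤ K * B.d n ^ (c - ε)) →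
      (0 < d → ∀ j, |dE T E fa fb n k i l j| ≤ K * B.d n ^ (d - ε)) →
      (G n).loose (qE a b c d) (2 * ε) k i l := by
  filter_upwards [A.rel ε hε, A.bdr, A.bd, ev_const_le B hε (2 * |K| + 1)] with n h hbdr hbd hK
    k i l hi hl hX hW hC hdE s
  obtain ⟨-, -, -, hE1, hfa1, hfb1⟩ := hbd i k hi
  rw [H.base n]
  by_cases hs0 : qE a b c d s ≤ 0
  · refine (hbdr k i l hi hl s).trans ?_
    have := one_le_rpow_neg B n (t := 2 * ε - qE a b c d s) (by linarith)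
    have e1 : -(2 * ε - qE a b c d s) = qE a b c d s - 2 * ε := by ring
    rwa [e1] at this
  · rw [not_le] at hs0
    -- the absolute coordinates
    have habs : s ∈ ({5, 6, 7, 8, 9, 10} : Finset (Fin 11)) ∧
        |coA (T n i) (T n l) (E n k) (E n k) (fa n k) (fa n k) (fb n k) ((G n).z k) s| ≤
          2 * |K| * B.d n ^ (qE a b c d s - ε) := by
      have hKa : ∀ t v : ℝ, |v| ≤ K * B.d n ^ t → |v| ≤ 2 * |K| * B.d n ^ t := by
        intro t v hv
        have h1 := rpos B n t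
        have h2 : K * B.d n ^ t ≤ |K| * B.d n ^ t :=
          mul_le_mul_of_nonneg_right (le_abs_self K) h1.le
        have h3 : 0 ≤ |K| * B.d n ^ t := by positivity
        linarith
      have hcomb : ∀ t v w f : ℝ, |f| ≤ 1 → |v| ≤ K * B.d n ^ t → |w| ≤ K * B.d n ^ t →
          |v - f * w| ≤ 2 * |K| * B.d n ^ t := by
        intro t v w f hf hv hw
        have h1 := rpos B n t
        have h2 : K * B.d n ^ t ≤ |K| * B.d n ^ t :=
          mul_le_mul_of_nonneg_right (le_abs_self K) h1.le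
        refine (abs_sub _ _).trans ?_
        rw [abs_mul]
        have h3 : |f| * |w| ≤ 1 * (|K| * B.d n ^ t) :=
          mul_le_mul hf (hw.trans h2) (abs_nonneg _) (by norm_num)
        linarith
      fin_cases s
      · exact absurd hs0 (lt_irrefl _)
      · exact absurd hs0 (lt_irrefl _)
      · exact absurd hs0 (lt_irrefl _)
      · exact absurd hs0 (lt_irrefl _)
      · exact absurd hs0 (lt_irrefl _)
      · refine ⟨by simp, ?_⟩
        exact hKa _ _ (hC hs0)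
      · refine ⟨by simp, ?_⟩
        exact hKa _ _ (hdE hs0 0)
      · refine ⟨by simp, ?_⟩
        change |((T n l).v 0 - (T n i).v 0) - fa n k * ((T n l).v 1 - (T n i).v 1) -
          fb n k * ((T n l).v 2 - (T n i).v 2)| ≤ 2 * |K| * B.d n ^ (d - ε)
        have h1 := hdE hs0 1
        have h0 := hdE hs0 0
        have e : ((T n l).v 0 - (T n i).v 0) - fa n k * ((T n l).v 1 - (T n i).v 1) -
            fb n k * ((T n l).v 2 - (T n i).v 2) = dE T E fa fb n k i l 1 -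
            fb n k * dE T E fa fb n k i l 0 := by
          simp only [dE, wE, eE, Matrix.cons_val_zero, Matrix.cons_val_one]
          ring
        rw [e]
        exact hcomb _ _ _ _ hfb1 h1 h0
      · refine ⟨by simp, ?_⟩
        exact hKa _ _ (hX hs0)
      · refine ⟨by simp, ?_⟩
        change |((T n l).pos ((G n).z k) 2 - (T n i).pos ((G n).z k) 2) -
          E n k * ((T n l).pos ((G n).z k) 1 - (T n i).pos ((G n).z k) 1)| ≤
          2 * |K| * B.d n ^ (b - ε)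
        have h0 := hW hs0 0
        have e : ((T n l).pos ((G n).z k) 2 - (T n i).pos ((G n).z k) 2) -
          E n k * ((T n l).pos ((G n).z k) 1 - (T n i).pos ((G n).z k) 1) =
          Wc G T E fa fb n k l 0 - Wc G T E fa fb n k i 0 := by
          simp only [Wc, eE, Xc, Matrix.cons_val_zero, Matrix.cons_val_one]
          ring
        rw [e]
        exact hKa _ _ h0
      · refine ⟨by simp, ?_⟩
        change |((T n l).pos ((G n).z k) 0 - (T n i).pos ((G n).z k) 0) -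
          fa n k * ((T n l).pos ((G n).z k) 1 - (T n i).pos ((G n).z k) 1) -
          fb n k * ((T n l).pos ((G n).z k) 2 - (T n i).pos ((G n).z k) 2)| ≤
          2 * |K| * B.d n ^ (b - ε)
        have h0 := hW hs0 0
        have h1 := hW hs0 1
        have e : ((T n l).pos ((G n).z k) 0 - (T n i).pos ((G n).z k) 0) -
          fa n k * ((T n l).pos ((G n).z k) 1 - (T n i).pos ((G n).z k) 1) -
          fb n k * ((T n l).pos ((G n).z k) 2 - (T n i).pos ((G n).z k) 2) =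
          (Wc G T E fa fb n k l 1 - Wc G T E fa fb n k i 1) -
          fb n k * (Wc G T E fa fb n k l 0 - Wc G T E fa fb n k i 0) := by
          simp only [Wc, eE, Xc, Matrix.cons_val_zero, Matrix.cons_val_one]
          ring
        rw [e]
        exact hcomb _ _ _ _ hfb1 h1 h0
    obtain ⟨hs, h2⟩ := habs
    have h1 := h k i l hi hl s hs
    have h3 : B.d n ^ (x - ε) ≤ B.d n ^ (qE a b c d s - ε) :=
      rpow_anti B n (by linarith [qE_le hx ha hb hc hd s])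
    have h4 : (2 * |K| + 1) * B.d n ^ (qE a b c d s - ε) ≤ B.d n ^ (qE a b c d s - 2 * ε) := by
      have e1 : B.d n ^ (qE a b c d s - 2 * ε) = B.d n ^ (-ε) * B.d n ^ (qE a b c d s - ε) := by
        rw [← rpow_add']; congr 1; ring
      rw [e1]
      exact mul_le_mul_of_nonneg_right hK (rpos B n _).le
    refine le_trans ?_ h4
    have h6 : |(G n).rel k i l s| ≤ |(G n).rel k i l s - coA (T n i) (T n l) (E n k) (E n k)
        (fa n k) (fa n k) (fb n k) ((G n).z k) s| + |coA (T n i) (T n l) (E n k) (E n k)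
        (fa n k) (fa n k) (fb n k) ((G n).z k) s| := by
      have := abs_add_le ((G n).rel k i l s - coA (T n i) (T n l) (E n k) (E n k)
        (fa n k) (fa n k) (fb n k) ((G n).z k) s) (coA (T n i) (T n l) (E n k) (E n k)
        (fa n k) (fa n k) (fb n k) ((G n).z k) s)
      simpa using this
    linarith

end Crest.Agent.R136.RgR210
end

-- ▼ part R136/RgR2_210
section

/-!
# R136 (S0187): RIG_E, piece ROWS, part 2 (helper210)

The row identity, and the upper bound: `#(W-cells of a row) ≤ ρ^(a - y τ - C ε)` when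
`|μ| ≥ ρ^(τ - a)`.
-/

set_option autoImplicit false
set_option linter.unusedVariables false
set_option linter.unusedSectionVars false

open Filter Topology Finset

namespace Crest.Agent.R136.RgR210

open Crest.Agent.R136.Sh605
open Crest.Agent.R138.Ex926 (Base U)
open Crest.Agent.R136.Gf356
open Crest.Agent.R136.Wk323 (coA one_le_rpow_neg ev_mul_le)
open Crest.Agent.R136.RgN344
open Crest.Agent.R136.RgE344

variable {B : Base} {G : ℕ → RCfg (Fin 11)} {Leg : Set (Fin 11 → ℝ)} {ν : (Fin 11 → ℝ) → ℝ}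
  {D R x y m β : ℝ} {T : ℕ → ℕ → Ln4} {E fa fb : ℕ → ℕ → ℝ}
  {τ : ℝ} {u : ℕ → Fin 2 → ℝ} {μ c0 q0 : ℕ → ℝ}

/-- the coherent relations of the window -/
structure RowH (B : Base) (G : ℕ → RCfg (Fin 11)) (T : ℕ → ℕ → Ln4) (E fa fb : ℕ → ℕ → ℝ)
    (τ : ℝ) (u : ℕ → Fin 2 → ℝ) (μ c0 q0 : ℕ → ℝ) : Prop where
  hu : ∀ n, u n 0 ^ 2 + u n 1 ^ 2 = 1
  hrel : ∀ ε : ℝ, 0 < ε → ∀ᶠ n in (U : Filter ℕ), ∀ l k, (l, k) ∈ (G n).I →
    |u n 0 * eE E fa fb n k 0 + u n 1 * eE E fa fb n k 1 - μ n * (G n).z k - c0 n| ≤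
      B.d n ^ (τ - ε) ∧
    |u n 0 * wE T n l 0 + u n 1 * wE T n l 1 + μ n * (T n l).p 1 - c0 n * (T n l).v 1 - q0 n| ≤
      B.d n ^ (τ - ε)
  hμ : ∀ ε : ℝ, 0 < ε → ∀ᶠ n in (U : Filter ℕ), |μ n| ≤ B.d n ^ (-ε)

/-- same row, up to `w` -/
def nr (G : ℕ → RCfg (Fin 11)) (T : ℕ → ℕ → Ln4) (E fa fb : ℕ → ℕ → ℝ) (u : ℕ → Fin 2 → ℝ)
    (w : ℝ) (n k l i : ℕ) : Prop :=
  |Xc G T n k l - Xc G T n k i| ≤ w ∧ |(T n l).v 1 - (T n i).v 1| ≤ w ∧
    |Nr G T E fa fb u n k l - Nr G T E fa fb u n k i| ≤ w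

open Classical in
/-- the lines alive at the height `k` in the row of `i` -/
noncomputable def rowS (G : ℕ → RCfg (Fin 11)) (T : ℕ → ℕ → Ln4) (E fa fb : ℕ → ℕ → ℝ)
    (u : ℕ → Fin 2 → ℝ) (w : ℝ) (n k i : ℕ) : Finset ℕ :=
  ((G n).slice k).filter fun l => nr G T E fa fb u w n k l i

/-- number of cells of a set -/
noncomputable def cl (G : ℕ → RCfg (Fin 11)) (T : ℕ → ℕ → Ln4) (E fa fb : ℕ → ℕ → ℝ)
    (δ : ℝ) (n k : ℕ) (S : Finset ℕ) : ℕ := (S.image fun l => gl δ (Wc G T E fa fb n k l)).card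

theorem mem_rowS {w : ℝ} {n k i l : ℕ} : l ∈ rowS G T E fa fb u w n k i ↔
    l ∈ (G n).slice k ∧ nr G T E fa fb u w n k l i := by
  classical
  unfold rowS
  rw [Finset.mem_filter]

theorem Nr_diff_le (hu : ∀ n, u n 0 ^ 2 + u n 1 ^ 2 = 1) {n k l i : ℕ} {w : ℝ}
    (h : ∀ j, |Wc G T E fa fb n k l j - Wc G T E fa fb n k i j| ≤ w) :
    |Nr G T E fa fb u n k l - Nr G T E fa fb u n k i| ≤ 2 * w := by
  unfold Nr
  have e : u n 0 * Wc G T E fa fb n k l 0 + u n 1 * Wc G T E fa fb n k l 1 -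
      (u n 0 * Wc G T E fa fb n k i 0 + u n 1 * Wc G T E fa fb n k i 1) =
      u n 0 * (Wc G T E fa fb n k l 0 - Wc G T E fa fb n k i 0) +
      u n 1 * (Wc G T E fa fb n k l 1 - Wc G T E fa fb n k i 1) := by ring
  rw [e]
  refine (abs_add_le _ _).trans ?_
  rw [abs_mul, abs_mul]
  have h0 := mul_le_mul (u_le (hu n) 0) (h 0) (abs_nonneg _) (by norm_num)
  have h1 := mul_le_mul (u_le (hu n) 1) (h 1) (abs_nonneg _) (by norm_num)
  linarith

theorem Fr_diff_le (hu : ∀ n, u n 0 ^ 2 + u n 1 ^ 2 = 1) {n k l i : ℕ} {w : ℝ}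
    (h : ∀ j, |Wc G T E fa fb n k l j - Wc G T E fa fb n k i j| ≤ w) :
    |Fr G T E fa fb u n k l - Fr G T E fa fb u n k i| ≤ 2 * w := by
  unfold Fr
  have e : u n 0 * Wc G T E fa fb n k l 1 - u n 1 * Wc G T E fa fb n k l 0 -
      (u n 0 * Wc G T E fa fb n k i 1 - u n 1 * Wc G T E fa fb n k i 0) =
      u n 0 * (Wc G T E fa fb n k l 1 - Wc G T E fa fb n k i 1) -
      u n 1 * (Wc G T E fa fb n k l 0 - Wc G T E fa fb n k i 0) := by ring
  rw [e]
  refine (abs_sub _ _).trans ?_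
  rw [abs_mul, abs_mul]
  have h0 := mul_le_mul (u_le (hu n) 0) (h 1) (abs_nonneg _) (by norm_num)
  have h1 := mul_le_mul (u_le (hu n) 1) (h 0) (abs_nonneg _) (by norm_num)
  linarith

theorem W_diff_le (hu : ∀ n, u n 0 ^ 2 + u n 1 ^ 2 = 1) {n k l i : ℕ} {w w' : ℝ}
    (h : |Nr G T E fa fb u n k l - Nr G T E fa fb u n k i| ≤ w)
    (h' : |Fr G T E fa fb u n k l - Fr G T E fa fb u n k i| ≤ w') (j : Fin 2) :
    |Wc G T E fa fb n k l j - Wc G T E fa fb n k i j| ≤ w + w' := by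
  have hu1 := hu n
  have h0 := u_le hu1 0
  have h1 := u_le hu1 1
  have a1 := mul_le_mul h0 h (abs_nonneg _) (by norm_num)
  have a2 := mul_le_mul h1 h (abs_nonneg _) (by norm_num)
  have a3 := mul_le_mul h0 h' (abs_nonneg _) (by norm_num)
  have a4 := mul_le_mul h1 h' (abs_nonneg _) (by norm_num)
  rw [← abs_mul] at a1 a2 a3 a4
  fin_cases j
  · show |Wc G T E fa fb n k l 0 - Wc G T E fa fb n k i 0| ≤ w + w'
    have e : Wc G T E fa fb n k l 0 - Wc G T E fa fb n k i 0 =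
        u n 0 * (Nr G T E fa fb u n k l - Nr G T E fa fb u n k i) -
        u n 1 * (Fr G T E fa fb u n k l - Fr G T E fa fb u n k i) := by
      unfold Nr Fr
      linear_combination (-(Wc G T E fa fb n k l 0 - Wc G T E fa fb n k i 0)) * hu1
    rw [e]
    exact (abs_sub _ _).trans (by linarith)
  · show |Wc G T E fa fb n k l 1 - Wc G T E fa fb n k i 1| ≤ w + w'
    have e : Wc G T E fa fb n k l 1 - Wc G T E fa fb n k i 1 =
        u n 1 * (Nr G T E fa fb u n k l - Nr G T E fa fb u n k i) +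
        u n 0 * (Fr G T E fa fb u n k l - Fr G T E fa fb u n k i) := by
      unfold Nr Fr
      linear_combination (-(Wc G T E fa fb n k l 1 - Wc G T E fa fb n k i 1)) * hu1
    rw [e]
    exact (abs_add_le _ _).trans (by linarith)

/-- **the row identity** -/
theorem row_form (A : AbsE B G x T E fa fb) (Q : RowH B G T E fa fb τ u μ c0 q0) {ε : ℝ}
    (hε : 0 < ε) : ∀ᶠ n in (U : Filter ℕ), ∀ l k, (l, k) ∈ (G n).I →
      |Nr G T E fa fb u n k l - ((u n 0 * (T n l).p 2 + u n 1 * (T n l).p 0 -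
        c0 n * (T n l).p 1) + q0 n * (G n).z k - 2 * μ n * (G n).z k * (T n l).p 1 -
        μ n * (G n).z k ^ 2 * (T n l).v 1)| ≤ 2 * B.d n ^ (τ - ε) := by
  filter_upwards [A.bd, Q.hrel ε hε] with n hbd hrel l k hl
  obtain ⟨hz, hpos, -, -, -, -⟩ := hbd l k hl
  obtain ⟨h1, h2⟩ := hrel l k hl
  set r1 := u n 0 * eE E fa fb n k 0 + u n 1 * eE E fa fb n k 1 - μ n * (G n).z k - c0 n with hr1
  set r2 := u n 0 * wE T n l 0 + u n 1 * wE T n l 1 + μ n * (T n l).p 1 - c0 n * (T n l).v 1 -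
    q0 n with hr2
  have e : Nr G T E fa fb u n k l - ((u n 0 * (T n l).p 2 + u n 1 * (T n l).p 0 -
        c0 n * (T n l).p 1) + q0 n * (G n).z k - 2 * μ n * (G n).z k * (T n l).p 1 -
        μ n * (G n).z k ^ 2 * (T n l).v 1) =
      (G n).z k * r2 - (T n l).pos ((G n).z k) 1 * r1 := by
    simp only [hr1, hr2, Nr, Wc, Xc, wE, Ln4.pos, Matrix.cons_val_zero, Matrix.cons_val_one]
    ring
  rw [e]
  refine (abs_sub _ _).trans ?_
  rw [abs_mul, abs_mul]
  have a1 := mul_le_mul hz h2 (abs_nonneg _) (by norm_num)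
  have a2 := mul_le_mul (hpos 1) h1 (abs_nonneg _) (by norm_num)
  linarith

/-- **difference form of the row identity** -/
theorem row_diff (A : AbsE B G x T E fa fb) (Q : RowH B G T E fa fb τ u μ c0 q0) {ε : ℝ}
    (hε : 0 < ε) : ∀ᶠ n in (U : Filter ℕ), ∀ k k' l l', (l, k) ∈ (G n).I → (l', k) ∈ (G n).I →
      (l, k') ∈ (G n).I → (l', k') ∈ (G n).I →
      |(Nr G T E fa fb u n k' l - Nr G T E fa fb u n k' l') -
        (Nr G T E fa fb u n k l - Nr G T E fa fb u n k l') +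
        2 * μ n * ((G n).z k' - (G n).z k) * (Xc G T n k l - Xc G T n k l') +
        μ n * ((G n).z k' - (G n).z k) ^ 2 * ((T n l).v 1 - (T n l').v 1)| ≤
        8 * B.d n ^ (τ - ε) := by
  filter_upwards [row_form A Q hε] with n h k k' l l' h1 h2 h3 h4
  have a1 := abs_le.1 (h l k h1)
  have a2 := abs_le.1 (h l' k h2)
  have a3 := abs_le.1 (h l k' h3)
  have a4 := abs_le.1 (h l' k' h4)
  simp only [Xc, Ln4.pos]
  rw [abs_le]
  constructor
  · nlinarith [a1.1, a1.2, a2.1, a2.2, a3.1, a3.2, a4.1, a4.2]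
  · nlinarith [a1.1, a1.2, a2.1, a2.2, a3.1, a3.2, a4.1, a4.2]

/-- **thin rows, I**: mass of the lines with given `C` and `N` -/
theorem mass_le (H : RModel B G 1 R Leg ν D) (A : AbsE B G x T E fa fb)
    (P : ProfE Leg ν x y m β) (hτ : 0 < τ) (hτx : τ ≤ x) (Q : RowH B G T E fa fb τ u μ c0 q0)
    {a : ℝ} (ha0 : 0 ≤ a) (haτ : a ≤ τ)
    (hμa : 0 < a → ∀ᶠ n in (U : Filter ℕ), B.d n ^ (τ - a) ≤ |μ n|) {ε : ℝ} (hε : 0 < ε)
    (hεR : 3 * ε ≤ R) :
    ∀ᶠ n in (U : Filter ℕ), ∀ k i, (i, k) ∈ (G n).I → ∀ S ⊆ (G n).slice k,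
      (∀ l ∈ S, |(T n l).v 1 - (T n i).v 1| ≤ B.d n ^ (τ - 2 * ε) ∧
        |Nr G T E fa fb u n k l - Nr G T E fa fb u n k i| ≤ B.d n ^ (τ - 2 * ε)) →
      (S.card : ℝ) ≤ B.d n ^ (-ν (qE a τ τ 0) - y * τ - (4 * D ^ 2 + 12 * D + 9) * ε) := by
  classical
  have hD := H.D1
  have hx0 := P.x0.le
  have hax : a ≤ x := haτ.trans hτx
  have hLa : qE a τ τ 0 ∈ Leg := P.leg _ _ _ _ ha0 hax hτ.le hτx hτ.le hτx le_rfl hx0
  have hLp : qE 0 0 τ 0 ∈ Leg := P.leg _ _ _ _ le_rfl hx0 le_rfl hx0 hτ.le hτx le_rfl hx0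
  have hLr : qE 0 τ τ 0 ∈ Leg := P.leg _ _ _ _ le_rfl hx0 hτ.le hτx hτ.le hτx le_rfl hx0
  have hνpr : ν (qE 0 0 τ 0) - ν (qE 0 τ τ 0) = y * τ := by
    rw [P.form 0 0 τ 0 le_rfl le_rfl hx0 le_rfl hx0 hτ.le hτx,
      P.form 0 τ τ 0 le_rfl le_rfl hx0 hτ.le hτx hτ.le hτx]
    ring
  -- labels
  have hlab := lab_le H.toRUnif (qE 0 0 τ 0) (qE 0 τ τ 0) hLp hLr
    (qE_mono le_rfl hτ.le le_rfl le_rfl) (m := 2) (x := τ) (C1 := 2) (by norm_num)
    (fun n k l => Wc G T E fa fb n k l) (by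
      intro ε' hε'
      filter_upwards [co_le A H.toRUnif hx0 (a := 0) (b := τ) (c := τ) (d := 0) hx0 hτx hτx hx0 hε',
        ev_mul_le B (K := 4) hε'] with n h1 h2 k i l hi hl hlo j
      refine ((h1 k i l hi hl hlo).2.1 j).trans ((h2 _).trans (le_of_eq ?_))
      congr 1
      ring) (C0 := 4) (ε := ε) (by norm_num) hε
  have hsame := card_le_lab H.toRUnif (qE a τ τ 0) hLa (C := 12) (ε := ε) (by norm_num) hε
  have hloC := loose_of A H.toRUnif hx0 (a := 0) (b := 0) (c := τ) (d := 0) hx0 hx0 hτx hx0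
    (ε := 2 * ε) (by positivity) 2
  have hloA := loose_of A H.toRUnif hx0 (a := a) (b := τ) (c := τ) (d := 0) hax hτx hτx hx0
    (ε := 6 * ε) (by positivity) 10
  have hμa' : ∀ᶠ n in (U : Filter ℕ), 0 < a → B.d n ^ (τ - a) ≤ |μ n| := by
    by_cases h : 0 < a
    · filter_upwards [hμa h] with n hn _ using hn
    · exact Filter.Eventually.of_forall fun n hn => absurd hn h
  filter_upwards [hlab, hsame, hloC, hloA, hμa', row_diff A Q hε, Q.hμ ε hε, A.bd,
    H.line ε hε, H.frost (3 * ε) (by positivity) hεR ε hε, ev_const_le B hε 3] with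
    n h1 h2 h3 h4 h5 h6 h7 h8 h9 h10 h11 k i hi S hS hSi
  have hpow : ∀ t : ℝ, 0 < B.d n ^ t := fun t => rpos B n t
  rcases S.eq_empty_or_nonempty with rfl | hSne
  · simpa using (hpow _).le
  have hkZ := H.memZ hi
  have hZne : (G n).Z.Nonempty := ⟨k, hkZ⟩
  have hZ0 : (0 : ℝ) < (G n).Z.card := by exact_mod_cast hZne.card_pos
  have hε1 : B.d n ^ ε * B.d n ^ (-ε) = 1 := by rw [← rpow_add', add_neg_cancel, Real.rpow_zero]
  -- a far height
  obtain ⟨k0, hk0, hfar, hmany⟩ := far_height S (G n).Z (fun l k => (l, k) ∈ (G n).I)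
    (fun k' => |(G n).z k' - (G n).z k| ≤ B.d n ^ (3 * ε)) (θ := B.d n ^ ε) (hpow _).le hSne hZne
    (fun l hl => h9 l (H.memL (H.memSlice.1 (hS hl)))) (by
      have b1 := h10 k hkZ
      unfold RCfg.hbox at b1
      rw [H.base n] at b1
      have b2 : B.d n ^ (1 * (3 * ε) - ε) = B.d n ^ ε * B.d n ^ ε := by
        rw [← rpow_add']; congr 1; ring
      rw [b2] at b1
      have b3 : 3 * B.d n ^ ε ≤ 1 := by
        have := mul_le_mul_of_nonneg_left h11 (hpow ε).le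
        linarith
      have b4 : 3 * (B.d n ^ ε * B.d n ^ ε * ((G n).Z.card : ℝ)) ≤
          B.d n ^ ε * ((G n).Z.card : ℝ) := by
        have := mul_le_mul_of_nonneg_right b3
          (mul_nonneg (hpow ε).le hZ0.le : 0 ≤ B.d n ^ ε * ((G n).Z.card : ℝ))
        linarith
      have b5 : 0 < B.d n ^ ε * ((G n).Z.card : ℝ) := mul_pos (hpow _) hZ0
      have b6 : (((G n).Z.filter fun k' => |(G n).z k' - (G n).z k| ≤ B.d n ^ (3 * ε)).card : ℝ) ≤
          B.d n ^ ε * B.d n ^ ε * ((G n).Z.card : ℝ) := by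
        refine le_trans (le_of_eq ?_) b1
        congr 2
      linarith)
  rw [not_le] at hfar
  set S' := S.filter fun l => (l, k0) ∈ (G n).I with hS'
  have hS'S : S' ⊆ S := Finset.filter_subset _ _
  have hS'k0 : ∀ l ∈ S', (l, k0) ∈ (G n).I := fun l hl => (Finset.mem_filter.1 hl).2
  have hS'k : ∀ l ∈ S', (l, k) ∈ (G n).I := fun l hl => H.memSlice.1 (hS (hS'S hl))
  have hS'sl : S' ⊆ (G n).slice k0 := fun l hl => H.memSlice.2 (hS'k0 l hl)
  have hC' : ∀ l ∈ S', ∀ l' ∈ S', |(T n l').v 1 - (T n l).v 1| ≤ 2 * B.d n ^ (τ - 2 * ε) := by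
    intro l hl l' hl'
    have c1 := abs_le.1 (hSi l (hS'S hl)).1
    have c2 := abs_le.1 (hSi l' (hS'S hl')).1
    rw [abs_le]
    constructor <;> linarith [c1.1, c1.2, c2.1, c2.2]
  have hN' : ∀ l ∈ S', ∀ l' ∈ S', |Nr G T E fa fb u n k l' - Nr G T E fa fb u n k l| ≤
      2 * B.d n ^ (τ - 2 * ε) := by
    intro l hl l' hl'
    have c1 := abs_le.1 (hSi l (hS'S hl)).2
    have c2 := abs_le.1 (hSi l' (hS'S hl')).2
    rw [abs_le]
    constructor <;> linarith [c1.1, c1.2, c2.1, c2.2]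
  -- number of labels
  have hnl : ((S'.image fun l => gl (B.d n ^ τ) (Wc G T E fa fb n k0 l)).card : ℝ) ≤
      B.d n ^ (-(y * τ) - (4 * D ^ 2 + 7) * ε) := by
    rcases S'.eq_empty_or_nonempty with he | ⟨i1, hi1⟩
    · rw [he]
      simpa using (hpow _).le
    · have d1 := h1 k0 i1 (hS'k0 i1 hi1) S' hS'sl (by
        intro l hl
        have d2 := h3 k0 i1 l (hS'k0 i1 hi1) (hS'k0 l hl) (fun h => absurd h (lt_irrefl _))
          (fun h => absurd h (lt_irrefl _)) (fun _ => hC' i1 hi1 l hl)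
          (fun h => absurd h (lt_irrefl _))
        have e : 2 * (2 * ε) = 4 * ε := by ring
        rwa [e] at d2)
      rw [hνpr] at d1
      refine d1.trans (le_of_eq ?_)
      congr 1
      push_cast
      ring
  -- lines with the same label
  have hsm := h2 k0 S' hS'sl (Fin 2 → ℤ) (fun l => gl (B.d n ^ τ) (Wc G T E fa fb n k0 l)) (by
    intro l hl l' hl' heq
    have d0 := h4 k0 l l' (hS'k0 l hl) (hS'k0 l' hl')
    have hW : ∀ j, |Wc G T E fa fb n k0 l' j - Wc G T E fa fb n k0 l j| ≤ B.d n ^ τ := by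
      intro j
      rw [abs_sub_comm]
      exact (abs_sub_lt_of_gl_eq (hpow τ) heq j).le
    have d1 := d0 (by
      intro ha
      have f1 := h6 k0 k l' l (hS'k0 l' hl') (hS'k0 l hl) (hS'k l' hl') (hS'k l hl)
      have f2 := hN' l hl l' hl'
      have f3 := Nr_diff_le (u := u) Q.hu hW
      have f4 := hC' l hl l' hl'
      have hz1 := (h8 l k (hS'k l hl)).1
      have hz2 := (h8 l k0 (hS'k0 l hl)).1
      have f5 : |(G n).z k - (G n).z k0| ≤ 2 := by
        have g1 := abs_le.1 hz1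
        have g2 := abs_le.1 hz2
        rw [abs_le]
        constructor <;> linarith [g1.1, g1.2, g2.1, g2.2]
      have f6 : |μ n * ((G n).z k - (G n).z k0) ^ 2 * ((T n l').v 1 - (T n l).v 1)| ≤
          B.d n ^ (-ε) * 4 * (2 * B.d n ^ (τ - 2 * ε)) := by
        rw [abs_mul, abs_mul, abs_pow]
        have g1 : |(G n).z k - (G n).z k0| ^ 2 ≤ 4 := by
          nlinarith [abs_nonneg ((G n).z k - (G n).z k0)]
        exact mul_le_mul (mul_le_mul h7 g1 (by positivity) (hpow _).le) f4 (abs_nonneg _)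
          (by have := hpow (-ε); positivity)
      have f7 : |2 * μ n * ((G n).z k - (G n).z k0) * (Xc G T n k0 l' - Xc G T n k0 l)| ≤
          20 * B.d n ^ (τ - 3 * ε) := by
        have g1 := abs_le.1 f1
        have g2 := abs_le.1 f2
        have g3 := abs_le.1 f3
        have g6 := abs_le.1 f6
        have g7 : B.d n ^ (-ε) * 4 * (2 * B.d n ^ (τ - 2 * ε)) = 8 * B.d n ^ (τ - 3 * ε) := by
          have : B.d n ^ (τ - 3 * ε) = B.d n ^ (-ε) * B.d n ^ (τ - 2 * ε) := by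
            rw [← rpow_add']; congr 1; ring
          rw [this]
          ring
        rw [g7] at g6
        have g8 : B.d n ^ τ ≤ B.d n ^ (τ - 3 * ε) := rpow_anti B n (by linarith)
        have g9 : B.d n ^ (τ - 2 * ε) ≤ B.d n ^ (τ - 3 * ε) := rpow_anti B n (by linarith)
        have g10 : B.d n ^ (τ - ε) ≤ B.d n ^ (τ - 3 * ε) := rpow_anti B n (by linarith)
        rw [abs_le]
        constructor <;> linarith [g1.1, g1.2, g2.1, g2.2, g3.1, g3.2, g6.1, g6.2]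
      have f8 := h5 ha
      rw [abs_mul, abs_mul, abs_mul, abs_two] at f7
      have f9 : B.d n ^ (3 * ε) ≤ |(G n).z k - (G n).z k0| := by
        rw [abs_sub_comm]
        exact hfar.le
      have f10 : 2 * B.d n ^ (τ - a) * B.d n ^ (3 * ε) * |Xc G T n k0 l' - Xc G T n k0 l| ≤
          20 * B.d n ^ (τ - 3 * ε) := by
        refine le_trans ?_ f7
        refine mul_le_mul_of_nonneg_right ?_ (abs_nonneg _)
        exact mul_le_mul (by linarith) f9 (hpow _).le (by positivity)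
      have f11 : 20 * B.d n ^ (τ - 3 * ε) =
          2 * B.d n ^ (τ - a) * B.d n ^ (3 * ε) * (10 * B.d n ^ (a - 6 * ε)) := by
        have : B.d n ^ (τ - 3 * ε) = B.d n ^ (τ - a) * B.d n ^ (3 * ε) * B.d n ^ (a - 6 * ε) := by
          rw [← rpow_add', ← rpow_add']; congr 1; ring
        rw [this]
        ring
      rw [f11] at f10
      exact le_of_mul_le_mul_left f10 (by have := hpow (τ - a); have := hpow (3 * ε); positivity))
      (fun _ j => (hW j).trans (by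
        have g1 : B.d n ^ τ ≤ B.d n ^ (τ - 6 * ε) := rpow_anti B n (by linarith)
        have g2 := hpow (τ - 6 * ε)
        linarith))
      (fun _ => (hC' l hl l' hl').trans (by
        have g1 : B.d n ^ (τ - 2 * ε) ≤ B.d n ^ (τ - 6 * ε) := rpow_anti B n (by linarith)
        have g2 := hpow (τ - 6 * ε)
        linarith))
      (fun h => absurd h (lt_irrefl _))
    have e : 2 * (6 * ε) = 12 * ε := by ring
    rwa [e] at d1)
  -- conclusion
  have hfin : (S.card : ℝ) ≤ B.d n ^ (-(2 * ε)) * (S'.card : ℝ) := by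
    have g1 : B.d n ^ (-(2 * ε)) = B.d n ^ (-ε) * B.d n ^ (-ε) := by
      rw [← rpow_add']; congr 1; ring
    have g2 := mul_le_mul_of_nonneg_left hmany (hpow (-ε)).le
    have g3 : B.d n ^ (-ε) * (B.d n ^ ε / 2 * (S.card : ℝ)) = (S.card : ℝ) / 2 := by
      linear_combination ((S.card : ℝ) / 2) * hε1
    rw [g3] at g2
    have g4 : (0 : ℝ) ≤ B.d n ^ (-ε) * (S'.card : ℝ) := by positivity
    rw [g1]
    nlinarith
  have hA0 : B.d n ^ (-ν (qE a τ τ 0) - y * τ - (4 * D ^ 2 + 12 * D + 9) * ε) =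
      B.d n ^ (-(2 * ε)) * (B.d n ^ (-(y * τ) - (4 * D ^ 2 + 7) * ε) *
        B.d n ^ (-ν (qE a τ τ 0) - D * 12 * ε)) := by
    rw [← rpow_add', ← rpow_add']; congr 1; ring
  rw [hA0]
  refine hfin.trans (mul_le_mul_of_nonneg_left ?_ (hpow _).le)
  refine hsm.trans ?_
  exact mul_le_mul_of_nonneg_right hnl (hpow _).le

/-- **thin rows, II**: number of `W`-cells of a row -/
theorem row_le (H : RModel B G 1 R Leg ν D) (A : AbsE B G x T E fa fb)
    (P : ProfE Leg ν x y m β) (hτ : 0 < τ) (hτx : τ ≤ x) (Q : RowH B G T E fa fb τ u μ c0 q0)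
    {a : ℝ} (ha0 : 0 ≤ a) (haτ : a ≤ τ)
    (hμa : 0 < a → ∀ᶠ n in (U : Filter ℕ), B.d n ^ (τ - a) ≤ |μ n|) {ε : ℝ} (hε : 0 < ε)
    (hεR : 3 * ε ≤ R) :
    ∀ᶠ n in (U : Filter ℕ), ∀ k i, (i, k) ∈ (G n).I →
      (cl G T E fa fb (B.d n ^ τ) n k (rowS G T E fa fb u (B.d n ^ τ) n k i) : ℝ) ≤
        B.d n ^ (a - y * τ - (4 * D ^ 2 + 12 * D + 14) * ε) := by
  classical
  have hD := H.D1
  have hx0 := P.x0.le
  have hax : a ≤ x := haτ.trans hτx
  have hLr : qE 0 τ τ 0 ∈ Leg := P.leg _ _ _ _ le_rfl hx0 hτ.le hτx hτ.le hτx le_rfl hx0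
  filter_upwards [mass_le H A P hτ hτx Q ha0 haτ hμa hε hεR,
    co_le A H.toRUnif hx0 (a := 0) (b := τ) (c := τ) (d := 0) hx0 hτx hτx hx0 hε,
    H.low (qE 0 τ τ 0) hLr ε hε, ev_const_le B hε 10] with n h1 h2 h3 h4 k i hi
  have hpow : ∀ t : ℝ, 0 < B.d n ^ t := fun t => rpos B n t
  have hb : ∀ t : ℝ, 10 * B.d n ^ t ≤ B.d n ^ (t - ε) := by
    intro t
    have e1 : B.d n ^ (t - ε) = B.d n ^ (-ε) * B.d n ^ t := by
      rw [← rpow_add']; congr 1; ring
    rw [e1]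
    exact mul_le_mul_of_nonneg_right h4 (hpow t).le
  set S := ((G n).slice k).filter fun l => |(T n l).v 1 - (T n i).v 1| ≤ B.d n ^ (τ - 2 * ε) ∧
    |Nr G T E fa fb u n k l - Nr G T E fa fb u n k i| ≤ B.d n ^ (τ - 2 * ε) with hS
  have hSc := h1 k i hi S (Finset.filter_subset _ _) (fun l hl => (Finset.mem_filter.1 hl).2)
  have key := grid_count (rowS G T E fa fb u (B.d n ^ τ) n k i) S
    (fun l => Wc G T E fa fb n k l) (δ := B.d n ^ τ) (w := 4 * B.d n ^ (τ - ε))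
    (m0 := B.d n ^ (-ν (qE 0 τ τ 0) + ε)) (hpow _) (by have := hpow (τ - ε); positivity) (by
      intro i' hi'
      obtain ⟨hsl, hr1, hr2, hr3⟩ := mem_rowS.1 hi'
      have hi'I := H.memSlice.1 hsl
      refine ⟨(G n).box (qE 0 τ τ 0) ε i' k, ?_, ?_, h3 i' k hi'I⟩
      · intro l hl
        obtain ⟨l1, l2⟩ := RCfg.mem_box.1 hl
        obtain ⟨-, g2, g3⟩ := h2 k i' l hi'I (H.memSlice.1 l1) l2
        have g4 := Nr_diff_le (u := u) Q.hu g2
        have g5 := hb (τ - ε)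
        have e5 : τ - ε - ε = τ - 2 * ε := by ring
        rw [e5] at g5
        have g6 : B.d n ^ τ ≤ B.d n ^ (τ - ε) := rpow_anti B n (by linarith)
        have g7 := hpow (τ - ε)
        refine Finset.mem_filter.2 ⟨l1, ?_, ?_⟩
        · have b1 := abs_le.1 g3
          have b2 := abs_le.1 hr2
          rw [abs_le]
          constructor <;> linarith [b1.1, b1.2, b2.1, b2.2]
        · have b1 := abs_le.1 g4
          have b2 := abs_le.1 hr3
          rw [abs_le]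
          constructor <;> linarith [b1.1, b1.2, b2.1, b2.2]
      · intro l hl j
        obtain ⟨l1, l2⟩ := RCfg.mem_box.1 hl
        exact (h2 k i' l hi'I (H.memSlice.1 l1) l2).2.1 j)
  have e1 : 2 * (4 * B.d n ^ (τ - ε)) / B.d n ^ τ + 2 ≤ B.d n ^ (-(2 * ε)) := by
    have a1 : B.d n ^ (τ - ε) / B.d n ^ τ = B.d n ^ (-ε) := by
      rw [div_eq_iff (hpow _).ne', ← rpow_add']
      congr 1
      ring
    have a2 : 2 * (4 * B.d n ^ (τ - ε)) / B.d n ^ τ = 8 * B.d n ^ (-ε) := by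
      rw [← a1]; ring
    have a3 : B.d n ^ (-(2 * ε)) = B.d n ^ (-ε) * B.d n ^ (-ε) := by
      rw [← rpow_add']; congr 1; ring
    rw [a2, a3]
    nlinarith
  have e2 : (2 * (4 * B.d n ^ (τ - ε)) / B.d n ^ τ + 2) ^ 2 ≤ B.d n ^ (-(4 * ε)) := by
    have a1 : (B.d n ^ (-(2 * ε))) ^ 2 = B.d n ^ (-(4 * ε)) := by
      rw [sq, ← rpow_add']; congr 1; ring
    rw [← a1]
    refine pow_le_pow_left₀ ?_ e1 2
    have := hpow (τ - ε)
    have := hpow τ
    positivity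
  have hν : -ν (qE a τ τ 0) - y * τ = a - y * τ - ν (qE 0 τ τ 0) := by
    rw [P.form a τ τ 0 le_rfl ha0 hax hτ.le hτx hτ.le hτx,
      P.form 0 τ τ 0 le_rfl le_rfl hx0 hτ.le hτx hτ.le hτx]
    ring
  have hfin : (cl G T E fa fb (B.d n ^ τ) n k (rowS G T E fa fb u (B.d n ^ τ) n k i) : ℝ) *
      B.d n ^ (-ν (qE 0 τ τ 0) + ε) ≤
      B.d n ^ (a - y * τ - (4 * D ^ 2 + 12 * D + 14) * ε) * B.d n ^ (-ν (qE 0 τ τ 0) + ε) := by
    refine key.trans ?_
    refine (mul_le_mul e2 hSc (Nat.cast_nonneg _) (hpow _).le).trans ?_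
    rw [← rpow_add', ← rpow_add', hν]
    refine rpow_anti B n ?_
    nlinarith
  exact le_of_mul_le_mul_right hfin (hpow _)

end Crest.Agent.R136.RgR210
end

-- ▼ part R136/RgR3_210
section

/-!
# R136 (S0187): RIG_E, piece ROWS, part 3 (helper210)

Full rows: rows persist in the height; at the row with the largest number of `W`-cells Kaufman's count
gives `#cells ≥ ρ^(-τ + ε)` if `β > 0`.
-/

set_option autoImplicit false
set_option linter.unusedVariables false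
set_option linter.unusedSectionVars false

open Filter Topology Finset

namespace Crest.Agent.R136.RgR210

open Crest.Agent.R136.Sh605
open Crest.Agent.R138.Ex926 (Base U)
open Crest.Agent.R136.Gf356
open Crest.Agent.R136.Wk323 (coA one_le_rpow_neg ev_mul_le)
open Crest.Agent.R136.RgN344
open Crest.Agent.R136.RgE344

variable {B : Base} {G : ℕ → RCfg (Fin 11)} {Leg : Set (Fin 11 → ℝ)} {ν : (Fin 11 → ℝ) → ℝ}
  {D R x y m β : ℝ} {T : ℕ → ℕ → Ln4} {E fa fb : ℕ → ℕ → ℝ}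
  {τ : ℝ} {u : ℕ → Fin 2 → ℝ} {μ c0 q0 : ℕ → ℝ}

theorem floor_card_le {ι : Type*} [DecidableEq ι] (S : Finset ι) (f : ι → ℝ) {r w : ℝ}
    (hr : 0 < r) (hw : 0 ≤ w) (h : ∀ i ∈ S, ∀ i' ∈ S, |f i - f i'| ≤ w) :
    ((S.image fun i => ⌊f i / r⌋).card : ℝ) ≤ 2 * w / r + 2 := by
  classical
  have h1 := gl_card_le S (fun i (_ : Fin 1) => f i) hr hw (fun i hi i' hi' _ => h i hi i' hi')
  rw [pow_one] at h1
  refine le_trans ?_ h1
  have h2 : (S.image fun i => ⌊f i / r⌋) =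
      (S.image fun i => gl r (fun _ : Fin 1 => f i)).image fun c => c 0 := by
    rw [Finset.image_image]
    rfl
  rw [h2]
  exact_mod_cast Finset.card_image_le

theorem nr_mono {w w' : ℝ} (hw : w ≤ w') {n k l l' : ℕ} (h : nr G T E fa fb u w n k l l') :
    nr G T E fa fb u w' n k l l' := ⟨h.1.trans hw, h.2.1.trans hw, h.2.2.trans hw⟩

theorem nr_tri {w w' : ℝ} {n k l l' i : ℕ} (h : nr G T E fa fb u w n k l i)
    (h' : nr G T E fa fb u w' n k l' i) : nr G T E fa fb u (w + w') n k l l' := by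
  obtain ⟨a1, a2, a3⟩ := h
  obtain ⟨b1, b2, b3⟩ := h'
  have a1 := abs_le.1 a1
  have a2 := abs_le.1 a2
  have a3 := abs_le.1 a3
  have b1 := abs_le.1 b1
  have b2 := abs_le.1 b2
  have b3 := abs_le.1 b3
  refine ⟨?_, ?_, ?_⟩ <;> rw [abs_le] <;> constructor <;>
    linarith [a1.1, a1.2, a2.1, a2.2, a3.1, a3.2, b1.1, b1.2, b2.1, b2.2, b3.1, b3.2]

/-- **rows persist** -/
theorem nr_transport (A : AbsE B G x T E fa fb) (Q : RowH B G T E fa fb τ u μ c0 q0) {c : ℝ}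
    (hc : 0 ≤ c) {ε : ℝ} (hε : 0 < ε) : ∀ᶠ n in (U : Filter ℕ), ∀ k k' l l', (l, k) ∈ (G n).I →
      (l', k) ∈ (G n).I → (l, k') ∈ (G n).I → (l', k') ∈ (G n).I →
      nr G T E fa fb u (B.d n ^ (τ - c * ε)) n k l l' →
        nr G T E fa fb u (B.d n ^ (τ - (c + 1) * ε)) n k' l l' := by
  have hε2 : 0 < ε / 2 := by positivity
  filter_upwards [row_diff A Q hε2, Q.hμ _ hε2, A.bd, ev_const_le B hε2 17] with n h1 h2 h3 h4
    k k' l l' hl hl' hlk hlk' hn
  have hpow : ∀ t : ℝ, 0 < B.d n ^ t := fun t => rpos B n t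
  set g := B.d n ^ (-(ε / 2)) with hg
  set w := B.d n ^ (τ - c * ε) with hw
  have hw0 : 0 < w := hpow _
  have hw' : B.d n ^ (τ - (c + 1) * ε) = g * (g * w) := by
    rw [hg, hw, ← rpow_add', ← rpow_add']; congr 1; ring
  have hg0 : 0 < g := hpow _
  have hgw : g * w ≥ 17 * w := mul_le_mul_of_nonneg_right h4 hw0.le
  have hggw : g * (g * w) ≥ 17 * (g * w) := mul_le_mul_of_nonneg_right h4 (by positivity)
  obtain ⟨n1, n2, n3⟩ := hn
  have hz1 := abs_le.1 (h3 l k hl).1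
  have hz2 := abs_le.1 (h3 l k' hlk).1
  have hΔ : |(G n).z k' - (G n).z k| ≤ 2 := by
    rw [abs_le]
    constructor <;> linarith [hz1.1, hz1.2, hz2.1, hz2.2]
  rw [hw']
  refine ⟨?_, ?_, ?_⟩
  · have e : Xc G T n k' l - Xc G T n k' l' = (Xc G T n k l - Xc G T n k l') +
        ((G n).z k' - (G n).z k) * ((T n l).v 1 - (T n l').v 1) := by
      simp only [Xc, Ln4.pos]
      ring
    rw [e]
    refine (abs_add_le _ _).trans ?_
    rw [abs_mul]
    have := mul_le_mul hΔ n2 (abs_nonneg _) (by norm_num)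
    linarith
  · linarith
  · have a1 := h1 k k' l l' hl hl' hlk hlk'
    have a2 : |2 * μ n * ((G n).z k' - (G n).z k) * (Xc G T n k l - Xc G T n k l')| ≤
        2 * g * 2 * w := by
      rw [abs_mul, abs_mul, abs_mul, abs_two]
      have b1 : 2 * |μ n| ≤ 2 * g := by linarith
      exact mul_le_mul (mul_le_mul b1 hΔ (abs_nonneg _) (by positivity)) n1 (abs_nonneg _)
        (by positivity)
    have a3 : |μ n * ((G n).z k' - (G n).z k) ^ 2 * ((T n l).v 1 - (T n l').v 1)| ≤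
        g * 4 * w := by
      rw [abs_mul, abs_mul, abs_pow]
      have b1 : |(G n).z k' - (G n).z k| ^ 2 ≤ 4 := by
        nlinarith [abs_nonneg ((G n).z k' - (G n).z k)]
      exact mul_le_mul (mul_le_mul h2 b1 (by positivity) hg0.le) n2 (abs_nonneg _) (by positivity)
    have a4 : B.d n ^ (τ - ε / 2) ≤ g * w := by
      rw [hg, hw, ← rpow_add']
      refine rpow_anti B n ?_
      nlinarith
    generalize 2 * μ n * ((G n).z k' - (G n).z k) * (Xc G T n k l - Xc G T n k l') = t1 at a1 a2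
    generalize μ n * ((G n).z k' - (G n).z k) ^ 2 * ((T n l).v 1 - (T n l').v 1) = t2 at a1 a3
    have a1' := abs_le.1 a1
    have a2' := abs_le.1 a2
    have a3' := abs_le.1 a3
    have n3' := abs_le.1 n3
    have hg1 : w ≤ g * w := by linarith
    rw [abs_le]
    constructor <;> linarith [a1'.1, a1'.2, a2'.1, a2'.2, a3'.1, a3'.2, n3'.1, n3'.2]

/-- cells of a widened row -/
theorem cells_le_max {δ w : ℝ} (hδ : 0 < δ) (hw : 0 ≤ w) {n k Rm : ℕ}
    (hRm : ∀ i, (i, k) ∈ (G n).I → cl G T E fa fb δ n k (rowS G T E fa fb u δ n k i) ≤ Rm)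
    (S : Finset ℕ) (hSs : S ⊆ (G n).slice k) (hSI : ∀ l ∈ S, (l, k) ∈ (G n).I)
    (hS : ∀ l ∈ S, ∀ l' ∈ S, nr G T E fa fb u w n k l l') :
    (cl G T E fa fb δ n k S : ℝ) ≤ (2 * w / δ + 2) ^ 3 * (Rm : ℝ) := by
  classical
  have h1 := image_card_le S (fun l => gl δ (Wc G T E fa fb n k l))
    (fun l => gl δ ![Xc G T n k l, (T n l).v 1, Nr G T E fa fb u n k l]) (M := (Rm : ℝ)) (by
      intro s hs
      have h0 : ((cl G T E fa fb δ n k (rowS G T E fa fb u δ n k s) : ℕ) : ℝ) ≤ (Rm : ℝ) := by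
        exact_mod_cast hRm s (hSI s hs)
      refine le_trans ?_ h0
      unfold cl
      refine mod_cast Finset.card_le_card (Finset.image_subset_image ?_)
      intro l hl
      obtain ⟨l1, l2⟩ := Finset.mem_filter.1 hl
      refine mem_rowS.2 ⟨hSs l1, ?_, ?_, ?_⟩
      · exact (abs_sub_lt_of_gl_eq hδ l2 0).le
      · exact (abs_sub_lt_of_gl_eq hδ l2 1).le
      · exact (abs_sub_lt_of_gl_eq hδ l2 2).le)
  refine h1.trans ?_
  refine mul_le_mul_of_nonneg_right ?_ (Nat.cast_nonneg _)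
  refine gl_card_le S _ hδ hw ?_
  intro l hl l' hl' j
  obtain ⟨a1, a2, a3⟩ := hS l hl l' hl'
  fin_cases j
  · exact a1
  · exact a2
  · exact a3

/-- the constants of widened rows -/
theorem wide_le {c ε : ℝ} (hc : 0 ≤ c) (hε : 0 < ε) : ∀ᶠ n in (U : Filter ℕ),
    (2 * B.d n ^ (τ - c * ε) / B.d n ^ τ + 2) ^ 3 ≤ B.d n ^ (-((3 * c + 1) * ε)) := by
  filter_upwards [ev_const_le B hε 64] with n h
  have hpow : ∀ t : ℝ, 0 < B.d n ^ t := fun t => rpos B n t
  have a1 : B.d n ^ (τ - c * ε) / B.d n ^ τ = B.d n ^ (-(c * ε)) := by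
    rw [div_eq_iff (hpow _).ne', ← rpow_add']
    congr 1
    ring
  have a2 : (1 : ℝ) ≤ B.d n ^ (-(c * ε)) := one_le_rpow_neg B n (by positivity)
  have a3 : 2 * B.d n ^ (τ - c * ε) / B.d n ^ τ + 2 ≤ 4 * B.d n ^ (-(c * ε)) := by
    rw [mul_div_assoc, a1]
    linarith
  have a4 : (2 * B.d n ^ (τ - c * ε) / B.d n ^ τ + 2) ^ 3 ≤ (4 * B.d n ^ (-(c * ε))) ^ 3 := by
    refine pow_le_pow_left₀ ?_ a3 3
    have := hpow (τ - c * ε)
    have := hpow τ
    positivity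
  refine a4.trans ?_
  have a5 : B.d n ^ (-((3 * c + 1) * ε)) = B.d n ^ (-ε) * (B.d n ^ (-(c * ε))) ^ 3 := by
    have : (B.d n ^ (-(c * ε))) ^ 3 = B.d n ^ (-(c * ε) + -(c * ε) + -(c * ε)) := by
      rw [rpow_add', rpow_add']; ring
    rw [this, ← rpow_add']; congr 1; ring
  rw [a5]
  have a6 : (0 : ℝ) ≤ (B.d n ^ (-(c * ε))) ^ 3 := by positivity
  nlinarith

theorem eE_le {n k : ℕ} (hE1 : |E n k| ≤ 1) (hfa1 : |fa n k| ≤ 1) (hfb1 : |fb n k| ≤ 1) (j : Fin 2) :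
    |eE E fa fb n k j| ≤ 2 := by
  fin_cases j
  · show |E n k| ≤ 2
    linarith
  · show |fa n k + fb n k * E n k| ≤ 2
    refine (abs_add_le _ _).trans ?_
    rw [abs_mul]
    have := mul_le_mul hfb1 hE1 (abs_nonneg _) (by norm_num)
    linarith

/-- the velocity of close lines of a row -/
theorem vel_close (A : AbsE B G x T E fa fb) (Q : RowH B G T E fa fb τ u μ c0 q0) {s : ℝ}
    (hs0 : 0 ≤ s) (hsτ : s ≤ τ) {ε : ℝ} (hε : 0 < ε) : ∀ᶠ n in (U : Filter ℕ),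
      ∀ k l l', (l, k) ∈ (G n).I → (l', k) ∈ (G n).I →
      nr G T E fa fb u (B.d n ^ (τ - 3 * ε)) n k l' l →
      |(u n 0 * (T n l').v 0 - u n 1 * (T n l').v 2) -
          (u n 0 * (T n l).v 0 - u n 1 * (T n l).v 2)| ≤ 2 * B.d n ^ (s - 6 * ε) →
      ∀ j, |wE T n l' j - wE T n l j| ≤ 3 * B.d n ^ (s - 6 * ε) := by
  filter_upwards [Q.hμ ε hε, Q.hrel ε hε, A.bd, ev_const_le B hε 10] with n h6 h7 h8 h9
    k l l' hl hl' hnr v1
  have hpow : ∀ t : ℝ, 0 < B.d n ^ t := fun t => rpos B n t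
  obtain ⟨m1, m2, m3⟩ := hnr
  obtain ⟨hz, -, -, hE1, hfa1, hfb1⟩ := h8 l k hl
  have he0 := eE_le hE1 hfa1 hfb1 0
  have he1 := eE_le hE1 hfa1 hfb1 1
  -- `c0` is bounded
  have hc0 : |c0 n| ≤ 6 * B.d n ^ (-ε) := by
    have b1 := (h7 l k hl).1
    have b2 : B.d n ^ (τ - ε) ≤ B.d n ^ (-ε) := rpow_anti B n (by linarith)
    have b3 : |μ n * (G n).z k| ≤ B.d n ^ (-ε) * 1 := by
      rw [abs_mul]
      exact mul_le_mul h6 hz (abs_nonneg _) (hpow _).le
    have b4 := mul_le_mul (u_le (Q.hu n) 0) he0 (abs_nonneg _) (by norm_num)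
    have b5 := mul_le_mul (u_le (Q.hu n) 1) he1 (abs_nonneg _) (by norm_num)
    rw [← abs_mul] at b4 b5
    have b6 : (1 : ℝ) ≤ B.d n ^ (-ε) := one_le_rpow_neg B n hε.le
    have b1' := abs_le.1 b1
    have b3' := abs_le.1 b3
    have b4' := abs_le.1 b4
    have b5' := abs_le.1 b5
    rw [abs_le]
    constructor <;> linarith [b1'.1, b1'.2, b3'.1, b3'.2, b4'.1, b4'.2, b5'.1, b5'.2]
  -- the row component of the velocity
  have hN' : |u n 0 * (wE T n l' 0 - wE T n l 0) + u n 1 * (wE T n l' 1 - wE T n l 1)| ≤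
      B.d n ^ (s - 6 * ε) := by
    have b1 := (h7 l k hl).2
    have b2 := (h7 l' k hl').2
    have b3 : |μ n * ((T n l').p 1 - (T n l).p 1)| ≤
        B.d n ^ (-ε) * (2 * B.d n ^ (τ - 3 * ε)) := by
      rw [abs_mul]
      refine mul_le_mul h6 ?_ (abs_nonneg _) (hpow _).le
      have e : (T n l').p 1 - (T n l).p 1 = (Xc G T n k l' - Xc G T n k l) -
          (G n).z k * ((T n l').v 1 - (T n l).v 1) := by
        simp only [Xc, Ln4.pos]
        ring
      rw [e]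
      refine (abs_sub _ _).trans ?_
      rw [abs_mul]
      have := mul_le_mul hz m2 (abs_nonneg _) (by norm_num)
      linarith
    have b4 : |c0 n * ((T n l').v 1 - (T n l).v 1)| ≤
        6 * B.d n ^ (-ε) * B.d n ^ (τ - 3 * ε) := by
      rw [abs_mul]
      exact mul_le_mul hc0 m2 (abs_nonneg _) (by have := hpow (-ε); positivity)
    have b5 : B.d n ^ (τ - ε) ≤ B.d n ^ (-ε) * B.d n ^ (τ - 3 * ε) := by
      rw [← rpow_add']
      exact rpow_anti B n (by linarith)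
    have b6 : 10 * (B.d n ^ (-ε) * B.d n ^ (τ - 3 * ε)) ≤ B.d n ^ (s - 6 * ε) := by
      have c1 : B.d n ^ (-ε) * (B.d n ^ (-ε) * B.d n ^ (τ - 3 * ε)) ≤ B.d n ^ (s - 6 * ε) := by
        rw [← rpow_add', ← rpow_add']
        exact rpow_anti B n (by linarith)
      refine le_trans ?_ c1
      refine mul_le_mul_of_nonneg_right h9 ?_
      exact (mul_pos (hpow _) (hpow _)).le
    have b7 := mul_pos (hpow (-ε)) (hpow (τ - 3 * ε))
    have e : u n 0 * (wE T n l' 0 - wE T n l 0) + u n 1 * (wE T n l' 1 - wE T n l 1) =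
        (u n 0 * wE T n l' 0 + u n 1 * wE T n l' 1 + μ n * (T n l').p 1 - c0 n * (T n l').v 1 -
          q0 n) -
        (u n 0 * wE T n l 0 + u n 1 * wE T n l 1 + μ n * (T n l).p 1 - c0 n * (T n l).v 1 -
          q0 n) - μ n * ((T n l').p 1 - (T n l).p 1) + c0 n * ((T n l').v 1 - (T n l).v 1) := by
      ring
    rw [e]
    refine le_trans ?_ b6
    have b1' := abs_le.1 b1
    have b2' := abs_le.1 b2
    have b3' := abs_le.1 b3
    have b4' := abs_le.1 b4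
    rw [abs_le]
    constructor <;> linarith [b1'.1, b1'.2, b2'.1, b2'.2, b3'.1, b3'.2, b4'.1, b4'.2]
  have hV' : |u n 0 * (wE T n l' 1 - wE T n l 1) - u n 1 * (wE T n l' 0 - wE T n l 0)| ≤
      2 * B.d n ^ (s - 6 * ε) := by
    have e : u n 0 * (wE T n l' 1 - wE T n l 1) - u n 1 * (wE T n l' 0 - wE T n l 0) =
        (u n 0 * (T n l').v 0 - u n 1 * (T n l').v 2) -
          (u n 0 * (T n l).v 0 - u n 1 * (T n l).v 2) := by
      simp only [wE, Matrix.cons_val_zero, Matrix.cons_val_one]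
      ring
    rw [e]
    exact v1
  have hu1 := Q.hu n
  have a1 := mul_le_mul (u_le hu1 0) hN' (abs_nonneg _) (by norm_num)
  have a2 := mul_le_mul (u_le hu1 1) hN' (abs_nonneg _) (by norm_num)
  have a3 := mul_le_mul (u_le hu1 0) hV' (abs_nonneg _) (by norm_num)
  have a4 := mul_le_mul (u_le hu1 1) hV' (abs_nonneg _) (by norm_num)
  rw [← abs_mul] at a1 a2 a3 a4
  intro j
  fin_cases j
  · show |wE T n l' 0 - wE T n l 0| ≤ _
    have e : wE T n l' 0 - wE T n l 0 =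
        u n 0 * (u n 0 * (wE T n l' 0 - wE T n l 0) + u n 1 * (wE T n l' 1 - wE T n l 1)) -
        u n 1 * (u n 0 * (wE T n l' 1 - wE T n l 1) - u n 1 * (wE T n l' 0 - wE T n l 0)) := by
      linear_combination (-(wE T n l' 0 - wE T n l 0)) * hu1
    rw [e]
    exact (abs_sub _ _).trans (by linarith)
  · show |wE T n l' 1 - wE T n l 1| ≤ _
    have e : wE T n l' 1 - wE T n l 1 =
        u n 1 * (u n 0 * (wE T n l' 0 - wE T n l 0) + u n 1 * (wE T n l' 1 - wE T n l 1)) +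
        u n 0 * (u n 0 * (wE T n l' 1 - wE T n l 1) - u n 1 * (wE T n l' 0 - wE T n l 0)) := by
      linear_combination (-(wE T n l' 1 - wE T n l 1)) * hu1
    rw [e]
    exact (abs_add_le _ _).trans (by linarith)

/-! ### the largest row -/

section big

variable {i0 k0 : ℕ → ℕ} {Rm : ℕ → ℕ} {κR : ℝ}

/-- lower bound of the fibre -/
theorem S_lower (H : RModel B G 1 R Leg ν D) (A : AbsE B G x T E fa fb)
    (P : ProfE Leg ν x y m β) (hτ : 0 < τ) (hτx : τ ≤ x) (Q : RowH B G T E fa fb τ u μ c0 q0)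
    (hI0 : ∀ n, (i0 n, k0 n) ∈ (G n).I)
    (hRm0 : ∀ n, Rm n = cl G T E fa fb (B.d n ^ τ) n (k0 n)
      (rowS G T E fa fb u (B.d n ^ τ) n (k0 n) (i0 n)))
    (hlo : ∀ ε : ℝ, 0 < ε → ∀ᶠ n in (U : Filter ℕ), B.d n ^ (-κR + ε) ≤ (Rm n : ℝ))
    {ε : ℝ} (hε : 0 < ε) : ∀ᶠ n in (U : Filter ℕ),
      B.d n ^ (-(κR + ν (qE τ τ τ 0)) + 6 * ε) ≤
        ((rowS G T E fa fb u (B.d n ^ (τ - 2 * ε)) n (k0 n) (i0 n)).card : ℝ) := by
  classical
  have hD := H.D1
  have hx0 := P.x0.le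
  have hL : qE τ τ τ 0 ∈ Leg := P.leg _ _ _ _ hτ.le hτx hτ.le hτx hτ.le hτx le_rfl hx0
  filter_upwards [hlo ε hε, H.low (qE τ τ τ 0) hL ε hε,
    co_le A H.toRUnif hx0 (a := τ) (b := τ) (c := τ) (d := 0) hτx hτx hτx hx0 hε,
    ev_const_le B hε 10] with n h1 h2 h3 h4
  have hpow : ∀ t : ℝ, 0 < B.d n ^ t := fun t => rpos B n t
  have hb : ∀ t : ℝ, 10 * B.d n ^ t ≤ B.d n ^ (t - ε) := by
    intro t
    have e1 : B.d n ^ (t - ε) = B.d n ^ (-ε) * B.d n ^ t := by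
      rw [← rpow_add']; congr 1; ring
    rw [e1]
    exact mul_le_mul_of_nonneg_right h4 (hpow t).le
  have key := grid_count (rowS G T E fa fb u (B.d n ^ τ) n (k0 n) (i0 n))
    (rowS G T E fa fb u (B.d n ^ (τ - 2 * ε)) n (k0 n) (i0 n))
    (fun l => Wc G T E fa fb n (k0 n) l) (δ := B.d n ^ τ) (w := 4 * B.d n ^ (τ - ε))
    (m0 := B.d n ^ (-ν (qE τ τ τ 0) + ε)) (hpow _) (by have := hpow (τ - ε); positivity) (by
      intro i' hi'
      obtain ⟨hsl, hr1, hr2, hr3⟩ := mem_rowS.1 hi'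
      have hi'I := H.memSlice.1 hsl
      refine ⟨(G n).box (qE τ τ τ 0) ε i' (k0 n), ?_, ?_, h2 i' (k0 n) hi'I⟩
      · intro l hl
        obtain ⟨l1, l2⟩ := RCfg.mem_box.1 hl
        obtain ⟨g1, g2, g3⟩ := h3 (k0 n) i' l hi'I (H.memSlice.1 l1) l2
        have g4 := Nr_diff_le (u := u) Q.hu g2
        have g5 := hb (τ - ε)
        have e5 : τ - ε - ε = τ - 2 * ε := by ring
        rw [e5] at g5
        have g6 : B.d n ^ τ ≤ B.d n ^ (τ - ε) := rpow_anti B n (by linarith)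
        have g7 := hpow (τ - ε)
        refine mem_rowS.2 ⟨l1, ?_, ?_, ?_⟩
        · have b1 := abs_le.1 g1
          have b2 := abs_le.1 hr1
          rw [abs_le]
          constructor <;> linarith [b1.1, b1.2, b2.1, b2.2]
        · have b1 := abs_le.1 g3
          have b2 := abs_le.1 hr2
          rw [abs_le]
          constructor <;> linarith [b1.1, b1.2, b2.1, b2.2]
        · have b1 := abs_le.1 g4
          have b2 := abs_le.1 hr3
          rw [abs_le]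
          constructor <;> linarith [b1.1, b1.2, b2.1, b2.2]
      · intro l hl j
        obtain ⟨l1, l2⟩ := RCfg.mem_box.1 hl
        exact (h3 (k0 n) i' l hi'I (H.memSlice.1 l1) l2).2.1 j)
  have e1 : 2 * (4 * B.d n ^ (τ - ε)) / B.d n ^ τ + 2 ≤ B.d n ^ (-(2 * ε)) := by
    have a1 : B.d n ^ (τ - ε) / B.d n ^ τ = B.d n ^ (-ε) := by
      rw [div_eq_iff (hpow _).ne', ← rpow_add']
      congr 1
      ring
    have a2 : 2 * (4 * B.d n ^ (τ - ε)) / B.d n ^ τ = 8 * B.d n ^ (-ε) := by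
      rw [← a1]; ring
    have a3 : B.d n ^ (-(2 * ε)) = B.d n ^ (-ε) * B.d n ^ (-ε) := by
      rw [← rpow_add']; congr 1; ring
    rw [a2, a3]
    nlinarith
  have e2 : (2 * (4 * B.d n ^ (τ - ε)) / B.d n ^ τ + 2) ^ 2 ≤ B.d n ^ (-(4 * ε)) := by
    have a1 : (B.d n ^ (-(2 * ε))) ^ 2 = B.d n ^ (-(4 * ε)) := by
      rw [sq, ← rpow_add']; congr 1; ring
    rw [← a1]
    refine pow_le_pow_left₀ ?_ e1 2
    have := hpow (τ - ε)
    have := hpow τ
    positivity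
  have e3 : B.d n ^ (-κR + ε) * B.d n ^ (-ν (qE τ τ τ 0) + ε) ≤ B.d n ^ (-(4 * ε)) *
      ((rowS G T E fa fb u (B.d n ^ (τ - 2 * ε)) n (k0 n) (i0 n)).card : ℝ) := by
    refine le_trans ?_ (key.trans (mul_le_mul_of_nonneg_right e2 (Nat.cast_nonneg _)))
    refine mul_le_mul_of_nonneg_right ?_ (hpow _).le
    rw [hRm0 n] at h1
    exact h1
  have e4 : B.d n ^ (-κR + ε) * B.d n ^ (-ν (qE τ τ τ 0) + ε) =
      B.d n ^ (-(4 * ε)) * B.d n ^ (-(κR + ν (qE τ τ τ 0)) + 6 * ε) := by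
    rw [← rpow_add', ← rpow_add']; congr 1; ring
  rw [e4] at e3
  exact le_of_mul_le_mul_left e3 (hpow _)

theorem S_pair {ε : ℝ} (hε : 0 < ε) : ∀ᶠ n in (U : Filter ℕ),
    ∀ l ∈ rowS G T E fa fb u (B.d n ^ (τ - 2 * ε)) n (k0 n) (i0 n),
    ∀ l' ∈ rowS G T E fa fb u (B.d n ^ (τ - 2 * ε)) n (k0 n) (i0 n),
      nr G T E fa fb u (B.d n ^ (τ - 3 * ε)) n (k0 n) l l' := by
  filter_upwards [ev_const_le B hε 2] with n h l hl l' hl'
  have e1 : B.d n ^ (τ - 3 * ε) = B.d n ^ (-ε) * B.d n ^ (τ - 2 * ε) := by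
    rw [← rpow_add']; congr 1; ring
  refine nr_mono ?_ (nr_tri (mem_rowS.1 hl).2 (mem_rowS.1 hl').2)
  rw [e1]
  have := rpos B n (τ - 2 * ε)
  nlinarith

set_option maxHeartbeats 1000000 in
/-- close pairs -/
theorem close_le (H : RModel B G 1 R Leg ν D) (A : AbsE B G x T E fa fb)
    (P : ProfE Leg ν x y m β) (hτ : 0 < τ) (hτx : τ ≤ x) (Q : RowH B G T E fa fb τ u μ c0 q0)
    (hI0 : ∀ n, (i0 n, k0 n) ∈ (G n).I)
    (hRm : ∀ n i k, (i, k) ∈ (G n).I →
      cl G T E fa fb (B.d n ^ τ) n k (rowS G T E fa fb u (B.d n ^ τ) n k i) ≤ Rm n)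
    (hup : ∀ ε : ℝ, 0 < ε → ∀ᶠ n in (U : Filter ℕ), (Rm n : ℝ) ≤ B.d n ^ (-κR - ε))
    {s : ℝ} (hs0 : 0 ≤ s) (hsτ : s ≤ τ) {ε : ℝ} (hε : 0 < ε) : ∀ᶠ n in (U : Filter ℕ),
      ∀ Qs ⊆ rowS G T E fa fb u (B.d n ^ (τ - 2 * ε)) n (k0 n) (i0 n),
      (∀ l ∈ Qs, ∀ l' ∈ Qs,
        |(u n 0 * (T n l').v 0 - u n 1 * (T n l').v 2) -
          (u n 0 * (T n l).v 0 - u n 1 * (T n l).v 2)| ≤ 2 * B.d n ^ (s - 6 * ε) ∧
        |Fr G T E fa fb u n (k0 n) l' - Fr G T E fa fb u n (k0 n) l| ≤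
          2 * B.d n ^ (s - 13 * ε)) →
      (Qs.card : ℝ) ≤ B.d n ^ (-(min κR (τ - s) + ν (qE τ τ τ s)) - (17 + 12 * D) * ε) := by
  classical
  have hD := H.D1
  have hx0 := P.x0.le
  have hsx : s ≤ x := hsτ.trans hτx
  have hL : qE τ τ τ s ∈ Leg := P.leg _ _ _ _ hτ.le hτx hτ.le hτx hτ.le hτx hs0 hsx
  filter_upwards [S_pair (G := G) (T := T) (E := E) (fa := fa) (fb := fb) (u := u) (τ := τ)
      (i0 := i0) (k0 := k0) hε,
    wide_le (B := B) (τ := τ) (c := 3) (by norm_num) hε, hup ε hε,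
    card_le_lab H.toRUnif (qE τ τ τ s) hL (C := 12) (ε := ε) (by norm_num) hε,
    loose_of A H.toRUnif hx0 (a := τ) (b := τ) (c := τ) (d := s) hτx hτx hτx hsx
      (ε := 6 * ε) (by positivity) 5,
    vel_close A Q hs0 hsτ hε, A.bd, ev_const_le B hε 864] with n h1 h2 h3 h4 h5 h6 h8 h9 Qs hQs hcl
  have hpow : ∀ t : ℝ, 0 < B.d n ^ t := fun t => rpos B n t
  have hQsl : Qs ⊆ (G n).slice (k0 n) := fun l hl => (mem_rowS.1 (hQs hl)).1
  have hQI : ∀ l ∈ Qs, (l, k0 n) ∈ (G n).I := fun l hl => H.memSlice.1 (hQsl hl)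
  have hnr : ∀ l ∈ Qs, ∀ l' ∈ Qs, nr G T E fa fb u (B.d n ^ (τ - 3 * ε)) n (k0 n) l l' :=
    fun l hl l' hl' => h1 l (hQs hl) l' (hQs hl')
  -- number of cells, first bound
  have hc1 : (cl G T E fa fb (B.d n ^ τ) n (k0 n) Qs : ℝ) ≤ B.d n ^ (-κR - 11 * ε) := by
    have a1 := cells_le_max (hpow τ) (hpow (τ - 3 * ε)).le (fun i hi => hRm n i (k0 n) hi) Qs
      hQsl hQI hnr
    refine a1.trans ((mul_le_mul h2 h3 (Nat.cast_nonneg _) (hpow _).le).trans ?_)
    rw [← rpow_add']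
    exact rpow_anti B n (by linarith)
  -- number of cells, second bound
  have hc2 : (cl G T E fa fb (B.d n ^ τ) n (k0 n) Qs : ℝ) ≤ B.d n ^ (-(τ - s) - 17 * ε) := by
    have e1 : B.d n ^ (τ - 3 * ε) / B.d n ^ τ = B.d n ^ (-(3 * ε)) := by
      rw [div_eq_iff (hpow _).ne', ← rpow_add']
      congr 1
      ring
    have e2 : B.d n ^ (s - 13 * ε) / B.d n ^ τ = B.d n ^ (s - τ - 13 * ε) := by
      rw [div_eq_iff (hpow _).ne', ← rpow_add']
      congr 1
      ring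
    have e3 : (1 : ℝ) ≤ B.d n ^ (-(3 * ε)) := one_le_rpow_neg B n (by positivity)
    have e4 : (1 : ℝ) ≤ B.d n ^ (s - τ - 13 * ε) := by
      have := one_le_rpow_neg B n (t := τ - s + 13 * ε) (by linarith)
      have e : -(τ - s + 13 * ε) = s - τ - 13 * ε := by ring
      rwa [e] at this
    have a1 := image_card_le Qs (fun l => gl (B.d n ^ τ) (Wc G T E fa fb n (k0 n) l))
      (fun l => ⌊Nr G T E fa fb u n (k0 n) l / B.d n ^ τ⌋)
      (M := 6 * B.d n ^ (s - τ - 13 * ε) * 36) (by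
        intro s1 hs1
        have b1 := image_card_le (Qs.filter fun l => ⌊Nr G T E fa fb u n (k0 n) l / B.d n ^ τ⌋ =
            ⌊Nr G T E fa fb u n (k0 n) s1 / B.d n ^ τ⌋)
          (fun l => gl (B.d n ^ τ) (Wc G T E fa fb n (k0 n) l))
          (fun l => ⌊Fr G T E fa fb u n (k0 n) l / B.d n ^ τ⌋) (M := 36) (by
            intro s2 hs2
            have c1 := gl_card_le (((Qs.filter fun l =>
                ⌊Nr G T E fa fb u n (k0 n) l / B.d n ^ τ⌋ =
                ⌊Nr G T E fa fb u n (k0 n) s1 / B.d n ^ τ⌋)).filter fun l =>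
                ⌊Fr G T E fa fb u n (k0 n) l / B.d n ^ τ⌋ =
                ⌊Fr G T E fa fb u n (k0 n) s2 / B.d n ^ τ⌋)
              (fun l => Wc G T E fa fb n (k0 n) l) (δ := B.d n ^ τ) (w := 2 * B.d n ^ τ)
              (hpow _) (by have := hpow τ; positivity) (by
                intro l hl l' hl' j
                obtain ⟨d1, d2⟩ := Finset.mem_filter.1 hl
                obtain ⟨d3, d4⟩ := Finset.mem_filter.1 d1
                obtain ⟨g1, g2⟩ := Finset.mem_filter.1 hl'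
                obtain ⟨g3, g4⟩ := Finset.mem_filter.1 g1
                have f1 : |Nr G T E fa fb u n (k0 n) l - Nr G T E fa fb u n (k0 n) l'| ≤
                    B.d n ^ τ := by
                  have := Int.abs_sub_lt_one_of_floor_eq_floor (d4.trans g4.symm)
                  rw [← sub_div, abs_div, abs_of_pos (hpow τ), div_lt_one (hpow τ)] at this
                  exact this.le
                have f2 : |Fr G T E fa fb u n (k0 n) l - Fr G T E fa fb u n (k0 n) l'| ≤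
                    B.d n ^ τ := by
                  have := Int.abs_sub_lt_one_of_floor_eq_floor (d2.trans g2.symm)
                  rw [← sub_div, abs_div, abs_of_pos (hpow τ), div_lt_one (hpow τ)] at this
                  exact this.le
                have f3 := W_diff_le Q.hu f1 f2 j
                linarith)
            refine c1.trans (le_of_eq ?_)
            have : 2 * (2 * B.d n ^ τ) / B.d n ^ τ = 4 := by
              have := (hpow τ).ne'
              field_simp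
              norm_num
            rw [this]
            norm_num)
        refine b1.trans ?_
        refine mul_le_mul_of_nonneg_right ?_ (by norm_num)
        have b2 := floor_card_le (Qs.filter fun l =>
            ⌊Nr G T E fa fb u n (k0 n) l / B.d n ^ τ⌋ =
            ⌊Nr G T E fa fb u n (k0 n) s1 / B.d n ^ τ⌋)
          (fun l => Fr G T E fa fb u n (k0 n) l) (r := B.d n ^ τ) (w := 2 * B.d n ^ (s - 13 * ε))
          (hpow _) (by have := hpow (s - 13 * ε); positivity) (fun l hl l' hl' =>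
            (hcl l' (Finset.mem_filter.1 hl').1 l (Finset.mem_filter.1 hl).1).2)
        refine b2.trans ?_
        have b3 : 2 * (2 * B.d n ^ (s - 13 * ε)) / B.d n ^ τ = 4 * B.d n ^ (s - τ - 13 * ε) := by
          rw [← e2]; ring
        rw [b3]
        linarith)
    have a2 := floor_card_le Qs (fun l => Nr G T E fa fb u n (k0 n) l) (r := B.d n ^ τ)
      (w := B.d n ^ (τ - 3 * ε)) (hpow _) (hpow _).le (fun l hl l' hl' => (hnr l hl l' hl').2.2)
    have a3 : 2 * B.d n ^ (τ - 3 * ε) / B.d n ^ τ + 2 ≤ 4 * B.d n ^ (-(3 * ε)) := by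
      rw [mul_div_assoc, e1]
      linarith
    have a4 : (cl G T E fa fb (B.d n ^ τ) n (k0 n) Qs : ℝ) ≤
        4 * B.d n ^ (-(3 * ε)) * (6 * B.d n ^ (s - τ - 13 * ε) * 36) :=
      a1.trans (mul_le_mul_of_nonneg_right (a2.trans a3)
        (by have := hpow (s - τ - 13 * ε); positivity))
    refine a4.trans ?_
    have a5 : B.d n ^ (-(τ - s) - 17 * ε) =
        B.d n ^ (-ε) * (B.d n ^ (-(3 * ε)) * B.d n ^ (s - τ - 13 * ε)) := by
      rw [← rpow_add', ← rpow_add']; congr 1; ring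
    rw [a5]
    have a6 : 0 < B.d n ^ (-(3 * ε)) * B.d n ^ (s - τ - 13 * ε) := mul_pos (hpow _) (hpow _)
    nlinarith
  -- lines with the same cell
  have hsame := h4 (k0 n) Qs hQsl (Fin 2 → ℤ)
    (fun l => gl (B.d n ^ τ) (Wc G T E fa fb n (k0 n) l)) (by
    intro l hl l' hl' heq
    have hW : ∀ j, |Wc G T E fa fb n (k0 n) l' j - Wc G T E fa fb n (k0 n) l j| ≤ B.d n ^ τ := by
      intro j
      rw [abs_sub_comm]
      exact (abs_sub_lt_of_gl_eq (hpow τ) heq j).le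
    obtain ⟨m1, m2, m3⟩ := hnr l' hl' l hl
    obtain ⟨v1, v2⟩ := hcl l hl l' hl'
    obtain ⟨hz, -, -, hE1, hfa1, hfb1⟩ := h8 l (k0 n) (hQI l hl)
    have p1 : B.d n ^ (τ - 3 * ε) ≤ B.d n ^ (s - 6 * ε) := rpow_anti B n (by linarith)
    have p2 : B.d n ^ (τ - 3 * ε) ≤ B.d n ^ (τ - 6 * ε) := rpow_anti B n (by linarith)
    have p3 : B.d n ^ τ ≤ B.d n ^ (τ - 6 * ε) := rpow_anti B n (by linarith)
    have p4 := hpow (τ - 6 * ε)
    have p5 := hpow (s - 6 * ε)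
    have he := eE_le hE1 hfa1 hfb1
    have hw := h6 (k0 n) l l' (hQI l hl) (hQI l' hl') (hnr l' hl' l hl) v1
    have d1 := h5 (k0 n) l l' (hQI l hl) (hQI l' hl') (fun _ => m1.trans (by linarith))
      (fun _ j => (hW j).trans (by linarith)) (fun _ => m2.trans (by linarith))
      (fun _ j => by
        unfold dE
        refine (abs_sub _ _).trans ?_
        rw [abs_mul]
        have a1 := hw j
        have a2 := mul_le_mul (he j) m2 (abs_nonneg _) (by norm_num)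
        linarith)
    have e : 2 * (6 * ε) = 12 * ε := by ring
    rwa [e] at d1)
  have hc : (cl G T E fa fb (B.d n ^ τ) n (k0 n) Qs : ℝ) ≤
      B.d n ^ (-(min κR (τ - s)) - 17 * ε) := by
    rcases le_total κR (τ - s) with h | h
    · rw [min_eq_left h]
      exact hc1.trans (rpow_anti B n (by linarith))
    · rw [min_eq_right h]
      exact hc2
  have e1 : B.d n ^ (-(min κR (τ - s) + ν (qE τ τ τ s)) - (17 + 12 * D) * ε) =
      B.d n ^ (-(min κR (τ - s)) - 17 * ε) * B.d n ^ (-ν (qE τ τ τ s) - D * 12 * ε) := by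
    rw [← rpow_add']; congr 1; ring
  rw [e1]
  exact hsame.trans (mul_le_mul_of_nonneg_right hc (hpow _).le)

end big

end Crest.Agent.R136.RgR210
end

-- ▼ part R136/RgR4_210
section

/-!
# R136 (S0187): RIG_E, piece ROWS, part 4 (helper210): `rowsE`
-/

set_option autoImplicit false
set_option linter.unusedVariables false
set_option linter.unusedSectionVars false

open Filter Topology Finset

namespace Crest.Agent.R136.RgR210

open Crest.Agent.R136.Sh605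
open Crest.Agent.R138.Ex926 (Base U)
open Crest.Agent.R136.Gf356
open Crest.Agent.R136.Wk323 (coA one_le_rpow_neg ev_mul_le)
open Crest.Agent.R136.RgN344
open Crest.Agent.R136.RgE344

variable {B : Base} {G : ℕ → RCfg (Fin 11)} {Leg : Set (Fin 11 → ℝ)} {ν : (Fin 11 → ℝ) → ℝ}
  {D R x y m β : ℝ} {T : ℕ → ℕ → Ln4} {E fa fb : ℕ → ℕ → ℝ}
  {τ : ℝ} {u : ℕ → Fin 2 → ℝ} {μ c0 q0 : ℕ → ℝ} {i0 k0 : ℕ → ℕ} {Rm : ℕ → ℕ} {κR : ℝ}

/-- evolution of the coordinate along the row -/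
theorem F_evo (H : RModel B G 1 R Leg ν D) (A : AbsE B G x T E fa fb)
    (Q : RowH B G T E fa fb τ u μ c0 q0) {ε : ℝ} (hε : 0 < ε) : ∀ᶠ n in (U : Filter ℕ),
      ∀ k ∈ (G n).Z, ∀ l ∈ rowS G T E fa fb u (B.d n ^ (τ - 2 * ε)) n (k0 n) (i0 n),
      ∀ l' ∈ rowS G T E fa fb u (B.d n ^ (τ - 2 * ε)) n (k0 n) (i0 n),
      (l, k) ∈ (G n).I → (l', k) ∈ (G n).I →
      |Fr G T E fa fb u n k l - Fr G T E fa fb u n k l' -
        ((Fr G T E fa fb u n (k0 n) l - Fr G T E fa fb u n (k0 n) l') +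
        ((G n).z k - (G n).z (k0 n)) * ((u n 0 * (T n l).v 0 - u n 1 * (T n l).v 2) -
          (u n 0 * (T n l').v 0 - u n 1 * (T n l').v 2)))| ≤ B.d n ^ (τ - 6 * ε) := by
  filter_upwards [S_pair (G := G) (T := T) (E := E) (fa := fa) (fb := fb) (u := u) (τ := τ)
      (i0 := i0) (k0 := k0) hε, A.bd, ev_const_le B hε 20] with n h1 h2 h3 k hk l hl l' hl' hlk hl'k
  have hpow : ∀ t : ℝ, 0 < B.d n ^ t := fun t => rpos B n t
  obtain ⟨m1, m2, m3⟩ := h1 l hl l' hl'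
  have hlk0 : (l, k0 n) ∈ (G n).I := H.memSlice.1 (mem_rowS.1 hl).1
  obtain ⟨hz, -, -, hE, hfa, hfb⟩ := h2 l k hlk
  obtain ⟨hz0, -, -, hE0, hfa0, hfb0⟩ := h2 l (k0 n) hlk0
  have he := eE_le hE hfa hfb
  have he0 := eE_le hE0 hfa0 hfb0
  have hg : ∀ k, (∀ j, |eE E fa fb n k j| ≤ 2) →
      |u n 0 * eE E fa fb n k 1 - u n 1 * eE E fa fb n k 0| ≤ 4 := by
    intro k he
    refine (abs_sub _ _).trans ?_
    rw [abs_mul, abs_mul]
    have a1 := mul_le_mul (u_le (Q.hu n) 0) (he 1) (abs_nonneg _) (by norm_num)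
    have a2 := mul_le_mul (u_le (Q.hu n) 1) (he 0) (abs_nonneg _) (by norm_num)
    linarith
  have hzz : |(G n).z k - (G n).z (k0 n)| ≤ 2 := by
    have a1 := abs_le.1 hz
    have a2 := abs_le.1 hz0
    rw [abs_le]
    constructor <;> linarith [a1.1, a1.2, a2.1, a2.2]
  have e : Fr G T E fa fb u n k l - Fr G T E fa fb u n k l' -
        ((Fr G T E fa fb u n (k0 n) l - Fr G T E fa fb u n (k0 n) l') +
        ((G n).z k - (G n).z (k0 n)) * ((u n 0 * (T n l).v 0 - u n 1 * (T n l).v 2) -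
          (u n 0 * (T n l').v 0 - u n 1 * (T n l').v 2))) =
      (u n 0 * eE E fa fb n (k0 n) 1 - u n 1 * eE E fa fb n (k0 n) 0) *
        (Xc G T n (k0 n) l - Xc G T n (k0 n) l') -
      (u n 0 * eE E fa fb n k 1 - u n 1 * eE E fa fb n k 0) *
        ((Xc G T n (k0 n) l - Xc G T n (k0 n) l') +
          ((G n).z k - (G n).z (k0 n)) * ((T n l).v 1 - (T n l').v 1)) := by
    simp only [Fr, Wc, Xc, Ln4.pos, Matrix.cons_val_zero, Matrix.cons_val_one]
    ring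
  rw [e]
  have b1 : |(u n 0 * eE E fa fb n (k0 n) 1 - u n 1 * eE E fa fb n (k0 n) 0) *
        (Xc G T n (k0 n) l - Xc G T n (k0 n) l')| ≤ 4 * B.d n ^ (τ - 3 * ε) := by
    rw [abs_mul]
    exact mul_le_mul (hg _ he0) m1 (abs_nonneg _) (by norm_num)
  have b2 : |(Xc G T n (k0 n) l - Xc G T n (k0 n) l') +
      ((G n).z k - (G n).z (k0 n)) * ((T n l).v 1 - (T n l').v 1)| ≤
      3 * B.d n ^ (τ - 3 * ε) := by
    refine (abs_add_le _ _).trans ?_
    rw [abs_mul]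
    have := mul_le_mul hzz m2 (abs_nonneg _) (by norm_num)
    linarith
  have b3 : |(u n 0 * eE E fa fb n k 1 - u n 1 * eE E fa fb n k 0) *
        ((Xc G T n (k0 n) l - Xc G T n (k0 n) l') +
          ((G n).z k - (G n).z (k0 n)) * ((T n l).v 1 - (T n l').v 1))| ≤
        4 * (3 * B.d n ^ (τ - 3 * ε)) := by
    rw [abs_mul]
    exact mul_le_mul (hg _ he) b2 (abs_nonneg _) (by norm_num)
  refine (abs_sub _ _).trans ?_
  have b4 : B.d n ^ (-ε) * B.d n ^ (τ - 3 * ε) ≤ B.d n ^ (τ - 6 * ε) := by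
    rw [← rpow_add']
    exact rpow_anti B n (by linarith)
  have b5 := hpow (τ - 3 * ε)
  nlinarith

/-- number of cells of the fibre at every height -/
theorem cells_all (H : RModel B G 1 R Leg ν D) (A : AbsE B G x T E fa fb)
    (P : ProfE Leg ν x y m β) (hτ : 0 < τ) (Q : RowH B G T E fa fb τ u μ c0 q0)
    (hRm : ∀ n i k, (i, k) ∈ (G n).I →
      cl G T E fa fb (B.d n ^ τ) n k (rowS G T E fa fb u (B.d n ^ τ) n k i) ≤ Rm n)
    (hup : ∀ ε : ℝ, 0 < ε → ∀ᶠ n in (U : Filter ℕ), (Rm n : ℝ) ≤ B.d n ^ (-κR - ε))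
    {ε : ℝ} (hε : 0 < ε) : ∀ᶠ n in (U : Filter ℕ), ∀ k ∈ (G n).Z,
      ((((rowS G T E fa fb u (B.d n ^ (τ - 2 * ε)) n (k0 n) (i0 n)).filter
        fun l => (l, k) ∈ (G n).I).image
          fun l => ⌊Fr G T E fa fb u n k l / B.d n ^ (τ - 6 * ε)⌋).card : ℝ) ≤
        1 * B.d n ^ (-κR - 15 * ε) := by
  classical
  filter_upwards [S_pair (G := G) (T := T) (E := E) (fa := fa) (fb := fb) (u := u) (τ := τ)
      (i0 := i0) (k0 := k0) hε, nr_transport A Q (c := 3) (by norm_num) hε,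
    wide_le (B := B) (τ := τ) (c := 4) (by norm_num) hε, hup ε hε, ev_const_le B hε 6]
    with n h1 h2 h3 h4 h5 k hk
  have hpow : ∀ t : ℝ, 0 < B.d n ^ t := fun t => rpos B n t
  set Sk := (rowS G T E fa fb u (B.d n ^ (τ - 2 * ε)) n (k0 n) (i0 n)).filter
        fun l => (l, k) ∈ (G n).I with hSk
  have hSkI : ∀ l ∈ Sk, (l, k) ∈ (G n).I := fun l hl => (Finset.mem_filter.1 hl).2
  have hSkS : ∀ l ∈ Sk, l ∈ rowS G T E fa fb u (B.d n ^ (τ - 2 * ε)) n (k0 n) (i0 n) :=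
    fun l hl => (Finset.mem_filter.1 hl).1
  have hSks : Sk ⊆ (G n).slice k := fun l hl => H.memSlice.2 (hSkI l hl)
  have hnr : ∀ l ∈ Sk, ∀ l' ∈ Sk, nr G T E fa fb u (B.d n ^ (τ - 4 * ε)) n k l l' := by
    intro l hl l' hl'
    have a1 := h2 (k0 n) k l l' (H.memSlice.1 (mem_rowS.1 (hSkS l hl)).1)
      (H.memSlice.1 (mem_rowS.1 (hSkS l' hl')).1) (hSkI l hl) (hSkI l' hl')
      (h1 l (hSkS l hl) l' (hSkS l' hl'))
    have e : (3 + 1 : ℝ) * ε = 4 * ε := by ring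
    rwa [e] at a1
  have hcl := cells_le_max (hpow τ) (hpow (τ - 4 * ε)).le (fun i hi => hRm n i k hi) Sk hSks
    hSkI hnr
  have hcl2 : (cl G T E fa fb (B.d n ^ τ) n k Sk : ℝ) ≤ B.d n ^ (-κR - 14 * ε) := by
    refine hcl.trans ((mul_le_mul h3 h4 (Nat.cast_nonneg _) (hpow _).le).trans ?_)
    rw [← rpow_add']
    exact rpow_anti B n (by linarith)
  have hF := image_card_le Sk (fun l => ⌊Fr G T E fa fb u n k l / B.d n ^ (τ - 6 * ε)⌋)
    (fun l => gl (B.d n ^ τ) (Wc G T E fa fb n k l)) (M := 6) (by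
      intro s hs
      have b1 := floor_card_le (Sk.filter fun l => gl (B.d n ^ τ) (Wc G T E fa fb n k l) =
          gl (B.d n ^ τ) (Wc G T E fa fb n k s)) (fun l => Fr G T E fa fb u n k l)
        (r := B.d n ^ (τ - 6 * ε)) (w := 2 * B.d n ^ τ) (hpow _)
        (by have := hpow τ; positivity) (by
          intro l hl l' hl'
          refine Fr_diff_le Q.hu fun j => ?_
          have c1 := (Finset.mem_filter.1 hl).2
          have c2 := (Finset.mem_filter.1 hl').2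
          exact (abs_sub_lt_of_gl_eq (hpow τ) (c1.trans c2.symm) j).le)
      refine b1.trans ?_
      have b2 : 2 * (2 * B.d n ^ τ) / B.d n ^ (τ - 6 * ε) ≤ 4 := by
        rw [div_le_iff₀ (hpow _)]
        have : B.d n ^ τ ≤ B.d n ^ (τ - 6 * ε) := rpow_anti B n (by linarith)
        linarith
      linarith)
  rw [one_mul]
  refine hF.trans ?_
  have e : B.d n ^ (-κR - 15 * ε) = B.d n ^ (-κR - 14 * ε) * B.d n ^ (-ε) := by
    rw [← rpow_add']; congr 1; ring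
  rw [e]
  exact mul_le_mul hcl2 h5 (by norm_num) (hpow _).le

/-- **full rows**: at the largest row the number of cells has exponent `≥ τ` -/
theorem row_ge (H : RModel B G 1 R Leg ν D) (hxR : x ≤ R) (A : AbsE B G x T E fa fb)
    (P : ProfE Leg ν x y m β) (hβ : 0 < β) (hτ : 0 < τ) (hτx : τ ≤ x)
    (Q : RowH B G T E fa fb τ u μ c0 q0)
    (hI0 : ∀ n, (i0 n, k0 n) ∈ (G n).I)
    (hRm : ∀ n i k, (i, k) ∈ (G n).I →
      cl G T E fa fb (B.d n ^ τ) n k (rowS G T E fa fb u (B.d n ^ τ) n k i) ≤ Rm n)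
    (hRm0 : ∀ n, Rm n = cl G T E fa fb (B.d n ^ τ) n (k0 n)
      (rowS G T E fa fb u (B.d n ^ τ) n (k0 n) (i0 n)))
    (hup : ∀ ε : ℝ, 0 < ε → ∀ᶠ n in (U : Filter ℕ), (Rm n : ℝ) ≤ B.d n ^ (-κR - ε))
    (hlo : ∀ ε : ℝ, 0 < ε → ∀ᶠ n in (U : Filter ℕ), B.d n ^ (-κR + ε) ≤ (Rm n : ℝ)) :
    τ ≤ κR := by
  classical
  have hD := H.D1
  have hx0 := P.x0.le
  have hstep : ∀ J : ℕ, 0 < J → τ - (τ / β + τ) / J ≤ κR := by
    intro J hJ
    have hJr : (0 : ℝ) < J := by exact_mod_cast hJ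
    obtain ⟨j, hj, hkey⟩ := kauf_exE B
      (fun ε n => rowS G T E fa fb u (B.d n ^ (τ - 2 * ε)) n (k0 n) (i0 n))
      (fun _ n => (G n).Z) (fun n k => (G n).z k - (G n).z (k0 n))
      (fun n l k => (l, k) ∈ (G n).I) (fun n l k => Fr G T E fa fb u n k l)
      (fun n l => Fr G T E fa fb u n (k0 n) l)
      (fun n l => u n 0 * (T n l).v 0 - u n 1 * (T n l).v 2)
      (x := τ) (σ := 1) (α := κR + ν (qE τ τ τ 0)) (κ := κR) (C := 6) (C2 := 17 + 12 * D) (C0 := 1)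
      hτ (by norm_num) le_rfl (by norm_num) (by linarith) hJ
      (fun j => min κR (τ - sc τ J j) + ν (qE τ τ τ (sc τ J j)))
      (fun ε hε => Filter.Eventually.of_forall fun n => Z_nonempty H.toRUnif n)
      (by
        intro ε hε
        filter_upwards [slice_nonempty H, A.bd, ev_const_le B (t := 6 * ε) (by positivity) 2]
          with n h1 h2 h3 k hk
        obtain ⟨l, hl⟩ := h1 k hk
        have a1 := abs_le.1 (h2 l k (H.memSlice.1 hl)).1
        have a2 := abs_le.1 (h2 (i0 n) (k0 n) (hI0 n)).1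
        refine le_trans ?_ h3
        rw [abs_le]
        constructor <;> linarith [a1.1, a1.2, a2.1, a2.2])
      (by
        intro ε hε
        filter_upwards [F_evo H A Q (i0 := i0) (k0 := k0) hε] with n h1 k hk l hl l' hl' hlk hl'k
        exact h1 k hk l hl l' hl' hlk hl'k)
      (fun ε hε => S_lower H A P hτ hτx Q hI0 hRm0 hlo hε)
      (by
        intro ε hε
        filter_upwards [cells_all H A P hτ Q hRm hup (i0 := i0) (k0 := k0) hε] with n h1 k hk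
        refine (h1 k hk).trans ?_
        rw [one_mul, one_mul]
        exact rpow_anti B n (by nlinarith))
      (by
        intro ε hε
        filter_upwards [H.line ε hε] with n h1 l hl
        refine le_trans ?_ (h1 l (H.memL (H.memSlice.1 (mem_rowS.1 hl).1)))
        exact mul_le_mul_of_nonneg_right (rpow_anti B n (by linarith)) (Nat.cast_nonneg _))
      (by
        intro ε hε
        filter_upwards [A.bd, ev_const_le B (t := 6 * ε) (by positivity) 4] with n h2 h3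
          l hl l' hl'
        have b1 := (h2 l (k0 n) (H.memSlice.1 (mem_rowS.1 hl).1)).2.2.1
        have b2 := (h2 l' (k0 n) (H.memSlice.1 (mem_rowS.1 hl').1)).2.2.1
        have c1 := mul_le_mul (u_le (Q.hu n) 0) (b1 0) (abs_nonneg _) (by norm_num)
        have c2 := mul_le_mul (u_le (Q.hu n) 1) (b1 2) (abs_nonneg _) (by norm_num)
        have c3 := mul_le_mul (u_le (Q.hu n) 0) (b2 0) (abs_nonneg _) (by norm_num)
        have c4 := mul_le_mul (u_le (Q.hu n) 1) (b2 2) (abs_nonneg _) (by norm_num)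
        rw [← abs_mul] at c1 c2 c3 c4
        have c1 := abs_le.1 c1
        have c2 := abs_le.1 c2
        have c3 := abs_le.1 c3
        have c4 := abs_le.1 c4
        refine le_trans ?_ h3
        rw [abs_le]
        constructor <;> linarith [c1.1, c1.2, c2.1, c2.2, c3.1, c3.2, c4.1, c4.2])
      (by
        intro j hj ε hε
        filter_upwards [close_le H A P hτ hτx Q hI0 hRm hup (s := sc τ J j) (sc_nonneg hτ.le J j)
          (sc_le hτ.le hJ hj) hε] with n h1 i hi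
        refine h1 _ (Finset.filter_subset _ _) ?_
        intro l hl l' hl'
        obtain ⟨-, a1, a2⟩ := Finset.mem_filter.1 hl
        obtain ⟨-, b1, b2⟩ := Finset.mem_filter.1 hl'
        have e : (2 * 6 + 1 : ℝ) * ε = 13 * ε := by ring
        rw [e] at a2 b2
        have a1 := abs_le.1 a1
        have a2 := abs_le.1 a2
        have b1 := abs_le.1 b1
        have b2 := abs_le.1 b2
        constructor <;> rw [abs_le] <;> constructor <;>
          linarith [a1.1, a1.2, a2.1, a2.2, b1.1, b1.2, b2.1, b2.2])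
      (by
        intro y' hy0 hyτ ε hε
        by_cases hle : ε ≤ y'
        · filter_upwards [H.frost (y' - ε) (by linarith) (by linarith) ε hε] with n h1 k hk
          have b1 := h1 k hk
          unfold RCfg.hbox at b1
          rw [H.base n] at b1
          have e : (((G n).Z.filter fun k' => |((G n).z k' - (G n).z (k0 n)) -
              ((G n).z k - (G n).z (k0 n))| ≤ B.d n ^ (y' - ε)).card : ℝ) ≤
              B.d n ^ (1 * (y' - ε) - ε) * ((G n).Z.card : ℝ) := by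
            refine le_trans ?_ b1
            refine mod_cast Finset.card_le_card ?_
            intro k' hk'
            obtain ⟨c1, c2⟩ := Finset.mem_filter.1 hk'
            refine Finset.mem_filter.2 ⟨c1, ?_⟩
            have e2 : ((G n).z k' - (G n).z (k0 n)) - ((G n).z k - (G n).z (k0 n)) =
              (G n).z k' - (G n).z k := by ring
            rwa [e2] at c2
          refine e.trans (mul_le_mul_of_nonneg_right (rpow_anti B n ?_) (Nat.cast_nonneg _))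
          nlinarith
        · rw [not_le] at hle
          refine Filter.Eventually.of_forall fun n k hk => ?_
          have b3 : (((G n).Z.filter fun k' => |((G n).z k' - (G n).z (k0 n)) -
              ((G n).z k - (G n).z (k0 n))| ≤ B.d n ^ (y' - ε)).card : ℝ) ≤ (G n).Z.card := by
            exact_mod_cast Finset.card_le_card (Finset.filter_subset _ _)
          refine b3.trans ?_
          have b4 : (1 : ℝ) ≤ B.d n ^ (1 * y' - (17 + 12 * D) * ε) := by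
            apply Real.one_le_rpow_of_pos_of_le_one_of_nonpos (B.pos n) (B.lt n).le
            nlinarith
          nlinarith [(Nat.cast_nonneg (G n).Z.card : (0 : ℝ) ≤ _)])
    have hs0 := sc_nonneg hτ.le J j
    have hsτ := sc_le hτ.le hJ hj
    rw [P.form τ τ τ 0 le_rfl hτ.le hτx hτ.le hτx hτ.le hτx,
      P.form τ τ τ (sc τ J j) hs0 hsτ hτx hτ.le hτx hτ.le hτx, sc_succ τ hJ j] at hkey
    have h1 : β * sc τ J j + (τ - sc τ J j - τ / J) ≤ min κR (τ - sc τ J j) := by linarith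
    have h2 := h1.trans (min_le_left _ _)
    have h3 := h1.trans (min_le_right _ _)
    have h4 : sc τ J j ≤ τ / J / β := by
      rw [le_div_iff₀ hβ]
      linarith
    have h5 : (τ / β + τ) / J = τ / J / β + τ / J := by
      rw [add_div, div_right_comm]
    have h6 : 0 ≤ β * sc τ J j := mul_nonneg hβ.le hs0
    rw [h5]
    linarith
  by_contra hcon
  rw [not_le] at hcon
  have hg : 0 < τ - κR := by linarith
  obtain ⟨J, hJ⟩ := exists_nat_gt ((τ / β + τ) / (τ - κR))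
  have hpos : 0 < τ / β + τ := by positivity
  have hJ0 : (0 : ℝ) < J := lt_trans (by positivity) hJ
  have hJn : 0 < J := by exact_mod_cast hJ0
  have h1 := hstep J hJn
  have h2 : (τ / β + τ) / J < τ - κR := by
    rw [div_lt_iff₀ hJ0]
    have := (div_lt_iff₀ hg).1 hJ
    linarith
  linarith

/-- **ROWS** (literal of helper344) -/
theorem rowsE (H : RModel B G 1 R Leg ν D) (hxR : x ≤ R) (A : AbsE B G x T E fa fb)
    (P : ProfE Leg ν x y m β) (hβ : 0 < β) {τ : ℝ} (hτ : 0 < τ) (hτx : τ ≤ x)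
    (u : ℕ → Fin 2 → ℝ) (hu : ∀ n, u n 0 ^ 2 + u n 1 ^ 2 = 1) (μ c0 q0 : ℕ → ℝ)
    (hrel : ∀ ε : ℝ, 0 < ε → ∀ᶠ n in (U : Filter ℕ), ∀ l k, (l, k) ∈ (G n).I →
      |u n 0 * eE E fa fb n k 0 + u n 1 * eE E fa fb n k 1 - μ n * (G n).z k - c0 n| ≤
        B.d n ^ (τ - ε) ∧
      |u n 0 * wE T n l 0 + u n 1 * wE T n l 1 + μ n * (T n l).p 1 - c0 n * (T n l).v 1 -
        q0 n| ≤ B.d n ^ (τ - ε))
    (hμ : ∀ ε : ℝ, 0 < ε → ∀ᶠ n in (U : Filter ℕ), |μ n| ≤ B.d n ^ (-ε)) :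
    ∀ ε : ℝ, 0 < ε → ∀ᶠ n in (U : Filter ℕ), |μ n| ≤ B.d n ^ ((2 - y) * τ - ε) := by
  classical
  intro ε0 hε0
  have hD := H.D1
  have hx0 := P.x0
  have hR0 : 0 < R := lt_of_lt_of_le hx0 hxR
  have hy2 := P.y2
  have hy0 := P.y0
  have Q : RowH B G T E fa fb τ u μ c0 q0 := ⟨hu, hrel, hμ⟩
  by_cases hbig : (2 - y) * τ < ε0
  · filter_upwards [hμ (ε0 - (2 - y) * τ) (by linarith)] with n hn
    have e : -(ε0 - (2 - y) * τ) = (2 - y) * τ - ε0 := by ring
    rwa [e] at hn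
  rw [not_lt] at hbig
  rcases Crest.Agent.R138.Ex926.ev_em (fun n => |μ n| ≤ B.d n ^ ((2 - y) * τ - ε0)) with h | h
  · exact h
  exfalso
  -- the exponent `a`
  set a := max 0 ((y - 1) * τ + ε0) with ha
  have ha0 : 0 ≤ a := le_max_left _ _
  have ha1 : (y - 1) * τ + ε0 ≤ a := le_max_right _ _
  have haτ : a ≤ τ := max_le hτ.le (by nlinarith)
  have hμa : 0 < a → ∀ᶠ n in (U : Filter ℕ), B.d n ^ (τ - a) ≤ |μ n| := by
    intro hpos
    have e : τ - a = (2 - y) * τ - ε0 := by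
      have : a = (y - 1) * τ + ε0 := by
        rcases max_choice 0 ((y - 1) * τ + ε0) with h | h
        · rw [ha, h] at hpos
          exact absurd hpos (lt_irrefl _)
        · rw [ha, h]
      rw [this]
      ring
    rw [e]
    filter_upwards [h] with n hn
    exact (not_le.1 hn).le
  -- the largest row
  have hmax : ∀ n, ∃ q : ℕ × ℕ, q ∈ (G n).I ∧ ∀ q' ∈ (G n).I,
      cl G T E fa fb (B.d n ^ τ) n q'.2 (rowS G T E fa fb u (B.d n ^ τ) n q'.2 q'.1) ≤
        cl G T E fa fb (B.d n ^ τ) n q.2 (rowS G T E fa fb u (B.d n ^ τ) n q.2 q.1) := by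
    intro n
    obtain ⟨q, hq, hq2⟩ := Finset.exists_max_image (G n).I (fun q =>
      cl G T E fa fb (B.d n ^ τ) n q.2 (rowS G T E fa fb u (B.d n ^ τ) n q.2 q.1)) (H.nonempty n)
    exact ⟨q, hq, hq2⟩
  choose q hq hq2 using hmax
  set Rm : ℕ → ℕ := fun n =>
    cl G T E fa fb (B.d n ^ τ) n (q n).2 (rowS G T E fa fb u (B.d n ^ τ) n (q n).2 (q n).1) with hRm
  have hI0 : ∀ n, ((q n).1, (q n).2) ∈ (G n).I := fun n => hq n
  have hRm1 : ∀ n, 1 ≤ Rm n := by
    intro n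
    have h1 : (q n).1 ∈ rowS G T E fa fb u (B.d n ^ τ) n (q n).2 (q n).1 := by
      refine mem_rowS.2 ⟨H.memSlice.2 (hI0 n), ?_, ?_, ?_⟩ <;> rw [sub_self, abs_zero] <;>
        exact (rpos B n τ).le
    simp only [hRm]
    unfold cl
    exact Finset.card_pos.2 ⟨_, Finset.mem_image_of_mem _ h1⟩
  -- the upper bound
  set CA := 4 * D ^ 2 + 12 * D + 14 with hCA
  have hCA0 : 0 < CA := by positivity
  set ε := min (ε0 / (2 * CA)) (R / 3) with hε
  have hεpos : 0 < ε := lt_min (by positivity) (by positivity)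
  have hεR : 3 * ε ≤ R := by
    have := min_le_right (ε0 / (2 * CA)) (R / 3)
    linarith
  have hεC : CA * ε ≤ ε0 / 2 := by
    have h1 := min_le_left (ε0 / (2 * CA)) (R / 3)
    have h2 : CA * (ε0 / (2 * CA)) = ε0 / 2 := by field_simp
    rw [← h2]
    exact mul_le_mul_of_nonneg_left h1 hCA0.le
  have hUp : ∀ᶠ n in (U : Filter ℕ), (Rm n : ℝ) ≤ B.d n ^ (-(τ - ε0 / 2)) := by
    filter_upwards [row_le H A P hτ hτx Q ha0 haτ hμa hεpos hεR] with n h1
    refine (h1 (q n).2 (q n).1 (hI0 n)).trans (rpow_anti B n ?_)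
    nlinarith
  have hLow : ∀ᶠ n in (U : Filter ℕ), (1 : ℝ) ≤ (Rm n : ℝ) :=
    Filter.Eventually.of_forall fun n => by exact_mod_cast hRm1 n
  have hPB : B.PB (fun n => (Rm n : ℝ)) := by
    refine Base.PB.of_bounds (C := τ) ?_ ?_
    · filter_upwards [hLow] with n hn
      refine le_trans ?_ hn
      exact Real.rpow_le_one (B.pos n).le (B.lt n).le hτ.le
    · filter_upwards [hUp] with n hn
      exact hn.trans (rpow_anti B n (by linarith))
  set κR := B.ex (fun n => (Rm n : ℝ)) with hκR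
  have hup : ∀ ε : ℝ, 0 < ε → ∀ᶠ n in (U : Filter ℕ), (Rm n : ℝ) ≤ B.d n ^ (-κR - ε) := by
    intro ε hε
    have := Base.ex_lt_iff_dpow hPB (a := κR + ε) (by linarith)
    filter_upwards [this] with n hn
    have e : -(κR + ε) = -κR - ε := by ring
    rw [e] at hn
    exact hn.le
  have hlo : ∀ ε : ℝ, 0 < ε → ∀ᶠ n in (U : Filter ℕ), B.d n ^ (-κR + ε) ≤ (Rm n : ℝ) := by
    intro ε hε
    have := Base.lt_ex_dpow hPB (a := κR - ε) (by linarith)
    filter_upwards [this] with n hn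
    have e : -(κR - ε) = -κR + ε := by ring
    rw [e] at hn
    exact hn.le
  have hge := row_ge H hxR A P hβ hτ hτx Q (i0 := fun n => (q n).1) (k0 := fun n => (q n).2)
    (Rm := Rm) (κR := κR) hI0 (fun n i k hik => hq2 n (i, k) hik) (fun n => rfl) hup hlo
  have hle : κR ≤ τ - ε0 / 2 := by
    have := Base.ex_lt_of_dpow_of_le hPB hUp
    exact this
  linarith

end Crest.Agent.R136.RgR210
end

-- ▼ part R136/RgR5_210

/-!
# R136 (S0187): RIG_E: the Prop `RowsE` of `RgE9_344` (helper210)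
-/

set_option autoImplicit false

namespace Crest.Agent.R136.RgR210

open Crest.Agent.R136.RgE344

theorem rows_all : RowsE := by
  intro B G Leg ν D R x y m β T E fa fb H hxR A P hβ τ hτ hτx u hu μ c0 q0 hrel hμ
  exact rowsE H hxR A P hβ hτ hτx u hu μ c0 q0 hrel hμ

/-- **RIG_E** from the strips -/
theorem rigE_of_strips (hSt : StripsAll) : RigE' := rigE_of rows_all hSt

end Crest.Agent.R136.RgR210
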