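import Crest.Agent.R136.WkL_626
import Crest.Agent.R136.Rc8_146
import Crest.Agent.R136.Rgl1_501
import Crest.Agent.R136.Wq1_400_Mg
import Crest.Agent.R136.Aw2_413
import Crest.Agent.R136.Net2b_191
import Crest.Agent.R136.GauD_66
import Crest.Agent.R136.AwJ_774
import Crest.Agent.R136.K2B_146
import Crest.Agent.R136.K2Y_774
import Crest.Agent.R136.LdF3_511
import Crest.Agent.R136.TL1_196

-- ▼ part R136/WkL2_626
section

/-!
# R136 (S0187): numbers of an interior window of the lightlike surface (helper626)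

Input: 146's `OutA` (additive group functions) which are positively homogeneous, groups
`{0,3} {2,5,6} {7,9} {4,8,10}`.  Output: the inequalities `dec, fib, conc, dens, loss, add` at the
base `0`, for every reach `x`.
-/

set_option autoImplicit false
set_option linter.unusedSectionVars false
set_option linter.unusedVariables false

open Filter Topology Set

namespace Crest.Agent.R136.WkL626

open Crest.Agent.R136.Rc146
open Crest.Agent.R136.Dg219

/-- a group function of `{X_a, F_a, N}` -/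
structure GF8 (L : Set (Fin 11 → ℝ)) (a b : Fin 11 → ℝ) (f : (Fin 11 → ℝ) → ℝ) : Prop where
  leg : ∀ c, WqL c → c ∈ L
  loc : ∀ c c', c 4 = c' 4 → c 8 = c' 8 → c 10 = c' 10 → f c = f c'
  mono : ∀ c ∈ L, ∀ c' ∈ L, c 4 ≤ c' 4 → c 8 ≤ c' 8 → c 10 ≤ c' 10 → 0 ≤ f c - f c' ∧
    f c - f c' ≤ (c' 4 - c 4) + (c' 8 - c 8) + (c' 10 - c 10)
  smod : ∀ p ∈ L, ∀ q ∈ L, ∀ s ∈ L, ∀ t ∈ L,
    (s 4 = min (p 4) (q 4) ∧ s 8 = min (p 8) (q 8) ∧ s 10 = min (p 10) (q 10)) →
    (t 4 = max (p 4) (q 4) ∧ t 8 = max (p 8) (q 8) ∧ t 10 = max (p 10) (q 10)) →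
    f p + f q ≤ f t + f s
  add : ∀ z, ∀ c ∈ L, f (Tn a b z + c) = f (Tn a b z) + f c
  hom : ∀ c ∈ L, ∀ t : ℝ, 0 ≤ t → f (t • c) = t * f c
  a4 : a 4 = 1
  a8 : a 8 = 1
  a10 : a 10 = 2

namespace GF8

variable {L : Set (Fin 11 → ℝ)} {a b : Fin 11 → ℝ} {f : (Fin 11 → ℝ) → ℝ}

/-- losses -/
noncomputable def ps (f : (Fin 11 → ℝ) → ℝ) (s : ℝ) : ℝ := f (vN 4 1 0 s)

/-- rate of `N` given `X_a` -/
noncomputable def aN (f : (Fin 11 → ℝ) → ℝ) : ℝ := ps f 0 - ps f 1

theorem eq_vN (H : GF8 L a b f) {K x y m : ℝ} {c : Fin 11 → ℝ} (h8 : c 8 = x) (h4 : c 4 = y)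
    (h10 : c 10 = m) : f c = f (vN K x y m) :=
  H.loc _ _ (by simp [vN, h4]) (by simp [vN, h8]) (by simp [vN, h10])

theorem tr (H : GF8 L a b f) {K K' x y m : ℝ} (u : ℝ) (hc : WqL (vN K x y m)) :
    f (vN K' (x + u) (y + u) (m + 2 * u)) = f (Tn a b (u, 0)) + f (vN K x y m) := by
  rw [← H.add (u, 0) _ (H.leg _ hc)]
  symm
  refine H.eq_vN ?_ ?_ ?_
  · simp only [Pi.add_apply, Tn, vN, Matrix.cons_val, H.a8]; ring
  · simp only [Pi.add_apply, Tn, vN, Matrix.cons_val, H.a4]; ring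
  · simp only [Pi.add_apply, Tn, vN, Matrix.cons_val, H.a10]; ring

theorem hm (H : GF8 L a b f) {K K' x y m : ℝ} {t : ℝ} (ht : 0 ≤ t) (hc : WqL (vN K x y m)) :
    f (vN K' (t * x) (t * y) (t * m)) = t * f (vN K x y m) := by
  rw [← H.hom _ (H.leg _ hc) t ht]
  symm
  refine H.eq_vN ?_ ?_ ?_ <;> simp [vN]

theorem sm (H : GF8 L a b f) {K x y m x' y' m' : ℝ} (h1 : WqL (vN K x y m))
    (h2 : WqL (vN K x' y' m')) (h3 : WqL (vN K (min x x') (min y y') (min m m')))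
    (h4 : WqL (vN K (max x x') (max y y') (max m m'))) :
    f (vN K x y m) + f (vN K x' y' m') ≤ f (vN K (max x x') (max y y') (max m m')) +
      f (vN K (min x x') (min y y') (min m m')) :=
  H.smod _ (H.leg _ h1) _ (H.leg _ h2) _ (H.leg _ h3) _ (H.leg _ h4)
    ⟨by simp [vN], by simp [vN], by simp [vN]⟩ ⟨by simp [vN], by simp [vN], by simp [vN]⟩

theorem wq1 {y : ℝ} (hy : y ∈ Icc (0 : ℝ) 1) : WqL (vN 4 1 0 y) :=
  vN_wq (by norm_num) (by norm_num) (by norm_num)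
    (by rw [abs_le]; constructor <;> linarith [hy.1, hy.2]) (by linarith [hy.2]) le_rfl
    zero_le_one

theorem cont (H : GF8 L a b f) : ContinuousOn (ps f) (Icc 0 1) := by
  have key : ∀ s ∈ Icc (0 : ℝ) 1, ∀ t ∈ Icc (0 : ℝ) 1, s ≤ t → |ps f s - ps f t| ≤ t - s := by
    intro s hs t ht hst
    have h := H.mono _ (H.leg _ (wq1 hs)) _ (H.leg _ (wq1 ht)) (by simp [vN]) (by simp [vN])
      (by simp [vN, hst])
    have h2 := h.2.trans (le_of_eq (show (vN 4 1 0 t 4 - vN 4 1 0 s 4) +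
      (vN 4 1 0 t 8 - vN 4 1 0 s 8) + (vN 4 1 0 t 10 - vN 4 1 0 s 10) = t - s by simp [vN]))
    unfold ps
    rw [abs_of_nonneg h.1]
    exact h2
  have : LipschitzOnWith 1 (ps f) (Icc 0 1) := by
    apply LipschitzOnWith.of_dist_le_mul
    intro s hs t ht
    rw [Real.dist_eq, Real.dist_eq, NNReal.coe_one, one_mul]
    rcases le_total s t with h | h
    · rw [abs_sub_comm s t, abs_of_nonneg (sub_nonneg.2 h)]
      exact key s hs t ht h
    · rw [abs_sub_comm (ps f s), abs_of_nonneg (sub_nonneg.2 h)]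
      exact key t ht s hs h
  exact this.continuousOn

/-- **the loss of `N` given `X_a` is linear** -/
theorem affine (H : GF8 L a b f) :
    ∀ s ∈ Icc (0 : ℝ) 1, ps f s = (1 - s) * ps f 0 + s * ps f 1 := by
  have w : ∀ {x y m : ℝ}, 0 ≤ x → x ≤ 4 → 0 ≤ y → y ≤ 4 → 0 ≤ m → m ≤ 4 → m ≤ x + y →
      WqL (vN 4 x y m) := fun a1 a2 a3 a4 a5 a6 a7 =>
    vN_wq (by norm_num) (by rw [abs_le]; constructor <;> linarith)
      (by rw [abs_le]; constructor <;> linarith) (by rw [abs_le]; constructor <;> linarith) a7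
      a3 a1
  refine affine_of_mid H.cont ?_ ?_
  · intro s k hk h1 h2
    have e1 : max (1 : ℝ) (1 + k / 2) = 1 + k / 2 := max_eq_right (by linarith)
    have e2 : min (1 : ℝ) (1 + k / 2) = 1 := min_eq_left (by linarith)
    have e3 : max (0 : ℝ) (0 + k / 2) = 0 + k / 2 := max_eq_right (by linarith)
    have e4 : min (0 : ℝ) (0 + k / 2) = 0 := min_eq_left (by linarith)
    have e5 : max (s + k) s = s + k := max_eq_left (by linarith)
    have e6 : min (s + k) s = s := min_eq_right (by linarith)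
    have h := H.sm (K := 4) (x := 1) (y := 0) (m := s + k) (x' := 1 + k / 2)
      (y' := 0 + k / 2) (m' := s) (w (by linarith) (by linarith) le_rfl (by linarith)
        (by linarith) (by linarith) (by linarith))
      (w (by linarith) (by linarith) (by linarith) (by linarith) (by linarith) (by linarith)
        (by linarith))
      (by rw [e2, e4, e6]; exact w (by linarith) (by linarith) (by linarith) (by linarith)
            (by linarith) (by linarith) (by linarith))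
      (by rw [e1, e3, e5]; exact w (by linarith) (by linarith) (by linarith) (by linarith)
            (by linarith) (by linarith) (by linarith))
    rw [e1, e2, e3, e4, e5, e6] at h
    have t1 := H.tr (K := 4) (K' := 4) (x := 1) (y := 0) (m := s - k) (k / 2)
      (w (by linarith) (by linarith) le_rfl (by linarith) (by linarith) (by linarith)
        (by linarith))
    have t2 := H.tr (K := 4) (K' := 4) (x := 1) (y := 0) (m := s) (k / 2)
      (w (by linarith) (by linarith) le_rfl (by linarith) (by linarith) (by linarith)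
        (by linarith))
    rw [show s - k + 2 * (k / 2) = s by ring] at t1
    rw [show s + 2 * (k / 2) = s + k by ring] at t2
    unfold ps
    linarith
  · have e1 : max (3 / 2 : ℝ) 1 = 3 / 2 := max_eq_left (by norm_num)
    have e2 : min (3 / 2 : ℝ) 1 = 1 := min_eq_right (by norm_num)
    have e3 : max (0 : ℝ) (1 / 2) = 1 / 2 := max_eq_right (by norm_num)
    have e4 : min (0 : ℝ) (1 / 2) = 0 := min_eq_left (by norm_num)
    have h := H.sm (K := 4) (x := 3 / 2) (y := 0) (m := 1) (x' := 1) (y' := 1 / 2)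
      (m' := 1) (w (by norm_num) (by norm_num) le_rfl (by norm_num) (by norm_num) (by norm_num)
        (by norm_num))
      (w (by norm_num) (by norm_num) (by norm_num) (by norm_num) (by norm_num) (by norm_num)
        (by norm_num))
      (by rw [e2, e4, min_self]; exact w (by norm_num) (by norm_num) le_rfl (by norm_num)
            (by norm_num) (by norm_num) (by norm_num))
      (by rw [e1, e3, max_self]; exact w (by norm_num) (by norm_num) (by norm_num)
            (by norm_num) (by norm_num) (by norm_num) (by norm_num))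
    rw [e1, e2, e3, e4, min_self, max_self] at h
    have t1 := H.hm (K := 4) (K' := 4) (x := 1) (y := 0) (m := 2 / 3) (t := 3 / 2)
      (by norm_num) (w (by norm_num) (by norm_num) le_rfl (by norm_num) (by norm_num)
        (by norm_num) (by norm_num))
    have t2 := H.tr (K := 4) (K' := 4) (x := 1 / 2) (y := 0) (m := 0) (1 / 2)
      (w (by norm_num) (by norm_num) le_rfl (by norm_num) le_rfl (by norm_num) (by norm_num))
    have t3 := H.hm (K := 4) (K' := 4) (x := 1) (y := 0) (m := 0) (t := 1 / 2)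
      (by norm_num) (w (by norm_num) (by norm_num) le_rfl (by norm_num) le_rfl
        (by norm_num) (by norm_num))
    have t4 := H.tr (K := 4) (K' := 4) (x := 1) (y := 0) (m := 0) (1 / 2)
      (w (by norm_num) (by norm_num) le_rfl (by norm_num) le_rfl (by norm_num) (by norm_num))
    norm_num at t1 t2 t3 t4 h
    unfold ps
    linarith

theorem lin (H : GF8 L a b f) {x y : ℝ} (hy : 0 ≤ y) (hyx : y ≤ x) {c c' : Fin 11 → ℝ}
    (h8 : c 8 = x) (h4 : c 4 = 0) (h10 : c 10 = y)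
    (h8' : c' 8 = x) (h4' : c' 4 = 0) (h10' : c' 10 = x) : f c - f c' = aN f * (x - y) := by
  rw [H.eq_vN (K := 4) h8 h4 h10, H.eq_vN (K := 4) h8' h4' h10']
  rcases hyx.eq_or_lt with rfl | hlt
  · simp
  have hx : 0 < x := lt_of_le_of_lt hy hlt
  have hs : y / x ∈ Icc (0 : ℝ) 1 := ⟨by positivity, by rw [div_le_one hx]; exact hyx⟩
  have t1 := H.hm (K := 4) (K' := 4) (x := 1) (y := 0) (m := y / x) hx.le (wq1 hs)
  have t2 := H.hm (K := 4) (K' := 4) (x := 1) (y := 0) (m := 1) hx.le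
    (wq1 ⟨zero_le_one, le_rfl⟩)
  have t3 := H.affine _ hs
  rw [mul_one, mul_zero, mul_div_cancel₀ _ hx.ne'] at t1
  rw [mul_one, mul_zero] at t2
  rw [t1, t2]
  have e1 : f (vN 4 1 0 (y / x)) = (1 - y / x) * ps f 0 + y / x * ps f 1 := t3
  have e2 : f (vN 4 1 0 1) = ps f 1 := rfl
  rw [e1, e2, aN]
  field_simp
  ring

/-- the same with the flag frozen as well -/
theorem lin_F (H : GF8 L a b f) {x : ℝ} (hx : 0 ≤ x) {c c' : Fin 11 → ℝ} (h8 : c 8 = x)
    (h4 : c 4 = x) (h10 : c 10 = 0) (h8' : c' 8 = x) (h4' : c' 4 = x) (h10' : c' 10 = x) :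
    f c - f c' ≤ aN f * x := by
  have w : ∀ {x y m K : ℝ}, 0 ≤ K → 0 ≤ x → x ≤ K → 0 ≤ y → y ≤ K → 0 ≤ m → m ≤ K → m ≤ x + y →
      WqL (vN K x y m) := fun a0 a1 a2 a3 a4 a5 a6 a7 =>
    vN_wq a0 (by rw [abs_le]; constructor <;> linarith)
      (by rw [abs_le]; constructor <;> linarith) (by rw [abs_le]; constructor <;> linarith) a7
      a3 a1
  rw [H.eq_vN (K := x) h8 h4 h10, H.eq_vN (K := x) h8' h4' h10']
  have h := H.sm (K := x) (x := x) (y := 0) (m := x) (x' := x) (y' := x) (m' := 0)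
    (w hx hx le_rfl le_rfl hx hx le_rfl (by linarith))
    (w hx hx le_rfl hx le_rfl le_rfl hx (by linarith))
    (by rw [min_self, min_eq_left hx, min_eq_right hx]
        exact w hx hx le_rfl le_rfl hx le_rfl hx (by linarith))
    (by rw [max_self, max_eq_right hx, max_eq_left hx]
        exact w hx hx le_rfl hx le_rfl hx le_rfl (by linarith))
  rw [min_self, min_eq_left hx, min_eq_right hx, max_self, max_eq_right hx, max_eq_left hx] at h
  have h2 := H.lin le_rfl hx (c := vN x x 0 0) (c' := vN x x 0 x) rfl rfl rfl rfl rfl rfl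
  linarith

end GF8

/-! ### the numbers of an interior window -/

section Nums

open Crest.Agent.R136.Qg926 (cut)
open Crest.Agent.R136.Wk323 (vec fAll fPos fDir qv)

variable {κ : Type*} [DecidableEq κ] {g : Fin 11 → κ} {L : Set (Fin 11 → ℝ)} {a b dh : Fin 11 → ℝ}
  {n : κ → ℝ × ℝ} {lam : (Fin 11 → ℝ) → ℝ} {A : ℝ × ℝ} {φ : κ → (Fin 11 → ℝ) → ℝ} {r : κ → ℝ}

/-- groups of the lightlike surface; the slot `R` is anywhere outside the three groups -/
structure LGrpA (g : Fin 11 → κ) (L : Set (Fin 11 → ℝ)) (a b dh : Fin 11 → ℝ) : Prop where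
  leg : ∀ c, WqL c → c ∈ L
  g8 : ∀ i, g i = g 8 ↔ i = 4 ∨ i = 8 ∨ i = 10
  g5 : ∀ i, g i = g 5 ↔ i = 2 ∨ i = 5 ∨ i = 6
  g7 : ∀ i, g i = g 7 ↔ i = 7 ∨ i = 9
  g3 : g 3 = g 0
  dh8 : ∀ i, g i = g 8 → 0 < dh i
  dh5 : ∀ i, g i = g 5 → 0 < dh i
  dh7 : ∀ i, g i = g 7 → 0 < dh i
  a4 : a 4 = 1
  a8 : a 8 = 1
  a10 : a 10 = 2
  b0 : b 0 = 0
  b1 : b 1 = 0
  b3 : b 3 = 0

/-- homogeneity -/
def Hom (g : Fin 11 → κ) (L : Set (Fin 11 → ℝ)) (dh : Fin 11 → ℝ) (φ : κ → (Fin 11 → ℝ) → ℝ) :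
    Prop :=
  ∀ k, (∀ i, g i = k → 0 < dh i) → ∀ c ∈ L, ∀ t : ℝ, 0 ≤ t → φ k (t • c) = t * φ k c

theorem sum_f8 (G : LGrpA g L a b dh) (f : Fin 11 → ℝ) :
    ∑ i ∈ Finset.univ.filter (fun i => g i = g 8), f i = f 4 + f 8 + f 10 := by
  have e : Finset.univ.filter (fun i => g i = g 8) = ({4, 8, 10} : Finset (Fin 11)) := by
    ext i
    simp only [Finset.mem_filter, Finset.mem_univ, true_and, Finset.mem_insert,
      Finset.mem_singleton]
    exact G.g8 i
  rw [e]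
  rw [Finset.sum_insert (by decide), Finset.sum_insert (by decide), Finset.sum_singleton]
  ring

theorem gf8_of (H : OutA g L a b dh n lam A φ r) (hh : Hom g L dh φ) (G : LGrpA g L a b dh) :
    GF8 L a b (φ (g 8)) where
  leg := G.leg
  loc := fun c c' h4 h8 h10 => H.loc _ _ _ fun i hi => by
    rcases (G.g8 i).1 hi with rfl | rfl | rfl <;> assumption
  mono := fun c hc c' hc' h4 h8 h10 => by
    have h := H.mono (g 8) c hc c' hc' fun i hi => by
      rcases (G.g8 i).1 hi with rfl | rfl | rfl <;> assumption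
    rw [sum_f8 G] at h
    exact h
  smod := fun p hp q hq s hs t ht h1 h2 => H.smods (g 8) p hp q hq s hs t ht
    (fun i hi => by
      rcases (G.g8 i).1 hi with rfl | rfl | rfl
      exacts [h1.1, h1.2.1, h1.2.2])
    (fun i hi => by
      rcases (G.g8 i).1 hi with rfl | rfl | rfl
      exacts [h2.1, h2.2.1, h2.2.2])
  add := H.add _ G.dh8
  hom := hh _ G.dh8
  a4 := G.a4
  a8 := G.a8
  a10 := G.a10

/-- one group changes -/
theorem dif_A (H : OutA g L a b dh n lam A φ r) {k : κ} (hk : k ∈ gset g) {c c' : Fin 11 → ℝ}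
    (hc : c ∈ L) (hc' : c' ∈ L) (h : ∀ i, g i ≠ k → c' i = c i) :
    lam c' - lam c = φ k c' - φ k c := by
  rw [H.sum c hc, H.sum c' hc', ← Finset.sum_sub_distrib, Finset.sum_eq_single k]
  · intro j _ hj
    rw [sub_eq_zero]
    exact H.loc _ _ _ fun i hi => h i fun he => hj (by rw [← hi, he])
  · intro h'; exact absurd hk h'

variable {x : ℝ} {T : Fin 11 → ℝ}

theorem cutT (hT : ∀ s, s ≠ 1 → T s = x) (p : Fin 11 → ℝ) :
    cut ({0, 3} : Finset (Fin 11)) p T = cut {0, 3} p (topL x) := by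
  funext s
  unfold cut
  split_ifs with h
  · have hs : s ≠ 1 := by rintro rfl; revert h; decide
    rw [hT s hs]; simp [topL, hs]
  · rfl

section

variable (H : OutA g L a b dh n lam A φ r) (hh : Hom g L dh φ) (G : LGrpA g L a b dh)
  (hx : 0 ≤ x) (hT : ∀ s, s ≠ 1 → T s = x)

include H G hx hT

theorem num_dec : (lam (cut {0, 3} 0 T) - lam T) + (lam (cut {0, 3} (vec fAll x) T) - lam T) ≤
    (lam (cut {0, 3} (vec fPos x) T) - lam T) + (lam (cut {0, 3} (vec fDir x) T) - lam T) := by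
  rw [cutT hT, cutT hT, cutT hT, cutT hT, cut_zero, cut_all, cut_pos, cut_dir]
  have l0 : vL x 0 0 0 0 0 ∈ L := G.leg _ (vL_wq le_rfl le_rfl (by linarith) (by linarith)
    (by linarith) (by linarith) (by linarith) (by linarith))
  have lall : vL x x x x x x ∈ L := G.leg _ (vL_wq hx hx (by linarith) (by linarith)
    (by linarith) (by linarith) (by linarith) (by linarith))
  have lpos : vL x 0 0 x x x ∈ L := G.leg _ (vL_wq le_rfl le_rfl (by linarith) (by linarith)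
    (by linarith) (by linarith) (by linarith) (by linarith))
  have ldir : vL x x x 0 0 0 ∈ L := G.leg _ (vL_wq hx hx (by linarith) (by linarith)
    (by linarith) (by linarith) (by linarith) (by linarith))
  have d1 := dif_A H (mem_gset 5) l0 ldir (fun i hi => by
    have hi' : ¬ (i = 2 ∨ i = 5 ∨ i = 6) := fun h => hi ((G.g5 i).2 h)
    revert hi'
    fin_cases i <;> simp [vL])
  have d2 := dif_A H (mem_gset 5) lpos lall (fun i hi => by
    have hi' : ¬ (i = 2 ∨ i = 5 ∨ i = 6) := fun h => hi ((G.g5 i).2 h)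
    revert hi'
    fin_cases i <;> simp [vL])
  have e1 : φ (g 5) (vL x x x 0 0 0) = φ (g 5) (vL x x x x x x) :=
    H.loc _ _ _ fun i hi => by
      rcases (G.g5 i).1 hi with rfl | rfl | rfl <;> simp [vL]
  have e2 : φ (g 5) (vL x 0 0 0 0 0) = φ (g 5) (vL x 0 0 x x x) :=
    H.loc _ _ _ fun i hi => by
      rcases (G.g5 i).1 hi with rfl | rfl | rfl <;> simp [vL]
  rw [e1, e2] at d1
  linarith

include hh in
theorem num_fib {y : ℝ} (hy : 0 ≤ y) (hyx : y ≤ x) :
    (lam (cut {0, 3} (qv x y) T) - lam T) - (lam (cut {0, 3} (qv x x) T) - lam T) =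
      GF8.aN (φ (g 8)) * (x - y) := by
  rw [cutT hT, cutT hT, cut_qv, cut_qv]
  have lq : ∀ y, 0 ≤ y → y ≤ x → vL x 0 0 0 x y ∈ L := fun y h1 h2 =>
    G.leg _ (vL_wq le_rfl le_rfl (by linarith) (by linarith) (by linarith) (by linarith)
      (by linarith) (by linarith))
  have d1 := dif_A H (mem_gset 8) (lq x hx le_rfl) (lq y hy hyx) (fun i hi => by
    have hi' : ¬ (i = 4 ∨ i = 8 ∨ i = 10) := fun h => hi ((G.g8 i).2 h)
    revert hi'
    fin_cases i <;> simp [vL])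
  have d2 := (gf8_of H hh G).lin hy hyx (c := vL x 0 0 0 x y) (c' := vL x 0 0 0 x x) rfl rfl rfl
    rfl rfl rfl
  linarith

include hh in
theorem num_conc {y : ℝ} (hy : 0 ≤ y) (hyx : y ≤ x) :
    (lam (cut {0, 3} 0 T) - lam T) - (lam (cut {0, 3} (vec {5} y) T) - lam T) =
      -φ (g 5) (Pi.single 5 1) * y := by
  rw [cutT hT, cutT hT, cut_zero, cut_c]
  have l0 : vL x 0 0 0 0 0 ∈ L := G.leg _ (vL_wq le_rfl le_rfl (by linarith) (by linarith)
    (by linarith) (by linarith) (by linarith) (by linarith))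
  have lc : vL x 0 y 0 0 0 ∈ L :=
    G.leg _ (vL_wq hy le_rfl (by linarith) (by linarith) (by linarith) (by linarith)
      (by linarith) (by linarith))
  have d1 := dif_A H (mem_gset 5) lc l0 (fun i hi => by
    have hi' : ¬ (i = 2 ∨ i = 5 ∨ i = 6) := fun h => hi ((G.g5 i).2 h)
    revert hi'
    fin_cases i <;> simp [vL])
  have e0 : φ (g 5) (vL x 0 0 0 0 0) = 0 := H.zero _ _ fun i hi => by
    rcases (G.g5 i).1 hi with rfl | rfl | rfl <;> simp [vL]
  have l5 : (Pi.single 5 1 : Fin 11 → ℝ) ∈ L := G.leg _ (by constructor <;> simp)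
  have e1 : φ (g 5) (vL x 0 y 0 0 0) = y * φ (g 5) (Pi.single 5 1) := by
    rw [← hh _ G.dh5 _ l5 y hy]
    refine H.loc _ _ _ fun i hi => ?_
    rcases (G.g5 i).1 hi with rfl | rfl | rfl <;> simp [vL]
  linarith

theorem num_dens (hR : ∀ c c' : Fin 11 → ℝ, (∀ i, i ≠ 1 → c i = c' i) → lam c = lam c') :
    lam T ≤ lam (cut {0, 3} T 0) + lam (cut {0, 3} 0 T) := by
  have e0 : lam T = lam (vL x x x x x x) := hR _ _ fun i hi => by
    rw [hT i hi, ← top_vL]; simp [topL, hi]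
  have e1 : lam (cut {0, 3} T 0) = lam (vL 0 x x x x x) := hR _ _ fun i hi => by
    rw [← cut_lin]
    unfold cut
    split_ifs
    · rfl
    · rw [hT i hi]; simp [topL, hi]
  rw [e0, e1, cutT hT, cut_zero]
  have l0 : vL x 0 0 0 0 0 ∈ L := G.leg _ (vL_wq le_rfl le_rfl (by linarith) (by linarith)
    (by linarith) (by linarith) (by linarith) (by linarith))
  have lall : vL x x x x x x ∈ L := G.leg _ (vL_wq hx hx (by linarith) (by linarith)
    (by linarith) (by linarith) (by linarith) (by linarith))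
  have llin : vL 0 x x x x x ∈ L := G.leg _ (vL_wq hx hx (by linarith) (by linarith)
    (by linarith) (by linarith) (by linarith) (by linarith))
  have lz : (0 : Fin 11 → ℝ) ∈ L := G.leg _ (by constructor <;> simp)
  have hlz : lam 0 = 0 := by
    rw [H.sum 0 lz]
    exact Finset.sum_eq_zero fun k _ => H.zero k 0 fun i _ => rfl
  have hne : ∀ {i : Fin 11}, g i ≠ g 0 → i ≠ 0 ∧ i ≠ 3 := fun {i} hi =>
    ⟨fun h => hi (by rw [h]), fun h => hi (by rw [h, G.g3])⟩
  have d1 := dif_A H (mem_gset 0) llin lall (fun i hi => by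
    have hi' := hne hi
    revert hi'
    fin_cases i <;> simp [vL])
  have d2 := dif_A H (mem_gset 0) lz l0 (fun i hi => by
    have hi' := hne hi
    revert hi'
    fin_cases i <;> simp [vL])
  have hn8 : ∀ i, g i = g 0 → i = 0 ∨ i = 1 ∨ i = 3 := by
    intro i hi
    by_contra hcon
    push Not at hcon
    have h8 : ¬ (g 0 = g 8) := fun h => by
      have := (G.g8 0).1 h
      revert this; decide
    have h5 : ¬ (g 0 = g 5) := fun h => by
      have := (G.g5 0).1 h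
      revert this; decide
    have h7 : ¬ (g 0 = g 7) := fun h => by
      have := (G.g7 0).1 h
      revert this; decide
    have k8 : ¬ (i = 4 ∨ i = 8 ∨ i = 10) := fun h => h8 (hi.symm.trans ((G.g8 i).2 h))
    have k5 : ¬ (i = 2 ∨ i = 5 ∨ i = 6) := fun h => h5 (hi.symm.trans ((G.g5 i).2 h))
    have k7 : ¬ (i = 7 ∨ i = 9) := fun h => h7 (hi.symm.trans ((G.g7 i).2 h))
    revert hcon k8 k5 k7
    clear hi
    revert i
    decide
  have f1 : φ (g 0) (vL x x x x x x) = φ (g 0) (vL x 0 0 0 0 0) :=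
    H.loc _ _ _ fun i hi => by
      rcases hn8 i hi with rfl | rfl | rfl <;> simp [vL]
  have f2 : φ (g 0) (vL 0 x x x x x) = φ (g 0) 0 :=
    H.loc _ _ _ fun i hi => by
      rcases hn8 i hi with rfl | rfl | rfl <;> simp [vL]
  rw [f1, f2] at d1
  rw [hlz] at d2
  linarith

end

/-- additivity along the natural direction `(0, τ)` -/
theorem num_add (H : OutA g L a b dh n lam A φ r) (G : LGrpA g L a b dh) (τ : ℝ)
    (hL : Tn a b (0, τ) ∈ L) (hadd : ∀ c ∈ L, Tn a b (0, τ) + c ∈ L) {c : Fin 11 → ℝ}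
    (hc : c ∈ L) : lam (Tn a b (0, τ) + c) = lam (Tn a b (0, τ)) + lam c := by
  rw [H.sum _ (hadd c hc), H.sum _ hL, H.sum _ hc, ← Finset.sum_add_distrib]
  refine Finset.sum_congr rfl fun k _ => ?_
  by_cases h5 : k = g 5
  · subst h5; exact H.add _ G.dh5 _ c hc
  by_cases h8 : k = g 8
  · subst h8; exact H.add _ G.dh8 _ c hc
  by_cases h7 : k = g 7
  · subst h7; exact H.add _ G.dh7 _ c hc
  have hz : ∀ i, g i = k → Tn a b (0, τ) i = 0 := by
    intro i hi
    have k8 : ¬ (i = 4 ∨ i = 8 ∨ i = 10) := fun h => h8 (hi.symm.trans ((G.g8 i).2 h))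
    have k5 : ¬ (i = 2 ∨ i = 5 ∨ i = 6) := fun h => h5 (hi.symm.trans ((G.g5 i).2 h))
    have k7 : ¬ (i = 7 ∨ i = 9) := fun h => h7 (hi.symm.trans ((G.g7 i).2 h))
    have hi' : i = 0 ∨ i = 1 ∨ i = 3 := by
      revert k8 k5 k7
      clear hi
      revert i
      decide
    simp only [Tn]
    rcases hi' with rfl | rfl | rfl
    · rw [G.b0]; ring
    · rw [G.b1]; ring
    · rw [G.b3]; ring
  rw [H.zero k _ hz, zero_add]
  exact H.loc _ _ _ fun i hi => by rw [Pi.add_apply, hz i hi, zero_add]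

end Nums

/-! ### total losses -/

section Loss

open Crest.Agent.R136.Qg926 (cut)
open Crest.Agent.R136.Rgl501 (lv)

variable {κ : Type*} [DecidableEq κ] {g : Fin 11 → κ} {L : Set (Fin 11 → ℝ)} {a b dh : Fin 11 → ℝ}
  {n : κ → ℝ × ℝ} {lam : (Fin 11 → ℝ) → ℝ} {A : ℝ × ℝ} {φ : κ → (Fin 11 → ℝ) → ℝ} {r : κ → ℝ}
  {x : ℝ} {T : Fin 11 → ℝ}

theorem cut_lv (x m t : ℝ) : cut ({0, 3} : Finset (Fin 11)) (lv x m t) (topL x) =
    ![x, 0, x, x, x, x, x, t, x, t, m] := by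
  rw [cut_vL]; funext s; fin_cases s <;> simp [lv]

theorem lvv_wq {x m t : ℝ} (hx : 0 ≤ x) (ht : 0 ≤ t) (htx : t ≤ x) (hm : m ≤ x) :
    WqL (![x, 0, x, x, x, x, x, t, x, t, m] : Fin 11 → ℝ) := by
  constructor <;> simp only [Matrix.cons_val] <;> linarith

/-- total loss of `N`, everything else frozen -/
theorem num_loss (H : OutA g L a b dh n lam A φ r) (hh : Hom g L dh φ) (G : LGrpA g L a b dh)
    (hx : 0 ≤ x) (hT : ∀ s, s ≠ 1 → T s = x) :
    lam (cut {0, 3} (lv x 0 0) T) - lam (cut {0, 3} (lv x x 0) T) ≤ GF8.aN (φ (g 8)) * x := by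
  rw [cutT hT, cutT hT, cut_lv, cut_lv]
  have d1 := dif_A H (mem_gset 8) (G.leg _ (lvv_wq (x := x) (m := x) (t := 0) hx le_rfl hx le_rfl))
    (G.leg _ (lvv_wq (x := x) (m := 0) (t := 0) hx le_rfl hx hx)) (fun i hi => by
    have hi' : ¬ (i = 4 ∨ i = 8 ∨ i = 10) := fun h => hi ((G.g8 i).2 h)
    revert hi'
    fin_cases i <;> simp)
  have d2 := (gf8_of H hh G).lin_F hx (c := ![x, 0, x, x, x, x, x, 0, x, 0, 0])
    (c' := ![x, 0, x, x, x, x, x, 0, x, 0, x]) rfl rfl rfl rfl rfl rfl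
  linarith

/-- loss of `X_b` (with `P`), everything else frozen -/
theorem num_full (H : OutA g L a b dh n lam A φ r) (hh : Hom g L dh φ) (G : LGrpA g L a b dh)
    (hx : 0 ≤ x) (hT : ∀ s, s ≠ 1 → T s = x) {t : ℝ} (ht : 0 ≤ t) (htx : t ≤ x) :
    lam (cut {0, 3} (lv x x 0) T) - lam (cut {0, 3} (lv x x t) T) =
      -φ (g 7) (topL 1) * t := by
  rw [cutT hT, cutT hT, cut_lv, cut_lv]
  have d1 := dif_A H (mem_gset 7) (G.leg _ (lvv_wq (x := x) (m := x) (t := t) hx ht htx le_rfl))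
    (G.leg _ (lvv_wq (x := x) (m := x) (t := 0) hx le_rfl hx le_rfl)) (fun i hi => by
    have hi' : ¬ (i = 7 ∨ i = 9) := fun h => hi ((G.g7 i).2 h)
    revert hi'
    fin_cases i <;> simp)
  have e0 : φ (g 7) ![x, 0, x, x, x, x, x, 0, x, 0, x] = 0 := H.zero _ _ fun i hi => by
    rcases (G.g7 i).1 hi with rfl | rfl <;> simp
  have l1 : topL 1 ∈ L := by
    rw [top_vL]
    exact G.leg _ (vL_wq (by norm_num) (by norm_num) (by norm_num) (by norm_num)
      (by norm_num) (by norm_num) (by norm_num) (by norm_num))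
  have e1 : φ (g 7) ![x, 0, x, x, x, x, x, t, x, t, x] = t * φ (g 7) (topL 1) := by
    rw [← hh _ G.dh7 _ l1 t ht]
    refine H.loc _ _ _ fun i hi => ?_
    rcases (G.g7 i).1 hi with rfl | rfl <;> simp [topL]
  linarith

end Loss

end Crest.Agent.R136.WkL626
end

-- ▼ part R136/WkL3_626
section

/-!
# R136 (S0187): `C_a` is spread at interior points (helper626)

`conc_at` : supermodularity against the record point with the same angular exponents.
`conc_tan` : the same for a tangent at the interior point.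
-/

set_option autoImplicit false
set_option linter.unusedSectionVars false
set_option linter.unusedVariables false

open Filter Topology Set

namespace Crest.Agent.R136.WkL626

open Crest.Agent.R136.Dg219 (mem_gset)

/-- `C_a` -/
def e5 : Fin 11 → ℝ := Pi.single 5 1

/-- `C_a, X_a` -/
def e58 : Fin 11 → ℝ := ![0, 0, 0, 0, 0, 1, 0, 0, 1, 0, 0]


theorem e5_le : ∀ i, e5 i ≤ e58 i := by intro i; fin_cases i <;> simp [e5, e58]


theorem sum58 : ∑ i, (e58 i - e5 i) = 1 := by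
  simp [e58, e5, Fin.sum_univ_succ, Pi.single_apply]



/-- the rate of `C_a` in the group function -/
theorem num_m {κ : Type*} [DecidableEq κ] {g : Fin 11 → κ} {L : Set (Fin 11 → ℝ)}
    {a b dh : Fin 11 → ℝ} {n : κ → ℝ × ℝ} {lam : (Fin 11 → ℝ) → ℝ} {A : ℝ × ℝ}
    {φ : κ → (Fin 11 → ℝ) → ℝ} {r : κ → ℝ} (H : Rc146.OutA g L a b dh n lam A φ r)
    (hleg : ∀ c, WqL c → c ∈ L) {q1 : ℝ} (h : lam e5 ≤ -q1) :
    q1 ≤ -φ (g 5) (Pi.single 5 1) := by
  have lz : (0 : Fin 11 → ℝ) ∈ L := hleg _ (by constructor <;> simp)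
  have l5 : e5 ∈ L := hleg _ (by constructor <;> simp [e5])
  have d1 := dif_A H (mem_gset 5) lz l5 (fun i hi => by
    have hi' : i ≠ 5 := fun h => hi (by rw [h])
    simp [e5, hi'])
  have h0 : lam 0 = 0 := by
    rw [H.sum 0 lz]
    exact Finset.sum_eq_zero fun k _ => H.zero k 0 fun i _ => rfl
  rw [h0, H.zero (g 5) 0 (fun i _ => rfl)] at d1
  have e : φ (g 5) e5 = φ (g 5) (Pi.single 5 1) := rfl
  rw [← e]
  linarith

end Crest.Agent.R136.WkL626
end

-- ▼ part R136/C2e_355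
section

/-!
# R136, case (C2), F-half, part 5 (helper355): `C2D` from helper413's `AeW`

* `c2d_of_aew` : `AeW` on the plane `nL 1 0 0 κ`, `nL 0 1 σ σ` and the two sweeps at the point
  give `C2D` for any `T > 0` (window: helper400's `nm_of_wat`);
* `c2_ne` : `κ ≠ 1`: the slope is at most `-(4 + κ)`.
-/

set_option autoImplicit false
set_option linter.unusedVariables false
set_option linter.unusedSectionVars false

open Filter Topology

namespace Crest.Agent.R136.C2355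

open Finset Crest.Agent.R136.NetQ186 Crest.Agent.R136.Net191 Crest.Agent.R136.Qg926
open Crest.Agent.R136.Gf356 Crest.Agent.R136.Ev356 Crest.Agent.R136.Aw413
open Crest.Agent.R136.Wq400 Crest.Agent.R136.Fe1355
open Crest.Agent.R136.C2w400 Crest.Agent.R136.Dg219
open Crest.Agent.R136.NatR550 (coneN nL)
open Crest.Agent.R138.Ex926 (Base U)

theorem bvT_v11 (T e fa ca cb p xa xb n : ℝ) :
    bvT T e fa ca cb p xa xb n = v11 T T e fa ca cb p xa xb n := by
  unfold bvT v11; rfl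

section

variable {ι : ℕ → Type*} [∀ n, DecidableEq (ι n)] {B Bo : Base}
  {I J : ∀ n, Finset (ι n)} {co : ∀ n, ι n → ι n → Fin 11 → ℝ} {Ma : Mons 11} {C : ℝ}
  {lam : (Fin 11 → ℝ) → ℝ} {κ σ : ℝ} {A : ℝ × ℝ} {φ : ℕ → (Fin 11 → ℝ) → ℝ} {r : ℕ → ℝ}
  {κv : Fin 11 → ℝ} {V Tw : Fin 11 → Prop} {f : ∀ n, ι n → Fq4}

/-- `z, F_b` are a group -/
theorem gr_S {g : Fin 11 → ℕ} (h : Gr κ σ g) : ∀ i j, g i = g j →
    i ∈ ({0, 3} : Finset (Fin 11)) → j ∈ ({0, 3} : Finset (Fin 11)) := by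
  intro i j hij hi
  have hi' : g i = g 0 := by
    rcases Finset.mem_insert.1 hi with rfl | hi
    · rfl
    · rw [Finset.mem_singleton.1 hi]; exact h.e03.symm
  rw [hi'] at hij
  have key : ∀ j : Fin 11, g 0 = g j → j = 0 ∨ j = 3 := by
    intro j hj
    fin_cases j
    · left; rfl
    · exact absurd (hj.trans h.z1) h.n0
    · exact absurd (hj.trans h.z2) h.n0
    · right; rfl
    · exact absurd hj h.n04
    · exact absurd (hj.trans h.z5) h.n0
    · exact absurd (hj.trans h.z6) h.n0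
    · exact absurd hj h.n07
    · exact absurd hj h.n08
    · exact absurd hj h.n09
    · exact absurd hj h.n010
  rcases key j hij with rfl | rfl <;> decide

/-- **`C2D` from `AeW`** -/
theorem c2d_of_aew {T : ℝ} (hT : 0 < T) (hκ : 0 < κ) (hσ : σ ≠ 0) (hσ1 : σ ≠ 1)
    (h : AeW B Bo I J co monQ Ma C lam (nL 1 0 0 κ) (nL 0 1 σ σ) A φ r 0 1 κv V Tw)
    (hcone : coneM Ma = coneN)
    (hco : ∀ n, ∀ i ∈ I n, ∀ j ∈ I n, co n i j = coQ (f n i) (f n j))
    (hne : ∀ᶠ n in (U : Filter ℕ), (J n).Nonempty)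
    (hV : ∀ k, V k → k = 0 ∨ k = 3) (hT3 : Tw 3) {c : ℝ} (hc : 0 < c)
    (S1 : ∀ x : ℝ, 0 ≤ x → x ≤ T → c * x ≤ lam 0 - lam (Pi.single 5 x))
    (S2 : ∀ x : ℝ, 0 ≤ x → x ≤ T → c * x ≤ lam 0 - lam (Pi.single 2 x + Pi.single 6 x)) :
    ∃ (B' : Base) (G : ℕ → RCfg (Fin 11)) (Leg : Set (Fin 11 → ℝ)) (ν : (Fin 11 → ℝ) → ℝ)
      (D : ℝ) (F : ℕ → ℕ → ℝ) (L0 : ℝ),
      C2D κ σ T lam A φ r B' G Leg ν D F c L0 ∧
      ∀ᶠ n in (U : Filter ℕ), ∀ k ∈ (G n).Z, |(G n).z k| ≤ 1 ∧ |F n k| ≤ 1 := by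
  have hsub := h.sub
  have hM := maQ_of_cone hsub hcone
  have hg := gr hκ hσ hσ1
  set K : ℝ := max 1 (cK0 monQ C) with hK
  have hK1 : (1 : ℝ) ≤ K := le_max_left _ _
  have hK0 : 0 < K := by linarith
  have hst := stQ_ok (Ma := Ma) sok_b hK0 hT.le hsub
  obtain ⟨W, hW, -, -⟩ := h.wnd (stQ {0, 3} K T Ma) rfl hst (fun _ _ => 1)
    (fun _ => Base.Sub.const one_pos) J (fun _ => 1)
    (Eventually.of_forall fun n => Finset.Subset.refl _) hne (Base.Sub.const one_pos)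
    (Eventually.of_forall fun n => by rw [one_mul])
  have hone : ∀ y : ℝ, 0 ≤ y → (Pi.single 0 y : Fin 11 → ℝ) ∈ coneM Ma := by
    intro y hy; rw [hcone]; exact m_0 hy
  have hden := h.dens (st := stQ {0, 3} K T Ma) rfl hst (gr_S hg) zero_le_one le_rfl (R := T)
    le_rfl (fun y hy _ => hone y hy)
  obtain ⟨E', hNM, hbd, htw⟩ := nm_of_wat hW hco hM hsub (le_max_right _ _) hT hV hT3
    hden.dens (fun y hy hy1 => by
      have := hden.frost y hy hy1
      rw [one_mul] at this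
      exact this)
  have hw := winB_of_wat hW hM hsub (le_max_right _ _) hT
  have elam := hW.elam
  refine ⟨W.B', W.cfg E', W.legW, W.nu, W.Dc, fun n k => flg W n k 3, lam fun _ => T, ?_, hbd⟩
  exact
    { hκ := hκ
      hσ := hσ
      hσ1 := hσ1
      out := by rw [← hcone]; exact h.out
      zero := h.zero
      anti := by rw [← hcone]; exact h.anti
      sharp := by rw [← hcone]; exact h.sharp
      submod := by rw [← hcone]; exact h.submod
      own := fun u hu => by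
        have h1 := h.own 0 zero_mem (Pi.single 0 u) (hone u hu) (fun s => by
            by_cases hs : s = 0
            · subst hs; simpa using hu
            · rw [Pi.single_eq_of_ne hs]; exact le_rfl) (fun k _ => by simp)
        simp only [Pi.single_eq_same, Pi.zero_apply, sub_zero, one_mul] at h1
        exact h1
      nm := hNM
      tw := htw
      hν := fun e fa ca cb p xa xb n => by
        rw [nu_bv hw, elam, bvT_v11]
      hc := hc
      S1 := S1
      S2 := S2 }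


end

end Crest.Agent.R136.C2355
end

-- ▼ part R136/Rgl4_480
section

/-!
# R136 (helper480): a slot with vanishing coordinate is invisible

* `nu_slot` : the chart coordinate of the slot `j` vanishes on `I` ⊢ the profile does not depend on
  the slot `j`;
* `tan_slot` : the same for tangents (`IsTan`), also for tangents of tangents.
-/

set_option autoImplicit false
set_option linter.unusedSectionVars false
set_option linter.unusedVariables false

open Filter Topology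

namespace Crest.Agent.R136.Rgl480

open Finset Crest.Agent.R138.Ex926 Crest.Agent.R136.Net191 Crest.Agent.R136.Gf356
open Crest.Agent.R136.Qg926

variable {m : ℕ} {ι : ℕ → Type*} [∀ n, DecidableEq (ι n)]

/-- the relation `Near` does not see the slot `j` -/
theorem near_slot {ι : Type*} {I : Finset ι} {co : ι → ι → Fin m → ℝ} {d K : ℝ} (hd : 0 < d)
    (hK : 0 ≤ K) {j : Fin m} (h0 : ∀ a ∈ I, ∀ b ∈ I, co a b j = 0) {p q : Fin m → ℝ}
    (hpq : ∀ i, i ≠ j → p i = q i) {a b : ι} (ha : a ∈ I) (hb : b ∈ I)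
    (h : Near co d p K a b) : Near co d q K a b := by
  intro k
  by_cases hk : k = j
  · subst hk
    rw [h0 a ha b hb, abs_zero]
    exact mul_nonneg hK (Real.rpow_nonneg hd.le _)
  · rw [← hpq k hk]
    exact h k

/-- one half -/
theorem nu_slot_le {B : Base} {I J : ∀ n, Finset (ι n)} {co : ∀ n, ι n → ι n → Fin m → ℝ}
    {M : Mons m} {C : ℝ} {P : Set (Fin m → ℝ)} {ν : (Fin m → ℝ) → ℝ}
    (h : ∀ n, Chart (I n) (co n) M C) (hP : ∀ p ∈ P, Legal M p)
    (hsub : ∀ᶠ n in (U : Filter ℕ), J n ⊆ I n) (hne : ∀ᶠ n in (U : Filter ℕ), (J n).Nonempty)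
    (hν : QProf B J (nlab B I co M C) P ν) {j : Fin m}
    (h0 : ∀ n, ∀ a ∈ I n, ∀ b ∈ I n, co n a b j = 0) {p q : Fin m → ℝ} (hp : p ∈ P) (hq : q ∈ P)
    (hpq : ∀ i, i ≠ j → p i = q i) : ν p ≤ ν q := by
  classical
  have hK : 1 ≤ cK0 M C := cK0_one (h 0).C0
  refine le_of_forall_pos_le_add fun ε hε => ?_
  have hε2 : 0 < ε / 2 := by positivity
  obtain ⟨n, h1, h2, h3, h4⟩ := ((hν.ev_big hne hε2).and
    ((prof_near_up h hP hsub hν hK hε2).and (hsub.and hne))).exists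
  obtain ⟨i, hi, hbig⟩ := h1 p hp
  have hsub' : cls (J n) (nlab B I co M C n p) i ⊆
      (J n).filter fun l => Near (co n) (B.d n) q (cK0 M C) i l := by
    intro l hl
    obtain ⟨hlJ, hli⟩ := mem_cls.1 hl
    rw [mem_filter]
    exact ⟨hlJ, near_slot (B.pos n) (by linarith) (h0 n) hpq (h3 hi) (h3 hlJ)
      (near_of_nlab h (hP p hp) (h3 hi) (h3 hlJ) hli.symm)⟩
  have h5 := h2 q hq i (h3 hi)
  have h6 : ((cls (J n) (nlab B I co M C n p) i).card : ℝ) ≤ B.d n ^ (-(ν q + ε / 2)) := by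
    refine le_trans ?_ h5
    exact_mod_cast card_le_card hsub'
  have hA1 : (1 : ℝ) ≤ (cls (J n) (nlab B I co M C n p) i).card := cls_card_pos hi
  rw [← B.exp_eq] at h6
  have e2 := Real.log_le_log (by linarith) h6
  rw [Real.log_exp] at e2
  have hL := B.L_pos n
  have e3 : ν p * B.L n ≤ (ν q + ε) * B.L n := by nlinarith
  exact le_of_mul_le_mul_right e3 hL

/-- **a slot with vanishing coordinate is invisible** -/
theorem nu_slot {B : Base} {I J : ∀ n, Finset (ι n)} {co : ∀ n, ι n → ι n → Fin m → ℝ}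
    {M : Mons m} {C R : ℝ} {ν : (Fin m → ℝ) → ℝ} (h : NProf B I J co M C R ν) {j : Fin m}
    (h0 : ∀ n, ∀ a ∈ I n, ∀ b ∈ I n, co n a b j = 0) {p q : Fin m → ℝ} (hp : p ∈ Leg M R)
    (hq : q ∈ Leg M R) (hpq : ∀ i, i ≠ j → p i = q i) : ν p = ν q :=
  le_antisymm
    (nu_slot_le h.chart (fun p hp => hp.1) h.sub h.ne h.prof h0 hp hq hpq)
    (nu_slot_le h.chart (fun p hp => hp.1) h.sub h.ne h.prof h0 hq hp
      fun i hi => (hpq i hi).symm)

/-- **the same for tangents**: `ν` does not see `j` on `P` ⊢ `lam` does not see `j` -/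
theorem tan_slot {P L : Set (Fin m → ℝ)} {ν lam : (Fin m → ℝ) → ℝ} {x : ℕ → Fin m → ℝ}
    {k : ℕ → ℝ} (hk : ∀ l, 0 < k l) (ht : IsTan P L ν x k lam) {j : Fin m}
    (hν : ∀ p ∈ P, ∀ q ∈ P, (∀ i, i ≠ j → p i = q i) → ν p = ν q) {c c' : Fin m → ℝ}
    (hc : c ∈ L) (hc' : c' ∈ L) (hcc : ∀ i, i ≠ j → c i = c' i) : lam c = lam c' := by
  have key : ∀ d ∈ L, ∀ d' ∈ L, (∀ i, i ≠ j → d i = d' i) → lam d ≤ lam d' := by
    intro d hd d' hd' hdd
    refine le_of_forall_pos_le_add fun ε hε => ?_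
    obtain ⟨l, ⟨m1, h1⟩, ⟨m2, h2⟩⟩ := ((ht.ev hd (ε := ε / 2) (by positivity)).and
      (ht.ev hd' (ε := ε / 2) (by positivity))).exists
    have h3 := hν _ m1 _ m2 fun i hi => by
      simp only [Pi.add_apply, Pi.smul_apply, smul_eq_mul]
      rw [hdd i hi]
    have hkl := hk l
    rw [abs_le] at h1 h2
    rw [h3] at h1
    have h4 : k l * lam d ≤ k l * (lam d' + ε) := by nlinarith [h1.1, h1.2, h2.1, h2.2]
    exact le_of_mul_le_mul_left h4 hkl
  exact le_antisymm (key c hc c' hc' hcc) (key c' hc' c hc fun i hi => (hcc i hi).symm)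

end Crest.Agent.R136.Rgl480
end

-- ▼ part R136/Rgl5_480
section

/-!
# R136 (helper480), T.L (A), part 1: homogeneous interior tangents of the lightlike surface

Plane `z.1 • tM + z.2 • eN` (`tM` = natural ray with the slot `R` moving along).

* `lightF_of` : rate of `N` given `X_a` is `< 1` ⊢ `LightF`;
* `slope_of` : rate `1` ⊢ slope `≤ -5`.
-/

set_option autoImplicit false
set_option linter.unusedSectionVars false
set_option linter.unusedVariables false

open Filter Topology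

namespace Crest.Agent.R136.Rgl480

open Crest.Agent.R136.Dg219 (gC dhC nC Tn lf gset OutS dirC gC_eq gC_zero mem_gset)
open Crest.Agent.R136.Rc146 (OutA)
open Crest.Agent.R136.WkL626
open Crest.Agent.R136.Gau66 (eN tN cu LightF)
open Crest.Agent.R136.NatR550 (coneN nL)
open Crest.Agent.R136.Qg926 (cut)
open Crest.Agent.R136.Rgl501 (lv)
open Crest.Agent.R136.Wk323 (vec fAll fPos fDir qv)
open Crest.Agent.R136.C2355 (v11 v11_mem v11_zero v11_le)

/-- natural ray, the slot `R` moves along -/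
def tM : Fin 11 → ℝ := ![1, 1, 0, 1, 1, 0, 0, 1, 1, 1, 2]

theorem wqL_iff {c : Fin 11 → ℝ} : WqL c ↔ c ∈ coneN :=
  ⟨fun h => ⟨h.1, h.2, h.3, h.4, h.5, h.6, h.7, h.8, h.9, h.10⟩,
    fun ⟨h1, h2, h3, h4, h5, h6, h7, h8, h9, h10⟩ => ⟨h1, h2, h3, h4, h5, h6, h7, h8, h9, h10⟩⟩

theorem g_iff (i j : Fin 11) : gC tM eN i = gC tM eN j ↔ (tM i = 0 ∧ tM j = 0) ∨
    (tM i ≠ 0 ∧ tM j ≠ 0 ∧ eN i / tM i = eN j / tM j) := by
  by_cases hi : tM i = 0
  · rw [gC_zero.2 hi]
    constructor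
    · intro h
      exact Or.inl ⟨hi, gC_zero.1 h.symm⟩
    · rintro (⟨-, h⟩ | ⟨h, -⟩)
      · rw [gC_zero.2 h]
      · exact absurd hi h
  · by_cases hj : tM j = 0
    · constructor
      · intro h
        rw [gC_zero.2 hj] at h
        exact absurd (gC_zero.1 h) hi
      · rintro (⟨h, -⟩ | ⟨-, h, -⟩)
        · exact absurd h hi
        · exact absurd hj h
    · rw [gC_eq hi hj]
      constructor
      · intro h; exact Or.inr ⟨hi, hj, h⟩
      · rintro (⟨h, -⟩ | ⟨-, -, h⟩)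
        · exact absurd h hi
        · exact h

theorem dhM (i : Fin 11) : 0 < dhC tM eN i := by
  fin_cases i <;> simp [dhC, tM, eN]

/-- **the groups** -/
theorem grpM : LGrpA (gC tM eN) coneN tM eN (dhC tM eN) where
  leg := fun c h => wqL_iff.1 h
  g8 := fun i => by
    rw [g_iff, show tM 8 = 1 from rfl, show eN 8 = 1 from rfl]
    fin_cases i <;> norm_num [tM, eN, Fin.ext_iff]
  g5 := fun i => by
    rw [g_iff, show tM 5 = 0 from rfl, show eN 5 = 1 from rfl]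
    fin_cases i <;> norm_num [tM, eN, Fin.ext_iff]
  g7 := fun i => by
    rw [g_iff, show tM 7 = 1 from rfl, show eN 7 = 2 from rfl]
    fin_cases i <;> norm_num [tM, eN, Fin.ext_iff]
  g3 := by
    rw [g_iff, show tM 3 = 1 from rfl, show eN 3 = 0 from rfl, show tM 0 = 1 from rfl,
      show eN 0 = 0 from rfl]
    norm_num
  dh8 := fun i _ => dhM i
  dh5 := fun i _ => dhM i
  dh7 := fun i _ => dhM i
  a4 := rfl
  a8 := rfl
  a10 := rfl
  b0 := rfl
  b1 := rfl
  b3 := rfl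

/-- only the values on the cone matter -/
theorem outA_congr {κ : Type*} [DecidableEq κ] {g : Fin 11 → κ} {L : Set (Fin 11 → ℝ)}
    {a b dh : Fin 11 → ℝ} {n : κ → ℝ × ℝ} {lam lam' : (Fin 11 → ℝ) → ℝ} {A : ℝ × ℝ}
    {φ : κ → (Fin 11 → ℝ) → ℝ} {r : κ → ℝ} (H : OutA g L a b dh n lam A φ r)
    (h : ∀ c ∈ L, lam' c = lam c) : OutA g L a b dh n lam' A φ r :=
  { toOutS := { H.toOutS with sum := fun c hc => by rw [h c hc]; exact H.sum c hc }
    add := H.add
    smods := H.smods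
    der := H.der }

/-- **homogeneous tangent at an interior point of the lightlike surface** -/
structure HT (lam : (Fin 11 → ℝ) → ℝ) (A : ℝ × ℝ) (φ : ℕ → (Fin 11 → ℝ) → ℝ) (r : ℕ → ℝ)
    (m : ℝ) : Prop where
  out : OutA (gC tM eN) coneN tM eN (dhC tM eN) (nC tM eN) lam A φ r
  hom : Hom (gC tM eN) coneN (dhC tM eN) φ
  slot : ∀ c ∈ coneN, ∀ c' ∈ coneN, (∀ i, i ≠ 1 → c i = c' i) → lam c = lam c'
  frost : ∀ y, 0 ≤ y → lam (Pi.single 0 y) ≤ -y
  m0 : 0 < m
  ca : lam e5 ≤ -m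
  /-- `X_a` full -/
  xa : 1 ≤ lam (v11 1 1 0 0 0 0 0 0 0 0) - lam (v11 1 1 0 0 0 0 0 1 0 0)
  /-- `X_b` full -/
  xb : ∃ δ : ℝ, 0 < δ ∧ δ ≤ 1 ∧ δ ≤ lam (v11 1 1 δ 0 0 0 0 0 0 0) - lam (v11 1 1 δ 0 0 0 0 0 δ 0)

namespace HT

variable {lam : (Fin 11 → ℝ) → ℝ} {A : ℝ × ℝ} {φ : ℕ → (Fin 11 → ℝ) → ℝ} {r : ℕ → ℝ} {m : ℝ}

/-- rate of `N` given `X_a` -/
noncomputable def aN (φ : ℕ → (Fin 11 → ℝ) → ℝ) : ℝ := GF8.aN (φ (gC tM eN 8))

theorem topL_mem {x : ℝ} (hx : 0 ≤ x) : topL x ∈ coneN := by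
  rw [top_vL]
  exact wqL_iff.1 (vL_wq hx hx (by linarith) (by linarith) (by linarith) (by linarith)
    (by linarith) (by linarith))

theorem full7 (H : HT lam A φ r m) : φ (gC tM eN 7) (topL 1) ≤ -1 := by
  obtain ⟨δ, hδ, hδ1, h⟩ := H.xb
  have m1 : v11 1 1 δ 0 0 0 0 0 0 0 ∈ coneN := by apply v11_mem <;> linarith
  have m2 : v11 1 1 δ 0 0 0 0 0 δ 0 ∈ coneN := by apply v11_mem <;> linarith
  have d1 := dif_A H.out (mem_gset 7) m1 m2 (fun i hi => by
    have hi' : ¬ (i = 7 ∨ i = 9) := fun h => hi ((grpM.g7 i).2 h)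
    revert hi'
    fin_cases i <;> simp [v11])
  have e0 : φ (gC tM eN 7) (v11 1 1 δ 0 0 0 0 0 0 0) = 0 := H.out.zero _ _ fun i hi => by
    rcases (grpM.g7 i).1 hi with rfl | rfl <;> simp [v11]
  have e1 := (H.out.mono (gC tM eN 7) _ m2 (δ • topL 1) (by
    rw [show δ • topL 1 = topL δ by funext i; simp [topL]]
    exact topL_mem hδ.le) fun i hi => by
      rcases (grpM.g7 i).1 hi with rfl | rfl <;> simp [v11, topL, hδ.le]).1
  rw [H.hom _ grpM.dh7 _ (topL_mem zero_le_one) δ hδ.le] at e1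
  have e2 : δ * φ (gC tM eN 7) (topL 1) ≤ δ * -1 := by linarith
  exact le_of_mul_le_mul_left e2 hδ

theorem aN_nonneg (H : HT lam A φ r m) : 0 ≤ aN φ := by
  have w : ∀ y : ℝ, 0 ≤ y → y ≤ 1 → vN 4 1 0 y ∈ coneN := fun y h0 h1 =>
    wqL_iff.1 (GF8.wq1 ⟨h0, h1⟩)
  exact (H.out.mono (gC tM eN 8) _ (w 0 le_rfl zero_le_one) _ (w 1 zero_le_one le_rfl)
    fun i hi => by rcases (grpM.g8 i).1 hi with rfl | rfl | rfl <;> simp [vN]).1

theorem tn_eq (τ : ℝ) : Tn tM eN (0, τ) = τ • eN := by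
  funext i; simp [Tn, mul_comm]

theorem en_mem (τ : ℝ) : τ • eN ∈ coneN := by
  refine ⟨?_, ?_, ?_, ?_, ?_, ?_, ?_, ?_, ?_, ?_⟩ <;> simp [eN] <;> linarith

theorem cn_add' {c d : Fin 11 → ℝ} (hc : c ∈ coneN) (hd : d ∈ coneN) : c + d ∈ coneN := by
  obtain ⟨h1, h2, h3, h4, h5, h6, h7, h8, h9, h10⟩ := hc
  obtain ⟨k1, k2, k3, k4, k5, k6, k7, k8, k9, k10⟩ := hd
  refine ⟨?_, ?_, ?_, ?_, ?_, ?_, ?_, ?_, ?_, ?_⟩ <;> simp only [Pi.add_apply] <;> linarith

/-- **rate of `N` less than `1`** ⊢ all numbers of an interior tangent -/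
theorem lightF (H : HT lam A φ r m) (ha : aN φ < 1) : LightF coneN lam (aN φ) m := by
  have hT : ∀ x : ℝ, ∀ s, s ≠ 1 → topL x s = x := fun x s hs => by simp [topL, hs]
  refine ⟨H.aN_nonneg, ha, H.m0, ?_, H.frost, ?_, ?_, ?_, ?_, ?_, ?_, H.slot⟩
  · intro x hx
    set lam' : (Fin 11 → ℝ) → ℝ := fun c => lam (Function.update c 1 0) with hlam
    have hu : ∀ c ∈ coneN, Function.update c 1 0 ∈ coneN := by
      rintro c ⟨h1, h2, h3, h4, h5, h6, h7, h8, h9, h10⟩
      exact ⟨h1, h2, h3, h4, h5, h6, h7, h8, h9, h10⟩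
    have H' := outA_congr (lam' := lam') H.out fun c hc => H.slot _ (hu c hc) _ hc fun i hi => by
      simp [hi]
    have key := num_dens H' grpM hx (hT x) fun c c' h => by
      simp only [hlam]
      congr 1
      funext i
      by_cases hi : i = 1
      · subst hi; simp
      · simp [hi, h i hi]
    have e : ∀ c : Fin 11 → ℝ, c 1 = 0 → lam' c = lam c := fun c hc => by
      simp only [hlam]
      congr 1
      rw [← hc]; exact Function.update_eq_self _ _
    rw [e _ (by simp [topL]), e _ (by simp [topL, cut]), e _ (by simp [cut])] at key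
    exact key
  · intro x t ht htx
    have h1 := num_full H.out H.hom grpM (ht.trans htx) (hT x) ht htx
    have h2 := H.full7
    have h3 : t * 1 ≤ t * -φ (gC tM eN 7) (topL 1) :=
      mul_le_mul_of_nonneg_left (by linarith) ht
    unfold cu
    linarith
  · intro x hx
    exact num_loss H.out H.hom grpM hx (hT x)
  · intro x hx
    have h1 := num_dec H.out grpM hx (hT x)
    unfold cu
    linarith
  · intro x y hy hyx
    have h1 := num_fib H.out H.hom grpM (hy.trans hyx) (hT x) hy hyx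
    unfold cu aN
    linarith
  · intro x y hy hyx
    have h1 := num_conc H.out H.hom grpM (hy.trans hyx) (hT x) hy hyx
    have h2 := num_m H.out (fun c h => wqL_iff.1 h) H.ca
    have h3 := mul_le_mul_of_nonneg_right h2 hy
    unfold cu
    linarith
  · intro τ c hc
    have h1 := num_add H.out grpM τ (by rw [tn_eq]; exact en_mem τ)
      (fun c hc => by rw [tn_eq]; exact cn_add' (en_mem τ) hc) hc
    rwa [tn_eq] at h1

theorem tM_mem (u : ℝ) : u • tM ∈ coneN := by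
  refine ⟨?_, ?_, ?_, ?_, ?_, ?_, ?_, ?_, ?_, ?_⟩ <;> simp [tM] <;> linarith

/-- rates -/
theorem rate_T (H : HT lam A φ r m) (i : Fin 11) (hi : tM i ≠ 0) (u : ℝ) :
    φ (gC tM eN i) (u • tM) = -(r (gC tM eN i) * u) :=
  H.out.rate _ _ (tM_mem u) u fun j hj => by
    have hj' : tM j ≠ 0 := by
      intro h0
      rw [gC_zero.2 h0] at hj
      exact hi (gC_zero.1 hj.symm)
    simp [dhC, hj']

theorem r_nonneg (H : HT lam A φ r m) (k : ℕ) : 0 ≤ r k := H.out.r_nonneg k fun i _ => dhM i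

theorem lam_zero (H : HT lam A φ r m) : lam 0 = 0 := by
  rw [H.out.sum 0 (by rw [← v11_zero]; apply v11_mem <;> linarith)]
  exact Finset.sum_eq_zero fun k _ => H.out.zero k 0 fun i _ => rfl

theorem r0 (H : HT lam A φ r m) : 1 ≤ r (gC tM eN 0) := by
  have h1 := H.rate_T 0 (by simp [tM]) 1
  rw [one_smul, mul_one] at h1
  have m0 : (0 : Fin 11 → ℝ) ∈ coneN := by rw [← v11_zero]; apply v11_mem <;> linarith
  have m1 : (Pi.single 0 1 : Fin 11 → ℝ) ∈ coneN := C2355.m_0 zero_le_one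
  have h2 := (H.out.mono (gC tM eN 0) _ m1 tM (by rw [← one_smul ℝ tM]; exact tM_mem 1)
    fun i hi => by
      by_cases h0 : i = 0
      · subst h0; simp [tM]
      · rw [Pi.single_eq_of_ne h0]
        fin_cases i <;> simp [tM]).1
  have d1 := dif_A H.out (mem_gset 0) m0 m1 (fun i hi => by
    have hi' : i ≠ 0 := fun h => hi (by rw [h])
    simp [hi'])
  have h3 := H.frost 1 zero_le_one
  have h4 : φ (gC tM eN 0) 0 = 0 := H.out.zero _ _ fun i _ => rfl
  rw [H.lam_zero, h4] at d1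
  linarith

theorem r7 (H : HT lam A φ r m) : 1 ≤ r (gC tM eN 7) := by
  have h1 := H.rate_T 7 (by simp [tM]) 1
  rw [one_smul, mul_one] at h1
  have h2 : φ (gC tM eN 7) tM = φ (gC tM eN 7) (topL 1) := H.out.loc _ _ _ fun i hi => by
    rcases (grpM.g7 i).1 hi with rfl | rfl <;> simp [tM, topL]
  have h3 := H.full7
  linarith

/-- **`N` full given `X_a`** ⊢ the rate of `{F_a, X_a, N}` is at least `3` -/
theorem r8 (H : HT lam A φ r m) (ha : 1 ≤ aN φ) : 3 ≤ r (gC tM eN 8) := by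
  set k := gC tM eN 8 with hk
  have m0 : (0 : Fin 11 → ℝ) ∈ coneN := by rw [← v11_zero]; apply v11_mem <;> linarith
  -- `X_a` full
  have ma : v11 1 1 0 0 0 0 0 0 0 0 ∈ coneN := by apply v11_mem <;> linarith
  have mb : v11 1 1 0 0 0 0 0 1 0 0 ∈ coneN := by apply v11_mem <;> linarith
  have d1 := dif_A H.out (mem_gset 8) ma mb (fun i hi => by
    have hi' : ¬ (i = 4 ∨ i = 8 ∨ i = 10) := fun h => hi ((grpM.g8 i).2 h)
    revert hi'
    fin_cases i <;> simp [v11])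
  have e1 : φ k (v11 1 1 0 0 0 0 0 0 0 0) = 0 := H.out.zero _ _ fun i hi => by
    rcases (grpM.g8 i).1 hi with rfl | rfl | rfl <;> simp [v11]
  have e2 : φ k (v11 1 1 0 0 0 0 0 1 0 0) = φ k (vN 4 1 0 0) := H.out.loc _ _ _ fun i hi => by
    rcases (grpM.g8 i).1 hi with rfl | rfl | rfl <;> simp [v11, vN]
  have h1 := H.xa
  have h2 : φ k (vN 4 1 0 0) - φ k (vN 4 1 0 1) = aN φ := rfl
  -- the half step
  set c : Fin 11 → ℝ := v11 1 0 0 (-(1 / 2)) 1 1 0 (1 / 2) 0 0 with hc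
  set c0 : Fin 11 → ℝ := v11 1 0 0 0 1 1 0 (1 / 2) 0 0 with hc0
  have mc : c ∈ coneN := by rw [hc]; apply v11_mem <;> linarith
  have mc0 : c0 ∈ coneN := by rw [hc0]; apply v11_mem <;> linarith
  have h3 := H.out.add k grpM.dh8 (1 / 2, 0) c mc
  have e3 : Tn tM eN (1 / 2, 0) = (1 / 2 : ℝ) • tM := by funext i; simp [Tn, mul_comm]
  rw [e3] at h3
  have h4 := H.rate_T 8 (by simp [tM]) (1 / 2)
  have e4 : φ k ((1 / 2 : ℝ) • tM + c) = φ k (vN 4 1 0 1) := H.out.loc _ _ _ fun i hi => by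
    rcases (grpM.g8 i).1 hi with rfl | rfl | rfl <;>
      simp only [hc, v11, vN, tM, Pi.add_apply, Pi.smul_apply, smul_eq_mul, Matrix.cons_val] <;>
      norm_num
  have h5 := (H.out.mono k c mc c0 mc0 fun i hi => by
    rcases (grpM.g8 i).1 hi with rfl | rfl | rfl <;>
      simp only [hc, hc0, v11, Matrix.cons_val] <;> norm_num).1
  have h6 := (H.out.mono k 0 m0 c0 mc0 fun i hi => by
    rcases (grpM.g8 i).1 hi with rfl | rfl | rfl <;>
      simp only [hc0, v11, Pi.zero_apply, Matrix.cons_val] <;> norm_num).2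
  rw [sum_f8 grpM] at h6
  have e6 : (c0 4 - (0 : Fin 11 → ℝ) 4) + (c0 8 - (0 : Fin 11 → ℝ) 8) +
      (c0 10 - (0 : Fin 11 → ℝ) 10) = 1 / 2 := by
    simp only [hc0, v11, Pi.zero_apply, Matrix.cons_val]; norm_num
  rw [e6, H.out.zero k 0 fun i _ => rfl] at h6
  change φ k ((1 / 2 : ℝ) • tM) = -(r k * (1 / 2)) at h4
  linarith

/-- **rate `1`** ⊢ the slope of the ray -/
theorem slope (H : HT lam A φ r m) (ha : 1 ≤ aN φ) : A.1 ≤ -5 := by
  have h0 := H.r0
  have h7 := H.r7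
  have h8 := H.r8 ha
  have ht := H.out.total (1, 0)
  have e1 : lf A (1, 0) = A.1 := by simp [lf]
  rw [e1] at ht
  have hne : ∀ i j : Fin 11, tM i ≠ 0 → tM j ≠ 0 → eN i / tM i ≠ eN j / tM j →
      gC tM eN i ≠ gC tM eN j := fun i j hi hj h e => h ((gC_eq hi hj).1 e)
  have n08 := hne 0 8 (by simp [tM]) (by simp [tM]) (by
    simp only [tM, eN, Matrix.cons_val]; norm_num)
  have n07 := hne 0 7 (by simp [tM]) (by simp [tM]) (by
    simp only [tM, eN, Matrix.cons_val]; norm_num)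
  have n78 := hne 7 8 (by simp [tM]) (by simp [tM]) (by
    simp only [tM, eN, Matrix.cons_val]; norm_num)
  have key : ∑ k ∈ ({gC tM eN 0, gC tM eN 7, gC tM eN 8} : Finset ℕ),
      r k * lf (nC tM eN k) (1, 0) ≤ ∑ k ∈ gset (gC tM eN), r k * lf (nC tM eN k) (1, 0) := by
    refine Finset.sum_le_sum_of_subset_of_nonneg ?_ ?_
    · intro k hk
      simp only [Finset.mem_insert, Finset.mem_singleton] at hk
      rcases hk with rfl | rfl | rfl <;> exact mem_gset _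
    · intro k hk _
      refine mul_nonneg (H.r_nonneg k) ?_
      by_cases hk0 : k = 0
      · subst hk0; rw [Dg219.nC_zero]; simp [lf]
      · obtain ⟨i, -, rfl⟩ := Finset.mem_image.1 hk
        have hi : tM i ≠ 0 := fun h => hk0 (gC_zero.2 h)
        rw [Dg219.nC_of hi]; simp [lf]
  rw [Finset.sum_insert (by simp [n07, n08]), Finset.sum_insert (by simp [n78]),
    Finset.sum_singleton, Dg219.nC_of (by simp [tM]), Dg219.nC_of (by simp [tM]),
    Dg219.nC_of (by simp [tM])] at key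
  simp only [lf, mul_one, mul_zero, add_zero] at key ht
  linarith

end HT

end Crest.Agent.R136.Rgl480
end

-- ▼ part R136/Rgl6_480
section

/-!
# R136 (helper480), T.L (A), part 2: windows and sweeps at interior points

* `ht_of` : a homogeneous tangent at a point left of the record line is an `HT`.
-/

set_option autoImplicit false
set_option linter.unusedSectionVars false
set_option linter.unusedVariables false

open Filter Topology Set

namespace Crest.Agent.R136.Rgl480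

open Crest.Agent.R136.Dg219 (gC dhC nC Tn lf gset OutS dirC gC_eq gC_zero mem_gset mw BUp
  bup_of_tan)
open Crest.Agent.R136.Dg262 (X)
open Crest.Agent.R136.Rc146 (OutA)
open Crest.Agent.R136.WkL626
open Crest.Agent.R136.Gau66 (eN tN cu LightF)
open Crest.Agent.R136.NatR550 (coneN nL)
open Crest.Agent.R136.C2355 (v11 v11_mem v11_zero v11_le)
open Crest.Agent.R136.Net191 Crest.Agent.R136.Qg926 Crest.Agent.R136.Gf356
open Crest.Agent.R136.NetQ186 Crest.Agent.R136.Aw413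
open Crest.Agent.R136.K2S774 (cn Prf JT Stage RecD RungD BaseOk Nat cn_closed cn_zero cn_add
  cn_smul cn_nat_add X_zero)
open Crest.Agent.R136.LdF3511
open Crest.Agent.R136.AwJ774
open Crest.Agent.R136.K2B146
open Crest.Agent.R138 (Ex926.IsTan)
open Crest.Agent.R138.Ex926 (Base U IsTan)

theorem tN_eq : tN = nL 1 0 0 1 := by
  funext i; fin_cases i <;> norm_num [tN, nL]

theorem eN_eq : eN = nL 0 1 2 2 := by
  funext i; fin_cases i <;> norm_num [eN, nL]

theorem hcn : cn (mw monQ) (AF ∅) = coneN := cn_W10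

theorem baseOk_congr {m : ℕ} {Tie Tie' : Set (Fin m)} {kz : Fin m} {o o' T T' r0 : Fin m → ℝ}
    {x : ℕ → Fin m → ℝ} {h : ℕ → ℝ} (H : BaseOk Tie kz o T r0 x h) (hs : ∀ i ∈ Tie', i ∈ Tie)
    (ho : ∀ i ∈ Tie', o' i = o i) (hT : ∀ i ∈ Tie', T' i = T i) (hz : T' kz = T kz) :
    BaseOk Tie' kz o' T' r0 x h where
  eq := fun l i hi h => by
    rw [ho i hi]
    exact H.eq l i (hs i hi) (by rw [hT i hi, hz, ho i hi] at h; exact h)
  le := fun l i hi h => by
    rw [ho i hi]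
    exact H.le l i (hs i hi) (by rw [hT i hi, hz, ho i hi] at h; exact h)
  slack := fun i hi h => by
    rw [ho i hi]
    exact H.slack i (hs i hi) (by rw [hT i hi, hz, ho i hi] at h; exact h)

/-- **profile data of the lightlike case** -/
structure LIn {ι : ℕ → Type} [∀ n, DecidableEq (ι n)] [∀ n, Nonempty (ι n)] (B : Base)
    (I J : ∀ n, Finset (ι n)) (co : ∀ n, ι n → ι n → Fin 11 → ℝ) (f : ∀ n, ι n → Fq4)
    (C R w0 : ℝ) (ow : ℝ → Fin 11 → ℝ) (T0 : Fin 11 → Prop) (ν own : (Fin 11 → ℝ) → ℝ)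
    (Tie : Set (Fin 11)) (κ r0 : Fin 11 → ℝ) (θ1 : ℝ) : Prop where
  src : Src B I J co monQ C R 0 w0 0 ow T0 ν own Tie κ r0
  chart : ∀ n, ∀ i ∈ I n, ∀ j ∈ I n, co n i j = coQ (f n i) (f n j)
  slot : ∀ n, ∀ i ∈ I n, ∀ j ∈ I n, co n i j 1 = 0
  T3 : T0 3
  t3 : 3 ∈ Tie
  tie : ∀ i ∈ Tie, i = 3 ∨ i = 4
  κ3 : κ 3 = 1
  κ4 : κ 4 = 1 - θ1
  θpos : 0 < θ1

section

variable {ι : ℕ → Type} [∀ n, DecidableEq (ι n)] [∀ n, Nonempty (ι n)] {B : Base}
  {I J : ∀ n, Finset (ι n)} {co : ∀ n, ι n → ι n → Fin 11 → ℝ} {f : ∀ n, ι n → Fq4}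
  {C R w0 : ℝ} {ow : ℝ → Fin 11 → ℝ} {T0 : Fin 11 → Prop} {ν own : (Fin 11 → ℝ) → ℝ}
  {Tie : Set (Fin 11)} {κ r0 : Fin 11 → ℝ} {θ1 : ℝ}

/-- `lam` does not see the slot `R` -/
theorem LIn.slot_jt (L : LIn B I J co f C R w0 ow T0 ν own Tie κ r0 θ1)
    {x : ℕ → Fin 11 → ℝ} {h : ℕ → ℝ} {lam lo : (Fin 11 → ℝ) → ℝ}
    (HJ : JT (mw monQ) (AF ∅) (Leg monQ R) ν own r0 x h lam lo) :
    ∀ c ∈ coneN, ∀ c' ∈ coneN, (∀ i, i ≠ 1 → c i = c' i) → lam c = lam c' := by
  intro c hc c' hc' hcc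
  rw [← hcn] at hc hc'
  exact tan_slot HJ.pos HJ.tan (fun p hp q hq hpq => nu_slot L.src.prof L.slot hp hq hpq) hc hc' hcc

/-- **a homogeneous tangent at an interior point** -/
theorem LIn.ht (L : LIn B I J co f C R w0 ow T0 ν own Tie κ r0 θ1)
    {x : ℕ → Fin 11 → ℝ} {h : ℕ → ℝ} {lam lo : (Fin 11 → ℝ) → ℝ}
    (HJ : JT (mw monQ) (AF ∅) (Leg monQ R) ν own r0 x h lam lo)
    (HB : BaseOk Tie 0 κ tM r0 x h) {A : ℝ × ℝ} {φ ψ : ℕ → (Fin 11 → ℝ) → ℝ} {r r' : ℕ → ℝ}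
    (OM : OutA (gC tM eN) coneN tM eN (dhC tM eN) (nC tM eN) lam A φ r)
    (hom : Hom (gC tM eN) coneN (dhC tM eN) φ)
    (ON : OutA (gC tN eN) coneN tN eN (dhC tN eN) (nC tN eN) lam A ψ r')
    {m1 m2 : ℝ} (hm1 : 0 < m1) (hm2 : 0 < m2)
    (S1 : ∀ x : ℝ, 0 ≤ x → m1 * x ≤ lam 0 - lam (Pi.single 5 x))
    (S2 : ∀ x : ℝ, 0 ≤ x → m2 * x ≤ lam 0 - lam (Pi.single 2 x + Pi.single 6 x)) :
    HT lam A φ r m1 := by
  have hcone : coneM (mA monQ (AF ∅)) = coneN := coneM_mA.trans hcn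
  have HB' : BaseOk Tie 0 κ tN r0 x h := baseOk_congr HB (fun i hi => hi) (fun _ _ => rfl)
    (fun i hi => by rcases L.tie i hi with rfl | rfl <;> simp [tN, tM]) (by simp [tN, tM])
  have hT : ∀ i ∈ Tie, κ i * tN 0 ≤ tN i := by
    intro i hi
    rcases L.tie i hi with rfl | rfl
    · rw [L.κ3]; simp [tN]
    · rw [L.κ4]
      have := L.θpos
      simp only [tN, Matrix.cons_val]; linarith
  have out : OutS (gC tN eN) (cn (mw monQ) (AF ∅)) (dhC tN eN) (nC tN eN) lam A ψ r' := by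
    rw [hcn]; exact ON.toOutS
  have hA := aew_of_jt (Tw := fun k => k = 3) L.src HJ HB' hT (by
    rintro k rfl
    refine ⟨L.T3, L.t3, ?_⟩
    rw [L.κ3]; simp [tN]) (by decide) out
  rw [tN_eq, eN_eq, sub_zero] at hA
  obtain ⟨B', G, Lg, ν', D, F, L0, H, -⟩ := C2355.c2d_of_aew (c := min m1 m2) one_pos one_pos
    (by norm_num) (by norm_num) hA hcone L.chart L.src.prof.ne (by
      rintro k ⟨hk, hk2⟩
      rcases L.tie k hk with rfl | rfl
      · right; rfl
      · exfalso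
        rw [L.κ4] at hk2
        have := L.θpos
        simp only [nL, Matrix.cons_val] at hk2
        linarith) rfl (lt_min hm1 hm2)
    (fun x hx _ => (mul_le_mul_of_nonneg_right (min_le_left _ _) hx).trans (S1 x hx))
    (fun x hx _ => (mul_le_mul_of_nonneg_right (min_le_right _ _) hx).trans (S2 x hx))
  have hz := H.zero
  refine ⟨OM, hom, L.slot_jt HJ, fun y hy => ?_, hm1, ?_, H.xa one_pos le_rfl, H.xb⟩
  · have := H.own y hy
    linarith
  · have := S1 1 zero_le_one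
    rw [hz] at this
    unfold e5
    linarith

end

end Crest.Agent.R136.Rgl480
end

-- ▼ part R136/Rgl7_480
section

/-!
# R136 (helper480), T.L (A), part 3: stage of the ladder at the lightlike surface

* `stage_conv`, `recD_L`, `rungD_L` : the stage with natural D-max directions.
* `sweep1`, `sweep2` : `C_a` and `{E, C_b}` cost at every interior point.
* **`hasRig_gen`**.
-/

set_option autoImplicit false
set_option linter.unusedSectionVars false
set_option linter.unusedVariables false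

open Filter Topology Set MeasureTheory

namespace Crest.Agent.R136.Rgl480

open Crest.Agent.R136.Dg219 (gC dhC nC Tn lf gset OutS dirC gC_eq gC_zero mem_gset mw BUp
  bup_of_tan)
open Crest.Agent.R136.Dg262 (X)
open Crest.Agent.R136.Rc146 (OutA)
open Crest.Agent.R136.WkL626
open Crest.Agent.R136.Gau66 (eN tN cu LightF)
open Crest.Agent.R136.NatR550 (coneN nL)
open Crest.Agent.R136.C2355 (v11 v11_mem v11_zero v11_le)
open Crest.Agent.R136.Net191 Crest.Agent.R136.Qg926 Crest.Agent.R136.Gf356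
open Crest.Agent.R136.NetQ186 Crest.Agent.R136.Aw413
open Crest.Agent.R136.K2S774 (cn Prf JT Stage RecD RungD BaseOk Nat cn_closed cn_zero cn_add
  cn_smul cn_nat_add X_zero)
open Crest.Agent.R136.LdF3511 Crest.Agent.R136.LdF511
open Crest.Agent.R136.AwJ774
open Crest.Agent.R136.K2B146
open Crest.Agent.R136.Top484
open Crest.Agent.R138.Ex926 (Base U IsTan)

/-- natural directions for D-max -/
def QdN (θ : Fin 3 → ℝ) : Set (Fin 11 → ℝ) :=
  {d | ∃ v t1 t2 t3, d = nL v t1 t2 t3 ∧ (θ 0 = 1 → v + t3 ≤ 0)}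

section gen

variable {m : ℕ} {W : Type*} [Fintype W] {Q : Dg219.Walls (Fin m) W} {A : W → Prop}
  {P : Set (Fin m → ℝ)} {ν own : (Fin m → ℝ) → ℝ} {K : ℝ}
  {r0 ρ : Fin m → ℝ} {Dl : (Fin m → ℝ) →ₗ[ℝ] ℝ} {Qd : Set (Fin m → ℝ)} {Z Tie : Set (Fin m)}
  {kz : Fin m} {o : Fin m → ℝ} {τ : ℝ} {lam lo : (Fin m → ℝ) → ℝ}

theorem stage_conv (H : Stage Q P ν own K r0 ρ Dl Qd Z Tie kz o τ A ∅ lam lo)
    {Qd' Z' : Set (Fin m → ℝ)} {Z'' : Set (Fin m)} (h : ∀ d ∈ Qd', d ∈ Qd) :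
    Stage Q P ν own K r0 ρ Dl Qd' Z'' Tie kz o τ A ∅ lam lo where
  jt := H.jt
  prf := H.prf
  noD := H.noD
  ZD := fun i _ => notMem_empty i
  TD := H.TD
  zD := H.zD
  ind := fun c _ c' _ h _ => by rw [funext fun i => h i (notMem_empty i)]
  rcd := H.rcd
  dmx := fun c hc d hd hdc => H.dmx c hc d (h d hd) hdc
  ownr := H.ownr
  ownu := H.ownu

end gen

theorem nat_tM {w : WI} (hw : AF ∅ w) : tM ((mw monQ).hd w) = (mw monQ).rhs w tM := by
  refine AF_all ∅ (fun k e => tM k = ∑ s, (e s : ℝ) * tM s) ?_ w hw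
  refine (monQ_all (fun k e => (e 1 = 0 ∧ k ∉ (∅ : Finset (Fin 11)) ∧
    ∀ s ∈ (∅ : Finset (Fin 11)), e s = 0) → tM k = ∑ s, (e s : ℝ) * tM s)).2
    ⟨?_, ?_, ?_, ?_, ?_, ?_, ?_, ?_, ?_, ?_, ?_, ?_, ?_, ?_, ?_, ?_, ?_, ?_⟩ <;>
    rintro ⟨e1, -, -⟩ <;> first
    | exact absurd e1 (by decide)
    | (rw [sm]; simp only [tM, Matrix.cons_val]; push_cast; ring)

theorem NatM : Nat (mw monQ) (AF ∅) tM := fun w hw => nat_tM hw

theorem NatnL (v t1 t2 t3 : ℝ) : Nat (mw monQ) (AF ∅) (nL v t1 t2 t3) :=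
  fun w hw => nat_AF v t1 t2 t3 hw

theorem NatN : Nat (mw monQ) (AF ∅) tN := by rw [tN_eq]; exact NatnL _ _ _ _

theorem NatE : Nat (mw monQ) (AF ∅) eN := by rw [eN_eq]; exact NatnL _ _ _ _

variable {θ : Fin 3 → ℝ}

theorem NatR : Nat (mw monQ) (AF ∅) (rhoF θ) := NatnL _ _ _ _

theorem recD_L {Tie : Set (Fin 11)} {o : Fin 11 → ℝ}
    (ht : ∀ i ∈ Tie, rhoF θ i = o i * rhoF θ 0) :
    RecD (mw monQ) (AF ∅) (rhoF θ) (QdN θ) Tie 0 o where
  full := fun w hw => AF_full hw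
  nat := fun w hw => nat_AF _ _ _ _ hw
  qd := by
    rintro d ⟨v, t1, t2, t3, rfl, h⟩ ξ t ht
    refine ⟨ξ * 1 + t * v, ξ * -θ 1 + t * t1, ξ * -θ 2 + t * t2, ξ * -θ 0 + t * t3, ?_, ?_⟩
    · unfold rhoF
      rw [nL_smul, nL_smul, nL_add]
    · intro h0
      have := mul_nonneg ht (neg_nonneg.2 (h h0))
      rw [h0]; linarith
  tie := ht

theorem rungD_L {Tie : Set (Fin 11)} :
    RungD (mw monQ) (AF ∅) ∅ {1, 2, 5, 6} Tie 0 (QdN θ) (rhoF θ) tN tN (rhoF θ) ∅ where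
  T0 := fun i => by fin_cases i <;> simp [tN]
  TJ := fun i hi => absurd hi (Finset.notMem_empty i)
  TZ := fun i _ hi => by
    revert hi
    fin_cases i <;> simp [tN]
  natT := NatN
  bρ := fun _ _ => rfl
  TT := fun _ _ => rfl
  qd := by
    refine ⟨-1, -0, -0, -1, by rw [tN_eq, nL_neg], fun _ => by norm_num⟩
  head := fun w _ h => absurd h (Finset.notMem_empty _)
  JZ := fun i hi => absurd hi (Finset.notMem_empty i)
  JT := fun i hi => absurd hi (Finset.notMem_empty i)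
  Jz := Finset.notMem_empty _

section sweeps

variable {P : Set (Fin 11 → ℝ)} {ν own : (Fin 11 → ℝ) → ℝ} {K : ℝ} {r0 : Fin 11 → ℝ}
  {p : Par4} {Z Tie : Set (Fin 11)} {o : Fin 11 → ℝ} {τ : ℝ} {lam lo lam' : (Fin 11 → ℝ) → ℝ}

/-- loss at the record points along a box direction `u` whose closure `u + e_j` is natural -/
theorem rec_loss (H : Stage (mw monQ) P ν own K r0 (rhoF p.θ) (DlFL p) (QdN p.θ) Z Tie 0 o τ
    (AF ∅) ∅ lam lo) {u u' d : Fin 11 → ℝ} (hd : d ∈ QdN p.θ) (hdu : ∀ i, d i ≤ u' i)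
    (huu : ∀ i, u i ≤ u' i) (hsum : ∑ i, (u' i - u i) ≤ 1) (hu' : u' ∈ coneN) {mm : ℝ}
    (hD : DlFL p d ≤ -(1 + mm)) (σ h : ℝ) (hh : 0 ≤ h)
    (hm : σ • rhoF p.θ + h • u ∈ cn (mw monQ) (AF ∅)) :
    mm * h ≤ lam (σ • rhoF p.θ) - lam (σ • rhoF p.θ + h • u) := by
  have hm' : σ • rhoF p.θ + h • u' ∈ cn (mw monQ) (AF ∅) :=
    cn_nat_add (NatR.smul σ) (by rw [hcn]; exact hu') hh
  obtain ⟨v, t1, t2, t3, rfl, h0⟩ := hd
  have h1 := H.dmx _ hm' (σ • rhoF p.θ + h • nL v t1 t2 t3)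
    ((recD_L (θ := p.θ) (Tie := ∅) (o := o) (fun i hi => absurd hi (notMem_empty i))).qd _
      ⟨v, t1, t2, t3, rfl, h0⟩ σ h hh) fun i _ => by
      have := mul_le_mul_of_nonneg_left (hdu i) hh
      simp only [Pi.add_apply, Pi.smul_apply, smul_eq_mul]
      linarith
  rw [map_add, map_smul, map_smul, smul_eq_mul, smul_eq_mul] at h1
  have h2 := H.prf.sharp _ hm _ hm' (fun i => by
    have := mul_le_mul_of_nonneg_left (huu i) hh
    simp only [Pi.add_apply, Pi.smul_apply, smul_eq_mul]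
    linarith)
  have h3 : ∑ i, ((σ • rhoF p.θ + h • u') i - (σ • rhoF p.θ + h • u) i) =
      h * ∑ i, (u' i - u i) := by
    rw [Finset.mul_sum]
    exact Finset.sum_congr rfl fun i _ => by
      simp only [Pi.add_apply, Pi.smul_apply, smul_eq_mul]; ring
  rw [h3] at h2
  have h4 := mul_le_mul_of_nonneg_left hsum hh
  have h5 := mul_le_mul_of_nonneg_left hD hh
  have h6 := H.rcd σ
  linarith

/-- `E, C_b` -/
def e26 : Fin 11 → ℝ := ![0, 0, 1, 0, 0, 0, 1, 0, 0, 0, 0]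

/-- `E, C_b, X_b` -/
def e269 : Fin 11 → ℝ := ![0, 0, 1, 0, 0, 0, 1, 0, 0, 1, 0]

theorem e26_eq (x : ℝ) : x • e26 = Pi.single 2 x + Pi.single 6 x := by
  funext i; fin_cases i <;> simp [e26]

theorem e5_eq (x : ℝ) : x • e5 = Pi.single 5 x := by
  funext i
  by_cases h : i = 5
  · subst h; simp [e5]
  · simp [e5, h]

/-- **`C_a` costs at every interior point** -/
theorem sweep1 (H : Stage (mw monQ) P ν own K r0 (rhoF p.θ) (DlFL p) (QdN p.θ) Z Tie 0 o τ
    (AF ∅) ∅ lam lo) {z : ℝ × ℝ} (hz : z.1 < 0) {k : ℕ → ℝ} (kpos : ∀ l, 0 < k l)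
    (k0 : Tendsto k atTop (𝓝 0))
    (H1 : IsTan (cn (mw monQ) (AF ∅)) (cn (mw monQ) (AF ∅)) lam
      (fun _ => X 0 tN (rhoF p.θ) z) k lam') :
    ∀ x : ℝ, 0 ≤ x → p.q 1 * x ≤ lam' 0 - lam' (Pi.single 5 x) := by
  intro x hx
  have key := H.sweepR (T := tN) (b := rhoF p.θ) NatR (fun i => by fin_cases i <;> simp [tN]) NatN
    (fun _ _ => rfl) hz kpos k0 H1 (u := e5) (c' := 0) (mm := p.q 1) (σ := 0) (h := x)
    (fun i => by
      by_cases h : i = 5
      · subst h; simp [e5]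
      · simp [e5, h]) hx
    (rec_loss H (u' := e58) (d := nL 0 1 0 0) ⟨0, 1, 0, 0, rfl, fun _ => by norm_num⟩
      (fun i => by fin_cases i <;> simp [nL, e58]) e5_le (le_of_eq sum58)
      (by refine ⟨?_, ?_, ?_, ?_, ?_, ?_, ?_, ?_, ?_, ?_⟩ <;>
        simp only [e58, Matrix.cons_val] <;> norm_num)
      (by
        show DlF p (nL 0 1 0 0) ≤ _
        rw [DlF_nL]; linarith))
    cn_zero (by
      rw [zero_add, e5_eq, hcn]
      exact C2355.m_5 hx)
    (fun i _ _ => by simp) (fun i _ hi => by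
      by_cases h : i = 5
      · subst h; simp [tN]
      · exact absurd (by simp [e5, h]) hi)
  rwa [zero_add, e5_eq] at key

/-- **`E, C_b` cost at every interior point** -/
theorem sweep2 (H : Stage (mw monQ) P ν own K r0 (rhoF p.θ) (DlFL p) (QdN p.θ) Z Tie 0 o τ
    (AF ∅) ∅ lam lo) {z : ℝ × ℝ} (hz : z.1 < 0) {k : ℕ → ℝ} (kpos : ∀ l, 0 < k l)
    (k0 : Tendsto k atTop (𝓝 0))
    (H1 : IsTan (cn (mw monQ) (AF ∅)) (cn (mw monQ) (AF ∅)) lam
      (fun _ => X 0 tN (rhoF p.θ) z) k lam') :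
    ∀ x : ℝ, 0 ≤ x → p.q 2 * x ≤ lam' 0 - lam' (Pi.single 2 x + Pi.single 6 x) := by
  intro x hx
  have key := H.sweepR (T := tN) (b := rhoF p.θ) NatR (fun i => by fin_cases i <;> simp [tN]) NatN
    (fun _ _ => rfl) hz kpos k0 H1 (u := e26) (c' := 0) (mm := p.q 2) (σ := 0) (h := x)
    (fun i => by fin_cases i <;> simp [e26]) hx
    (rec_loss H (u' := e269) (d := nL 0 0 1 0) ⟨0, 0, 1, 0, rfl, fun _ => by norm_num⟩
      (fun i => by fin_cases i <;> norm_num [nL, e269]) (fun i => by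
        fin_cases i <;> norm_num [e26, e269])
      (by simp [e26, e269, Fin.sum_univ_succ])
      (by
        refine ⟨?_, ?_, ?_, ?_, ?_, ?_, ?_, ?_, ?_, ?_⟩ <;>
        simp only [e269, Matrix.cons_val] <;> norm_num)
      (by
        show DlF p (nL 0 0 1 0) ≤ _
        rw [DlF_nL]; linarith))
    cn_zero (by
      rw [zero_add, e26_eq, hcn]
      exact C2355.m_26 hx)
    (fun i _ _ => by simp) (fun i _ hi => by
      revert hi
      fin_cases i <;> simp [e26, tN])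
  rwa [zero_add, e26_eq] at key

end sweeps

end Crest.Agent.R136.Rgl480
end

-- ▼ part R136/Rgl8_480

/-!
# R136 (helper480), T.L (A), part 4: `hasRig_gen`
-/

set_option autoImplicit false
set_option linter.unusedSectionVars false
set_option linter.unusedVariables false

open Filter Topology Set MeasureTheory

namespace Crest.Agent.R136.Rgl480

open Crest.Agent.R136.Dg219 (gC dhC nC Tn lf gset OutS dirC gC_eq gC_zero mem_gset mw BUp
  bup_of_tan)
open Crest.Agent.R136.Dg262 (X)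
open Crest.Agent.R136.Rc146 (OutA)
open Crest.Agent.R136.WkL626
open Crest.Agent.R136.Gau66 (eN tN cu LightF)
open Crest.Agent.R136.NatR550 (coneN nL)
open Crest.Agent.R136.C2355 (v11 v11_mem v11_zero v11_le)
open Crest.Agent.R136.Net191 Crest.Agent.R136.Qg926 Crest.Agent.R136.Gf356
open Crest.Agent.R136.NetQ186 Crest.Agent.R136.Aw413
open Crest.Agent.R136.K2S774 (cn Prf JT Stage RecD RungD BaseOk Nat cn_closed cn_zero cn_add
  cn_smul cn_nat_add X_zero)
open Crest.Agent.R136.LdF3511 Crest.Agent.R136.LdF511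
open Crest.Agent.R136.AwJ774
open Crest.Agent.R136.K2B146
open Crest.Agent.R136.Top484
open Crest.Agent.R138.Ex926 (Base U IsTan)

theorem cone_slot {c c' : Fin 11 → ℝ} (hc : c ∈ coneN) (h : ∀ i, i ≠ 1 → c i = c' i) :
    c' ∈ coneN := by
  obtain ⟨h1, h2, h3, h4, h5, h6, h7, h8, h9, h10⟩ := hc
  rw [h 4 (by decide), h 2 (by decide), h 3 (by decide)] at h1
  rw [h 6 (by decide), h 2 (by decide), h 5 (by decide)] at h2
  rw [h 7 (by decide), h 4 (by decide), h 5 (by decide)] at h3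
  rw [h 7 (by decide), h 3 (by decide), h 6 (by decide)] at h4
  rw [h 8 (by decide), h 0 (by decide), h 5 (by decide)] at h5
  rw [h 9 (by decide), h 0 (by decide), h 6 (by decide)] at h6
  rw [h 9 (by decide), h 2 (by decide), h 8 (by decide)] at h7
  rw [h 10 (by decide), h 0 (by decide), h 7 (by decide)] at h8
  rw [h 10 (by decide), h 4 (by decide), h 8 (by decide)] at h9
  rw [h 10 (by decide), h 3 (by decide), h 9 (by decide)] at h10
  exact ⟨h1, h2, h3, h4, h5, h6, h7, h8, h9, h10⟩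

/-- the base point may be moved in an invisible slot -/
theorem tan_move {lam lam' : (Fin 11 → ℝ) → ℝ} {y y' : Fin 11 → ℝ} {k : ℕ → ℝ}
    (hs : ∀ c ∈ coneN, ∀ c' ∈ coneN, (∀ i, i ≠ 1 → c i = c' i) → lam c = lam c')
    (hy : y ∈ coneN) (hyy : ∀ i, i ≠ 1 → y i = y' i)
    (H : IsTan coneN coneN lam (fun _ => y) k lam') :
    IsTan coneN coneN lam (fun _ => y') k lam' := by
  intro C ε hε
  filter_upwards [H C ε hε] with l hl c hc hcC
  obtain ⟨m1, h1⟩ := hl c hc hcC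
  have e1 : ∀ i, i ≠ 1 → (y + k l • c) i = (y' + k l • c) i := fun i hi => by
    simp only [Pi.add_apply]; rw [hyy i hi]
  have m2 := cone_slot m1 e1
  refine ⟨m2, ?_⟩
  rw [← hs _ m1 _ m2 e1, ← hs y hy y' (cone_slot hy hyy) hyy]
  exact h1

theorem tM_slot (z : ℝ × ℝ) (i : Fin 11) (hi : i ≠ 1) :
    X 0 tM eN z i = X 0 tN eN z i := by
  fin_cases i <;> first | exact absurd rfl hi | simp [X, tM, tN]

/-- record direction -/
theorem rho_eq {θ : Fin 3 → ℝ} (h2 : θ 2 = 2 * θ 1) (h0 : θ 2 - θ 0 = 1) :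
    rhoF θ = tN - θ 1 • eN := by
  have e0 : θ 0 = 2 * θ 1 - 1 := by linarith
  funext i
  unfold rhoF
  rw [e0, h2]
  fin_cases i <;> simp [nL, tN, eN] <;> ring

theorem X_rho {θ : Fin 3 → ℝ} (h2 : θ 2 = 2 * θ 1) (h0 : θ 2 - θ 0 = 1) (z : ℝ × ℝ) :
    X 0 tN (rhoF θ) z = X 0 tN eN (z.1 + z.2, -(θ 1 * z.2)) := by
  rw [rho_eq h2 h0]
  funext i
  simp only [X, Pi.sub_apply, Pi.smul_apply, smul_eq_mul, Pi.zero_apply]
  ring

/-- tangent at an interior point with the numbers `LightF` -/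
def RigAt (lam lo : (Fin 11 → ℝ) → ℝ) (y : Fin 11 → ℝ) : Prop :=
  ∃ k : ℕ → ℝ, (∀ l, 0 < k l) ∧ Tendsto k atTop (𝓝 0) ∧
    ∃ (lamI loI : (Fin 11 → ℝ) → ℝ) (a m : ℝ), IsTan coneN coneN lam (fun _ => y) k lamI ∧
      IsTan coneN coneN lo (fun _ => y) k loI ∧ LightF coneN lamI a m

section

variable {ι : ℕ → Type} [∀ n, DecidableEq (ι n)] [∀ n, Nonempty (ι n)] {B : Base}
  {I J : ∀ n, Finset (ι n)} {co : ∀ n, ι n → ι n → Fin 11 → ℝ} {f : ∀ n, ι n → Fq4}
  {C R w0 : ℝ} {ow : ℝ → Fin 11 → ℝ} {T0 : Fin 11 → Prop} {ν own : (Fin 11 → ℝ) → ℝ}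
  {Tie' Tie : Set (Fin 11)} {κ r0 o : Fin 11 → ℝ} {p : Par4} {K : ℝ}
  {lam lo : (Fin 11 → ℝ) → ℝ}

/-- **a.e. point left of the record line**: either an interior tangent with the numbers `LightF`, or
the slope of the ray is `≤ -5` -/
theorem rig_ae (L : LIn B I J co f C R w0 ow T0 ν own Tie' κ r0 (p.θ 1))
    (H : Stage (mw monQ) (Leg monQ R) ν own K r0 (rhoF p.θ) (DlFL p) (QdN p.θ) {1, 2, 5, 6} Tie 0
      o 1 (AF ∅) ∅ lam lo)
    (hs : ∀ i ∈ Tie', i ∈ Tie) (ho : ∀ i ∈ Tie', κ i = o i)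
    (hrt : ∀ i ∈ Tie, rhoF p.θ i = o i * rhoF p.θ 0)
    (h2 : p.θ 2 = 2 * p.θ 1) (h0 : p.θ 2 - p.θ 0 = 1) (hq1 : 0 < p.q 1) (hq2 : 0 < p.q 2) :
    ∀ᵐ z : ℝ × ℝ, z.1 < 0 → ∃ E : ℝ × ℝ →L[ℝ] ℝ,
      HasFDerivAt (fun z => lam (X 0 tN (rhoF p.θ) z)) E z ∧
      (RigAt lam lo (X 0 tN (rhoF p.θ) z) ∨ 5 ≤ -E (1, 0)) := by
  have tM0 : ∀ i, 0 ≤ tM i := fun i => by fin_cases i <;> simp [tM]
  have tN0 : ∀ i, 0 ≤ tN i := fun i => by fin_cases i <;> simp [tN]
  have hθ := L.θpos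
  obtain ⟨xj, hj, HJ0, -⟩ := H.jt
  have hslot := L.slot_jt HJ0
  have aM := K2A146.cn_outA H.prf (fun w hw => AF_full hw) (x0 := 0) (a := tM) (b := eN) tM0
    K2S774.Nat.zero NatM NatE
  have aN := K2A146.cn_outA H.prf (fun w hw => AF_full hw) (x0 := 0) (a := tN) (b := eN) tN0
    K2S774.Nat.zero NatN NatE
  filter_upwards [K2S774.ae_lin (aM.and aN) (0, 0) (r := (1, 0)) (e := (-1, p.θ 1))
    (by simp; exact hθ.ne')] with z hz hz1
  have ew : ((0, 0) : ℝ × ℝ) + z.1 • ((1, 0) : ℝ × ℝ) - z.2 • ((-1, p.θ 1) : ℝ × ℝ) =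
      (z.1 + z.2, -(p.θ 1 * z.2)) := by
    ext <;> simp [mul_comm]
  rw [ew] at hz
  set w : ℝ × ℝ := (z.1 + z.2, -(p.θ 1 * z.2)) with hw
  obtain ⟨⟨DM, hDM, hM⟩, ⟨DN, hDN, hN⟩⟩ := hz
  have memN : ∀ w : ℝ × ℝ, X 0 tN eN w ∈ coneN := fun w => by
    rw [← hcn, X_zero]; exact ((NatN.smul _).add (NatE.smul _)).mem
  have memM : ∀ w : ℝ × ℝ, X 0 tM eN w ∈ coneN := fun w => by
    rw [← hcn, X_zero]; exact ((NatM.smul _).add (NatE.smul _)).mem
  have efun : (fun z => lam (X 0 tM eN z)) = fun z => lam (X 0 tN eN z) := by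
    funext w
    exact hslot _ (memM w) _ (memN w) fun i hi => tM_slot w i hi
  rw [efun] at hDM
  have eD : DM = DN := hDM.unique hDN
  subst eD
  -- the derivative in the plane `(tN, ρ)`
  set Ll : ℝ × ℝ →L[ℝ] ℝ × ℝ :=
    ((ContinuousLinearMap.fst ℝ ℝ ℝ) + (ContinuousLinearMap.snd ℝ ℝ ℝ)).prod
      (-(p.θ 1 • ContinuousLinearMap.snd ℝ ℝ ℝ)) with hLl
  have eL : ∀ z : ℝ × ℝ, Ll z = (z.1 + z.2, -(p.θ 1 * z.2)) := fun z => by simp [hLl]
  have hE : HasFDerivAt (fun z => lam (X 0 tN (rhoF p.θ) z)) (DM.comp Ll) z := by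
    have h1 : HasFDerivAt (fun z => lam (X 0 tN eN z)) DM (Ll z) := by rw [eL]; exact hDN
    have h3 := h1.comp z Ll.hasFDerivAt
    have h4 : (fun z => lam (X 0 tN (rhoF p.θ) z)) = (fun z => lam (X 0 tN eN z)) ∘ Ll := by
      funext z'
      simp only [Function.comp]
      rw [X_rho h2 h0, eL]
    rw [h4]; exact h3
  refine ⟨DM.comp Ll, hE, ?_⟩
  -- tangents
  have eX : X 0 tN (rhoF p.θ) z = X 0 tN eN w := X_rho h2 h0 z
  have hy : Nat (mw monQ) (AF ∅) (X 0 tN (rhoF p.θ) z) := by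
    rw [X_zero]; exact (NatN.smul _).add (NatR.smul _)
  obtain ⟨φs, hφs, lam', lo', H1, H2, x', h', hJ, hJt, hJl, hJs⟩ := H.at_pt hy
    (k := fun l => 1 / ((l : ℝ) + 1)) (fun l => by positivity)
    tendsto_one_div_add_atTop_nhds_zero_nat
  set k1 : ℕ → ℝ := fun l => 1 / ((φs l : ℕ) + 1 : ℝ) with hk1
  have k1pos : ∀ l, 0 < k1 l := fun l => by positivity
  have k10 : Tendsto k1 atTop (𝓝 0) :=
    tendsto_one_div_add_atTop_nhds_zero_nat.comp hφs.tendsto_atTop
  have hyi : ∀ i, X 0 tN (rhoF p.θ) z i = z.1 * tN i + z.2 * rhoF p.θ i := fun i => by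
    rw [X_zero]; simp only [Pi.add_apply, Pi.smul_apply, smul_eq_mul]
  have hB1 : BaseOk Tie 0 o tN r0 x' h' :=
    ⟨fun l i hi hT' => hJt l i hi (by
      rw [hyi, hyi, hT', hrt i hi]; ring), fun l i hi hT' => hJl l i hi (by
      have h3 := mul_le_mul_of_nonneg_left hT' (neg_nonneg.2 (le_of_lt hz1))
      rw [hyi, hyi, hrt i hi]
      nlinarith), fun i hi hT' => hJs i hi (by
      have h3 := mul_lt_mul_of_pos_left hT' (neg_pos.2 hz1)
      rw [hyi, hyi, hrt i hi]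
      nlinarith)⟩
  have hB2 : BaseOk Tie' 0 κ tM r0 x' h' := baseOk_congr hB1 hs ho
    (fun i hi => by rcases L.tie i hi with rfl | rfl <;> simp [tN, tM]) (by simp [tN, tM])
  have hbN : BUp (cn (mw monQ) (AF ∅)) (cn (mw monQ) (AF ∅)) lam (X 0 tN eN w) k1 lam' := by
    rw [← eX]; exact bup_of_tan k1pos k10 H1
  have hbM : BUp (cn (mw monQ) (AF ∅)) (cn (mw monQ) (AF ∅)) lam (X 0 tM eN w) k1 lam' := by
    refine bup_of_tan k1pos k10 ?_
    have h3 := H1
    rw [eX] at h3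
    rw [hcn] at h3 ⊢
    exact tan_move hslot (memN w) (fun i hi => (tM_slot w i hi).symm) h3
  obtain ⟨φM, rM, OM⟩ := hM k1 lam' hbM
  obtain ⟨φN, rN, ON⟩ := hN k1 lam' hbN
  have hP' := H.prf.tan (x := fun _ => X 0 tN (rhoF p.θ) z) k1pos H1 H2
  obtain ⟨t, lam2, lo2, x2, h2', φ2, tpos, t0, H3, H4, hJ2, hBB, hP2, hO2, hhom, -⟩ :=
    exists_hom (fun w hw => AF_full hw) tM0 NatM NatE hJ hP' hB2 OM
  obtain ⟨ψ2, ON2, -, -⟩ := cn_zoom hP' (fun w hw => AF_full hw) tN0 NatN NatE ON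
    (bup_of_tan tpos t0 H3)
  -- tangent of a tangent
  obtain ⟨ψa, ha⟩ := TL196.tan_comp k1pos tpos H1 (y := fun _ => 0) (fun _ => cn_zero) H3
  obtain ⟨ψb, hb⟩ := TL196.tan_comp k1pos tpos H2 (y := fun _ => 0) (fun _ => cn_zero) H4
  set ψ : ℕ → ℕ := fun l => max (max (ψa l) (ψb l)) l with hψ
  have ha' := ha ψ fun m => (le_max_left _ _).trans (le_max_left _ _)
  have hb' := hb ψ fun m => (le_max_right _ _).trans (le_max_left _ _)
  simp only [smul_zero, add_zero] at ha' hb'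
  have hψt : Tendsto ψ atTop atTop := tendsto_atTop_mono (fun l => le_max_right _ _) tendsto_id
  have k2pos : ∀ l, 0 < k1 (ψ l) * t l := fun l => mul_pos (k1pos _) (tpos l)
  have k20 : Tendsto (fun l => k1 (ψ l) * t l) atTop (𝓝 0) := by
    have := (k10.comp hψt).mul t0
    rwa [zero_mul] at this
  have S1 := sweep1 H hz1 k2pos k20 ha'
  have S2 := sweep2 H hz1 k2pos k20 ha'
  rw [hcn] at hO2 hhom ON2 ha' hb'
  have ht := L.ht hJ2 hBB hO2 (fun k hk c hc t ht => hhom k hk c hc t ht) ON2 hq1 hq2 S1 S2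
  by_cases haN : HT.aN φ2 < 1
  · left
    exact ⟨_, k2pos, k20, lam2, lo2, _, _, ha', hb', ht.lightF haN⟩
  · right
    have h5 := ht.slope (not_lt.1 haN)
    have h6 : (DM.comp Ll) (1, 0) = DM (1, 0) := by
      rw [ContinuousLinearMap.comp_apply, eL]; simp
    rw [h6]
    change DM (1, 0) ≤ -5 at h5
    linarith

/-- **`HasRig`** : there is an interior tangent with the numbers `LightF` -/
theorem hasRig_gen (L : LIn B I J co f C R w0 ow T0 ν own Tie' κ r0 (p.θ 1)) {Qd : Set (Fin 11 → ℝ)}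
    {Z : Set (Fin 11)}
    (H : Stage (mw monQ) (Leg monQ R) ν own K r0 (rhoF p.θ) (DlFL p) Qd Z Tie 0
      o 1 (AF ∅) ∅ lam lo)
    (hQd : ∀ v t1 t2 t3, (p.θ 0 = 1 → v + t3 ≤ 0) → nL v t1 t2 t3 ∈ Qd)
    (hs : ∀ i ∈ Tie', i ∈ Tie) (ho : ∀ i ∈ Tie', κ i = o i)
    (hrt : ∀ i ∈ Tie, rhoF p.θ i = o i * rhoF p.θ 0)
    (h2 : p.θ 2 = 2 * p.θ 1) (h0 : p.θ 2 - p.θ 0 = 1) (hq1 : 0 < p.q 1) (hq2 : 0 < p.q 2)
    (hg : 0 < p.g - p.q 0) :
    ∃ z : ℝ × ℝ, z.1 < 0 ∧ RigAt lam lo (X 0 tN (rhoF p.θ) z) := by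
  by_contra hcon
  push Not at hcon
  have H' : Stage (mw monQ) (Leg monQ R) ν own K r0 (rhoF p.θ) (DlFL p) (QdN p.θ) {1, 2, 5, 6} Tie
      0 o 1 (AF ∅) ∅ lam lo :=
    stage_conv (Z' := ∅) H (by rintro d ⟨v, t1, t2, t3, rfl, h⟩; exact hQd v t1 t2 t3 h)
  have hae := rig_ae L H' hs ho hrt h2 h0 hq1 hq2
  have hDl : DlFL p tN = p.g - 5 - p.q 0 := by
    show DlF p tN = _
    rw [tN_eq, DlF_nL]; ring
  have hd := (H'.ray (recD_L hrt) rungD_L).dead hg one_pos (O := {z : ℝ × ℝ | z.1 < 0})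
    (fun ξ _ s hs _ => by
      show (K2S774.pt 0 (0, 1) (1, 0) ξ s).1 < 0
      simp [K2S774.pt]; exact hs) (by
      filter_upwards [hae] with z hz hz1
      obtain ⟨E, h1, h3⟩ := hz hz1
      refine ⟨E, h1, ?_⟩
      rcases h3 with h3 | h3
      · exact absurd h3 (hcon z hz1)
      · rw [hDl]; linarith)
  obtain ⟨ξ, hξ⟩ := hd.exists
  exact hξ (mem_univ _)

end

end Crest.Agent.R136.Rgl480
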