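import Crest.Agent.R136.Rgl1_501
import Crest.Agent.R136.RowX_619
import Crest.Agent.R136.Bas4_938

-- ▼ part R136/Rt1_478
section

/-!
# R136: window instance of [RIG-0] in the W-chart, part 1 (helper478)

Walls `(2,2)` (`q = 10` = flag slot `w_B` (18-slot 14), `V = 3` = `B`) and `(2,1)` (`q = 11` = flag
slot `w_A` (18-slot 15), `V = 2` = `A`): the own rotation of the flag slot `q` is seen by the fibre
`(P, V)` through `N' = N + u P - e(u) V`.

* `lt q V x m t` : exponent vectors (`P, V : t`, `N : m`, level slots `0`, all others `x`);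
* `ThinW` : the hypotheses on a window;
* `ev_fct`, `mv_fin`, `inT_fin` : the facts used at one `n`.
-/

set_option autoImplicit false
set_option linter.unusedVariables false
set_option linter.unusedSectionVars false

open Filter Topology

namespace Crest.Agent.R136.Rt478

open Finset Crest.Agent.R136.NetW191 Crest.Agent.R136.Net191 Crest.Agent.R136.Qg926
open Crest.Agent.R136.EvW938 Crest.Agent.R136.RowW619
open Crest.Agent.R136.Gf356
open Crest.Agent.R138.Ex926 (Base U)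

/-- exponent vectors: `P, V : t`, `N : m`, level slots `0`, all others `x` -/
def lt (q : Fin 14) (V : Fin 4) (x m t : ℝ) : Fin 18 → ℝ := fun j =>
  if j = 0 ∨ j = Fin.natAdd 4 q then 0 else if j = Fin.castAdd 14 V ∨ j = 16 then t
    else if j = 17 then m else x

/-- the slots at `x` -/
def Oth (q : Fin 14) (V : Fin 4) (j : Fin 18) : Prop :=
  j ≠ 0 ∧ j ≠ Fin.natAdd 4 q ∧ j ≠ Fin.castAdd 14 V ∧ j ≠ 16 ∧ j ≠ 17

theorem lt_oth {q : Fin 14} {V : Fin 4} {x m t : ℝ} {j : Fin 18} (h : Oth q V j) :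
    lt q V x m t j = x := by
  unfold lt
  rw [if_neg (by rintro (h' | h'); exacts [h.1 h', h.2.1 h']),
    if_neg (by rintro (h' | h'); exacts [h.2.2.1 h', h.2.2.2.1 h']), if_neg h.2.2.2.2]

theorem lt_cases {q : Fin 14} {V : Fin 4} {x m t : ℝ} {P : Fin 18 → ℝ → Prop} (h0 : ∀ j, P j 0)
    (hx : ∀ j, Oth q V j → P j x) (ht : ∀ j, j = Fin.castAdd 14 V ∨ j = 16 → P j t)
    (hm : P 17 m) (j : Fin 18) : P j (lt q V x m t j) := by
  unfold lt
  split_ifs with h1 h2 h3
  · exact h0 j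
  · exact ht j h2
  · rw [h3]; exact hm
  · push Not at h1 h2
    exact hx j ⟨h1.1, h1.2, h2.1, h2.2, h3⟩

theorem lt_17 {q : Fin 14} {V : Fin 4} (hq : q ≠ 13) {x m t : ℝ} : lt q V x m t 17 = m := by
  unfold lt
  rw [if_neg, if_neg, if_pos rfl]
  · rintro (h' | h')
    · have := congrArg Fin.val h'
      simp at this
      have := V.isLt; omega
    · exact absurd h' (by decide)
  · rintro (h' | h')
    · exact absurd h' (by decide)
    · have := congrArg Fin.val h'
      simp [Fin.natAdd] at this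
      exact hq (Fin.ext (by simp; omega))

variable {ι : ℕ → Type*} [∀ n, DecidableEq (ι n)]

/-- **hypotheses on a window** at a wall `(2,1)`, `(2,2)`, reach `x` -/
structure ThinW (W : Wnd 18 ι) (q : Fin 14) (V : Fin 4) (x σ s a : ℝ) : Prop where
  x_pos : 0 < x
  hqV : (q = 10 ∧ V = 3) ∨ (q = 11 ∧ V = 2)
  hS : W.S = {0, Fin.natAdd 4 q}
  top : ∀ j, x ≤ W.top j
  slack : ∀ᶠ n in (U : Filter ℕ), ∀ l ∈ mlW (Fin.natAdd 4 q),
    W.X n (Fin.natAdd 4 q) + x * W.w n ≤ (l.map (W.X n)).sum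
  tightP : ∀ᶠ n in (U : Filter ℕ), W.X n 17 = W.X n 0 + W.X n 16
  tightV : ∀ᶠ n in (U : Filter ℕ), W.X n 17 = W.X n (Fin.castAdd 14 V) + W.X n (Fin.natAdd 4 q)
  leg0 : lt q V x 0 0 ∈ W.legW
  leg : ∀ t : ℝ, 0 ≤ t → t ≤ x → lt q V x x t ∈ W.legW
  dens : W.lam W.top ≤ W.lam (cut W.S W.top 0) + W.lam (cut W.S 0 W.top)
  frost : ∀ y : ℝ, 0 ≤ y → y ≤ x → W.lam (Pi.single 0 y) ≤ -(σ * y)
  full : ∀ t : ℝ, 0 ≤ t → t ≤ x → s * t ≤ W.nu (lt q V x x 0) - W.nu (lt q V x x t)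
  loss : W.nu (lt q V x 0 0) - W.nu (lt q V x x 0) ≤ a * x

section

variable {W : Wnd 18 ι} {κ : ℕ → ℝ} {lam : ℕ → Fin 18 → ℝ} {f : ∀ n, ι n → FW} {q : Fin 14}
  {V : Fin 4} {x σ s a : ℝ} {E : ∀ n, Finset (ι n)}

/-- a line of the configuration -/
noncomputable def ln0 (W : Wnd 18 ι) (E : ∀ n, Finset (ι n)) (n : ℕ) : ℕ :=
  (Wnd.cfg_nonempty (W := W) E n).choose.1

theorem ln0_spec (n : ℕ) : ∃ k, (ln0 W E n, k) ∈ (W.cfg E n).I :=
  ⟨(Wnd.cfg_nonempty (W := W) E n).choose.2, (Wnd.cfg_nonempty (W := W) E n).choose_spec⟩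

/-- level coordinate of a height -/
noncomputable def fg (W : Wnd 18 ι) (n k : ℕ) (s : Fin 18) : ℝ :=
  W.crd n (W.s₀ n) (W.zrep n k) s

/-- relative velocity, normalised -/
noncomputable def DPt (W : Wnd 18 ι) (lam : ℕ → Fin 18 → ℝ) (E : ∀ n, Finset (ι n))
    (n k₀ i i' : ℕ) : ℝ :=
  cfl W lam n [0, 16] 17 * (W.cfg E n).rel k₀ i i' 16

/-- relative lateral position, normalised -/
noncomputable def DXt (W : Wnd 18 ι) (lam : ℕ → Fin 18 → ℝ) (q : Fin 14) (V : Fin 4)
    (E : ∀ n, Finset (ι n)) (n k₀ i i' : ℕ) : ℝ :=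
  cfl W lam n [Fin.castAdd 14 V, Fin.natAdd 4 q] 17 * (W.cfg E n).rel k₀ i i' (Fin.castAdd 14 V)

/-- slack walls: small coefficients -/
theorem cfl_small (h : WWnd W κ lam f) {n : ℕ} {l : List (Fin 18)} {s : Fin 18} (hl : l ∈ mlW s)
    {x : ℝ} (ht : W.X n s + x * W.w n ≤ (l.map (W.X n)).sum) :
    cfl W lam n l s ≤ (l.map W.kap).prod / W.kap s * W.B'.d n ^ x := by
  have e1 : (l.map (un W lam n)).prod = (l.map W.kap).prod *
      (W.B.d n ^ (l.map (W.X n)).sum / (l.map (lam n)).prod) := by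
    clear hl ht
    induction l with
    | nil => simp
    | cons a l ih =>
      simp only [List.map_cons, List.prod_cons, List.sum_cons, ih]
      unfold un sd
      rw [Real.rpow_add (W.B.pos n)]
      field_simp
  have hk : 0 < (l.map W.kap).prod := kprod_pos h l
  have h1 := h.ok.kap s
  have h2 := (h.hl n).pos s
  have h3 := Real.rpow_pos_of_pos (W.B.pos n) (W.X n s)
  have hd : W.B.d n ^ (l.map (W.X n)).sum ≤ W.B.d n ^ W.X n s * W.B'.d n ^ x := by
    rw [h.ok.cls.base n, ← Real.rpow_mul (W.B.pos n).le, ← Real.rpow_add (W.B.pos n)]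
    refine Real.rpow_le_rpow_of_exponent_ge (W.B.pos n) (W.B.lt n).le ?_
    linarith
  unfold cfl
  rw [e1, (h.hl n).mul s l hl]
  unfold un sd
  have e2 : (l.map W.kap).prod * (W.B.d n ^ (l.map (W.X n)).sum / lam n s) /
      (W.kap s * (W.B.d n ^ W.X n s / lam n s)) =
      (l.map W.kap).prod / W.kap s * (W.B.d n ^ (l.map (W.X n)).sum / W.B.d n ^ W.X n s) := by
    field_simp
  rw [e2]
  refine mul_le_mul_of_nonneg_left ?_ (by positivity)
  rw [div_le_iff₀ h3]
  linarith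

/-- the facts used at one `n` -/
structure Fct (W : Wnd 18 ι) (lam : ℕ → Fin 18 → ℝ) (q : Fin 14) (V : Fin 4)
    (E : ∀ n, Finset (ι n)) (x : ℝ) (n : ℕ) : Prop where
  good : W.Good n
  sub : E n ⊆ W.Cl n
  cfg : W.cfg E n = W.cfg0 n (E n)
  small : ∀ t ∈ tms q, cfl W lam n t.idx (Fin.natAdd 4 q) ≤ CfW W * W.B'.d n ^ x
  cP : cfl W lam n [0, 16] 17 = W.kap 0 * W.kap 16 / W.kap 17
  cV : cfl W lam n [Fin.castAdd 14 V, Fin.natAdd 4 q] 17 =
    W.kap (Fin.castAdd 14 V) * W.kap (Fin.natAdd 4 q) / W.kap 17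

theorem mem_mlV {q : Fin 14} {V : Fin 4} (h : (q = 10 ∧ V = 3) ∨ (q = 11 ∧ V = 2)) :
    [Fin.castAdd 14 V, Fin.natAdd 4 q] ∈ mlW 17 := by
  rcases h with ⟨rfl, rfl⟩ | ⟨rfl, rfl⟩ <;> decide

theorem mem_mlP : [(0 : Fin 18), 16] ∈ mlW 17 := by decide

theorem ev_fct (h : WWnd W κ lam f) (L : ThinW W q V x σ s a)
    (hc : ∀ᶠ n in (U : Filter ℕ), W.Good n ∧ E n ⊆ W.Cl n ∧ W.cfg E n = W.cfg0 n (E n)) :
    ∀ᶠ n in (U : Filter ℕ), Fct W lam q V E x n := by
  filter_upwards [hc, L.slack, L.tightP, L.tightV] with n h4 h5 h6 h7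
  refine
    { good := h4.1, sub := h4.2.1, cfg := h4.2.2
      small := fun t ht => ?_
      cP := ?_
      cV := ?_ }
  · have hm : t.idx ∈ mlW (Fin.natAdd 4 q) := by
      rw [mlW_right]; exact List.mem_map_of_mem ht
    refine (cfl_small h hm (h5 _ hm)).trans ?_
    exact mul_le_mul_of_nonneg_right ((CfW_le h).2.1 q t ht)
      (Real.rpow_nonneg (W.B'.pos n).le _)
  · rw [h.cfl_eq mem_mlP (by simp [h6])]
    simp
  · rw [h.cfl_eq (mem_mlV L.hqV) (by simp [h7])]
    simp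

/-- error of the composition in the slot `q` -/
noncomputable def dT (W : Wnd 18 ι) : ℝ := 67 * (CfW W * MW W ^ 7)

/-- **the slot `q` is additive** up to `dT ρ^x` -/
theorem comp_q (h : WWnd W κ lam f) {n : ℕ} (F : Fct W lam q V E x n) {y₁ y₂ y₃ : ι n}
    (h1 : y₁ ∈ W.Cl n) (h2 : y₂ ∈ W.Cl n) (h3 : y₃ ∈ W.Cl n) :
    |W.crd n y₁ y₃ (Fin.natAdd 4 q) - (W.crd n y₁ y₂ (Fin.natAdd 4 q) +
      W.crd n y₂ y₃ (Fin.natAdd 4 q))| ≤ dT W * W.B'.d n ^ x := by
  have e := comp_flag h F.good h1 h2 h3 q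
  have hM := (MW_le h).1
  have hC := (CfW_le h).1
  have hρ : 0 ≤ W.B'.d n ^ x := Real.rpow_nonneg (W.B'.pos n).le _
  have hmix : ∀ s, |mix (W.crd n y₁ y₂) (W.crd n y₂ y₃) s| ≤ MW W := by
    intro s
    refine Fin.addCases (m := 4) (n := 14) (fun i => ?_) (fun q' => ?_) s
    · rw [mix_left]; exact crd_MW h F.good h2 h3 _
    · rw [mix_right]; exact crd_MW h F.good h1 h2 _
  have hD : 0 ≤ CfW W * W.B'.d n ^ x * MW W ^ 7 := by positivity
  have key := abs_sum_le (tmN W κ lam n q (W.crd n y₁ y₂) (W.crd n y₂ y₃)) (fun t => t.n) _ hD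
    (tms q) (fun _ => true) (fun t ht _ => by
      refine tmN_le h.hκ (h.cfl_pos n _ _).le (F.small t ht) ?_
      refine (prod_le_pow hM hmix t.idx).trans ?_
      exact pow_le_pow_right₀ hM (idx_len q t ht))
  rw [List.filter_true] at key
  have g2 : ((((tms q).map fun t => t.n.natAbs).sum : ℕ) : ℝ) ≤ 67 := by
    exact_mod_cast tms_sum q
  have e2 : W.crd n y₁ y₃ (Fin.natAdd 4 q) - (W.crd n y₁ y₂ (Fin.natAdd 4 q) +
      W.crd n y₂ y₃ (Fin.natAdd 4 q)) =
      ((tms q).map (tmN W κ lam n q (W.crd n y₁ y₂) (W.crd n y₂ y₃))).sum := by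
    rw [e]; ring
  rw [e2]
  refine key.trans ((mul_le_mul_of_nonneg_right g2 hD).trans (le_of_eq ?_))
  unfold dT
  ring

theorem q_mem (L : ThinW W q V x σ s a) : Fin.natAdd 4 q ∈ W.S := by rw [L.hS]; simp

theorem mem_S_iff (L : ThinW W q V x σ s a) {j : Fin 18} :
    j ∈ W.S ↔ j = 0 ∨ j = Fin.natAdd 4 q := by rw [L.hS]; simp

/-- error of the own motion in the slots `0`, `q` -/
noncomputable def oT (W : Wnd 18 ι) : ℝ := 3 * dT W + 2 * MW W

theorem dT_nonneg (h : WWnd W κ lam f) : 0 ≤ dT W := by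
  have hM := (MW_le h).1
  have hC := (CfW_le h).1
  unfold dT; positivity

/-- **own motion of a line = difference of the flags of the heights** -/
theorem own_q (h : WWnd W κ lam f) (L : ThinW W q V x σ s a) {n : ℕ} (F : Fct W lam q V E x n)
    {k₀ k i : ℕ} (h1 : (i, k₀) ∈ (W.cfg0 n (E n)).I) (h2 : (i, k) ∈ (W.cfg0 n (E n)).I) :
    |ownC W n i k₀ k (Fin.natAdd 4 q) - (fg W n k (Fin.natAdd 4 q) -
      fg W n k₀ (Fin.natAdd 4 q))| ≤ oT W * W.B'.d n ^ x := by
  have g := F.good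
  obtain ⟨a1, a2, a3⟩ := Wnd.rep_of_mem F.sub h1
  obtain ⟨b1, b2, b3⟩ := Wnd.rep_of_mem F.sub h2
  obtain ⟨y, hy, hy1, hy2⟩ := Wnd.mem_I.1 h1
  obtain ⟨y', hy', hy1', hy2'⟩ := Wnd.mem_I.1 h2
  have r1 := W.zrep_spec (F.sub hy)
  have r2 := W.zrep_spec (F.sub hy')
  rw [hy2] at r1
  rw [hy2'] at r2
  have f1 := comp_q h F g.s0 r1.1 r2.1
  have f2 := comp_q h F r1.1 a1 r2.1
  have f3 := comp_q h F a1 b1 r2.1
  have l1 := lev_MW h g r1.1 a1 (r1.2.trans a3.symm) (q_mem L) (L.top _)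
  have l2 := lev_MW h g b1 r2.1 (b3.trans r2.2.symm) (q_mem L) (L.top _)
  unfold fg ownC oT
  rw [abs_le] at f1 f2 f3 l1 l2 ⊢
  constructor
  · nlinarith [f1.1, f1.2, f2.1, f2.2, f3.1, f3.2, l1.1, l1.2, l2.1, l2.2]
  · nlinarith [f1.1, f1.2, f2.1, f2.2, f3.1, f3.2, l1.1, l1.2, l2.1, l2.2]

theorem z_fg (h : WWnd W κ lam f) {n : ℕ} (k : ℕ) : (W.cfg0 n (E n)).z k = fg W n k 0 := by
  show W.crd n (W.s₀ n) (W.zrep n k) W.kz = _
  rw [h.kz]; rfl

/-- the height slot of the own motion -/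
theorem own_z (h : WWnd W κ lam f) (L : ThinW W q V x σ s a) {n : ℕ} (F : Fct W lam q V E x n)
    {k₀ k i : ℕ} (h1 : (i, k₀) ∈ (W.cfg0 n (E n)).I) (h2 : (i, k) ∈ (W.cfg0 n (E n)).I) :
    |ownC W n i k₀ k 0 - (fg W n k 0 - fg W n k₀ 0)| ≤ oT W * W.B'.d n ^ x := by
  have e := h.own_zero F.good F.sub h1 h2 (L.top 0)
  rw [z_fg h, z_fg h] at e
  refine e.trans ?_
  have h3 := (MW_le h).2 0
  have h4 := dT_nonneg h
  have h5 : 0 ≤ W.B'.d n ^ x := Real.rpow_nonneg (W.B'.pos n).le _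
  have e2 : 2 * W.K0 * W.B'.d n ^ x / W.kap 0 = 2 * (W.K0 / W.kap 0) * W.B'.d n ^ x := by ring
  rw [e2]
  refine mul_le_mul_of_nonneg_right ?_ h5
  unfold oT
  linarith

/-- the constant of `mv_fin` and `inT_fin` -/
noncomputable def CT (W : Wnd 18 ι) : ℝ :=
  2 * (oT W * (CfW W * MW W)) + CX W + 1 + CX W * ME W + CfW W * (ME W * MW W) + ME W

theorem CT_spec (h : WWnd W κ lam f) : 1 ≤ CT W ∧ 0 ≤ oT W := by
  have hM := (MW_le h).1
  have hC := (CfW_le h).1
  have hX := (CX_pos h).1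
  have hE := (MW_ME h).1
  have h4 := dT_nonneg h
  have h5 : 0 ≤ oT W := by unfold oT; linarith
  refine ⟨?_, h5⟩
  have t1 : 0 ≤ 2 * (oT W * (CfW W * MW W)) := by positivity
  have t2 : 0 ≤ CX W * ME W := by positivity
  have t3 : 0 ≤ CfW W * (ME W * MW W) := by positivity
  unfold CT
  linarith

/-- first set of narrow slots -/
def N1 : Finset (Fin 18) := (univ.erase 0).erase 16

/-- second set of narrow slots -/
def N2 (q : Fin 14) (V : Fin 4) : Finset (Fin 18) :=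
  (univ.erase (Fin.castAdd 14 V)).erase (Fin.natAdd 4 q)

theorem live1 : ∀ q' : Fin 14, q' ≠ 13 → live N1 q' = [] := by decide

theorem live1' : live N1 13 = [⟨1, 0, [0], 12⟩] := by decide

theorem live2 {q : Fin 14} {V : Fin 4} (h : (q = 10 ∧ V = 3) ∨ (q = 11 ∧ V = 2)) :
    ∀ q' : Fin 14, q' ≠ 13 → live (N2 q V) q' = [] := by
  rcases h with ⟨rfl, rfl⟩ | ⟨rfl, rfl⟩ <;> decide

theorem live2' {q : Fin 14} {V : Fin 4} (h : (q = 10 ∧ V = 3) ∨ (q = 11 ∧ V = 2)) :
    live (N2 q V) 13 = [⟨1, 0, [V], q⟩] := by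
  rcases h with ⟨rfl, rfl⟩ | ⟨rfl, rfl⟩ <;> decide

/-- evolved lateral slots, `c` narrow -/
theorem evF_near (h : WWnd W κ lam f) {n : ℕ} (g : W.Good n) {a b : Fin 18 → ℝ}
    (ha : |a 0| ≤ MW W) (hb : ∀ s, |b s| ≤ MW W) {e2 : ℝ} (h1 : |b 1| ≤ e2) (i : Fin 4)
    (hi : i ≠ 0) : |evF W κ lam n a b (Fin.castAdd 14 i) - b (Fin.castAdd 14 i)| ≤
      CfW W * (MW W * (MW W * e2)) := by
  have hM := (MW_le h).1
  have hC := (CfW_le h).1
  have hk := h.hκ n
  have he2 : 0 ≤ e2 := (abs_nonneg _).trans h1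
  have hM0 : 0 ≤ MW W := by linarith
  have hC0 : 0 ≤ CfW W := by linarith
  fin_cases i
  · exact absurd rfl hi
  · show |evF W κ lam n a b 1 - b 1| ≤ _
    have e1 : evF W κ lam n a b 1 = b 1 := by
      unfold evF
      rw [if_neg (by decide), h.evoC1]
    rw [e1, sub_self, abs_zero]
    positivity
  · show |evF W κ lam n a b 2 - b 2| ≤ _
    have e1 : evF W κ lam n a b 2 - b 2 = cfl W lam n [1, 0] 2 * (a 0 * b 1) := by
      unfold evF
      rw [if_neg (by decide), h.evoC2]; ring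
    rw [e1, abs_mul, abs_mul, abs_of_pos (h.cfl_pos n _ _)]
    refine mul_le_mul (cfl2_CfW h g) ?_ (by positivity) hC0
    refine (mul_le_mul ha h1 (abs_nonneg _) hM0).trans ?_
    exact mul_le_mul_of_nonneg_left (le_mul_of_one_le_left he2 hM) hM0
  · show |evF W κ lam n a b 3 - b 3| ≤ _
    have e1 : evF W κ lam n a b 3 - b 3 =
        -(κ n * cfl W lam n [1, 1, 0] 3 * (a 0 * (b 1 * b 1))) := by
      unfold evF
      rw [if_neg (by decide), h.evoC3]; ring
    rw [e1, abs_neg, abs_mul, abs_mul, abs_mul, abs_mul, abs_of_pos (h.cfl_pos n _ _)]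
    have k1 : |κ n| * cfl W lam n [1, 1, 0] 3 ≤ 1 * CfW W :=
      mul_le_mul hk (cfl3'_CfW h g) (h.cfl_pos n _ _).le zero_le_one
    rw [one_mul] at k1
    refine mul_le_mul k1 ?_ (by positivity) hC0
    exact mul_le_mul ha (mul_le_mul (hb 1) h1 (abs_nonneg _) hM0) (by positivity) hM0

theorem V_ne (L : ThinW W q V x σ s a) : V ≠ 0 ∧ V ≠ 1 ∧ q ≠ 12 ∧ q ≠ 13 := by
  rcases L.hqV with ⟨rfl, rfl⟩ | ⟨rfl, rfl⟩ <;> decide

/-- the row of the flag slot `q'` -/
theorem row_fin (h : WWnd W κ lam f) (L : ThinW W q V x σ s a) {n : ℕ} (F : Fct W lam q V E x n)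
    {k₀ k i l : ℕ} (h1 : (i, k₀) ∈ (W.cfg0 n (E n)).I) (h2 : (i, k) ∈ (W.cfg0 n (E n)).I)
    (h3 : (l, k₀) ∈ (W.cfg0 n (E n)).I) (h4 : (l, k) ∈ (W.cfg0 n (E n)).I) {e2 : ℝ}
    (g2 : ∀ j, Oth q V j ∨ j = 17 → |(W.cfg0 n (E n)).rel k₀ i l j| ≤ e2) {q' : Fin 14}
    (hq' : q' ≠ q) :
    |(W.cfg0 n (E n)).rel k i l (Fin.natAdd 4 q') -
      ((W.cfg0 n (E n)).rel k₀ i l (Fin.natAdd 4 q') + ((live N1 q').map
        (tmN W κ lam n q' (offV W.S ((W.cfg0 n (E n)).rel k₀ i l))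
          (shF (ownC W n i k₀ k)))).sum -
      ((live (N2 q V) q').map (tmN W κ lam n q' (onV W.S (ownC W n i k₀ k))
        (evF W κ lam n (ownC W n i k₀ k) ((W.cfg0 n (E n)).rel k₀ i l)))).sum)| ≤
      CX W * (W.B'.d n ^ x + ME W * e2) := by
  obtain ⟨v0, v1, v2, v3⟩ := V_ne L
  have he1 : |(W.cfg0 n (E n)).rel k₀ i l 1| ≤ e2 := g2 1 (Or.inl ⟨by decide, fun h' => by
      have := congrArg Fin.val h'; simp [Fin.natAdd] at this; omega, fun h' => v1 (by
      have := congrArg Fin.val h'; simp at this; exact Fin.ext this.symm), by decide, by decide⟩)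
  have he2 : 0 ≤ e2 := (abs_nonneg _).trans he1
  have hE := MW_ME h
  have hM := (MW_le h).1
  have hC := (CfW_le h).1
  have hη : 0 ≤ ME W * e2 := mul_nonneg (by linarith [hE.1]) he2
  have he2' : e2 ≤ ME W * e2 := le_mul_of_one_le_left he2 hE.1
  refine evo_row h F.good F.sub h1 h2 h3 h4 L.top (q := q') ?_ hη (N1 := N1) (N2 := N2 q V)
    (by decide) ?_ ?_ ?_
  · rw [mem_S_iff L]
    rintro (h' | h')
    · have := congrArg Fin.val h'; simp [Fin.natAdd] at this
    · exact hq' (Fin.natAdd_injective _ _ h')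
  · intro q'' hq'' hS''
    refine (g2 _ ?_).trans he2'
    rw [mem_S_iff L] at hS''
    push Not at hS''
    by_cases h17 : (Fin.natAdd 4 q'' : Fin 18) = 17
    · exact Or.inr h17
    · refine Or.inl ⟨hS''.1, hS''.2, fun h' => ?_, fun h' => ?_, h17⟩
      · have := congrArg Fin.val h'; simp [Fin.natAdd] at this
        have := V.isLt; omega
      · rw [h'] at hq''
        revert hq''; decide
  · intro q'' hq'' hS''
    exfalso
    rw [mem_S_iff L] at hS''
    rcases hS'' with h' | h'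
    · have := congrArg Fin.val h'; simp [Fin.natAdd] at this
    · rw [h'] at hq''
      unfold N2 at hq''
      simp at hq''
  · intro i' hi' hiN
    have hb := rel_MW' h F.good F.sub h1 h3
    have ha := own_MW' h F.good F.sub h1 h2 0
    have k1 := evF_near h F.good ha hb he1 i' hi'
    have k2 : |(W.cfg0 n (E n)).rel k₀ i l (Fin.castAdd 14 i')| ≤ e2 := by
      refine g2 _ (Or.inl ⟨fun h' => hi' (Fin.ext ?_), fun h' => ?_, fun h' => ?_, fun h' => ?_,
        fun h' => ?_⟩)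
      · have := congrArg Fin.val h'; simpa using this
      · have := congrArg Fin.val h'; simp [Fin.natAdd] at this
        have := i'.isLt; omega
      · rw [h'] at hiN
        unfold N2 at hiN
        simp at hiN
      · have := congrArg Fin.val h'; simp at this
        have := i'.isLt; omega
      · have := congrArg Fin.val h'; simp at this
        have := i'.isLt; omega
    have k3 : CfW W * (MW W * (MW W * e2)) + e2 ≤ ME W * e2 := by
      have e : CfW W * (MW W * (MW W * e2)) + e2 = (CfW W * MW W ^ 2 + 1) * e2 := by ring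
      rw [e]
      refine mul_le_mul_of_nonneg_right ?_ he2
      unfold ME
      have p2 : MW W ^ 2 ≤ MW W ^ 3 := pow_le_pow_right₀ hM (by norm_num)
      have p3 : 1 ≤ MW W ^ 3 := one_le_pow₀ hM
      nlinarith
    have e : evF W κ lam n (ownC W n i k₀ k) ((W.cfg0 n (E n)).rel k₀ i l) (Fin.castAdd 14 i') =
        (evF W κ lam n (ownC W n i k₀ k) ((W.cfg0 n (E n)).rel k₀ i l) (Fin.castAdd 14 i') -
        (W.cfg0 n (E n)).rel k₀ i l (Fin.castAdd 14 i')) +
        (W.cfg0 n (E n)).rel k₀ i l (Fin.castAdd 14 i') := by ring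
    rw [e]
    exact (abs_add_le _ _).trans ((add_le_add k1 k2).trans k3)

/-- monomial `z P` of `N` -/
theorem tm_zP {n : ℕ} (b c : Fin 18 → ℝ) :
    tmN W κ lam n 13 b c ⟨1, 0, [0], 12⟩ = cfl W lam n [0, 16] 17 * (c 0 * b 16) := by
  unfold tmN
  simp only [List.map_cons, List.map_nil, List.prod_cons, List.prod_nil, mul_one, Int.cast_one,
    pow_zero, one_mul]
  rfl

/-- monomial `V w` of `N` -/
theorem tm_V {n : ℕ} (b c : Fin 18 → ℝ) :
    tmN W κ lam n 13 b c ⟨1, 0, [V], q⟩ = cfl W lam n [Fin.castAdd 14 V, Fin.natAdd 4 q] 17 *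
      (c (Fin.castAdd 14 V) * b (Fin.natAdd 4 q)) := by
  unfold tmN
  simp only [List.map_cons, List.map_nil, List.prod_cons, List.prod_nil, mul_one, Int.cast_one,
    pow_zero, one_mul]
  rfl

/-- **the moving functional, finite form** -/
theorem mv_fin (h : WWnd W κ lam f) (L : ThinW W q V x σ s a) {n : ℕ} (F : Fct W lam q V E x n)
    {k₀ k i l : ℕ} (h1 : (i, k₀) ∈ (W.cfg E n).I) (h2 : (i, k) ∈ (W.cfg E n).I)
    (h3 : (l, k₀) ∈ (W.cfg E n).I) (h4 : (l, k) ∈ (W.cfg E n).I) {e1 e2 : ℝ}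
    (g1 : |(W.cfg E n).rel k i l 17| ≤ e1)
    (g2 : ∀ j, Oth q V j ∨ j = 17 → |(W.cfg E n).rel k₀ i l j| ≤ e2) :
    |(fg W n k 0 - fg W n k₀ 0) * DPt W lam E n k₀ i l -
      (fg W n k (Fin.natAdd 4 q) - fg W n k₀ (Fin.natAdd 4 q)) * DXt W lam q V E n k₀ i l| ≤
      e1 + CT W * (W.B'.d n ^ x + e2) := by
  obtain ⟨v0, v1, v2, v3⟩ := V_ne L
  unfold DPt DXt
  rw [F.cfg] at h1 h2 h3 h4 g1 g2 ⊢
  have hrow := row_fin h L F h1 h2 h3 h4 g2 (q' := 13) (fun h' => v3 h'.symm)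
  rw [live1', live2' L.hqV] at hrow
  simp only [List.map_cons, List.map_nil, List.sum_cons, List.sum_nil, add_zero] at hrow
  rw [tm_zP, tm_V] at hrow
  have oq := own_q h L F h1 h2
  have oz := own_z h L F h1 h2
  have hbM := rel_MW' h F.good F.sub h1 h3
  have haM := own_MW' h F.good F.sub h1 h2
  set a := ownC W n i k₀ k with ha
  set b := (W.cfg0 n (E n)).rel k₀ i l with hb
  have e16 : offV W.S b 16 = b 16 := by
    unfold offV
    rw [if_neg]
    rw [mem_S_iff L]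
    rintro (h' | h')
    · exact absurd h' (by decide)
    · have := congrArg Fin.val h'; simp [Fin.natAdd] at this
      exact v2 (Fin.ext (by simp; omega))
  have eq' : onV W.S a (Fin.natAdd 4 q) = a (Fin.natAdd 4 q) := by
    unfold onV
    rw [if_pos (q_mem L)]
  have e0 : shF a 0 = a 0 := by simp [shF]
  rw [e16, eq', e0] at hrow
  have he1 : |b 1| ≤ e2 := g2 1 (Or.inl ⟨by decide, fun h' => by
      have := congrArg Fin.val h'; simp [Fin.natAdd] at this; omega, fun h' => v1 (by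
      have := congrArg Fin.val h'; simp at this; exact Fin.ext this.symm), by decide, by decide⟩)
  have he2 : 0 ≤ e2 := (abs_nonneg _).trans he1
  have b17 : |b 17| ≤ e2 := g2 17 (Or.inr rfl)
  have hV := evF_near h F.good (haM 0) hbM he1 V v0
  set EV := evF W κ lam n a b (Fin.castAdd 14 V) with hEV
  set bV := b (Fin.castAdd 14 V) with hbV
  set aq := a (Fin.natAdd 4 q) with haq
  have hE := MW_ME h
  have hM := (MW_le h).1
  have hC := (CfW_le h).1
  have hM0 : 0 ≤ MW W := by linarith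
  have hC0 : 0 ≤ CfW W := by linarith
  have hρ : 0 ≤ W.B'.d n ^ x := Real.rpow_nonneg (W.B'.pos n).le _
  have cP0 := h.cfl_pos n [0, 16] 17
  have cV0 := h.cfl_pos n [Fin.castAdd 14 V, Fin.natAdd 4 q] 17
  have cP1 : cfl W lam n [0, 16] 17 ≤ CfW W := cfl_CfW h F.good (q := 13)
    (t := ⟨1, 0, [0], 12⟩) (by decide)
  have cV1 : cfl W lam n [Fin.castAdd 14 V, Fin.natAdd 4 q] 17 ≤ CfW W := by
    have : (⟨1, 0, [V], q⟩ : Tm) ∈ tms 13 := by
      rcases L.hqV with ⟨rfl, rfl⟩ | ⟨rfl, rfl⟩ <;> decide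
    exact cfl_CfW h F.good (q := 13) this
  set cP := cfl W lam n [0, 16] 17 with hcP
  set cV := cfl W lam n [Fin.castAdd 14 V, Fin.natAdd 4 q] 17 with hcV
  have t1 : |(a 0 - (fg W n k 0 - fg W n k₀ 0)) * (cP * b 16)| ≤
      oT W * W.B'.d n ^ x * (CfW W * MW W) := by
    rw [abs_mul, abs_mul, abs_of_pos cP0]
    exact mul_le_mul oz (mul_le_mul cP1 (hbM 16) (abs_nonneg _) hC0) (by positivity)
      ((abs_nonneg _).trans oz)
  have t2 : |(aq - (fg W n k (Fin.natAdd 4 q) - fg W n k₀ (Fin.natAdd 4 q))) * (cV * bV)| ≤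
      oT W * W.B'.d n ^ x * (CfW W * MW W) := by
    rw [abs_mul, abs_mul, abs_of_pos cV0]
    exact mul_le_mul oq (mul_le_mul cV1 (hbM _) (abs_nonneg _) hC0) (by positivity)
      ((abs_nonneg _).trans oq)
  have t3 : |cV * ((EV - bV) * aq)| ≤ CfW W * (CfW W * (MW W * (MW W * e2)) * MW W) := by
    rw [abs_mul, abs_mul, abs_of_pos cV0]
    exact mul_le_mul cV1 (mul_le_mul hV (haM _) (abs_nonneg _) (by positivity))
      (by positivity) hC0
  have t4 : CfW W * (CfW W * (MW W * (MW W * e2)) * MW W) ≤ CfW W * (ME W * MW W) * e2 := by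
    have e : CfW W * (CfW W * (MW W * (MW W * e2)) * MW W) =
        CfW W * ((CfW W * MW W ^ 2) * MW W) * e2 := by ring
    rw [e]
    refine mul_le_mul_of_nonneg_right ?_ he2
    refine mul_le_mul_of_nonneg_left ?_ hC0
    refine mul_le_mul_of_nonneg_right ?_ hM0
    unfold ME
    have p2 : MW W ^ 2 ≤ MW W ^ 3 := pow_le_pow_right₀ hM (by norm_num)
    have p3 : 0 ≤ MW W ^ 3 := by positivity
    nlinarith
  have key : (fg W n k 0 - fg W n k₀ 0) * (cP * b 16) -
      (fg W n k (Fin.natAdd 4 q) - fg W n k₀ (Fin.natAdd 4 q)) * (cV * bV) =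
      -((W.cfg0 n (E n)).rel k i l (Fin.natAdd 4 (13 : Fin 14)) - (b (Fin.natAdd 4 (13 : Fin 14)) +
        cP * (a 0 * b 16) - cV * (EV * aq))) + (W.cfg0 n (E n)).rel k i l 17 - b 17 +
        cV * ((EV - bV) * aq) - (a 0 - (fg W n k 0 - fg W n k₀ 0)) * (cP * b 16) +
        (aq - (fg W n k (Fin.natAdd 4 q) - fg W n k₀ (Fin.natAdd 4 q))) * (cV * bV) := by
    have e17 : (Fin.natAdd 4 (13 : Fin 14) : Fin 18) = 17 := rfl
    rw [e17]
    ring
  rw [key]
  have hX := (CX_pos h).1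
  have hME0 : 0 ≤ ME W := by linarith [hE.1]
  have hoT := (CT_spec h).2
  have fin : oT W * W.B'.d n ^ x * (CfW W * MW W) + oT W * W.B'.d n ^ x * (CfW W * MW W) +
      CX W * (W.B'.d n ^ x + ME W * e2) + e2 + CfW W * (ME W * MW W) * e2 ≤
      CT W * (W.B'.d n ^ x + e2) := by
    have e : CT W * (W.B'.d n ^ x + e2) - (oT W * W.B'.d n ^ x * (CfW W * MW W) +
        oT W * W.B'.d n ^ x * (CfW W * MW W) + CX W * (W.B'.d n ^ x + ME W * e2) + e2 +
        CfW W * (ME W * MW W) * e2) = (1 + CX W * ME W + CfW W * (ME W * MW W) + ME W) *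
        W.B'.d n ^ x + (2 * (oT W * (CfW W * MW W)) + CX W + ME W) * e2 := by
      unfold CT; ring
    have : 0 ≤ (1 + CX W * ME W + CfW W * (ME W * MW W) + ME W) *
        W.B'.d n ^ x + (2 * (oT W * (CfW W * MW W)) + CX W + ME W) * e2 := by positivity
    linarith
  rw [abs_le] at hrow g1 b17 t1 t2 t3 ⊢
  constructor
  · linarith [hrow.1, hrow.2, g1.1, g1.2, b17.1, b17.2, t1.1, t1.2, t2.1, t2.2, t3.1, t3.2]
  · linarith [hrow.1, hrow.2, g1.1, g1.2, b17.1, b17.2, t1.1, t1.2, t2.1, t2.2, t3.1, t3.2]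

/-- **the other slots, finite form** -/
theorem inT_fin (h : WWnd W κ lam f) (L : ThinW W q V x σ s a) {n : ℕ} (F : Fct W lam q V E x n)
    {k₀ k i l : ℕ} (h1 : (i, k₀) ∈ (W.cfg E n).I) (h2 : (i, k) ∈ (W.cfg E n).I)
    (h3 : (l, k₀) ∈ (W.cfg E n).I) (h4 : (l, k) ∈ (W.cfg E n).I) {e2 : ℝ}
    (g2 : ∀ j, Oth q V j ∨ j = 17 → |(W.cfg E n).rel k₀ i l j| ≤ e2) {j : Fin 18}
    (hj : Oth q V j) : |(W.cfg E n).rel k i l j| ≤ CT W * (W.B'.d n ^ x + e2) := by
  obtain ⟨v0, v1, v2, v3⟩ := V_ne L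
  rw [F.cfg] at h1 h2 h3 h4 g2 ⊢
  have hbM := rel_MW' h F.good F.sub h1 h3
  have haM := own_MW' h F.good F.sub h1 h2
  have he1 : |(W.cfg0 n (E n)).rel k₀ i l 1| ≤ e2 := g2 1 (Or.inl ⟨by decide, fun h' => by
      have := congrArg Fin.val h'; simp [Fin.natAdd] at this; omega, fun h' => v1 (by
      have := congrArg Fin.val h'; simp at this; exact Fin.ext this.symm), by decide, by decide⟩)
  have he2 : 0 ≤ e2 := (abs_nonneg _).trans he1
  have hbj := g2 j (Or.inl hj)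
  have hE := MW_ME h
  have hM := (MW_le h).1
  have hC := (CfW_le h).1
  have hM0 : 0 ≤ MW W := by linarith
  have hC0 : 0 ≤ CfW W := by linarith
  have hME0 : 0 ≤ ME W := by linarith [hE.1]
  have hX := (CX_pos h).1
  have hoT := (CT_spec h).2
  have hρ : 0 ≤ W.B'.d n ^ x := Real.rpow_nonneg (W.B'.pos n).le _
  have hjS : j ∉ W.S := by
    rw [mem_S_iff L]
    rintro (h' | h')
    · exact hj.1 h'
    · exact hj.2.1 h'
  have hfin : CX W * (W.B'.d n ^ x + ME W * e2) + e2 ≤ CT W * (W.B'.d n ^ x + e2) := by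
    have e : CT W * (W.B'.d n ^ x + e2) - (CX W * (W.B'.d n ^ x + ME W * e2) + e2) =
        (2 * (oT W * (CfW W * MW W)) + 1 + CX W * ME W + CfW W * (ME W * MW W) + ME W) *
        W.B'.d n ^ x + (2 * (oT W * (CfW W * MW W)) + CX W + CfW W * (ME W * MW W) + ME W) *
        e2 := by
      unfold CT; ring
    have : 0 ≤ (2 * (oT W * (CfW W * MW W)) + 1 + CX W * ME W + CfW W * (ME W * MW W) + ME W) *
        W.B'.d n ^ x + (2 * (oT W * (CfW W * MW W)) + CX W + CfW W * (ME W * MW W) + ME W) *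
        e2 := by positivity
    linarith
  induction j using Fin.addCases (m := 4) (n := 14) with
  | left i' =>
    have hi0 : i' ≠ 0 := fun h' => hj.1 (by rw [h']; rfl)
    have hev := h.evo_cfg F.good F.sub h1 h2 h3 h4 L.top (Fin.castAdd 14 i') hjS
    have hnear := evF_near h F.good (haM 0) hbM he1 i' hi0
    have eF : evF W κ lam n (ownC W n i k₀ k) ((W.cfg0 n (E n)).rel k₀ i l) (Fin.castAdd 14 i') =
        evoC W κ lam n (ownC W n i k₀ k) ((W.cfg0 n (E n)).rel k₀ i l) (Fin.castAdd 14 i') := by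
      unfold evF
      rw [if_neg hj.1]
    rw [eF] at hnear
    have c1 : CW W.K0 * W.B'.d n ^ x / W.kap (Fin.castAdd 14 i') ≤ CX W * W.B'.d n ^ x := by
      have := CX_row h (η := 0) (τ := W.B'.d n ^ x) le_rfl hρ (s := Fin.castAdd 14 i')
      simpa using this
    have c2 : CfW W * (MW W * (MW W * e2)) ≤ ME W * e2 := by
      have e : CfW W * (MW W * (MW W * e2)) = (CfW W * MW W ^ 2) * e2 := by ring
      rw [e]
      refine mul_le_mul_of_nonneg_right ?_ he2
      unfold ME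
      have p2 : MW W ^ 2 ≤ MW W ^ 3 := pow_le_pow_right₀ hM (by norm_num)
      have p3 : 0 ≤ MW W ^ 3 := by positivity
      nlinarith
    have hfin2 : CX W * W.B'.d n ^ x + ME W * e2 + e2 ≤ CT W * (W.B'.d n ^ x + e2) := by
      have e : CT W * (W.B'.d n ^ x + e2) - (CX W * W.B'.d n ^ x + ME W * e2 + e2) =
          (2 * (oT W * (CfW W * MW W)) + 1 + CX W * ME W + CfW W * (ME W * MW W) + ME W) *
          W.B'.d n ^ x + (2 * (oT W * (CfW W * MW W)) + CX W + CX W * ME W +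
            CfW W * (ME W * MW W)) * e2 := by
        unfold CT; ring
      have : 0 ≤ (2 * (oT W * (CfW W * MW W)) + 1 + CX W * ME W + CfW W * (ME W * MW W) + ME W) *
          W.B'.d n ^ x + (2 * (oT W * (CfW W * MW W)) + CX W + CX W * ME W +
            CfW W * (ME W * MW W)) * e2 := by positivity
      linarith
    refine le_trans ?_ hfin2
    rw [abs_le] at hev hnear hbj ⊢
    constructor
    · linarith [hev.1, hev.2, hnear.1, hnear.2, hbj.1, hbj.2]
    · linarith [hev.1, hev.2, hnear.1, hnear.2, hbj.1, hbj.2]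
  | right q' =>
    have hq' : q' ≠ q := fun h' => hj.2.1 (by rw [h'])
    have h13 : q' ≠ 13 := fun h' => hj.2.2.2.2 (by rw [h']; rfl)
    have hrow := row_fin h L F h1 h2 h3 h4 g2 hq'
    rw [live1 q' h13, live2 L.hqV q' h13] at hrow
    simp only [List.map_nil, List.sum_nil, add_zero, sub_zero] at hrow
    refine le_trans ?_ hfin
    rw [abs_le] at hrow hbj ⊢
    constructor
    · linarith [hrow.1, hrow.2, hbj.1, hbj.2]
    · linarith [hrow.1, hrow.2, hbj.1, hbj.2]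

/-- membership in the set of heights -/
theorem mem_Z {n k i : ℕ} (hi : (i, k) ∈ (W.cfg E n).I) : k ∈ (W.cfg E n).Z :=
  (mem_product.1 (Wnd.cfg_sub (W := W) E n hi)).2

/-- bound of the level coordinates -/
theorem fg_le (h : WWnd W κ lam f) {n : ℕ} (F : Fct W lam q V E x n) {k : ℕ}
    (hk : k ∈ (W.cfg E n).Z) (s : Fin 18) : |fg W n k s| ≤ MW W := by
  rw [F.cfg] at hk
  obtain ⟨y, hy, rfl⟩ := mem_image.1 hk
  exact crd_MW h F.good F.good.s0 (W.zrep_spec (F.sub hy)).1 s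

/-- bound of the relative coordinates -/
theorem rel_le' (h : WWnd W κ lam f) {n : ℕ} (F : Fct W lam q V E x n) {k i l : ℕ}
    (h1 : (i, k) ∈ (W.cfg E n).I) (h2 : (l, k) ∈ (W.cfg E n).I) (s : Fin 18) :
    |(W.cfg E n).rel k i l s| ≤ MW W := by
  rw [F.cfg] at h1 h2 ⊢
  exact rel_MW' h F.good F.sub h1 h2 s

end

end Crest.Agent.R136.Rt478
end

-- ▼ part R136/Rt2_478
section

/-!
# R136: window instance of [RIG-0] in the W-chart, part 2 (helper478)

`rdata_thin` : the data `RDataL` of `rig0_RL` (helper501).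
-/

set_option autoImplicit false
set_option linter.unusedVariables false
set_option linter.unusedSectionVars false

open Filter Topology

namespace Crest.Agent.R136.Rt478

open Finset Crest.Agent.R136.NetW191 Crest.Agent.R136.Net191 Crest.Agent.R136.Qg926
open Crest.Agent.R136.EvW938 Crest.Agent.R136.RowW619
open Crest.Agent.R136.Gf356 Crest.Agent.R136.Rg6_501
open Crest.Agent.R136.Rgl501 (frost_unif pair_box)
open Crest.Agent.R138.Ex926 (Base U)

variable {ι : ℕ → Type*} [∀ n, DecidableEq (ι n)]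

section

variable {W : Wnd 18 ι} {κ : ℕ → ℝ} {lam : ℕ → Fin 18 → ℝ} {f : ∀ n, ι n → FW} {q : Fin 14}
  {V : Fin 4} {x σ s a : ℝ} {E : ∀ n, Finset (ι n)}

/-- heights, scaled -/
noncomputable def zl (W : Wnd 18 ι) (n k : ℕ) : ℝ := fg W n k 0 / MW W

/-- flags of the heights, scaled -/
noncomputable def fl (W : Wnd 18 ι) (q : Fin 14) (n k : ℕ) : ℝ := fg W n k (Fin.natAdd 4 q) / MW W

/-- one constant which is `ρ^(-o(1))` -/
noncomputable def KT (W : Wnd 18 ι) : ℝ := 4 * CT W + 4 * (CfW W + 1) * (MW W + 1) + 4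

theorem KT_spec (h : WWnd W κ lam f) : 1 ≤ KT W ∧ MW W ≤ KT W ∧ 4 * CT W ≤ KT W ∧
    CfW W * MW W ≤ KT W := by
  have hM := (MW_le h).1
  have hC := (CfW_le h).1
  have hT := (CT_spec h).1
  unfold KT
  refine ⟨?_, ?_, ?_, ?_⟩ <;> nlinarith

set_option maxHeartbeats 1600000 in
/-- **the data of [RIG-0] in the window** -/
theorem rdata_thin (h : WWnd W κ lam f) (L : ThinW W q V x σ s a)
    (hc : ∀ᶠ n in (U : Filter ℕ), W.Good n ∧ E n ⊆ W.Cl n ∧ W.cfg E n = W.cfg0 n (E n))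
    (H : RModel W.B' (W.cfg E) σ x W.legW W.nu W.Dc) :
    RDataL W.B' (W.cfg E) W.legW W.nu (ln0 W E) (fun n => (W.cfg E n).Z)
      (fun n => (W.cfg E n).hts (ln0 W E n)) (zl W) (fl W q) (DPt W lam E) (DXt W lam q V E)
      (lt q V x x 0) (lt q V x 0 0) (lt q V x x 0) (fun t => lt q V x x t) σ x s a
      (W.Dc ^ 2 + 8) (W.Dc ^ 2 + 8) := by
  have hx := L.x_pos
  have hM := (MW_le h).1
  have hM0 : 0 < MW W := by linarith
  have hD := H.D1
  have hD0 : 0 < W.Dc := by linarith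
  have hD2 : 0 < W.Dc ^ 2 := by positivity
  have hU := H.toRUnif
  obtain ⟨kt1, kt2, kt3, kt4⟩ := KT_spec h
  have hd : ∀ n (u : ℝ), 0 < W.B'.d n ^ u := fun n u => rpos W.B' n u
  have hdn : ∀ n {u v : ℝ}, u ≤ v → W.B'.d n ^ v ≤ W.B'.d n ^ u := fun n {u v} h' =>
    rpow_anti W.B' n h'
  have hfct := ev_fct h L hc
  have legS : lt q V x x 0 ∈ W.legW := L.leg 0 le_rfl hx.le
  have hbase : ∀ n, (W.cfg E n).ρ = W.B'.d n := H.base
  -- close pairs of a fibre
  have hpair2 : ∀ ε : ℝ, 0 < ε → ∀ᶠ n in (U : Filter ℕ),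
      ∀ k₀ ∈ (W.cfg E n).hts (ln0 W E n), ∀ i ∈ (W.cfg E n).box (lt q V x x 0) ε (ln0 W E n) k₀,
      ∀ i' ∈ (W.cfg E n).box (lt q V x x 0) ε (ln0 W E n) k₀, ∀ j, Oth q V j ∨ j = 17 →
      |(W.cfg E n).rel k₀ i i' j| ≤ W.B'.d n ^ (x - W.Dc * (W.Dc * ε)) := by
    intro ε hε
    filter_upwards [pair_box hU legS hε] with n gp k₀ hk₀ i hi i' hi' j hj
    have hpair := gp _ _ (RCfg.mem_hts.1 hk₀).2 i hi i' hi' j
    rw [hbase] at hpair
    have e : lt q V x x 0 j = x := by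
      rcases hj with hj | rfl
      · exact lt_oth hj
      · exact lt_17 (V_ne L).2.2.2
    rwa [e] at hpair
  refine
    { x_pos := hx, C1_nonneg := by positivity, C4_pos := by positivity
      bd := ?_, frost := ?_, pins := ?_, pinI := ?_, legS := legS, legT := L.leg0, legr := legS
      Tr := ?_, legQ := L.leg, one := ?_, alive := ?_, mv := ?_, inT := ?_, inQ := ?_
      lossQ := L.full, lossF := L.loss }
  · -- bd
    filter_upwards [hfct] with n F
    refine ⟨?_, fun k hk => ?_⟩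
    · obtain ⟨k, hk⟩ := ln0_spec (W := W) (E := E) n
      exact ⟨k, mem_Z hk⟩
    · unfold zl fl
      rw [abs_div, abs_div, abs_of_pos hM0, div_le_one hM0, div_le_one hM0]
      exact ⟨fg_le h F hk 0, fg_le h F hk _⟩
  · -- frost
    intro y hy0 hyx ε hε
    filter_upwards [hfct, frost_unif H (ε := ε / 2) (by positivity),
      Gf356.ev_const_le W.B' (t := ε / 2) (by positivity) (MW W)] with n F g1 g2 k hk T hT hTk
    have hσ0 := H.σ_nonneg
    have hσ1 := H.σ_le
    rcases le_or_gt (y - ε / 2) 0 with hy | hy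
    · calc (T.card : ℝ) ≤ 1 * ((W.cfg E n).Z.card : ℝ) := by
            rw [one_mul]; exact_mod_cast card_le_card hT
        _ ≤ _ := by
            refine mul_le_mul_of_nonneg_right ?_ (Nat.cast_nonneg _)
            rw [← Real.rpow_zero (W.B'.d n)]
            exact hdn n (by nlinarith)
    · have h1 := g1 (y - ε / 2) hy.le (by linarith) k hk
      have hsub : T ⊆ (W.cfg E n).hbox (y - ε / 2) k := by
        intro k' hk'
        unfold RCfg.hbox
        rw [mem_filter]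
        refine ⟨hT hk', ?_⟩
        have h2 := hTk k' hk'
        unfold zl at h2
        rw [← sub_div, abs_div, abs_of_pos hM0, div_le_iff₀ hM0] at h2
        rw [F.cfg, z_fg h, z_fg h, ← F.cfg, hbase]
        calc |fg W n k' 0 - fg W n k 0| ≤ W.B'.d n ^ y * MW W := h2
          _ ≤ W.B'.d n ^ y * W.B'.d n ^ (-(ε / 2)) := mul_le_mul_of_nonneg_left g2 (hd n y).le
          _ = _ := by rw [← rpow_add']; congr 1
      refine (Nat.cast_le.2 (card_le_card hsub)).trans (h1.trans ?_)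
      refine mul_le_mul_of_nonneg_right (hdn n ?_) (Nat.cast_nonneg _)
      nlinarith
  · -- pins
    intro ε hε
    filter_upwards [H.line ε hε] with n g1
    refine ⟨fun k hk => (RCfg.mem_hts.1 hk).1, ?_⟩
    obtain ⟨k, hk⟩ := ln0_spec (W := W) (E := E) n
    refine le_trans ?_ (g1 _ (hU.memL hk))
    refine mul_le_mul_of_nonneg_right (hdn n ?_) (Nat.cast_nonneg _)
    nlinarith
  · -- pinI
    filter_upwards with n k hk
    exact (RCfg.mem_hts.1 hk).2
  · -- Tr
    intro j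
    refine lt_cases (q := q) (V := V) (x := x) (m := 0) (t := 0)
      (P := fun j v => v ≤ lt q V x x 0 j) ?_ ?_ ?_ ?_ j
    · intro j
      exact lt_cases (q := q) (V := V) (x := x) (m := x) (t := 0) (P := fun _ v => 0 ≤ v)
        (fun _ => le_rfl) (fun _ _ => hx.le) (fun _ _ => le_rfl) hx.le j
    · intro j hj
      rw [lt_oth hj]
    · intro j hj
      exact lt_cases (q := q) (V := V) (x := x) (m := x) (t := 0) (P := fun _ v => 0 ≤ v)
        (fun _ => le_rfl) (fun _ _ => hx.le) (fun _ _ => le_rfl) hx.le j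
    · exact lt_cases (q := q) (V := V) (x := x) (m := x) (t := 0) (P := fun _ v => 0 ≤ v)
        (fun _ => le_rfl) (fun _ _ => hx.le) (fun _ _ => le_rfl) hx.le 17
  · -- one
    intro ε hε
    filter_upwards [hfct, Gf356.ev_const_le W.B' hε (KT W)] with n F g k₀ hk₀ i hi i' hi'
    have hi1 := hU.memSlice.1 (RCfg.box_subset_slice hi)
    have hi1' := hU.memSlice.1 (RCfg.box_subset_slice hi')
    have hC := (CfW_le h).1
    have cP1 : cfl W lam n [0, 16] 17 ≤ CfW W := cfl_CfW h F.good (q := 13)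
      (t := ⟨1, 0, [0], 12⟩) (by decide)
    have cV1 : cfl W lam n [Fin.castAdd 14 V, Fin.natAdd 4 q] 17 ≤ CfW W := by
      have : (⟨1, 0, [V], q⟩ : Tm) ∈ tms 13 := by
        rcases L.hqV with ⟨rfl, rfl⟩ | ⟨rfl, rfl⟩ <;> decide
      exact cfl_CfW h F.good (q := 13) this
    have key : ∀ u v : ℝ, 0 < u → u ≤ CfW W → |v| ≤ MW W →
        |u * v| ≤ W.B'.d n ^ (-((W.Dc ^ 2 + 8) * ε)) := by
      intro u v hu0 hu hv
      rw [abs_mul, abs_of_pos hu0]
      calc u * |v| ≤ CfW W * MW W := mul_le_mul hu hv (abs_nonneg _) (by linarith)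
        _ ≤ KT W := kt4
        _ ≤ W.B'.d n ^ (-ε) := g
        _ ≤ _ := hdn n (by nlinarith)
    exact ⟨key _ _ (h.cfl_pos n _ _) cP1 (rel_le' h F hi1 hi1' 16),
      key _ _ (h.cfl_pos n _ _) cV1 (rel_le' h F hi1 hi1' _)⟩
  · -- alive
    intro ε hε
    filter_upwards [H.line ε hε] with n g1 k₀ hk₀ i hi T hT hTa
    have hi1 := hU.memSlice.1 (RCfg.box_subset_slice hi)
    have h1 : (W.cfg E n).hts i ⊆ T := fun k hk => by
      obtain ⟨a1, a2⟩ := RCfg.mem_hts.1 hk
      exact hTa k a1 a2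
    refine le_trans ?_ ((g1 i (hU.memL hi1)).trans (Nat.cast_le.2 (card_le_card h1)))
    refine mul_le_mul_of_nonneg_right (hdn n ?_) (Nat.cast_nonneg _)
    nlinarith
  · -- mv
    intro ε hε
    filter_upwards [hfct, Gf356.ev_const_le W.B' hε (KT W), hpair2 ε hε]
      with n F g gp k₀ hk₀ k hk i hi i' hi' hik hik' hl
    have hi1 := hU.memSlice.1 (RCfg.box_subset_slice hi)
    have hi1' := hU.memSlice.1 (RCfg.box_subset_slice hi')
    have g2 := gp k₀ hk₀ i hi i' hi'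
    have gk := hl 17
    rw [hbase] at gk
    have e17 : lt q V x x 0 17 = x := lt_17 (V_ne L).2.2.2
    rw [e17] at gk
    have hmv := mv_fin h L F hi1 hik hi1' hik' gk g2
    have e1 : (zl W n k - zl W n k₀) * DPt W lam E n k₀ i i' -
        (fl W q n k - fl W q n k₀) * DXt W lam q V E n k₀ i i' =
        ((fg W n k 0 - fg W n k₀ 0) * DPt W lam E n k₀ i i' -
        (fg W n k (Fin.natAdd 4 q) - fg W n k₀ (Fin.natAdd 4 q)) *
          DXt W lam q V E n k₀ i i') / MW W := by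
      unfold zl fl; ring
    rw [e1, abs_div, abs_of_pos hM0]
    refine (div_le_self (abs_nonneg _) hM).trans (hmv.trans ?_)
    set ρ := W.B'.d n with hρ
    set r : ℝ := ρ ^ (x - (W.Dc ^ 2 + 1) * ε) with hr
    have s1 : ρ ^ (x - ε) ≤ r := hdn n (by nlinarith)
    have s2 : ρ ^ x ≤ r := hdn n (by nlinarith)
    have s3 : ρ ^ (x - W.Dc * (W.Dc * ε)) ≤ r := hdn n (by nlinarith)
    have hr0 : 0 < r := hd n _
    have hT := (CT_spec h).1
    calc ρ ^ (x - ε) + CT W * (ρ ^ x + ρ ^ (x - W.Dc * (W.Dc * ε))) ≤ r + CT W * (r + r) := by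
          gcongr
      _ ≤ 4 * CT W * r := by nlinarith
      _ ≤ KT W * r := mul_le_mul_of_nonneg_right kt3 hr0.le
      _ ≤ ρ ^ (-ε) * r := mul_le_mul_of_nonneg_right g hr0.le
      _ = ρ ^ (-ε + (x - (W.Dc ^ 2 + 1) * ε)) := (rpow_add' _ _ _ _).symm
      _ ≤ _ := hdn n (by nlinarith)
  · -- inT
    intro ε hε
    filter_upwards [hfct, Gf356.ev_const_le W.B' hε (KT W), hpair2 ε hε]
      with n F g gp k₀ hk₀ k hk i hi i' hi' hik hik'
    have hi1 := hU.memSlice.1 (RCfg.box_subset_slice hi)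
    have hi1' := hU.memSlice.1 (RCfg.box_subset_slice hi')
    have g2 := gp k₀ hk₀ i hi i' hi'
    set ρ := W.B'.d n with hρ
    have hT := (CT_spec h).1
    have hfin : CT W * (ρ ^ x + ρ ^ (x - W.Dc * (W.Dc * ε))) ≤ ρ ^ (x - (W.Dc ^ 2 + 8) * ε) := by
      set r : ℝ := ρ ^ (x - (W.Dc ^ 2 + 1) * ε) with hr
      have s2 : ρ ^ x ≤ r := hdn n (by nlinarith)
      have s3 : ρ ^ (x - W.Dc * (W.Dc * ε)) ≤ r := hdn n (by nlinarith)
      have hr0 : 0 < r := hd n _
      calc CT W * (ρ ^ x + ρ ^ (x - W.Dc * (W.Dc * ε))) ≤ CT W * (r + r) := by gcongr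
        _ ≤ 4 * CT W * r := by nlinarith
        _ ≤ KT W * r := mul_le_mul_of_nonneg_right kt3 hr0.le
        _ ≤ ρ ^ (-ε) * r := mul_le_mul_of_nonneg_right g hr0.le
        _ = ρ ^ (-ε + (x - (W.Dc ^ 2 + 1) * ε)) := (rpow_add' _ _ _ _).symm
        _ ≤ _ := hdn n (by nlinarith)
    have h0 : ∀ j, |(W.cfg E n).rel k i i' j| ≤ ρ ^ (0 - (W.Dc ^ 2 + 8) * ε) := fun j =>
      (rel_le' h F hik hik' j).trans (kt2.trans (g.trans (hdn n (by nlinarith))))
    intro j
    rw [hbase]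
    exact lt_cases (q := q) (V := V) (x := x) (m := 0) (t := 0)
      (P := fun j v => |(W.cfg E n).rel k i i' j| ≤ ρ ^ (v - (W.Dc ^ 2 + 8) * ε))
      h0 (fun j hj => (inT_fin h L F hi1 hik hi1' hik' g2 hj).trans hfin) (fun j _ => h0 j)
      (h0 17) j
  · -- inQ
    intro t ht0 htx ε hε
    have hk0 := h.ok.kap 0
    have hkq := h.ok.kap (Fin.natAdd 4 q)
    have hk16 := h.ok.kap 16
    have hkV := h.ok.kap (Fin.castAdd 14 V)
    have hk17 := h.ok.kap 17
    set c7 : ℝ := W.kap 0 * W.kap 16 / W.kap 17 with hc7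
    set c9 : ℝ := W.kap (Fin.castAdd 14 V) * W.kap (Fin.natAdd 4 q) / W.kap 17 with hc9
    have hc70 : 0 < c7 := by positivity
    have hc90 : 0 < c9 := by positivity
    filter_upwards [hfct, hpair2 ε hε, Gf356.ev_const_le W.B' hε (1 / c7),
      Gf356.ev_const_le W.B' hε (1 / c9), Gf356.ev_const_le W.B' hε (KT W)]
      with n F gp g7 g9 g k₀ hk₀ i hi i' hi' hP hX
    have hi1 := hU.memSlice.1 (RCfg.box_subset_slice hi)
    have hi1' := hU.memSlice.1 (RCfg.box_subset_slice hi')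
    have g2 := gp k₀ hk₀ i hi i' hi'
    set ρ := W.B'.d n with hρ
    have small : ∀ (c v : ℝ), 0 < c → 1 / c ≤ ρ ^ (-ε) → |c * v| ≤ ρ ^ (t - ε) →
        |v| ≤ ρ ^ (t - (W.Dc ^ 2 + 8) * ε) := by
      intro c v hc0 hcε hcv
      rw [abs_mul, abs_of_pos hc0] at hcv
      calc |v| = 1 / c * (c * |v|) := by field_simp
        _ ≤ ρ ^ (-ε) * ρ ^ (t - ε) := mul_le_mul hcε hcv (by positivity) (hd n _).le
        _ = ρ ^ (-ε + (t - ε)) := (rpow_add' _ _ _ _).symm
        _ ≤ _ := hdn n (by nlinarith)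
    unfold DPt at hP
    unfold DXt at hX
    rw [F.cP] at hP
    rw [F.cV] at hX
    have r7 := small c7 _ hc70 g7 hP
    have r9 := small c9 _ hc90 g9 hX
    have h0 : ∀ j, |(W.cfg E n).rel k₀ i i' j| ≤ ρ ^ (0 - (W.Dc ^ 2 + 8) * ε) := fun j =>
      (rel_le' h F hi1 hi1' j).trans (kt2.trans (g.trans (hdn n (by nlinarith))))
    have hgx : ρ ^ (x - W.Dc * (W.Dc * ε)) ≤ ρ ^ (x - (W.Dc ^ 2 + 8) * ε) :=
      hdn n (by nlinarith)
    intro j
    rw [hbase]
    refine lt_cases (q := q) (V := V) (x := x) (m := x) (t := t)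
      (P := fun j v => |(W.cfg E n).rel k₀ i i' j| ≤ ρ ^ (v - (W.Dc ^ 2 + 8) * ε))
      h0 ?_ ?_ ?_ j
    · intro j hj
      exact (g2 j (Or.inl hj)).trans hgx
    · intro j hj
      rcases hj with rfl | rfl
      · exact r9
      · exact r7
    · exact (g2 17 (Or.inr rfl)).trans hgx

end

end Crest.Agent.R136.Rt478
end

-- ▼ part R136/Rt3_478
section

/-!
# R136: window instance of [RIG-0] in the W-chart, part 3 (helper478)

`rig0_thin` : in a window at a wall `(2,1)` or `(2,2)` (`ThinW`) the flag `w_A` resp. `w_B` of the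
heights is an affine function of the height, up to `ρ^y`, on a part `G'` of the incidences of the
class with `#G' ≥ T ρ^(η y)`.
-/

set_option autoImplicit false
set_option linter.unusedVariables false
set_option linter.unusedSectionVars false

open Filter Topology

namespace Crest.Agent.R136.Rt478

open Finset Crest.Agent.R136.NetW191 Crest.Agent.R136.Net191 Crest.Agent.R136.Qg926
open Crest.Agent.R136.EvW938 Crest.Agent.R136.RowW619
open Crest.Agent.R136.Gf356 Crest.Agent.R136.Rg6_501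
open Crest.Agent.R136.Rgl501 (frost_unif pair_box)
open Crest.Agent.R138.Ex926 (Base U)

/-- the pruned configuration is the honest one -/
theorem ev_hc' {ι : ℕ → Type*} [∀ n, DecidableEq (ι n)] {W : Wnd 18 ι} (h : W.Ok)
    {E E' : ∀ n, Finset (ι n)} {Mu g : ℕ → ℝ} {ex : ℕ → ∀ n, ι n → ℕ}
    (hE : Wnd.EOk W E Mu) (hP : Wnd.Pruned W E E' g ex) :
    ∀ᶠ n in (U : Filter ℕ), W.Good n ∧ E' n ⊆ W.Cl n ∧ W.cfg E' n = W.cfg0 n (E' n) := by
  filter_upwards [Wnd.ev_cfg h hE hP] with n ⟨h1, h2, h3, h4⟩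
  exact ⟨h1, (hP.sub n).trans h2, h4⟩

set_option maxHeartbeats 1600000 in
/-- **[RIG-0] in a window of the W-chart** -/
theorem rig0_thin {σ s a η : ℝ} (ha : 0 ≤ a) (has : a < s) (hsσ : s < σ) (hσ1 : σ ≤ 1)
    (hη : 0 < η) (hη1 : η ≤ 1) :
    ∃ θ : ℝ, 0 < θ ∧ θ ≤ 1 ∧ ∀ {ι : ℕ → Type*} [∀ n, DecidableEq (ι n)] {W : Wnd 18 ι}
      {κ : ℕ → ℝ} {lam : ℕ → Fin 18 → ℝ} {f : ∀ n, ι n → FW} (h : WWnd W κ lam f)
      {q : Fin 14} {V : Fin 4} {x : ℝ} (L : ThinW W q V x σ s a),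
      ∀ᶠ n in (U : Filter ℕ), ∃ y : ℝ, θ * x ≤ y ∧ y ≤ x ∧ ∃ (G' : Finset (ι n)) (μ β : ℝ),
        G' ⊆ W.Cl n ∧ W.T n * W.B'.d n ^ (η * y) ≤ (G'.card : ℝ) ∧
        |μ| ≤ W.B'.d n ^ (-(η * y)) ∧ ∀ i ∈ G',
          |W.crd n (W.s₀ n) i (Fin.natAdd 4 q) - β - μ * W.crd n (W.s₀ n) i 0| ≤
            W.B'.d n ^ y := by
  have hσ0 : 0 < σ := by linarith
  set η₀ : ℝ := η * σ / 8 with hη₀
  have hη₀0 : 0 < η₀ := by positivity
  have hη₀8 : η₀ ≤ η / 8 := by
    have := mul_le_mul_of_nonneg_left hσ1 hη.le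
    rw [hη₀]; linarith
  obtain ⟨θ₀, hθ₀, hθ₀1, HE⟩ := rig0_RL ha has hsσ hσ1 hη₀0
  refine ⟨θ₀ * (5 / 8), by positivity, by linarith, ?_⟩
  intro ι _ W κ lam f h q V x L
  have hx := L.x_pos
  have hM := (MW_le h).1
  have hM0 : 0 < MW W := by linarith
  have hdT := dT_nonneg h
  -- the model
  have hkz := h.kz
  have hxk : x ≤ W.top W.kz := L.top _
  have hfr : ∀ y, 0 ≤ y → y ≤ x → W.lam (Pi.single W.kz y) ≤ -(σ * y) := by
    rw [hkz]; exact L.frost
  have hEo := h.ok.eok_class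
  obtain ⟨E', g, hP, hg, H⟩ := Wnd.EOk.exists_model h.ok hEo (fun _ _ _ => 0)
    (g₀ := fun n => W.B'.L n) W.B'.L_tendsto L.dens hσ0.le hσ1 hxk hfr
  have hc := ev_hc' h.ok hEo hP
  have hdata := rdata_thin h L hc H
  have hU := H.toRUnif
  set τ : ℝ := η₀ * θ₀ * x / 8 with hτ
  have hτ0 : 0 < τ := by positivity
  have hd : ∀ n (u : ℝ), 0 < W.B'.d n ^ u := fun n u => rpos W.B' n u
  have hdn : ∀ n {u v : ℝ}, u ≤ v → W.B'.d n ^ v ≤ W.B'.d n ^ u := fun n {u v} h' =>
    rpow_anti W.B' n h'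
  set K3 : ℝ := 4 * MW W + dT W with hK3
  have hK30 : 0 < K3 := by positivity
  filter_upwards [HE hU _ _ _ _ _ _ _ _ _ _ _ _ _ _ hdata, ev_fct h L hc,
    Wnd.ev_hts h.ok hEo hP L.dens hτ0, h.ok.card_zc_le hτ0, h.ok.cls.big τ hτ0, hP.gsub τ hτ0,
    frost_unif H hτ0, Gf356.ev_const_le W.B' hτ0 K3, hc] with
    n g1 F g2 g3 g4 g5 g6 g7 g8
  obtain ⟨w, μ, hw1, hw2, hμ, k₁, hk₁, hpop⟩ := g1
  obtain ⟨hgood, hEC, hcfg⟩ := g8
  set ρ := W.B'.d n with hρ
  have hρ0 : 0 < ρ := W.B'.pos n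
  have hρ1 : ρ < 1 := W.B'.lt n
  have hw0 : 0 < w := (hd n x).trans_le hw1
  -- the exponent
  set yw : ℝ := Real.logb ρ w with hyw
  have hwρ : ρ ^ yw = w := Real.rpow_logb hρ0 hρ1.ne hw0
  have hyx : yw ≤ x := by
    rw [← hwρ] at hw1
    exact (Real.rpow_le_rpow_left_iff_of_base_lt_one hρ0 hρ1).1 hw1
  have hyθ : θ₀ * x ≤ yw := by
    rw [← hwρ] at hw2
    exact (Real.rpow_le_rpow_left_iff_of_base_lt_one hρ0 hρ1).1 hw2
  have hyw0 : 0 < yw := lt_of_lt_of_le (by positivity) hyθ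
  have hτy : 8 * τ ≤ η₀ * yw := by
    have : 8 * τ = η₀ * (θ₀ * x) := by rw [hτ]; ring
    rw [this]
    exact mul_le_mul_of_nonneg_left hyθ hη₀0.le
  have hη₀y : η₀ * yw ≤ η / 8 * yw := mul_le_mul_of_nonneg_right hη₀8 hyw0.le
  have hτy2 : 64 * τ ≤ η * yw := by linarith
  have hηyw : η * yw ≤ 1 * yw := mul_le_mul_of_nonneg_right hη1 hyw0.le
  set Z := (W.cfg E' n).Z with hZ
  set Z'' := Z.filter fun k => |fl W q n k - fl W q n k₁ - μ * (zl W n k - zl W n k₁)| ≤ w
    with hZ''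
  have hZ0 : (0 : ℝ) < Z.card := by exact_mod_cast card_pos.2 ⟨k₁, hk₁⟩
  -- unscaled relation
  have hrel : ∀ k ∈ Z'', |(fg W n k (Fin.natAdd 4 q) - fg W n k₁ (Fin.natAdd 4 q)) -
      μ * (fg W n k 0 - fg W n k₁ 0)| ≤ MW W * w := by
    intro k hk
    have h1 := (mem_filter.1 hk).2
    have e1 : fl W q n k - fl W q n k₁ - μ * (zl W n k - zl W n k₁) =
        ((fg W n k (Fin.natAdd 4 q) - fg W n k₁ (Fin.natAdd 4 q)) -
          μ * (fg W n k 0 - fg W n k₁ 0)) / MW W := by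
      unfold fl zl; ring
    rw [e1, abs_div, abs_of_pos hM0, div_le_iff₀ hM0] at h1
    linarith
  -- two distant heights
  set y₁ : ℝ := η / 4 * yw with hy₁
  have hy₁0 : 0 ≤ y₁ := by positivity
  have hy₁x : y₁ ≤ x := by rw [hy₁]; linarith
  obtain ⟨k₂, hk₂, hk₂z⟩ : ∃ k ∈ Z'', ρ ^ y₁ < |fg W n k 0 - fg W n k₁ 0| := by
    by_contra hcon
    push Not at hcon
    have hsub : Z'' ⊆ (W.cfg E' n).hbox y₁ k₁ := by
      intro k hk
      unfold RCfg.hbox
      rw [mem_filter]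
      refine ⟨(mem_filter.1 hk).1, ?_⟩
      rw [hcfg, z_fg h, z_fg h, ← hcfg, H.base n]
      exact hcon k hk
    have h1 := g6 y₁ hy₁0 hy₁x k₁ hk₁
    have h2 : w ^ η₀ * (Z.card : ℝ) ≤ ρ ^ (σ * y₁ - τ) * (Z.card : ℝ) :=
      hpop.trans ((Nat.cast_le.2 (card_le_card hsub)).trans h1)
    have h3 := le_of_mul_le_mul_right h2 hZ0
    rw [← hwρ, ← Real.rpow_mul hρ0.le] at h3
    have h4 := (Real.rpow_le_rpow_left_iff_of_base_lt_one hρ0 hρ1).1 h3
    have e2 : σ * y₁ = 2 * (η₀ * yw) := by rw [hy₁, hη₀]; ring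
    rw [e2] at h4
    linarith
  have hk₂Z := (mem_filter.1 hk₂).1
  have hw1' : w ≤ 1 := by
    rw [← hwρ]
    exact Real.rpow_le_one hρ0.le hρ1.le hyw0.le
  have g7a : 3 * MW W ≤ ρ ^ (-τ) := by
    refine le_trans ?_ g7
    rw [hK3]; linarith
  -- the slope
  have hμ1 : |μ| ≤ ρ ^ (-(y₁ + τ)) := by
    have h1 := hrel k₂ hk₂
    have b1 := fg_le h F hk₂Z (Fin.natAdd 4 q)
    have b2 := fg_le h F hk₁ (Fin.natAdd 4 q)
    have h2 : |μ| * |fg W n k₂ 0 - fg W n k₁ 0| ≤ 3 * MW W := by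
      rw [← abs_mul]
      have h3 : |μ * (fg W n k₂ 0 - fg W n k₁ 0)| ≤ MW W * w + 2 * MW W := by
        rw [abs_le] at h1 b1 b2 ⊢
        constructor <;> linarith [h1.1, h1.2, b1.1, b1.2, b2.1, b2.2]
      have h5 := mul_le_mul_of_nonneg_left hw1' hM0.le
      linarith
    have h3 : |μ| * ρ ^ y₁ ≤ ρ ^ (-τ) :=
      (mul_le_mul_of_nonneg_left hk₂z.le (abs_nonneg _)).trans (h2.trans g7a)
    have h4 : ρ ^ (-(y₁ + τ)) * ρ ^ y₁ = ρ ^ (-τ) := by
      rw [← rpow_add']; congr 1; ring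
    rw [← h4] at h3
    exact le_of_mul_le_mul_right h3 (hd n y₁)
  set y : ℝ := yw * (1 - 3 * η / 8) with hy
  have hyy : yw * (5 / 8) ≤ y := mul_le_mul_of_nonneg_left (by linarith) hyw0.le
  have hyyw : y ≤ yw := by
    have : 0 ≤ η * yw := by positivity
    rw [hy]; linarith
  have hηy : η * (yw * (5 / 8)) ≤ η * y := mul_le_mul_of_nonneg_left hyy hη.le
  refine ⟨y, by linarith, hyyw.trans hyx, ?_⟩
  set G' := (E' n).filter fun i => W.zc n i ∈ Z'' with hG'
  refine ⟨G', μ, fg W n k₁ (Fin.natAdd 4 q) - μ * fg W n k₁ 0,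
    (filter_subset _ _).trans hEC, ?_, ?_, ?_⟩
  · -- mass
    have hZim : Z = (E' n).image (W.zc n) := by rw [hZ, hcfg]; rfl
    have c1 : (G'.card : ℝ) = ∑ k ∈ Z'', (((E' n).filter fun i => W.zc n i = k).card : ℝ) := by
      have h1 : G'.card = ∑ k ∈ Z'', (G'.filter fun i => W.zc n i = k).card :=
        card_eq_sum_card_fiberwise fun i hi => (mem_filter.1 hi).2
      rw [h1]
      push_cast
      refine sum_congr rfl fun k hk => ?_
      congr 2
      ext i
      simp only [hG', mem_filter]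
      constructor
      · rintro ⟨⟨a1, a2⟩, a3⟩; exact ⟨a1, a3⟩
      · rintro ⟨a1, a3⟩; exact ⟨⟨a1, a3 ▸ hk⟩, a3⟩
    set N0 : ℝ := (((W.Cl n).image (W.zc n)).card : ℝ) with hN0
    have hCl0 : (0 : ℝ) < (W.Cl n).card :=
      lt_of_lt_of_le (mul_pos (h.ok.cls.T0 n) (hd n _)) g4
    have hN00 : 0 < N0 := by
      have h1 : (W.Cl n).Nonempty := card_pos.1 (by exact_mod_cast hCl0)
      have h2 := (h1.image (W.zc n)).card_pos
      rw [hN0]
      exact_mod_cast h2
    have hg1 := hP.g1 n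
    have c2 : ∀ k ∈ Z'', ((W.Cl n).card : ℝ) / (ρ ^ (-τ) * N0) ≤
        (((E' n).filter fun i => W.zc n i = k).card : ℝ) := by
      intro k hk
      have hkZ := (mem_filter.1 hk).1
      rw [hZim] at hkZ
      obtain ⟨i, hi, rfl⟩ := mem_image.1 hkZ
      have h1 := hP.slices n i hi
      rw [div_le_iff₀ (mul_pos (hd n _) hN00)]
      have e1 : R138.Ex926.cls (E' n) (W.zc n) i = (E' n).filter fun j => W.zc n j = W.zc n i := by
        ext j
        rw [R138.Ex926.mem_cls, mem_filter]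
      rw [e1] at h1
      refine h1.trans ?_
      have h2 : (0 : ℝ) ≤ (((E' n).filter fun j => W.zc n j = W.zc n i).card : ℝ) :=
        Nat.cast_nonneg _
      calc g n * N0 * (((E' n).filter fun j => W.zc n j = W.zc n i).card : ℝ)
          ≤ ρ ^ (-τ) * N0 * (((E' n).filter fun j => W.zc n j = W.zc n i).card : ℝ) := by
            refine mul_le_mul_of_nonneg_right ?_ h2
            exact mul_le_mul_of_nonneg_right g5 hN00.le
        _ = _ := by ring
    have c3 : (Z''.card : ℝ) * (((W.Cl n).card : ℝ) / (ρ ^ (-τ) * N0)) ≤ (G'.card : ℝ) := by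
      rw [c1, ← nsmul_eq_mul, ← sum_const]
      exact sum_le_sum c2
    -- number of heights
    obtain ⟨k, hk⟩ := ln0_spec (W := W) (E := E') n
    have c4 : ρ ^ (W.lam (cut W.S 0 W.top) + τ) ≤ (Z.card : ℝ) := by
      have h1 := hU.memL hk
      rw [hcfg] at h1
      refine (g2 _ h1).trans ?_
      rw [hZ, hcfg]
      exact Nat.cast_le.2 (card_le_card fun k hk => (RCfg.mem_hts.1 hk).1)
    have c5 : N0 ≤ ρ ^ (W.lam (cut W.S 0 W.top) - τ) := g3 (W.Cl n) (Subset.refl _)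
    have c6 : ρ ^ (η₀ * yw) * ρ ^ (W.lam (cut W.S 0 W.top) + τ) ≤ (Z''.card : ℝ) := by
      refine le_trans ?_ hpop
      rw [← hwρ, ← Real.rpow_mul hρ0.le, mul_comm yw η₀]
      exact mul_le_mul_of_nonneg_left c4 (hd n _).le
    have hT0 := h.ok.cls.T0 n
    refine le_trans ?_ c3
    rw [← mul_div_assoc, le_div_iff₀ (mul_pos (hd n _) hN00)]
    calc W.T n * ρ ^ (η * y) * (ρ ^ (-τ) * N0)
        ≤ W.T n * ρ ^ (η * y) * (ρ ^ (-τ) * ρ ^ (W.lam (cut W.S 0 W.top) - τ)) := by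
          refine mul_le_mul_of_nonneg_left ?_ (mul_pos hT0 (hd n _)).le
          exact mul_le_mul_of_nonneg_left c5 (hd n _).le
      _ = W.T n * ρ ^ (η * y + (-τ + (W.lam (cut W.S 0 W.top) - τ))) := by
          rw [rpow_add', rpow_add']; ring
      _ ≤ W.T n * ρ ^ (η₀ * yw + (W.lam (cut W.S 0 W.top) + τ) + τ) := by
          refine mul_le_mul_of_nonneg_left (hdn n ?_) hT0.le
          linarith
      _ = ρ ^ (η₀ * yw) * ρ ^ (W.lam (cut W.S 0 W.top) + τ) * (W.T n * ρ ^ τ) := by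
          rw [rpow_add', rpow_add']; ring
      _ ≤ (Z''.card : ℝ) * ((W.Cl n).card : ℝ) :=
          mul_le_mul c6 g4 (mul_pos hT0 (hd n _)).le (Nat.cast_nonneg _)
  · -- slope
    refine hμ1.trans (hdn n ?_)
    rw [hy₁]
    linarith
  · -- precision
    intro i hi
    obtain ⟨hiE, hiZ⟩ := mem_filter.1 hi
    have hiC := hEC hiE
    set k := W.zc n i with hk
    obtain ⟨r1, r2⟩ := W.zrep_spec hiC
    have hl : W.zc n (W.zrep n k) = W.zc n i := r2
    have aq := comp_q h F hgood.s0 r1 hiC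
    have a0 := comp0 h hgood hgood.s0 r1 hiC
    have hSq : Fin.natAdd 4 q ∈ W.S := q_mem L
    have hS0 : (0 : Fin 18) ∈ W.S := by rw [L.hS]; simp
    have lq := lev_MW h hgood r1 hiC hl hSq (L.top _)
    have l0 := lev_MW h hgood r1 hiC hl hS0 (L.top 0)
    have hrk := hrel k hiZ
    have hwx : ρ ^ x ≤ w := hw1
    have aq' := aq.trans (mul_le_mul_of_nonneg_left hwx hdT)
    have lq' : |W.crd n (W.zrep n k) i (Fin.natAdd 4 q)| ≤ MW W * w :=
      lq.trans (mul_le_mul_of_nonneg_left hwx hM0.le)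
    have l0' : |W.crd n (W.zrep n k) i 0| ≤ MW W * w :=
      l0.trans (mul_le_mul_of_nonneg_left hwx hM0.le)
    have hμ0 : 1 ≤ ρ ^ (-(y₁ + τ)) :=
      Real.one_le_rpow_of_pos_of_le_one_of_nonpos hρ0 hρ1.le (by linarith)
    have e1 : W.crd n (W.s₀ n) i (Fin.natAdd 4 q) -
        (fg W n k₁ (Fin.natAdd 4 q) - μ * fg W n k₁ 0) - μ * W.crd n (W.s₀ n) i 0 =
        ((fg W n k (Fin.natAdd 4 q) - fg W n k₁ (Fin.natAdd 4 q)) -
          μ * (fg W n k 0 - fg W n k₁ 0)) +
        (W.crd n (W.s₀ n) i (Fin.natAdd 4 q) - (W.crd n (W.s₀ n) (W.zrep n k) (Fin.natAdd 4 q) +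
          W.crd n (W.zrep n k) i (Fin.natAdd 4 q))) +
        W.crd n (W.zrep n k) i (Fin.natAdd 4 q) - μ * W.crd n (W.zrep n k) i 0 := by
      rw [a0]
      unfold fg
      ring
    rw [e1]
    have hμl : |μ * W.crd n (W.zrep n k) i 0| ≤ ρ ^ (-(y₁ + τ)) * (MW W * w) := by
      rw [abs_mul]
      exact mul_le_mul hμ1 l0' (abs_nonneg _) (hd n _).le
    have hMw : MW W * w ≤ ρ ^ (-(y₁ + τ)) * (MW W * w) :=
      le_mul_of_one_le_left (by positivity) hμ0
    have hdw : dT W * w ≤ ρ ^ (-(y₁ + τ)) * (dT W * w) :=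
      le_mul_of_one_le_left (by positivity) hμ0
    have t1 : |((fg W n k (Fin.natAdd 4 q) - fg W n k₁ (Fin.natAdd 4 q)) -
          μ * (fg W n k 0 - fg W n k₁ 0)) +
        (W.crd n (W.s₀ n) i (Fin.natAdd 4 q) - (W.crd n (W.s₀ n) (W.zrep n k) (Fin.natAdd 4 q) +
          W.crd n (W.zrep n k) i (Fin.natAdd 4 q))) +
        W.crd n (W.zrep n k) i (Fin.natAdd 4 q) - μ * W.crd n (W.zrep n k) i 0| ≤
        3 * (ρ ^ (-(y₁ + τ)) * (MW W * w)) + ρ ^ (-(y₁ + τ)) * (dT W * w) := by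
      rw [abs_le] at hrk lq' hμl aq' ⊢
      constructor <;>
        linarith [hrk.1, hrk.2, lq'.1, lq'.2, hμl.1, hμl.2, aq'.1, aq'.2]
    refine t1.trans ?_
    calc 3 * (ρ ^ (-(y₁ + τ)) * (MW W * w)) + ρ ^ (-(y₁ + τ)) * (dT W * w)
        ≤ K3 * (ρ ^ (-(y₁ + τ)) * ρ ^ yw) := by
          rw [hwρ, hK3]
          have : 0 ≤ MW W * (ρ ^ (-(y₁ + τ)) * w) := by
            have := hd n (-(y₁ + τ))
            positivity
          linarith
      _ ≤ ρ ^ (-τ) * (ρ ^ (-(y₁ + τ)) * ρ ^ yw) :=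
          mul_le_mul_of_nonneg_right g7 (mul_pos (hd n _) (hd n _)).le
      _ = ρ ^ (-τ + (-(y₁ + τ) + yw)) := by rw [← rpow_add', ← rpow_add']
      _ ≤ ρ ^ y := hdn n (by rw [hy, hy₁]; linarith)

end Crest.Agent.R136.Rt478
end

-- ▼ part R136/Rt4_478

/-!
# R136: walls `(2,1)`, `(2,2)` of the W-chart, the numbers at an interior point (helper478)

* `n0T q` : offset of the windows (the flag slots below `w_B` resp. `w_A`);
* `ThinF Ma lam q V a` : numbers of an interior tangent `lam` for EVERY `x > 0`;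
* `wdT` : the static data are legal; `thinW_of_F` : `ThinF` gives the numbers of `ThinW`;
* `thinF_of` : one point of the rung `2` which is not dead (`-A.1 ≤ 5 - δ`) gives `ThinF`.
-/

set_option autoImplicit false
set_option linter.unusedVariables false
set_option linter.unusedSectionVars false

open Filter Topology

namespace Crest.Agent.R136.Rt478

open Finset Crest.Agent.R136.NetW191 Crest.Agent.R136.Net191 Crest.Agent.R136.Qg926
open Crest.Agent.R136.EvW938 Crest.Agent.R136.Bas938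
open Crest.Agent.R136.Gf356 Crest.Agent.R136.Aw413 Crest.Agent.R136.Dg219
open Crest.Agent.R138.Ex926 (Base U)

/-- offset of the windows -/
def n0T (q : Fin 14) : Fin 18 → ℕ := fun k =>
  if 4 ≤ k.val ∧ k.val ≤ 11 then 1 else if q = 11 ∧ (k.val = 12 ∨ k.val = 14) then 1 else 0

/-- tops -/
def ntT : Fin 18 → ℕ := fun _ => 1

/-- level slots -/
def ST (q : Fin 14) : Finset (Fin 18) := {0, Fin.natAdd 4 q}

/-- `V : i`, `P : p`, `N : m`, all others `1` -/
def nLT (V : Fin 4) (i p m : ℕ) : Fin 18 → ℕ := fun k =>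
  if k = Fin.castAdd 14 V then i else if k = 16 then p else if k = 17 then m else 1

theorem wdT {q : Fin 14} (hq : q = 10 ∨ q = 11) : WDat (n0T q) ntT 1 (ST q) := by
  rcases hq with rfl | rfl <;> decide

theorem okL {q : Fin 14} {V : Fin 4} (hq : (q = 10 ∧ V = 3) ∨ (q = 11 ∧ V = 2)) :
    OkV (n0T q) 1 (nLT V 0 0 0) ∧ OkV (n0T q) 1 (nLT V 0 0 1) ∧ OkV (n0T q) 1 (nLT V 1 0 1) ∧
      OkV (n0T q) 1 (nLT V 1 1 1) := by
  rcases hq with ⟨rfl, rfl⟩ | ⟨rfl, rfl⟩ <;> decide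

/-- `V : i`, `P : p`, `N : m`, all others `x` -/
def vL (V : Fin 4) (x i p m : ℝ) : Fin 18 → ℝ := fun k =>
  if k = Fin.castAdd 14 V then i else if k = 16 then p else if k = 17 then m else x

theorem cut_lt {q : Fin 14} {V : Fin 4} (hq : (q = 10 ∧ V = 3) ∨ (q = 11 ∧ V = 2))
    (x m t : ℝ) : cut (ST q) (lt q V x m t) (scV x ntT) = vL V x t t m := by
  funext k
  rcases hq with ⟨rfl, rfl⟩ | ⟨rfl, rfl⟩ <;> fin_cases k <;>
    simp [cut, ST, lt, scV, ntT, vL, Fin.natAdd, Fin.castAdd, Fin.castLE, Fin.ext_iff]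

theorem vL_sc (V : Fin 4) {x t : ℝ} (i p m i' p' m' : ℕ) :
    scV (x - t) (nLT V i p m) + scV t (nLT V i' p' m') =
      vL V x ((x - t) * i + t * i') ((x - t) * p + t * p') ((x - t) * m + t * m') := by
  funext k
  simp only [Pi.add_apply, scV, nLT, vL]
  split_ifs <;> push_cast <;> ring

section leg

variable {Ma : Mons 18} {Dr : Set (Fin 18)} {q : Fin 14} {V : Fin 4} {x t : ℝ}

theorem vL_leg0 (hA : ActM Ma Dr) (hq : (q = 10 ∧ V = 3) ∨ (q = 11 ∧ V = 2)) (hx : 0 ≤ x) :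
    vL V x 0 0 0 ∈ Leg (offM Ma (scV x (n0T q)) (x * (1 : ℕ))) (x * (1 : ℕ)) := by
  have := leg_scV hA (okL hq).1 (okL hq).1 (y := x) (α := x - 0) (β := 0) (by linarith) le_rfl
    (by ring)
  rw [vL_sc] at this
  simpa using this

theorem vL_leg1 (hA : ActM Ma Dr) (hq : (q = 10 ∧ V = 3) ∨ (q = 11 ∧ V = 2)) (ht : 0 ≤ t)
    (htx : t ≤ x) :
    vL V x t 0 x ∈ Leg (offM Ma (scV x (n0T q)) (x * (1 : ℕ))) (x * (1 : ℕ)) := by
  have := leg_scV hA (okL hq).2.1 (okL hq).2.2.1 (y := x) (α := x - t) (β := t) (by linarith) ht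
    (by ring)
  rw [vL_sc] at this
  simpa using this

theorem vL_leg2 (hA : ActM Ma Dr) (hq : (q = 10 ∧ V = 3) ∨ (q = 11 ∧ V = 2)) (ht : 0 ≤ t)
    (htx : t ≤ x) :
    vL V x t t x ∈ Leg (offM Ma (scV x (n0T q)) (x * (1 : ℕ))) (x * (1 : ℕ)) := by
  have := leg_scV hA (okL hq).2.1 (okL hq).2.2.2 (y := x) (α := x - t) (β := t) (by linarith) ht
    (by ring)
  rw [vL_sc] at this
  simpa using this

end leg

/-- **numbers of an interior tangent** of the rung `2` (walls `(2,2)`: `q = 10`, `V = 3`,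
`(2,1)`: `q = 11`, `V = 2`); `a < 1` = rate of `N` -/
structure ThinF (Ma : Mons 18) (lam : (Fin 18 → ℝ) → ℝ) (q : Fin 14) (V : Fin 4) (a : ℝ) :
    Prop where
  a0 : 0 ≤ a
  a1 : a < 1
  /-- levels and lines are independent -/
  dens : ∀ x, 0 < x → lam (scV x (n0T q) + scV x ntT) - lam (scV x (n0T q)) ≤
    (lam (scV x (n0T q) + cut (ST q) (scV x ntT) 0) - lam (scV x (n0T q))) +
      (lam (scV x (n0T q) + cut (ST q) 0 (scV x ntT)) - lam (scV x (n0T q)))
  frost : ∀ x y, 0 < x → 0 ≤ y → y ≤ x →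
    lam (scV x (n0T q) + Pi.single 0 y) - lam (scV x (n0T q)) ≤ -y
  /-- the position `V` and `P` full, given the rest -/
  full : ∀ x t, 0 < x → 0 ≤ t → t ≤ x →
    t ≤ lam (scV x (n0T q) + vL V x 0 0 x) - lam (scV x (n0T q) + vL V x t t x)
  /-- `N` loses less than its size -/
  loss : ∀ x, 0 < x →
    lam (scV x (n0T q) + vL V x 0 0 0) - lam (scV x (n0T q) + vL V x 0 0 x) ≤ a * x

section

variable {ι : ℕ → Type*} [∀ n, DecidableEq (ι n)] {Ma : Mons 18} {Dr : Set (Fin 18)}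
  {lam : (Fin 18 → ℝ) → ℝ} {q : Fin 14} {V : Fin 4} {a x : ℝ}

/-- **`ThinF` gives the numbers of a window** with offset `scV x (n0T q)` and tops `x` -/
theorem thinW_of_F {W : Wnd 18 ι} (hA : ActM Ma Dr) (H : ThinF Ma lam q V a)
    (hq : (q = 10 ∧ V = 3) ∨ (q = 11 ∧ V = 2)) (hx : 0 < x) {s : ℝ} (hs : s ≤ 1)
    (eS : W.S = ST q) (etop : W.top = scV x ntT)
    (elam : W.lam = fun p => lam (scV x (n0T q) + p) - lam (scV x (n0T q)))
    (eMw : W.Mw = offM Ma (scV x (n0T q)) (x * (1 : ℕ))) (eR : W.R' = x * (1 : ℕ))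
    (hsl : ∀ᶠ n in (U : Filter ℕ), ∀ l ∈ mlW (Fin.natAdd 4 q),
      W.X n (Fin.natAdd 4 q) + x * W.w n ≤ (l.map (W.X n)).sum)
    (tP : ∀ᶠ n in (U : Filter ℕ), W.X n 17 = W.X n 0 + W.X n 16)
    (tV : ∀ᶠ n in (U : Filter ℕ),
      W.X n 17 = W.X n (Fin.castAdd 14 V) + W.X n (Fin.natAdd 4 q)) :
    ThinW W q V x 1 s a where
  x_pos := hx
  hqV := hq
  hS := eS
  top := fun j => by rw [etop]; simp [scV, ntT]
  slack := hsl
  tightP := tP
  tightV := tV
  leg0 := by
    refine ⟨?_, fun s hs => ?_⟩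
    · rw [eS, etop, eMw, eR, cut_lt hq]
      exact vL_leg0 hA hq hx.le
    · rw [etop]
      unfold lt scV ntT
      split_ifs <;> simp [hx.le]
  leg := fun t ht htx => by
    refine ⟨?_, fun s hs => ?_⟩
    · rw [eS, etop, eMw, eR, cut_lt hq]
      exact vL_leg2 hA hq ht htx
    · rw [etop]
      unfold lt scV ntT
      split_ifs <;> simp [hx.le, htx]
  dens := by
    rw [elam, eS, etop]
    exact H.dens x hx
  frost := fun y hy hyx => by
    rw [elam, one_mul]
    exact H.frost x y hx hy hyx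
  full := fun t ht htx => by
    unfold Wnd.nu
    rw [elam, eS, etop, cut_lt hq, cut_lt hq]
    have h1 := H.full x t hx ht htx
    have h2 : s * t ≤ t := by nlinarith
    simp only
    linarith
  loss := by
    unfold Wnd.nu
    rw [elam, eS, etop, cut_lt hq, cut_lt hq]
    have h1 := H.loss x hx
    simp only
    linarith

end

/-! ### the numbers -/

/-- lowering the slot `N` is legal -/
theorem upd17_le {Ma : Mons 18} {Dr : Set (Fin 18)} (hM : ActM Ma Dr) {c : Fin 18 → ℝ}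
    (hc : c ∈ coneM Ma) {y : ℝ} (hy : y ≤ c 17) : Function.update c 17 y ∈ coneM Ma := by
  rw [hM.cone] at hc ⊢
  intro k hk l hl hs
  have e : l.map (Function.update c 17 y) = l.map c := by
    refine List.map_congr_left fun s hs' => ?_
    rw [Function.update_of_ne]
    rintro rfl
    exact no17 k l hl hs'
  rw [e]
  by_cases h : k = 17
  · subst h
    rw [Function.update_self]
    exact hy.trans (hc 17 hk l hl hs)
  · rw [Function.update_of_ne h]
    exact hc k hk l hl hs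

section num

variable {B Bo : Base} {I J : ∀ n : ℕ, Finset (ℕ × ℝ)}
  {co : ∀ n : ℕ, ℕ × ℝ → ℕ × ℝ → Fin 18 → ℝ} {kp : ℕ → ℝ} {u : ℕ → Fin 18 → ℝ}
  {F : ∀ n : ℕ, ℕ × ℝ → FW} {Ma : Mons 18} {Dr : Set (Fin 18)} {C : ℝ}
  {lam : (Fin 18 → ℝ) → ℝ} {a b : Fin 18 → ℝ} {A : ℝ × ℝ} {φ : ℕ → (Fin 18 → ℝ) → ℝ}
  {r : ℕ → ℝ} {κ : Fin 18 → ℝ} {V' Tw : Fin 18 → Prop} {q : Fin 14} {V : Fin 4} {δ : ℝ}

/-- `z, A, B` are full separately -/
theorem full_B (h : PtB B Bo I J co kp u F Ma Dr C lam a b A φ r κ V' Tw)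
    (hG : BasG lam Ma Dr a b V') {t : ℝ} (ht : 0 < t) :
    t ≤ lam (v4 t 0 t 0) - lam (v4 t 0 t t) := by
  have m1 : v4 t 0 t 0 ∈ coneM Ma := v4_mem h.act ht.le le_rfl ht.le le_rfl (by linarith)
    (by linarith) (by linarith)
  have h1 := h.full3 hG ht
  have h2 := h.aew.sharp 0 zero_mem _ m1 fun k => v4_nonneg ht.le le_rfl ht.le le_rfl k
  have e : ∑ s, (v4 t 0 t 0 s - (0 : Fin 18 → ℝ) s) = 2 * t := by
    have e1 : ∀ s : Fin 18, v4 t 0 t 0 s - (0 : Fin 18 → ℝ) s =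
        (Pi.single 0 t : Fin 18 → ℝ) s + (Pi.single 2 t : Fin 18 → ℝ) s := by
      intro s
      by_cases s0 : s = 0
      · subst s0
        rw [v4_0, Pi.single_eq_same, Pi.single_eq_of_ne (by decide)]
        simp
      · by_cases s2 : s = 2
        · subst s2
          rw [v4_2, Pi.single_eq_same, Pi.single_eq_of_ne (by decide)]
          simp
        · rw [Pi.single_eq_of_ne s0, Pi.single_eq_of_ne s2]
          simp [v4, s0, s2]
    rw [sum_congr rfl fun s _ => e1 s, sum_add_distrib, sum_pi_single', sum_pi_single']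
    simp
    ring
  rw [h.aew.zero, e] at h2
  linarith

theorem thinF_of (h : PtB B Bo I J co kp u F Ma Dr C lam a b A φ r κ V' Tw)
    (hG : BasG lam Ma Dr a b V') (hnat : ∀ t : ℝ, 0 ≤ t → t • a ∈ coneM Ma)
    (hnn : ∀ k, 0 ≤ a k) (h0 : a 0 = 1) (h2 : a 2 = 1) (h3 : a 3 = 1) (h17 : a 17 = 2)
    (hq : (q = 10 ∧ V = 3) ∨ (q = 11 ∧ V = 2))
    (gS : ∀ i j, gC a b i = gC a b j → i ∈ ST q → j ∈ ST q ∨ j ∈ Dr)
    (gV : ∀ j, gC a b j = gC a b (Fin.castAdd 14 V) →
      j = Fin.castAdd 14 V ∨ j = 16 ∨ j ∈ Dr)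
    (gN : ∀ j, gC a b j = gC a b 17 →
      j = 17 ∨ j ∈ Dr ∨ (a j = 1 ∧ n0T q j = 0 ∧ j ≠ Fin.castAdd 14 V ∧ j ≠ 16))
    (hV' : ∀ k, V' k → k = Fin.natAdd 4 q) (hδ : 0 < δ) (hδ2 : δ ≤ 2) (hA : -A.1 ≤ 5 - δ) :
    ThinF Ma lam q V (1 - δ / 2) := by
  have hq' : q = 10 ∨ q = 11 := hq.imp (fun e => e.1) fun e => e.1
  have hd := wdT hq'
  have hcone : ∀ {x : ℝ}, 0 ≤ x → Leg (offM Ma (scV x (n0T q)) (x * (1 : ℕ))) (x * (1 : ℕ)) ⊆
      {p | scV x (n0T q) + p ∈ coneM Ma} := fun hx => leg_coneN h.act hd.off hx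
  have h0m : ∀ {x : ℝ}, 0 ≤ x → scV x (n0T q) ∈ coneM Ma := by
    intro x hx
    rw [h.act.cone]
    intro k _ l hl _
    rw [sum_scV]
    exact mul_le_mul_of_nonneg_left (by exact_mod_cast hd.off k l hl) hx
  have n00 : n0T q 0 = 0 := hd.z0
  have n0q : n0T q (Fin.natAdd 4 q) = 0 := by rcases hq' with rfl | rfl <;> decide
  have n0V : n0T q (Fin.castAdd 14 V) = 0 ∧ n0T q 2 = 0 ∧ n0T q 3 = 0 ∧ n0T q 16 = 0 ∧
      n0T q 17 = 0 := by
    rcases hq with ⟨rfl, rfl⟩ | ⟨rfl, rfl⟩ <;> decide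
  -- density and Frostman
  have hD : ∀ x : ℝ, 0 < x →
      (wst Ma (n0T q) ntT 1 (ST q) x).Dens (fun p => lam (scV x (n0T q) + p) -
        lam (scV x (n0T q))) 1 x := by
    intro x hx
    refine h.dens (h0m hx.le) (fun k hk => ?_) rfl (wst_ok h.act hd hx.le)
      (fun i j hij hi => (gS i j hij hi).imp id fun e => Or.inr e) (le_of_eq ?_) fun y hy hyx => ?_
    · rw [hV' k hk]
      simp [scV, n0q, n00]
    · simp [wst, scV, ntT]
    · rw [h.act.cone]
      intro k _ l hl _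
      rw [sum_add', sum_scV]
      have h1 : (0:ℝ) ≤ (l.map (Pi.single (0 : Fin 18) y : Fin 18 → ℝ)).sum := by
        refine List.sum_nonneg fun x hx => ?_
        obtain ⟨i, _, rfl⟩ := List.mem_map.1 hx
        by_cases hi : i = 0
        · subst hi; simpa using hy
        · rw [Pi.single_eq_of_ne hi]
      have h2 : x * (n0T q k : ℝ) ≤ x * ((l.map (n0T q)).sum : ℕ) :=
        mul_le_mul_of_nonneg_left (by exact_mod_cast hd.off k l hl) hx.le
      have h3 : k ≠ 0 := by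
        rintro rfl
        have : mlW 0 = [] := by decide
        rw [this] at hl
        exact absurd hl (List.not_mem_nil)
      rw [Pi.add_apply, Pi.single_eq_of_ne h3, add_zero]
      unfold scV
      linarith
  -- the ray with a lowered slot `N`
  have pm : ∀ {w y : ℝ}, 0 ≤ w → y ≤ 2 * w → Function.update (w • a) 17 y ∈ coneM Ma := by
    intro w y hw hy
    refine upd17_le h.act (hnat w hw) ?_
    simp only [Pi.smul_apply, smul_eq_mul, h17]
    linarith
  have hu0 : ∀ {w : ℝ}, 0 < w → lam (Function.update (w • a) 17 0) ≤ -(3 * w) := by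
    intro w hw
    have m2 : v4 w 0 w w ∈ coneM Ma := v4_mem h.act hw.le le_rfl hw.le hw.le (by linarith)
      (by linarith) (by linarith)
    have hle : v4 w 0 w w ≤ Function.update (w • a) 17 0 := by
      intro k
      by_cases hk : k = 17
      · subst hk
        rw [Function.update_self, v4_o _ _ _ _ (by decide)]
      · rw [Function.update_of_ne hk]
        simp only [Pi.smul_apply, smul_eq_mul]
        refine cases4 (P := fun k => v4 w 0 w w k ≤ w * a k) ?_ ?_ ?_ ?_ ?_ k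
        · rw [v4_0, h0, mul_one]
        · rw [v4_1]; exact mul_nonneg hw.le (hnn 1)
        · rw [v4_2, h2, mul_one]
        · rw [v4_3, h3, mul_one]
        · intro k hk
          rw [v4_o _ _ _ _ hk]; exact mul_nonneg hw.le (hnn k)
    exact (h.aew.anti _ m2 _ (pm hw.le (by linarith)) hle).trans (h.full3 hG hw)
  refine ⟨by linarith, by linarith, fun x hx => (hD x hx).dens, fun x y hx hy hyx => ?_,
    fun x t hx ht htx => ?_, fun x hx => ?_⟩
  · have := (hD x hx).frost y hy hyx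
    rw [one_mul] at this
    exact this
  · -- `V` and `P` are full
    rcases ht.eq_or_lt with h00 | ht0
    · rw [← h00]; simp
    have mL : scV x (n0T q) + vL V x 0 0 x ∈ coneM Ma :=
      hcone hx.le (vL_leg1 h.act hq le_rfl hx.le)
    have mM : scV x (n0T q) + vL V x t 0 x ∈ coneM Ma := hcone hx.le (vL_leg1 h.act hq ht htx)
    have mR : scV x (n0T q) + vL V x t t x ∈ coneM Ma := hcone hx.le (vL_leg2 h.act hq ht htx)
    have s1 : lam (scV x (n0T q) + vL V x t t x) ≤ lam (scV x (n0T q) + vL V x t 0 x) := by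
      refine h.aew.anti _ mM _ mR fun k => ?_
      simp only [Pi.add_apply, vL]
      split_ifs <;> linarith
    have s2 : t ≤ lam (scV x (n0T q) + vL V x 0 0 x) - lam (scV x (n0T q) + vL V x t 0 x) := by
      have m00 : v4 t 0 0 0 ∈ coneM Ma := v4_mem h.act ht le_rfl le_rfl le_rfl (by linarith)
        (by linarith) (by linarith)
      have m10 : v4 t 0 t 0 ∈ coneM Ma := v4_mem h.act ht le_rfl ht le_rfl (by linarith)
        (by linarith) (by linarith)
      have m11 : v4 t 0 t t ∈ coneM Ma := v4_mem h.act ht le_rfl ht ht (by linarith)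
        (by linarith) (by linarith)
      rcases hq with ⟨rfl, rfl⟩ | ⟨rfl, rfl⟩
      · refine (full_B h hG ht0).trans (le_of_eq ?_)
        refine h.slot (i := 3) m10 m11 mL mM ?_ ?_ ?_ ?_ ?_
        · intro j hj _
          simp [v4, hj]
        · intro j hj _
          have : j ≠ Fin.castAdd 14 3 := hj
          simp only [Pi.add_apply, vL, if_neg this]
        · simp [v4, vL, scV, n0V.2.2.1, Fin.ext_iff]
        · simp [v4, vL, scV, n0V.2.2.1, Fin.ext_iff]
        · intro j hj hj3 hjD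
          rcases gV j hj with e | e | e
          · exact absurd e hj3
          · subst e
            simp [v4, vL, scV, n0V.2.2.2.1, Fin.ext_iff]
          · exact absurd e hjD
      · refine (h.fullA hG ht0).trans (le_of_eq ?_)
        refine h.slot (i := 2) m00 m10 mL mM ?_ ?_ ?_ ?_ ?_
        · intro j hj _
          simp [v4, hj]
        · intro j hj _
          have : j ≠ Fin.castAdd 14 2 := hj
          simp only [Pi.add_apply, vL, if_neg this]
        · simp [v4, vL, scV, n0V.2.1, Fin.ext_iff]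
        · simp [v4, vL, scV, n0V.2.1, Fin.ext_iff]
        · intro j hj hj3 hjD
          rcases gV j hj with e | e | e
          · exact absurd e hj3
          · subst e
            simp [v4, vL, scV, n0V.2.2.2.1, Fin.ext_iff]
          · exact absurd e hjD
    linarith
  · -- `N`
    have m0 : scV x (n0T q) + vL V x 0 0 0 ∈ coneM Ma := hcone hx.le (vL_leg0 h.act hq hx.le)
    have m1 : scV x (n0T q) + vL V x 0 0 x ∈ coneM Ma :=
      hcone hx.le (vL_leg1 h.act hq le_rfl hx.le)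
    have V17 : (17 : Fin 18) ≠ Fin.castAdd 14 V := by
      rcases hq with ⟨rfl, rfl⟩ | ⟨rfl, rfl⟩ <;> decide
    have e1 : lam (scV x (n0T q) + vL V x 0 0 0) - lam (scV x (n0T q) + vL V x 0 0 x) =
        lam (Function.update (x • a) 17 0) - lam (Function.update (x • a) 17 x) := by
      refine h.slot (i := 17) m0 m1 (pm hx.le (by linarith)) (pm hx.le (by linarith)) ?_ ?_ ?_ ?_
        ?_
      · intro j hj _
        simp only [Pi.add_apply, vL, if_neg hj]
      · intro j hj _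
        rw [Function.update_of_ne hj, Function.update_of_ne hj]
      · rw [Function.update_self]
        simp only [Pi.add_apply, vL, if_neg V17, scV, n0V.2.2.2.2]
        rw [if_neg (by decide)]
        simp
      · rw [Function.update_self]
        simp only [Pi.add_apply, vL, if_neg V17, scV, n0V.2.2.2.2]
        rw [if_neg (by decide)]
        simp
      · intro j hj hj17 hjD
        rw [Function.update_of_ne hj17]
        rcases gN j hj with e | e | ⟨e1, e2, e3, e4⟩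
        · exact absurd e hj17
        · exact absurd e hjD
        · simp only [Pi.add_apply, vL, if_neg e3, if_neg e4, if_neg hj17, scV, e2,
            Pi.smul_apply, smul_eq_mul, e1]
          simp
    rw [e1]
    have hx2 : 0 < x / 2 := by positivity
    have eT : Function.update ((x / 2) • a) 17 x = (x / 2) • a := by
      funext k
      by_cases hk : k = 17
      · subst hk
        rw [Function.update_self]
        simp only [Pi.smul_apply, smul_eq_mul, h17]
        ring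
      · rw [Function.update_of_ne hk]
    have hray : lam ((x / 2) • a) = x / 2 * A.1 := out_ray h.aew.out (hnat _ hx2.le)
    have hs := h.aew.submod _ (pm hx2.le (y := x) (by linarith)) _
      (pm hx.le (y := 0) (by linarith)) (by
        have e : Function.update ((x / 2) • a) 17 x ⊓ Function.update (x • a) 17 0 =
            Function.update ((x / 2) • a) 17 0 := by
          funext k
          by_cases hk : k = 17
          · subst hk
            simp only [Pi.inf_apply, Function.update_self]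
            exact min_eq_right hx.le
          · simp only [Pi.inf_apply, Function.update_of_ne hk, Pi.smul_apply, smul_eq_mul]
            refine min_eq_left ?_
            nlinarith [hnn k]
        rw [e]
        exact pm hx2.le (by linarith)) (by
        have e : Function.update ((x / 2) • a) 17 x ⊔ Function.update (x • a) 17 0 =
            Function.update (x • a) 17 x := by
          funext k
          by_cases hk : k = 17
          · subst hk
            simp only [Pi.sup_apply, Function.update_self]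
            exact max_eq_left hx.le
          · simp only [Pi.sup_apply, Function.update_of_ne hk, Pi.smul_apply, smul_eq_mul]
            refine max_eq_right ?_
            nlinarith [hnn k]
        rw [e]
        exact pm hx.le (by linarith))
    have e3 : Function.update ((x / 2) • a) 17 x ⊓ Function.update (x • a) 17 0 =
        Function.update ((x / 2) • a) 17 0 := by
      funext k
      by_cases hk : k = 17
      · subst hk
        simp only [Pi.inf_apply, Function.update_self]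
        exact min_eq_right hx.le
      · simp only [Pi.inf_apply, Function.update_of_ne hk, Pi.smul_apply, smul_eq_mul]
        refine min_eq_left ?_
        nlinarith [hnn k]
    have e4 : Function.update ((x / 2) • a) 17 x ⊔ Function.update (x • a) 17 0 =
        Function.update (x • a) 17 x := by
      funext k
      by_cases hk : k = 17
      · subst hk
        simp only [Pi.sup_apply, Function.update_self]
        exact max_eq_left hx.le
      · simp only [Pi.sup_apply, Function.update_of_ne hk, Pi.smul_apply, smul_eq_mul]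
        refine max_eq_right ?_
        nlinarith [hnn k]
    rw [e3, e4, eT, hray] at hs
    have h5 := hu0 hx2
    nlinarith

end num

end Crest.Agent.R136.Rt478
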