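import Crest.Agent.R136.Us5_555
import Crest.Agent.R136.StN_555
import Crest.Agent.R136.ThnD_768

-- ▼ part R136/StM1_555
section

/-!
# R136 (S0187), U6 thin side (helper555): from macroscopic facts to the window `ThinW`

* `ev_all_of_sel` : selection principle;
* `Mac p D a0 b0` : macroscopic facts at all rational levels of `[a0, b0]`, in the base `D.B`;
* `thinW_of_mac` : `Mac` gives `ThinW` for a small window inside `[a0, b0]`.
-/

set_option autoImplicit false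
set_option linter.unusedVariables false
set_option linter.unusedSectionVars false

open Finset Filter Topology

namespace Crest.Agent.R136.Us555

open Crest.Agent.R138.Ex926 (Base U exists_diag)
open Crest.Agent.R138.Dp76
open Crest.Agent.R138.Mk163 (zc zl rho alive own Negl)
open Crest.Agent.R136.MkA627 Crest.Agent.R136.Sh605 Crest.Agent.R136.K4 Crest.Agent.R136.Top484
open Crest.Agent.R136.Tlt51 (mk4 zx rh Close)
open Crest.Agent.R136.KapP335 (kapP DetP)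
open Crest.Agent.R136.GeoN778 (Qd Un)
open Crest.Agent.R136.Tl102 (QF Fq bz)
open Crest.Agent.R136.Thn768 (Tay cr Frm Cont ThinW)



/-- facts at the level `v` for the container, loss `d^-ε`, smallness `E` -/
def ContAt (D : Dat4) (E : ℝ) (n : ℕ) (v : ℚ) (ε : ℝ) (x : ℕ × ℝ) : Prop :=
  ∃ (f : Fin 3 → V3) (u : Un) (Q : Qd),
    Cont (mk4 D n v x) (D.L n x.1) (zx D n v x) (rh D n v) f u Q E ∧
    (D.B.d n ^ ε * u.WA ≤ D.w 1 n v ∧ D.w 1 n v ≤ D.B.d n ^ (-ε) * u.WA ∧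
      D.B.d n ^ ε * u.WB ≤ D.w 2 n v ∧ D.w 2 n v ≤ D.B.d n ^ (-ε) * u.WB) ∧
    ∃ N R H, Tay (mk4 D n v x).q (D.L n x.1) N R H ∧
      (∀ i, |uv (N + x.2 • R) i - f 0 i| ≤ 1 / 100) ∧ ∀ i, |uv (cr N R) i - f 1 i| ≤ 1 / 100

theorem ContAt.mono {D : Dat4} {E : ℝ} {n : ℕ} {v : ℚ} {ε ε' : ℝ} {x : ℕ × ℝ} (hε : ε ≤ ε')
    (h : ContAt D E n v ε x) : ContAt D E n v ε' x := by
  obtain ⟨f, u, Q, h1, ⟨h2, h3, h4, h5⟩, h6⟩ := h
  have hB : 0 < u.WB := h1.ok.Y0.trans_le h1.ok.YB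
  have hA : 0 < u.WA := hB.trans_le h1.ok.BA
  exact ⟨f, u, Q, h1,
    ⟨(mul_le_mul_of_nonneg_right (dpow_le D.B n hε) hA.le).trans h2,
      h3.trans (mul_le_mul_of_nonneg_right (dpow_le D.B n (by linarith)) hA.le),
      (mul_le_mul_of_nonneg_right (dpow_le D.B n hε) hB.le).trans h4,
      h5.trans (mul_le_mul_of_nonneg_right (dpow_le D.B n (by linarith)) hB.le)⟩, h6⟩

/-- **macroscopic facts** of the thin branch at all rational levels of `[a0, b0]` -/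
structure Mac (p : Par4) (D : Dat4) (a0 b0 : ℚ) : Prop where
  ab : 0 ≤ a0 ∧ a0 < b0 ∧ b0 ≤ 1
  mka : MkA D.B D.I (D.G p) D.lev D.A (fun v => p.g * v) (fun v => 0 * v)
    (fun j v => p.θ j * (1 - v)) D.f D.b D.vm D.w
  vel : ∀ᶠ n in (U : Filter ℕ), ∀ x ∈ D.I n, ∀ i, |(D.L n x.1).v i| ≤ 1
  θ1 : 0 < p.θ 1
  θ2 : p.θ 2 = 2 * p.θ 1
  nd : ∀ v : ℚ, a0 ≤ v → v ≤ b0 → ∀ ε : ℝ, 0 < ε → ∀ᶠ n in (U : Filter ℕ), ∀ x ∈ D.I n,
    DetP (D.B.d n ^ ε) (mk4 D n v x) (zx D n v x) (rh D n v) (D.L n x.1)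
  thin : ∃ c : ℝ, 0 < c ∧ ∀ v : ℚ, a0 ≤ v → v ≤ b0 → ∀ᶠ n in (U : Filter ℕ), ∀ x ∈ D.I n,
    0 ≤ kapP (mk4 D n v x) (zx D n v x) (rh D n v) (D.L n x.1) ∧
    (mk4 D n v x).a ≤ D.B.d n ^ c * kapP (mk4 D n v x) (zx D n v x) (rh D n v) (D.L n x.1)
  tilt : ∃ C : ℝ, 0 ≤ C ∧ ∀ u v : ℚ, a0 ≤ u → u < v → v ≤ b0 → ∀ ε : ℝ, 0 < ε →
    ∀ᶠ n in (U : Filter ℕ), ∀ x ∈ D.I n,
      Close (D.B.d n ^ (-(C * ((v : ℝ) - u)) - ε) * max (D.w 0 n u) (D.w 0 n v))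
        (mk4 D n v x) (mk4 D n u x) (D.L n x.1) (zx D n v x) (rh D n v)
  /-- smallness, canonical units and frame, at every level -/
  cont : ∃ c : ℝ, 0 < c ∧ ∀ v : ℚ, a0 ≤ v → v ≤ b0 → ∀ ε : ℝ, 0 < ε →
    ∀ᶠ n in (U : Filter ℕ), ∀ x ∈ D.I n, ContAt D (D.B.d n ^ c) n v ε x
  /-- range of the tests -/
  wrs : Rng D.B D.wr D.cr D.w

/-- range at one level, smallness `d ^ (1 / δ)` -/
def RngAt (D : Dat4) (n : ℕ) (v : ℚ) (δ : ℝ) : Prop :=
  0 < δ ∧ ∀ k : Fin 3, D.wr k n ≤ D.B.d n ^ (1 / δ) * D.w k n v ∧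
    D.w k n v ≤ D.B.d n ^ (1 / δ) * D.cr k n

/-- from the carried range at the zoomed level to the powers of the new base -/
theorem RngAt.pow {D : Dat4} {n : ℕ} {v : ℚ} {H δ δ' C : ℝ} {B' : Base}
    (hB : B'.d n = D.B.d n ^ H) (hH : 0 < H) (hH1 : H ≤ 1) (hδ' : δ' ≤ H * δ)
    (hC : δ = 1 / (|C| + 1)) (hw : ∀ k : Fin 3, 0 < D.w k n v) (h : RngAt D n v δ') (k : Fin 3) :
    D.wr k n ≤ B'.d n ^ C * D.w k n v ∧ D.w k n v ≤ B'.d n ^ C * D.cr k n := by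
  obtain ⟨h0, h1⟩ := h
  have hC0 : 0 < |C| + 1 := by positivity
  have hle : H * C ≤ 1 / δ' := by
    rw [le_div_iff₀ h0]
    have a1 : H * C ≤ |C| + 1 := by
      have : H * C ≤ H * |C| := mul_le_mul_of_nonneg_left (le_abs_self C) hH.le
      have : H * |C| ≤ 1 * |C| := mul_le_mul_of_nonneg_right hH1 (abs_nonneg C)
      linarith
    have a2 : δ' ≤ δ := hδ'.trans (by
      have : 0 < δ := by rw [hC]; positivity
      nlinarith)
    have a3 : (|C| + 1) * δ = 1 := by rw [hC]; field_simp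
    calc H * C * δ' ≤ (|C| + 1) * δ' := mul_le_mul_of_nonneg_right a1 h0.le
      _ ≤ (|C| + 1) * δ := mul_le_mul_of_nonneg_left a2 hC0.le
      _ = 1 := a3
  have hp : D.B.d n ^ (1 / δ') ≤ B'.d n ^ C := by
    rw [hB, ← Real.rpow_mul (D.B.pos n).le]
    exact dpow_le D.B n hle
  have hd : 0 < D.B.d n ^ (1 / δ') := Real.rpow_pos_of_pos (D.B.pos n) _
  have hcr : 0 ≤ D.cr k n := by
    by_contra hc
    push Not at hc
    have := (h1 k).2
    have := hw k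
    nlinarith [mul_neg_of_pos_of_neg hd hc]
  exact ⟨(h1 k).1.trans (mul_le_mul_of_nonneg_right hp (hw k).le),
    (h1 k).2.trans (mul_le_mul_of_nonneg_right hp hcr)⟩

/-- monotone in the smallness -/
theorem ContAt.exists_seq {D : Dat4} {E : ℕ → ℝ}
    (h : ∀ ε : ℝ, 0 < ε → ∀ᶠ n in (U : Filter ℕ), ∀ x ∈ D.I n, ContAt D (E n) n 0 ε x) :
    ∃ ε : ℕ → ℝ, Tendsto ε U (𝓝 0) ∧ ∀ᶠ n in (U : Filter ℕ), ∀ x ∈ D.I n,
      ContAt D (E n) n 0 (ε n) x := by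
  obtain ⟨k, hk, hk'⟩ := exists_diag (fun k n => ∀ x ∈ D.I n, ContAt D (E n) n 0
    (1 / ((k : ℝ) + 1)) x) fun k => h _ (by positivity)
  exact ⟨fun n => 1 / ((k n : ℝ) + 1), tendsto_one_div_add_atTop_nhds_zero_nat.comp hk, by
    filter_upwards [hk'] with n hn using hn (k n) le_rfl⟩

/-- **the window of the thin branch** -/
theorem thinW_of_mac {p : Par4} {D : Dat4} {a0 b0 : ℚ} (h : Mac p D a0 b0) :
    ∃ D' : Dat4, ThinW p D' := by
  classical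
  obtain ⟨ha0, hab, hb0⟩ := h.ab
  obtain ⟨c1, hc1, hthin⟩ := h.thin
  obtain ⟨C, hC, htilt⟩ := h.tilt
  obtain ⟨c2, hc2, hcont⟩ := h.cont
  have q1 : Car1 a0 b0 (fun _ n v δ => (∀ x ∈ D.I n,
      DetP (D.B.d n ^ δ) (mk4 D n v x) (zx D n v x) (rh D n v) (D.L n x.1)) ∧
      (∀ x ∈ D.I n, 0 ≤ kapP (mk4 D n v x) (zx D n v x) (rh D n v) (D.L n x.1) ∧
        (mk4 D n v x).a ≤ D.B.d n ^ c1 * kapP (mk4 D n v x) (zx D n v x) (rh D n v) (D.L n x.1)) ∧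
      (∀ x ∈ D.I n, ContAt D (D.B.d n ^ c2) n v δ x) ∧ ∃ δ' ≤ δ, RngAt D n v δ') := by
    refine ⟨fun i n v δ δ' hd hq => ⟨fun x hx => (hq.1 x hx).mono (dpow_le D.B n hd), hq.2.1,
      fun x hx => (hq.2.2.1 x hx).mono hd, hq.2.2.2.imp fun e he => ⟨he.1.trans hd, he.2⟩⟩,
      fun i v g0 g1 δ hδ => ?_⟩
    filter_upwards [h.nd v g0 g1 δ hδ, hthin v g0 g1, hcont v g0 g1 δ hδ,
      h.wrs (1 / δ) 0 v (ha0.trans g0) (g1.trans hb0), h.wrs (1 / δ) 1 v (ha0.trans g0) (g1.trans hb0),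
      h.wrs (1 / δ) 2 v (ha0.trans g0) (g1.trans hb0)] with n a1 a2 a3 a4 a5 a6
    refine ⟨a1, a2, a3, δ, le_rfl, hδ, fun k => ?_⟩
    fin_cases k
    exacts [a4, a5, a6]
  have q2 : Car2 a0 b0 (fun _ n u v δ => ∃ δ' ≤ δ, ∀ x ∈ D.I n,
      Close (D.B.d n ^ (-(C * ((v : ℝ) - u)) - δ') * max (D.w 0 n u) (D.w 0 n v))
        (mk4 D n v x) (mk4 D n u x) (D.L n x.1) (zx D n v x) (rh D n v)) :=
    Car2.up fun i u v g0 g01 g1 δ hδ => htilt u v g0 g01 g1 δ hδ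
  obtain ⟨H, mm, B', I', A', hH, hH0, hm, hq, hB, hI, hM, hgain, r1, r2⟩ :=
    h.mka.win ha0 hab hb0 q1 q2
  set D1 : Dat4 := zmD D mm B' I' A' with hD1
  obtain ⟨J, hJ1, hJ2, hJ3, hfrm⟩ := exists_frm (p := p) (D := D1) hM
  set D2 : Dat4 := { D1 with I := J } with hD2
  have hJI : ∀ n, J n ⊆ D.I n := fun n => (hJ1 n).trans (hI n)
  have hwp : ∀ v : ℚ, 0 ≤ v → v ≤ 1 → ∀ᶠ n in (U : Filter ℕ), 0 < D.w 0 n (mm n v) :=
    fun v h0 h1 => hM.wpos 0 v h0 h1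
  have hc0 : ∀ ε : ℝ, 0 < ε → ∀ᶠ n in (U : Filter ℕ), ∀ x ∈ D2.I n,
      ContAt D2 (D.B.d n ^ c2) n 0 ε x := by
    intro ε hε
    filter_upwards [r1.ev 0 0 le_rfl zero_le_one ε hε] with n hn x hx
    obtain ⟨f, u, Q, k1, k2, k3⟩ := hn.2.2.1 x (hJI n hx)
    have e1 := pow_win1 hB n ε
    have e2 := pow_win1 hB n (-ε)
    rw [mul_neg] at e2
    rw [e1, e2] at k2
    exact ⟨f, u, Q, k1, k2, k3⟩
  obtain ⟨ε, hε0, hε⟩ := ContAt.exists_seq hc0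
  have hex : ∀ n, ∃ (x0 : ℕ × ℝ) (f : Fin 3 → V3) (u : Un) (Q : Qd), (J n).Nonempty →
      (∀ x ∈ J n, ContAt D2 (D.B.d n ^ c2) n 0 (ε n) x) → x0 ∈ J n ∧
      Cont (mk4 D2 n 0 x0) (D2.L n x0.1) (zx D2 n 0 x0) (rh D2 n 0) f u Q (D.B.d n ^ c2) ∧
      (D2.B.d n ^ (ε n) * u.WA ≤ D2.w 1 n 0 ∧ D2.w 1 n 0 ≤ D2.B.d n ^ (-(ε n)) * u.WA ∧
        D2.B.d n ^ (ε n) * u.WB ≤ D2.w 2 n 0 ∧ D2.w 2 n 0 ≤ D2.B.d n ^ (-(ε n)) * u.WB) ∧
      ∃ N R H, Tay (mk4 D2 n 0 x0).q (D2.L n x0.1) N R H ∧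
        (∀ i, |uv (N + x0.2 • R) i - f 0 i| ≤ 1 / 100) ∧
          ∀ i, |uv (cr N R) i - f 1 i| ≤ 1 / 100 := by
    intro n
    by_cases hn : (J n).Nonempty ∧ ∀ x ∈ J n, ContAt D2 (D.B.d n ^ c2) n 0 (ε n) x
    · obtain ⟨⟨x0, hx0⟩, hn2⟩ := hn
      obtain ⟨f, u, Q, k1, k2, k3⟩ := hn2 x0 hx0
      exact ⟨x0, f, u, Q, fun _ _ => ⟨hx0, k1, k2, k3⟩⟩
    · exact ⟨(0, 0), fun _ _ => 0, ⟨1, 1, 1, 0, 1⟩, ⟨0, 0, 0, 0, 0, 0⟩, fun g1 g2 => absurd ⟨g1, g2⟩ hn⟩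
  choose x0 f u Q hx0 using hex
  have hmain : ∀ᶠ n in (U : Filter ℕ), x0 n ∈ J n ∧
      Cont (mk4 D2 n 0 (x0 n)) (D2.L n (x0 n).1) (zx D2 n 0 (x0 n)) (rh D2 n 0) (f n) (u n) (Q n)
        (D.B.d n ^ c2) ∧
      (D2.B.d n ^ (ε n) * (u n).WA ≤ D2.w 1 n 0 ∧ D2.w 1 n 0 ≤ D2.B.d n ^ (-(ε n)) * (u n).WA ∧
        D2.B.d n ^ (ε n) * (u n).WB ≤ D2.w 2 n 0 ∧
          D2.w 2 n 0 ≤ D2.B.d n ^ (-(ε n)) * (u n).WB) ∧
      ∃ N R H, Tay (mk4 D2 n 0 (x0 n)).q (D2.L n (x0 n).1) N R H ∧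
        (∀ i, |uv (N + (x0 n).2 • R) i - f n 0 i| ≤ 1 / 100) ∧
          ∀ i, |uv (cr N R) i - f n 1 i| ≤ 1 / 100 := by
    filter_upwards [hJ3.ne, hε] with n g1 g2 using hx0 n g1 g2
  refine ⟨D2, ⟨hJ3, ?_, h.θ1, h.θ2, ?_, ?_, ⟨C, hC, ?_⟩, ⟨x0, f, u, Q, fun n => D.B.d n ^ c2,
    hmain.mono fun n hn => ⟨hn.1, hn.2.1⟩, hgain c2 hc2, ?_, ?_⟩, ?_⟩⟩
  · filter_upwards [h.vel] with n hn x hx using hn x (hJI n hx)
  · intro v h0 h1 δ hδ
    filter_upwards [r1.ev 0 v h0 h1 δ hδ] with n hn x hx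
    have e1 := pow_win1 hB n δ
    have := hn.1 x (hJI n hx)
    rw [e1] at this
    exact this
  · intro v h0 h1 M
    filter_upwards [r1.ev 0 v h0 h1 1 one_pos, hgain c1 hc1 M] with n hn hg x hx
    obtain ⟨k0, k1⟩ := hn.2.1 x (hJI n hx)
    exact k1.trans (mul_le_mul_of_nonneg_right hg k0)
  · intro v w h0 h01 h1 δ hδ
    filter_upwards [r2.ev 0 v w h0 h01 h1 δ hδ, hwp v h0 (h01.le.trans h1)] with n hn hw x hx
    obtain ⟨δ', hδ', hcl⟩ := hn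
    refine Close_mono ?_ (hcl x (hJI n hx))
    refine mul_le_mul_of_nonneg_right ?_ (hw.le.trans (le_max_left _ _))
    show D.B.d n ^ (-(C * ((mm n w : ℝ) - mm n v)) - δ') ≤ B'.d n ^ (-(C * ((w : ℝ) - v)) - δ)
    rw [← pow_win hB hq C n v w δ]
    exact dpow_le D.B n (by linarith)
  · intro δ hδ
    filter_upwards [hmain, hε0.eventually (gt_mem_nhds hδ)] with n hn hd
    obtain ⟨-, k1, ⟨k2, k3, k4, k5⟩, -⟩ := hn
    have hWB : 0 < (u n).WB := k1.ok.Y0.trans_le k1.ok.YB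
    have hWA : 0 < (u n).WA := hWB.trans_le k1.ok.BA
    exact ⟨(mul_le_mul_of_nonneg_right (dpow_le D2.B n hd.le) hWA.le).trans k2,
      k3.trans (mul_le_mul_of_nonneg_right (dpow_le D2.B n (by linarith)) hWA.le),
      (mul_le_mul_of_nonneg_right (dpow_le D2.B n hd.le) hWB.le).trans k4,
      k5.trans (mul_le_mul_of_nonneg_right (dpow_le D2.B n (by linarith)) hWB.le)⟩
  · filter_upwards [hmain, hfrm] with n hn hf x hx
    obtain ⟨k0, k1, -, N, R, H, k3, k4, k5⟩ := hn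
    exact hf (x0 n) k0 (f n) k1.ortho N R H k3 k4 k5 x hx
  · intro C k v h0 h1
    filter_upwards [r1.ev 0 v h0 h1 (1 / (|C| + 1)) (by positivity), hM.wpos 0 v h0 h1,
      hM.wpos 1 v h0 h1, hM.wpos 2 v h0 h1] with n hn w0 w1 w2
    obtain ⟨-, -, -, δ', hδ', hr⟩ := hn
    exact RngAt.pow (B' := B') (hB n) (hH n).1 (hH n).2 hδ' rfl (fun j => by
      fin_cases j
      exacts [w0, w1, w2]) hr k

end Crest.Agent.R136.Us555
end

-- ▼ part R136/StM2_555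
section

/-!
# R136 (S0187), U6 thin side (helper555): powers

`Pw B X s` : `X n v = d^(s (v - u) ± ε) X n u` for all rational `0 ≤ u ≤ v ≤ 1`.
-/

set_option autoImplicit false
set_option linter.unusedVariables false
set_option linter.unusedSectionVars false

open Finset Filter Topology

namespace Crest.Agent.R136.Us555

open Crest.Agent.R138.Ex926 (Base U exists_diag)
open Crest.Agent.R138.Dp76
open Crest.Agent.R138.Mk163 (zc zl rho alive own Negl)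
open Crest.Agent.R136.MkA627 Crest.Agent.R136.Sh605 Crest.Agent.R136.K4 Crest.Agent.R136.Top484

/-- `X` is a power with exponent `s` -/
structure Pw (B : Base) (X : ℕ → ℚ → ℝ) (s : ℝ) : Prop where
  pos : ∀ v : ℚ, 0 ≤ v → v ≤ 1 → ∀ᶠ n in (U : Filter ℕ), 0 < X n v
  le : ∀ u v : ℚ, 0 ≤ u → u ≤ v → v ≤ 1 → ∀ ε : ℝ, 0 < ε → ∀ᶠ n in (U : Filter ℕ),
    B.d n ^ (s * ((v : ℝ) - u) + ε) * X n u ≤ X n v ∧
      X n v ≤ B.d n ^ (s * ((v : ℝ) - u) - ε) * X n u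

section

variable {B : Base} {X Y : ℕ → ℚ → ℝ} {s t : ℝ}

theorem Pw.mul (hX : Pw B X s) (hY : Pw B Y t) : Pw B (fun n v => X n v * Y n v) (s + t) := by
  refine ⟨fun v h0 h1 => ?_, fun u v h0 huv h1 ε hε => ?_⟩
  · filter_upwards [hX.pos v h0 h1, hY.pos v h0 h1] with n a b using mul_pos a b
  · have e2 : 0 < ε / 2 := by positivity
    filter_upwards [hX.pos u h0 (huv.trans h1), hY.pos u h0 (huv.trans h1),
      hX.le u v h0 huv h1 _ e2, hY.le u v h0 huv h1 _ e2, hX.pos v (h0.trans huv) h1,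
      hY.pos v (h0.trans huv) h1] with n p1 p2 k1 k2 p3 p4
    have c1 : B.d n ^ ((s + t) * ((v : ℝ) - u) + ε) = B.d n ^ (s * ((v : ℝ) - u) + ε / 2) *
        B.d n ^ (t * ((v : ℝ) - u) + ε / 2) := by rw [← dpow_add]; congr 1; ring
    have c2 : B.d n ^ ((s + t) * ((v : ℝ) - u) - ε) = B.d n ^ (s * ((v : ℝ) - u) - ε / 2) *
        B.d n ^ (t * ((v : ℝ) - u) - ε / 2) := by rw [← dpow_add]; congr 1; ring
    rw [c1, c2]
    constructor
    · calc _ = (B.d n ^ (s * ((v : ℝ) - u) + ε / 2) * X n u) *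
            (B.d n ^ (t * ((v : ℝ) - u) + ε / 2) * Y n u) := by ring
        _ ≤ X n v * Y n v := mul_le_mul k1.1 k2.1
            (mul_nonneg (dpow_pos B n _).le p2.le) p3.le
    · calc X n v * Y n v ≤ (B.d n ^ (s * ((v : ℝ) - u) - ε / 2) * X n u) *
            (B.d n ^ (t * ((v : ℝ) - u) - ε / 2) * Y n u) := mul_le_mul k1.2 k2.2 p4.le
              (mul_nonneg (dpow_pos B n _).le p1.le)
        _ = _ := by ring

theorem Pw.of_log (hpos : ∀ v : ℚ, 0 ≤ v → v ≤ 1 → ∀ᶠ n in (U : Filter ℕ), 0 < X n v)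
    (h : ∀ u v : ℚ, 0 ≤ u → u ≤ v → v ≤ 1 →
      Tendsto (fun n => (Real.log (X n u) - Real.log (X n v)) / B.L n) U
        (𝓝 (s * ((v : ℝ) - u)))) : Pw B X s := by
  refine ⟨hpos, fun u v h0 huv h1 ε hε => ?_⟩
  have h2 := h u v h0 huv h1
  filter_upwards [hpos u h0 (huv.trans h1), hpos v (h0.trans huv) h1,
    h2.eventually_const_lt (show s * ((v : ℝ) - u) - ε < s * ((v : ℝ) - u) by linarith),
    h2.eventually_lt_const (show s * ((v : ℝ) - u) < s * ((v : ℝ) - u) + ε by linarith)]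
    with n pu pv k1 k2
  have hL := B.L_pos n
  rw [lt_div_iff₀ hL] at k1
  rw [div_lt_iff₀ hL] at k2
  have hd := B.pos n
  have hld : ∀ a : ℝ, Real.log (B.d n ^ a) = -(a * B.L n) := fun a => by
    rw [Real.log_rpow hd]; unfold Base.L; ring
  constructor
  · rw [← Real.log_le_log_iff (mul_pos (dpow_pos B n _) pu) pv,
      Real.log_mul (dpow_pos B n _).ne' pu.ne', hld]
    linarith
  · rw [← Real.log_le_log_iff pv (mul_pos (dpow_pos B n _) pu),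
      Real.log_mul (dpow_pos B n _).ne' pu.ne', hld]
    linarith

/-- comparison of exponents -/
theorem exp_le_of_le {a b K : ℝ} (h : ∀ᶠ n in (U : Filter ℕ), B.d n ^ a ≤ K * B.d n ^ b) :
    b ≤ a := by
  by_contra hc
  push Not at hc
  have hK : 0 < |K| + 1 := by positivity
  have hs := Crest.Agent.R138.Ps926.dpow_small B (c := b - a) (by linarith)
    (ε := 1 / (|K| + 1)) (by positivity)
  obtain ⟨n, h1, h2⟩ := (h.and hs).exists
  have ha := dpow_pos B n a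
  have e : B.d n ^ b = B.d n ^ a * B.d n ^ (b - a) := by rw [← dpow_add]; congr 1; ring
  rw [e] at h1
  have h3 : K * (B.d n ^ a * B.d n ^ (b - a)) ≤ |K| * (B.d n ^ a * B.d n ^ (b - a)) :=
    mul_le_mul_of_nonneg_right (le_abs_self K) (mul_nonneg ha.le (dpow_pos B n _).le)
  have h4 : |K| * B.d n ^ (b - a) < 1 := by
    have h5 : B.d n ^ (b - a) * (|K| + 1) < 1 := by
      rwa [lt_div_iff₀ hK] at h2
    have := dpow_pos B n (b - a)
    nlinarith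
  nlinarith

/-- comparison of exponents with arbitrarily small losses -/
theorem exp_le_of_eps {a b : ℝ}
    (h : ∀ ε : ℝ, 0 < ε → ∃ K : ℝ, ∀ᶠ n in (U : Filter ℕ), B.d n ^ (a + ε) ≤ K * B.d n ^ b) :
    b ≤ a := by
  by_contra hc
  push Not at hc
  obtain ⟨K, hK⟩ := h ((b - a) / 2) (by linarith)
  have := exp_le_of_le hK
  linarith

/-- constants are smaller than small negative powers -/
theorem const_le (B : Base) (K : ℝ) {ε : ℝ} (hε : 0 < ε) :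
    ∀ᶠ n in (U : Filter ℕ), K ≤ B.d n ^ (-ε) := by
  have hK : 0 < |K| + 1 := by positivity
  filter_upwards [Crest.Agent.R138.Ps926.dpow_small B hε (ε := 1 / (|K| + 1)) (by positivity)]
    with n hn
  have hp := dpow_pos B n ε
  rw [Real.rpow_neg (B.pos n).le]
  have : |K| + 1 ≤ (B.d n ^ ε)⁻¹ := by
    rw [le_inv_comm₀ hK hp, ← one_div]
    exact hn.le
  linarith [le_abs_self K]

theorem small_mul (B : Base) {K : ℝ} {ε : ℝ} (hε : 0 < ε) :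
    ∀ᶠ n in (U : Filter ℕ), K * B.d n ^ ε ≤ 1 := by
  filter_upwards [const_le B K hε] with n hn
  have hp := dpow_pos B n ε
  calc K * B.d n ^ ε ≤ B.d n ^ (-ε) * B.d n ^ ε := mul_le_mul_of_nonneg_right hn hp.le
    _ = 1 := by rw [← dpow_add, neg_add_cancel, Real.rpow_zero]

end

section

variable {σ κ : Type*} {B : Base} {I : ℕ → Finset (ℕ × ℝ)} {G : Geo σ κ} {lev : ℕ → ℚ → ℕ}
    {A : ℕ → ℝ} {g s : ℝ} {θ : κ → ℝ} {f : ℕ → ℚ → ℕ → ℤ → ℕ} {b : ℕ → ℚ → ℕ → σ}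
    {vm : ℕ → ℚ → ℝ} {w : κ → ℕ → ℚ → ℝ}

theorem log_rho (i : ℕ) : Real.log (rho i) = -(i * Real.log 2) := by
  unfold rho
  rw [one_div, Real.log_inv, Real.log_pow]

theorem rho_pos' (i : ℕ) : 0 < rho i := by unfold rho; positivity

theorem pw_rho (h : MkA B I G lev A (fun v => g * v) (fun v => s * v) (fun j v => θ j * (1 - v)) f b
    vm w) : Pw B (fun n v => rho (lev n v)) 1 := by
  refine Pw.of_log (fun v h0 h1 => Eventually.of_forall fun n => rho_pos' _) fun u v h0 huv h1 => ?_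
  rw [one_mul]
  refine (h.lev_lim u v h0 huv h1).congr fun n => ?_
  rw [log_rho, log_rho]
  ring

theorem pw_wid (h : MkA B I G lev A (fun v => g * v) (fun v => s * v) (fun j v => θ j * (1 - v)) f b
    vm w) (j : κ) : Pw B (w j) (1 - θ j) := by
  refine Pw.of_log (fun v h0 h1 => h.wpos j v h0 h1) fun u v h0 huv h1 => ?_
  have a1 := h.tau j u h0 (huv.trans h1)
  have a2 := h.tau j v (h0.trans huv) h1
  have a3 := h.lev_lim u v h0 huv h1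
  have a4 := (a3.sub a1).add a2
  have e : (v : ℝ) - u - θ j * (1 - u) + θ j * (1 - v) = (1 - θ j) * ((v : ℝ) - u) := by ring
  rw [e] at a4
  refine a4.congr' ?_
  filter_upwards [h.wpos j u h0 (huv.trans h1), h.wpos j v (h0.trans huv) h1,
    h.wpos j 1 zero_le_one le_rfl] with n pu pv p1
  have q := fun i => rho_pos' i
  rw [Real.log_div (div_pos (q _) pu).ne' (div_pos (q _) p1).ne',
    Real.log_div (div_pos (q _) pv).ne' (div_pos (q _) p1).ne',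
    Real.log_div (q _).ne' pu.ne', Real.log_div (q _).ne' pv.ne', log_rho, log_rho]
  have hL := (B.L_pos n).ne'
  field_simp
  ring

end

end Crest.Agent.R136.Us555
end

-- ▼ part R136/StM3_555

/-!
# R136 (S0187), U6 thin side (helper555): exponents of the curvature extent

`MPre p D l r` : all marks of the levels `[l, r]` are curved and nondegenerate, marks of coarser
levels are close to the deeper ones in the coefficient form.

* `MPre.ye` : the curvature extent is a power with exponent `(2/3) (3 - θ₁ - θ₂)`;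
* `MPre.ratio` : `w₂ ≤ d^c w₁` at interior levels;
* `MPre.θ2` : `θ₂ = 2 θ₁`.
-/

set_option autoImplicit false
set_option linter.unusedVariables false
set_option linter.unusedSectionVars false

open Finset Filter Topology

namespace Crest.Agent.R136.Us555

open Crest.Agent.R138.Ex926 (Base U exists_diag ev_em)
open Crest.Agent.R138.Dp76
open Crest.Agent.R138.Mk163 (zc zl rho alive own Negl)
open Crest.Agent.R138.MkRef627 (mem_alive)
open Crest.Agent.R136.MkA627 Crest.Agent.R136.Sh605 Crest.Agent.R136.K4 Crest.Agent.R136.Top484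
open Crest.Agent.R136.Tlt51 (mk4 zx rh Close)
open Crest.Agent.R136.KapP335 (kapP DetP kapP_eq)
open Crest.Agent.R136.GeoN778 (Qd Un)
open Crest.Agent.R136.Tl102 (QF Fq bz kap IsExp NrmC scB1)
open Crest.Agent.R136.Thn768 (Tay cr Frm Cont ThinW Own Snd D3 nm exists_tay)

/-- curvature extent of the mark of level `v` -/
noncomputable def Ye (D : Dat4) (n : ℕ) (v : ℚ) (x : ℕ × ℝ) : ℝ :=
  kapP (mk4 D n v x) (zx D n v x) (rh D n v) (D.L n x.1)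

/-- `ρ w₁ w₂` -/
noncomputable def PP (D : Dat4) (n : ℕ) (v : ℚ) : ℝ := rh D n v * (D.w 1 n v * D.w 2 n v)

/-- **curved and nondegenerate at all levels of `[l, r]`** -/
structure MPre (p : Par4) (D : Dat4) (l r : ℚ) : Prop where
  lr : 0 ≤ l ∧ l < r ∧ r ≤ 1
  mka : MkA D.B D.I (D.G p) D.lev D.A (fun v => p.g * v) (fun v => 0 * v)
    (fun j v => p.θ j * (1 - v)) D.f D.b D.vm D.w
  vel : ∀ᶠ n in (U : Filter ℕ), ∀ x ∈ D.I n, ∀ i, |(D.L n x.1).v i| ≤ 1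
  θ1 : 0 < p.θ 1
  own : ∀ v : ℚ, l ≤ v → v ≤ r → ∀ ε : ℝ, 0 < ε → ∀ᶠ n in (U : Filter ℕ), ∀ x ∈ D.I n,
    ∃ b0 b1 G, Own (mk4 D n v x) (D.L n x.1) (zx D n v x) (rh D n v) (D.B.d n ^ ε) b0 b1 G
  thin : ∃ c : ℝ, 0 < c ∧ ∀ v : ℚ, l ≤ v → v ≤ r → ∀ᶠ n in (U : Filter ℕ), ∀ x ∈ D.I n,
    (mk4 D n v x).a ≤ D.B.d n ^ c * Ye D n v x
  tilt : ∃ C : ℝ, 0 ≤ C ∧ ∀ u v : ℚ, l ≤ u → u < v → v ≤ r → ∀ ε : ℝ, 0 < ε →
    ∀ᶠ n in (U : Filter ℕ), ∀ x ∈ D.I n,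
      Close (D.B.d n ^ (-(C * ((v : ℝ) - u)) - ε) * max (D.w 0 n u) (D.w 0 n v))
        (mk4 D n v x) (mk4 D n u x) (D.L n x.1) (zx D n v x) (rh D n v)
  snd : ∃ c : ℝ, 0 < c ∧ ∀ u v : ℚ, l ≤ u → u < v → v ≤ r → ∀ᶠ n in (U : Filter ℕ),
    ∀ x ∈ D.I n, ∀ b0 b1 G N R H,
      IsExp (mk4 D n v x).q (mk4 D n v x).e (mk4 D n v x).w (D.L n x.1) (zx D n v x) (rh D n v)
        b0 b1 G → Tay (mk4 D n u x).q (D.L n x.1) N R H →
      Snd (mk4 D n v x) (D.L n x.1) (zx D n v x) (rh D n v) b0 b1 G (D.B.d n ^ c)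
        (mk4 D n u x).q N R H

section

variable {p : Par4} {D : Dat4} {l r : ℚ}

/-- the marks -/
theorem MPre.mark (h : MPre p D l r) {v : ℚ} (h0 : 0 ≤ v) (h1 : v ≤ 1) :
    ∀ᶠ n in (U : Filter ℕ), (0 < D.w 0 n v ∧ 0 < D.w 1 n v ∧ 0 < D.w 2 n v) ∧ ∀ x ∈ D.I n,
      ShN (mk4 D n v x).e (mk4 D n v x).c (mk4 D n v x).w (mk4 D n v x).q (mk4 D n v x).a
        (zx D n v x) (rh D n v) (D.r0 n) ∧
      (mk4 D n v x).a = D.w 0 n v ∧ (mk4 D n v x).w 1 = D.w 1 n v ∧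
        (mk4 D n v x).w 2 = D.w 2 n v := by
  filter_upwards [h.mka.mark v h0 h1, h.mka.wpos 0 v h0 h1, h.mka.wpos 1 v h0 h1,
    h.mka.wpos 2 v h0 h1] with n a1 a2 a3 a4
  refine ⟨⟨a2, a3, a4⟩, fun x hx => ?_⟩
  obtain ⟨m1, m2, m3, m4⟩ := a1 (zc (D.lev n v) x.2) x.1 (mem_alive.2 ⟨x, hx, rfl, rfl⟩)
  exact ⟨m2.1, m4 0, m4 1, m4 2⟩

theorem MPre.w21 (h : MPre p D l r) {v : ℚ} (h0 : 0 ≤ v) (h1 : v ≤ 1) :
    ∀ᶠ n in (U : Filter ℕ), D.w 2 n v ≤ D.w 1 n v := by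
  filter_upwards [h.mark h0 h1, h.mka.ne] with n a1 a2
  obtain ⟨x, hx⟩ := a2
  obtain ⟨s1, s2, s3, s4⟩ := a1.2 x hx
  rw [← s3, ← s4]
  exact s1.w_le

theorem MPre.pwP (h : MPre p D l r) : Pw D.B (fun n v => PP D n v) (3 - p.θ 1 - p.θ 2) := by
  have h1 := (pw_rho h.mka).mul ((pw_wid h.mka 1).mul (pw_wid h.mka 2))
  have e : 1 + ((1 - p.θ 1) + (1 - p.θ 2)) = 3 - p.θ 1 - p.θ 2 := by ring
  rw [e] at h1
  exact h1

theorem Ye_eq (h : MPre p D l r) {n : ℕ} {v : ℚ} {x : ℕ × ℝ} {δ : ℝ} {b0 b1 : V3} {G : QF}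
    (O : Own (mk4 D n v x) (D.L n x.1) (zx D n v x) (rh D n v) δ b0 b1 G) :
    Ye D n v x = (mk4 D n v x).w 0 * kap b0 b1 G := kapP_eq (O.pos 0).ne' O.exp

/-- **determinant law against the reference mark of level `l`** -/
theorem MPre.refD (h : MPre p D l r) {v : ℚ} (hl : l < v) (hr : v ≤ r) {ε : ℝ} (hε : 0 < ε) :
    ∀ᶠ n in (U : Filter ℕ), 0 < PP D n v ∧ ∀ x ∈ D.I n, 0 < Ye D n v x ∧
      ∀ N R H, Tay (mk4 D n l x).q (D.L n x.1) N R H →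
        D.B.d n ^ ε * Ye D n v x ^ 3 ≤ |D3 N R H| * PP D n v ^ 2 ∧
          |D3 N R H| * PP D n v ^ 2 ≤ D.B.d n ^ (-ε) * Ye D n v x ^ 3 := by
  obtain ⟨c, hc, hs⟩ := h.snd
  have hv0 : 0 ≤ v := h.lr.1.trans hl.le
  have hv1 : v ≤ 1 := hr.trans h.lr.2.2
  set ε' : ℝ := min (ε / 2) (c / 2) with hε'
  have hp : 0 < ε' := lt_min (by positivity) (by positivity)
  have h1 : ε' ≤ ε / 2 := min_le_left _ _
  have h2 : ε' ≤ c / 2 := min_le_right _ _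
  filter_upwards [h.own v hl.le hr ε' hp, hs l v le_rfl hl hr, h.mark hv0 hv1,
    small_mul D.B (K := CM) (ε := c / 2) (by positivity),
    small_mul D.B (K := CM) (ε := ε / 2) (by positivity), const_le D.B CM (ε := ε) hε,
    h.pwP.pos v hv0 hv1] with n a1 a2 a3 a4 a5 a6 a7
  refine ⟨a7, fun x hx => ?_⟩
  obtain ⟨b0, b1, G, O⟩ := a1 x hx
  obtain ⟨s1, s2, s3, s4⟩ := a3.2 x hx
  have hY := Ye_eq h O
  have hYp : 0 < Ye D n v x := by rw [hY]; exact mul_pos (O.pos 0) O.k0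
  have hCM : (0 : ℝ) < CM := CM_pos
  have hδ1 : D.B.d n ^ ε' ≤ 1 := Real.rpow_le_one (D.B.pos n).le (D.B.lt n).le hp.le
  refine ⟨hYp, fun N R H hT => ?_⟩
  have S := a2 x hx b0 b1 G N R H O.exp hT
  have hX : D.B.d n ^ c ≤ D.B.d n ^ ε' / CM := by
    rw [le_div_iff₀ hCM]
    calc D.B.d n ^ c * CM = (CM * D.B.d n ^ (c / 2)) * D.B.d n ^ (c / 2) := by
          rw [mul_assoc, ← dpow_add, add_halves, mul_comm]
      _ ≤ 1 * D.B.d n ^ (c / 2) := mul_le_mul_of_nonneg_right a4 (dpow_pos D.B n _).le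
      _ = D.B.d n ^ (c / 2) := one_mul _
      _ ≤ D.B.d n ^ ε' := dpow_le D.B n h2
  obtain ⟨k1, k2⟩ := snd_D O S hX hδ1
  rw [← hY] at k1 k2
  have eP : rh D n v * ((mk4 D n v x).w 1 * (mk4 D n v x).w 2) = PP D n v := by
    rw [s3, s4]; rfl
  rw [eP] at k1 k2
  have hY3 : 0 < Ye D n v x ^ 3 := by positivity
  refine ⟨le_trans (mul_le_mul_of_nonneg_right ?_ hY3.le) k1,
    k2.trans (mul_le_mul_of_nonneg_right a6 hY3.le)⟩
  rw [le_div_iff₀ hCM]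
  calc D.B.d n ^ ε * CM = (CM * D.B.d n ^ (ε / 2)) * D.B.d n ^ (ε / 2) := by
        rw [mul_assoc, ← dpow_add, add_halves, mul_comm]
    _ ≤ 1 * D.B.d n ^ (ε / 2) := mul_le_mul_of_nonneg_right a5 (dpow_pos D.B n _).le
    _ = D.B.d n ^ (ε / 2) := one_mul _
    _ ≤ D.B.d n ^ ε' := dpow_le D.B n h1

theorem MPre.tay_ref (h : MPre p D l r) : ∀ᶠ n in (U : Filter ℕ), ∀ x ∈ D.I n,
    ∃ N R H, Tay (mk4 D n l x).q (D.L n x.1) N R H := by
  filter_upwards [h.mark h.lr.1 (h.lr.2.1.le.trans h.lr.2.2)] with n hn x hx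
  exact exists_tay (hn.2 x hx).1.isQ _

theorem le_of_cube {x y : ℝ} (hy : 0 ≤ y) (h : x ^ 3 ≤ y ^ 3) : x ≤ y :=
  le_of_pow_le_pow_left₀ (by norm_num) hy h

/-- **the curvature extent is a power** -/
theorem MPre.ye (h : MPre p D l r) {u v : ℚ} (hl : l < u) (huv : u ≤ v) (hr : v ≤ r) {ε : ℝ}
    (hε : 0 < ε) : ∀ᶠ n in (U : Filter ℕ), ∀ x ∈ D.I n,
      D.B.d n ^ (2 / 3 * (3 - p.θ 1 - p.θ 2) * ((v : ℝ) - u) + ε) * Ye D n u x ≤ Ye D n v x ∧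
      Ye D n v x ≤ D.B.d n ^ (2 / 3 * (3 - p.θ 1 - p.θ 2) * ((v : ℝ) - u) - ε) * Ye D n u x := by
  have hu0 : 0 ≤ u := h.lr.1.trans hl.le
  have hv1 : v ≤ 1 := hr.trans h.lr.2.2
  have e2 : 0 < ε / 2 := by positivity
  filter_upwards [h.refD hl (huv.trans hr) e2, h.refD (hl.trans_le huv) hr e2,
    h.pwP.le u v hu0 huv hv1 _ e2, h.tay_ref] with n a1 a2 a3 a4 x hx
  obtain ⟨N, R, H, hT⟩ := a4 x hx
  obtain ⟨p1, q1⟩ := a1
  obtain ⟨p2, q2⟩ := a2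
  obtain ⟨y1, d1⟩ := q1 x hx
  obtain ⟨y2, d2⟩ := q2 x hx
  obtain ⟨l1, r1⟩ := d1 N R H hT
  obtain ⟨l2, r2⟩ := d2 N R H hT
  set σ := 3 - p.θ 1 - p.θ 2
  set t : ℝ := (v : ℝ) - u
  set Δ := |D3 N R H|
  have hΔ : 0 ≤ Δ := abs_nonneg _
  set Yu := Ye D n u x
  set Yv := Ye D n v x
  set Pu := PP D n u
  set Pv := PP D n v
  have hd := fun a : ℝ => dpow_pos D.B n a
  have sq1 : Pv ^ 2 ≤ D.B.d n ^ (2 * σ * t - ε) * Pu ^ 2 := by
    have := pow_le_pow_left₀ p2.le a3.2 2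
    rw [mul_pow, ← Real.rpow_natCast (D.B.d n ^ _), ← Real.rpow_mul (D.B.pos n).le] at this
    refine this.trans (le_of_eq ?_)
    congr 2; push_cast; ring
  have sq2 : D.B.d n ^ (2 * σ * t + ε) * Pu ^ 2 ≤ Pv ^ 2 := by
    have := pow_le_pow_left₀ (mul_nonneg (hd _).le p1.le) a3.1 2
    rw [mul_pow, ← Real.rpow_natCast (D.B.d n ^ _), ← Real.rpow_mul (D.B.pos n).le] at this
    refine le_trans (le_of_eq ?_) this
    congr 2; push_cast; ring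
  have cube : ∀ a : ℝ, D.B.d n ^ (3 * a) = (D.B.d n ^ a) ^ 3 := by
    intro a
    rw [← Real.rpow_natCast (D.B.d n ^ a), ← Real.rpow_mul (D.B.pos n).le]
    congr 1; push_cast; ring
  constructor
  · refine le_of_cube y2.le ?_
    rw [mul_pow, ← cube]
    have k1 : D.B.d n ^ (2 * σ * t + ε) * (D.B.d n ^ (ε / 2) * Yu ^ 3) ≤
        D.B.d n ^ (-(ε / 2)) * Yv ^ 3 := by
      calc _ ≤ D.B.d n ^ (2 * σ * t + ε) * (Δ * Pu ^ 2) :=
            mul_le_mul_of_nonneg_left l1 (hd _).le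
        _ = Δ * (D.B.d n ^ (2 * σ * t + ε) * Pu ^ 2) := by ring
        _ ≤ Δ * Pv ^ 2 := mul_le_mul_of_nonneg_left sq2 hΔ
        _ ≤ _ := r2
    have k2 : D.B.d n ^ (ε / 2) * (D.B.d n ^ (2 * σ * t + ε) * (D.B.d n ^ (ε / 2) * Yu ^ 3)) ≤
        D.B.d n ^ (ε / 2) * (D.B.d n ^ (-(ε / 2)) * Yv ^ 3) :=
      mul_le_mul_of_nonneg_left k1 (hd _).le
    rw [← mul_assoc, ← mul_assoc, ← mul_assoc, ← dpow_add, ← dpow_add, ← dpow_add,
      add_neg_cancel, Real.rpow_zero, one_mul] at k2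
    refine le_trans (mul_le_mul_of_nonneg_right (dpow_le D.B n ?_) (by positivity)) k2
    nlinarith
  · refine le_of_cube (mul_nonneg (hd _).le y1.le) ?_
    rw [mul_pow, ← cube]
    have k1 : D.B.d n ^ (ε / 2) * Yv ^ 3 ≤
        D.B.d n ^ (2 * σ * t - ε) * (D.B.d n ^ (-(ε / 2)) * Yu ^ 3) := by
      calc _ ≤ Δ * Pv ^ 2 := l2
        _ ≤ Δ * (D.B.d n ^ (2 * σ * t - ε) * Pu ^ 2) := mul_le_mul_of_nonneg_left sq1 hΔ
        _ = D.B.d n ^ (2 * σ * t - ε) * (Δ * Pu ^ 2) := by ring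
        _ ≤ _ := mul_le_mul_of_nonneg_left r1 (hd _).le
    have k2 := mul_le_mul_of_nonneg_left k1 (hd (-(ε / 2))).le
    rw [← mul_assoc, ← mul_assoc, ← mul_assoc, ← dpow_add, ← dpow_add, ← dpow_add,
      neg_add_cancel, Real.rpow_zero, one_mul] at k2
    refine k2.trans (mul_le_mul_of_nonneg_right (dpow_le D.B n ?_) (by positivity))
    nlinarith

/-- the rotation form against the reference mark -/
theorem MPre.refO (h : MPre p D l r) {v : ℚ} (hl : l < v) (hr : v ≤ r) {ε : ℝ} (hε : 0 < ε) :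
    ∀ᶠ n in (U : Filter ℕ), ∀ x ∈ D.I n,
      ∀ N R H, Tay (mk4 D n l x).q (D.L n x.1) N R H →
        D.B.d n ^ ε * (Ye D n v x * D.w 2 n v) ≤ nm (cr N R) * PP D n v ∧
          nm (cr N R) * PP D n v ≤ D.B.d n ^ (-ε) * (Ye D n v x * D.w 1 n v) := by
  obtain ⟨c, hc, hs⟩ := h.snd
  have hv0 : 0 ≤ v := h.lr.1.trans hl.le
  have hv1 : v ≤ 1 := hr.trans h.lr.2.2
  set ε' : ℝ := min (ε / 2) (c / 2) with hε'
  have hp : 0 < ε' := lt_min (by positivity) (by positivity)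
  have h1 : ε' ≤ ε / 2 := min_le_left _ _
  have h2 : ε' ≤ c / 2 := min_le_right _ _
  filter_upwards [h.own v hl.le hr ε' hp, hs l v le_rfl hl hr, h.mark hv0 hv1,
    small_mul D.B (K := CM) (ε := c / 2) (by positivity),
    small_mul D.B (K := CM) (ε := ε / 2) (by positivity), const_le D.B CM (ε := ε) hε]
    with n a1 a2 a3 a4 a5 a6 x hx N R H hT
  obtain ⟨b0, b1, G, O⟩ := a1 x hx
  obtain ⟨s1, s2, s3, s4⟩ := a3.2 x hx
  have hY := Ye_eq h O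
  have hYp : 0 < Ye D n v x := by rw [hY]; exact mul_pos (O.pos 0) O.k0
  have hCM : (0 : ℝ) < CM := CM_pos
  have hδ1 : D.B.d n ^ ε' ≤ 1 := Real.rpow_le_one (D.B.pos n).le (D.B.lt n).le hp.le
  have S := a2 x hx b0 b1 G N R H O.exp hT
  have hX : D.B.d n ^ c ≤ D.B.d n ^ ε' / CM := by
    rw [le_div_iff₀ hCM]
    calc D.B.d n ^ c * CM = (CM * D.B.d n ^ (c / 2)) * D.B.d n ^ (c / 2) := by
          rw [mul_assoc, ← dpow_add, add_halves, mul_comm]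
      _ ≤ 1 * D.B.d n ^ (c / 2) := mul_le_mul_of_nonneg_right a4 (dpow_pos D.B n _).le
      _ = D.B.d n ^ (c / 2) := one_mul _
      _ ≤ D.B.d n ^ ε' := dpow_le D.B n h2
  have hX1 : D.B.d n ^ c ≤ 1 := Real.rpow_le_one (D.B.pos n).le (D.B.lt n).le hc.le
  have k1 := snd_om_ge2 O S hX hδ1
  have k2 := snd_om_le O S hX1
  rw [← hY] at k1 k2
  have eP : rh D n v * ((mk4 D n v x).w 1 * (mk4 D n v x).w 2) = PP D n v := by
    rw [s3, s4]; rfl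
  rw [eP] at k1 k2
  rw [s4] at k1
  rw [s3] at k2
  have hw1 := a3.1.2.1
  have hw2 := a3.1.2.2
  constructor
  · refine le_trans ?_ k1
    rw [mul_assoc]
    refine mul_le_mul_of_nonneg_right ?_ (mul_pos hYp hw2).le
    rw [le_div_iff₀ hCM]
    calc D.B.d n ^ ε * CM = (CM * D.B.d n ^ (ε / 2)) * D.B.d n ^ (ε / 2) := by
          rw [mul_assoc, ← dpow_add, add_halves, mul_comm]
      _ ≤ 1 * D.B.d n ^ (ε / 2) := mul_le_mul_of_nonneg_right a5 (dpow_pos D.B n _).le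
      _ = D.B.d n ^ (ε / 2) := one_mul _
      _ ≤ D.B.d n ^ ε' := dpow_le D.B n h1
  · refine k2.trans ?_
    rw [mul_assoc]
    exact mul_le_mul_of_nonneg_right a6 (mul_pos hYp hw1).le

/-- lower bound by the wide width, at the level `v` -/
def LowA (D : Dat4) (l v : ℚ) : Prop := ∀ ε : ℝ, 0 < ε → ∀ᶠ n in (U : Filter ℕ), ∀ x ∈ D.I n,
  ∀ N R H, Tay (mk4 D n l x).q (D.L n x.1) N R H →
    D.B.d n ^ ε * (Ye D n v x * D.w 1 n v) ≤ nm (cr N R) * PP D n v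

theorem pow_cancel {B : Base} {n : ℕ} {a b Y : ℝ} (hY : 0 < Y)
    (h : B.d n ^ a * Y ≤ B.d n ^ b * Y) : B.d n ^ a ≤ B.d n ^ b := le_of_mul_le_mul_right h hY

theorem MPre.slope_ge (h : MPre p D l r) {u v : ℚ} (hl : l < u) (huv : u < v) (hr : v ≤ r)
    (hlow : LowA D l v) : (3 - p.θ 1 - p.θ 2) / 3 ≤ 1 - p.θ 1 := by
  have hu0 : 0 ≤ u := h.lr.1.trans hl.le
  have hv1 : v ≤ 1 := hr.trans h.lr.2.2
  have ht : (0 : ℝ) < (v : ℝ) - u := by
    have : (u : ℝ) < v := by exact_mod_cast huv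
    linarith
  have key : (3 - p.θ 1 - p.θ 2) * ((v : ℝ) - u) ≤
      2 / 3 * (3 - p.θ 1 - p.θ 2) * ((v : ℝ) - u) + (1 - p.θ 1) * ((v : ℝ) - u) := by
    refine exp_le_of_eps (B := D.B) fun ε hε => ⟨1, ?_⟩
    have e5 : 0 < ε / 5 := by positivity
    filter_upwards [hlow _ e5, h.refO hl (huv.le.trans hr) e5, h.ye hl huv.le hr e5,
      (pw_wid h.mka 1).le u v hu0 huv.le hv1 _ e5, h.pwP.le u v hu0 huv.le hv1 _ e5, h.tay_ref,
      h.mka.ne, h.refD hl (huv.le.trans hr) e5, h.refD (hl.trans huv) hr e5,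
      h.mka.wpos 1 u hu0 (huv.le.trans hv1), h.mka.wpos 1 v (hu0.trans huv.le) hv1]
      with n a1 a2 a3 a4 a5 a6 a7 a8 a9 a10 a11
    obtain ⟨x, hx⟩ := a7
    obtain ⟨N, R, H, hT⟩ := a6 x hx
    have b1 := a1 x hx N R H hT
    have b2 := (a2 x hx N R H hT).2
    have b3 := (a3 x hx).1
    have hPu := a8.1
    have hPv := a9.1
    have hYu := (a8.2 x hx).1
    have hYv := (a9.2 x hx).1
    have hd := fun a : ℝ => dpow_pos D.B n a
    set O := nm (cr N R)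
    set σ := 3 - p.θ 1 - p.θ 2
    set t : ℝ := (v : ℝ) - u
    set Y := Ye D n u x * D.w 1 n u * PP D n u with hYdef
    have hY : 0 < Y := by positivity
    have c1 : D.B.d n ^ (ε / 5) * (Ye D n v x * D.w 1 n v) * PP D n u ≤
        D.B.d n ^ (-(ε / 5)) * (Ye D n u x * D.w 1 n u) * PP D n v := by
      calc _ ≤ (O * PP D n v) * PP D n u := mul_le_mul_of_nonneg_right b1 hPu.le
        _ = (O * PP D n u) * PP D n v := by ring
        _ ≤ _ := mul_le_mul_of_nonneg_right b2 hPv.le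
    have c2 : D.B.d n ^ (2 / 3 * σ * t + ε / 5) * Ye D n u x *
        (D.B.d n ^ ((1 - p.θ 1) * t + ε / 5) * D.w 1 n u) ≤ Ye D n v x * D.w 1 n v :=
      mul_le_mul b3 a4.1 (mul_pos (hd _) a10).le hYv.le
    have c3 : D.B.d n ^ (ε / 5) * (D.B.d n ^ (2 / 3 * σ * t + ε / 5) * Ye D n u x *
        (D.B.d n ^ ((1 - p.θ 1) * t + ε / 5) * D.w 1 n u)) * PP D n u ≤
        D.B.d n ^ (-(ε / 5)) * (Ye D n u x * D.w 1 n u) *
          (D.B.d n ^ (σ * t - ε / 5) * PP D n u) := by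
      calc _ ≤ D.B.d n ^ (ε / 5) * (Ye D n v x * D.w 1 n v) * PP D n u :=
            mul_le_mul_of_nonneg_right (mul_le_mul_of_nonneg_left c2 (hd _).le) hPu.le
        _ ≤ _ := c1
        _ ≤ _ := mul_le_mul_of_nonneg_left a5.2 (mul_pos (hd _) (mul_pos hYu a10)).le
    have c4 : D.B.d n ^ (ε / 5 + (2 / 3 * σ * t + ε / 5) + ((1 - p.θ 1) * t + ε / 5)) * Y ≤
        D.B.d n ^ (-(ε / 5) + (σ * t - ε / 5)) * Y := by
      rw [dpow_add D.B n (ε / 5 + (2 / 3 * σ * t + ε / 5)),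
        dpow_add D.B n (ε / 5) (2 / 3 * σ * t + ε / 5), dpow_add D.B n (-(ε / 5)), hYdef]
      calc _ = _ := by ring
        _ ≤ _ := c3
        _ = _ := by ring
    have c5 := pow_cancel hY c4
    rw [one_mul]
    have c6 := mul_le_mul_of_nonneg_left c5 (hd (2 * ε / 5)).le
    rw [← dpow_add, ← dpow_add] at c6
    refine le_trans (dpow_le D.B n (by linarith)) (c6.trans (dpow_le D.B n (by linarith)))
  have e : (3 - p.θ 1 - p.θ 2) / 3 * ((v : ℝ) - u) ≤ (1 - p.θ 1) * ((v : ℝ) - u) := by linarith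
  exact le_of_mul_le_mul_right e ht

theorem MPre.slope_le (h : MPre p D l r) {u v : ℚ} (hl : l < u) (huv : u < v) (hr : v ≤ r)
    (hlow : LowA D l u) : 1 - p.θ 1 ≤ (3 - p.θ 1 - p.θ 2) / 3 := by
  have hu0 : 0 ≤ u := h.lr.1.trans hl.le
  have hv1 : v ≤ 1 := hr.trans h.lr.2.2
  have ht : (0 : ℝ) < (v : ℝ) - u := by
    have : (u : ℝ) < v := by exact_mod_cast huv
    linarith
  have key : 2 / 3 * (3 - p.θ 1 - p.θ 2) * ((v : ℝ) - u) + (1 - p.θ 1) * ((v : ℝ) - u) ≤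
      (3 - p.θ 1 - p.θ 2) * ((v : ℝ) - u) := by
    refine exp_le_of_eps (B := D.B) fun ε hε => ⟨1, ?_⟩
    have e5 : 0 < ε / 5 := by positivity
    filter_upwards [hlow _ e5, h.refO (hl.trans huv) hr e5, h.ye hl huv.le hr e5,
      (pw_wid h.mka 1).le u v hu0 huv.le hv1 _ e5, h.pwP.le u v hu0 huv.le hv1 _ e5, h.tay_ref,
      h.mka.ne, h.refD hl (huv.le.trans hr) e5, h.refD (hl.trans huv) hr e5,
      h.mka.wpos 1 u hu0 (huv.le.trans hv1), h.mka.wpos 1 v (hu0.trans huv.le) hv1]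
      with n a1 a2 a3 a4 a5 a6 a7 a8 a9 a10 a11
    obtain ⟨x, hx⟩ := a7
    obtain ⟨N, R, H, hT⟩ := a6 x hx
    have b1 := a1 x hx N R H hT
    have b2 := (a2 x hx N R H hT).2
    have b3 := (a3 x hx).2
    have hPu := a8.1
    have hPv := a9.1
    have hYu := (a8.2 x hx).1
    have hYv := (a9.2 x hx).1
    have hd := fun a : ℝ => dpow_pos D.B n a
    set O := nm (cr N R)
    set σ := 3 - p.θ 1 - p.θ 2
    set t : ℝ := (v : ℝ) - u
    set Y := Ye D n u x * D.w 1 n u * PP D n u with hYdef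
    have hY : 0 < Y := by positivity
    have c1 : D.B.d n ^ (ε / 5) * (Ye D n u x * D.w 1 n u) * PP D n v ≤
        D.B.d n ^ (-(ε / 5)) * (Ye D n v x * D.w 1 n v) * PP D n u := by
      calc _ ≤ (O * PP D n u) * PP D n v := mul_le_mul_of_nonneg_right b1 hPv.le
        _ = (O * PP D n v) * PP D n u := by ring
        _ ≤ _ := mul_le_mul_of_nonneg_right b2 hPu.le
    have c2 : Ye D n v x * D.w 1 n v ≤ D.B.d n ^ (2 / 3 * σ * t - ε / 5) * Ye D n u x *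
        (D.B.d n ^ ((1 - p.θ 1) * t - ε / 5) * D.w 1 n u) :=
      mul_le_mul b3 a4.2 a11.le (mul_pos (hd _) hYu).le
    have c3 : D.B.d n ^ (ε / 5) * (Ye D n u x * D.w 1 n u) *
        (D.B.d n ^ (σ * t + ε / 5) * PP D n u) ≤
        D.B.d n ^ (-(ε / 5)) * (D.B.d n ^ (2 / 3 * σ * t - ε / 5) * Ye D n u x *
        (D.B.d n ^ ((1 - p.θ 1) * t - ε / 5) * D.w 1 n u)) * PP D n u := by
      calc _ ≤ D.B.d n ^ (ε / 5) * (Ye D n u x * D.w 1 n u) * PP D n v :=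
            mul_le_mul_of_nonneg_left a5.1 (mul_pos (hd _) (mul_pos hYu a10)).le
        _ ≤ _ := c1
        _ ≤ _ := mul_le_mul_of_nonneg_right (mul_le_mul_of_nonneg_left c2 (hd _).le) hPu.le
    have c4 : D.B.d n ^ (ε / 5 + (σ * t + ε / 5)) * Y ≤
        D.B.d n ^ (-(ε / 5) + (2 / 3 * σ * t - ε / 5) + ((1 - p.θ 1) * t - ε / 5)) * Y := by
      rw [dpow_add D.B n (-(ε / 5) + (2 / 3 * σ * t - ε / 5)),
        dpow_add D.B n (-(ε / 5)), dpow_add D.B n (ε / 5) (σ * t + ε / 5), hYdef]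
      calc _ = _ := by ring
        _ ≤ _ := c3
        _ = _ := by ring
    have c5 := pow_cancel hY c4
    rw [one_mul]
    have c6 := mul_le_mul_of_nonneg_left c5 (hd (3 * ε / 5)).le
    rw [← dpow_add, ← dpow_add] at c6
    refine le_trans (dpow_le D.B n (by linarith)) (c6.trans (dpow_le D.B n (by linarith)))
  have e : (1 - p.θ 1) * ((v : ℝ) - u) ≤ (3 - p.θ 1 - p.θ 2) / 3 * ((v : ℝ) - u) := by linarith
  exact le_of_mul_le_mul_right e ht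

/-- **`θ₂ = 2 θ₁`** if the lower bound by the wide width holds at two levels -/
theorem MPre.θ2 (h : MPre p D l r) {u v : ℚ} (hl : l < u) (huv : u < v) (hr : v ≤ r)
    (h1 : LowA D l u) (h2 : LowA D l v) : p.θ 2 = 2 * p.θ 1 := by
  have a := h.slope_ge hl huv hr h2
  have b := h.slope_le hl huv hr h1
  linarith

end

end Crest.Agent.R136.Us555
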