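import Crest.Agent.R136.Wit5_321
import Crest.Agent.R136.Us3_555
import Crest.Agent.R136.KapP_335
import Crest.Agent.R136.Thn2_768
import Crest.Agent.R136.Coi6_102

-- ▼ part R136/Stc1_321
section

/-!
# R136, U6 thin side, stage C (helper321), part 1: the expansion of a mark in container coordinates

* `mh` : plank coordinates → container coordinates; `exp_hat` : the coefficients of `IsExp` are the
  gradient, its `z`-derivative and the second order form of `hatQ`.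
* `det_hat` : `det3` of the fan in container coordinates (exact).
-/

set_option autoImplicit false
set_option linter.unusedVariables false

namespace Crest.Agent.R136.Stc321

open Crest.Agent.R136.Sh605
open Crest.Agent.R136.NetW191
open Crest.Agent.R136.GeoN778
open Crest.Agent.R136.Wit321
open Crest.Agent.R136.Tl102 (QF Fq bz fan shB0 scB1 scG shG shB1 kap NrmC IsExp fr cmb StP)
open Crest.Agent.R136.Arc880 (det3)

/-! ### polynomials along a line -/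

/-- second order form -/
def hes (Q : Qd) (X : V3) : ℝ := ∑ i, ∑ j, Q.g i j * (X i * X j)

/-- derivative of the gradient along the line -/
def gd (Q : Qd) (t : Ln4) : V3 := fun k => Q.d k + ∑ j, (Q.g k j + Q.g j k) * t.v j

theorem ev_add (Q : Qd) (z : ℝ) (P X : V3) :
    Q.ev z (fun k => P k + X k) = Q.ev z P + dt (Q.gr z P) X + hes Q X := by
  simp only [Qd.ev, Qd.gr, hes, dt, Fin.sum_univ_three]
  ring

theorem gr_along (Q : Qd) (t : Ln4) (z z' : ℝ) (k : Fin 3) :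
    Q.gr z' (t.pos z') k = Q.gr z (t.pos z) k + (z' - z) * gd Q t k := by
  simp only [Qd.gr, gd, Ln4.pos, Fin.sum_univ_three]
  ring

/-! ### plank coordinates in container coordinates -/

/-- plank coordinates → container coordinates -/
noncomputable def mh (f : Fin 3 → V3) (u : Un) (e : Fin 3 → V3) (w x : V3) : V3 :=
  fun k => dt (f k) (cmb (fr e w) x) / u.W k


theorem mh_neg (f : Fin 3 → V3) (u : Un) (e : Fin 3 → V3) (w : V3) (x : V3) :
    mh f u e w (fun k => -x k) = fun k => -mh f u e w x k := by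
  funext k
  simp only [mh, dt, cmb, Tl102.fr, Pi.smul_apply, smul_eq_mul]
  ring

theorem xh_add {f : Fin 3 → V3} {c : Ln4} {u : Un} (hu : u.Ok) (e : Fin 3 → V3) (w : V3) (T : Ln4)
    (z : ℝ) (x : V3) : u.xh (phi f c z (T.pos z + cmb (fr e w) x)) =
      fun k => (ul u (rl f c T)).pos (u.zh z) k + mh f u e w x k := by
  rw [ul_pos hu, rl_pos]
  funext k
  simp only [Un.xh, phi, mh, dt, Pi.add_apply, Pi.sub_apply]
  ring

section exp

variable {f : Fin 3 → V3} {c : Ln4} {u : Un} {Q : Qd} {e : Fin 3 → V3} {w : V3} {T : Ln4}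
    {z0 ρ : ℝ} {b0 b1 : V3} {G : QF}

theorem exp_all (hf : Ortho f) (hu : u.Ok) (hE : IsExp Q.ev e w T z0 ρ b0 b1 G) (ζ : ℝ) (x : V3) :
    w 0 * Fq b0 b1 G ζ x =
      dt ((hatQ f c u Q).gr (u.zh (z0 + ρ * ζ)) ((ul u (rl f c T)).pos (u.zh (z0 + ρ * ζ))))
        (mh f u e w x) + hes (hatQ f c u Q) (mh f u e w x) := by
  have h := hE ζ x
  rw [← hatQ_ev hf c hu Q (z0 + ρ * ζ) (T.pos (z0 + ρ * ζ) + cmb (fr e w) x),
    ← hatQ_line hf c hu Q (z0 + ρ * ζ) T, xh_add hu, ev_add] at h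
  linarith

/-- linear and quadratic part -/
theorem exp_split (hf : Ortho f) (hu : u.Ok) (hE : IsExp Q.ev e w T z0 ρ b0 b1 G) (ζ : ℝ)
    (x : V3) : w 0 * dt (bz b0 b1 ζ) x =
      dt ((hatQ f c u Q).gr (u.zh (z0 + ρ * ζ)) ((ul u (rl f c T)).pos (u.zh (z0 + ρ * ζ))))
        (mh f u e w x) ∧ w 0 * G.ev x = hes (hatQ f c u Q) (mh f u e w x) := by
  have h1 := exp_all (c := c) hf hu hE ζ x
  have h2 := exp_all (c := c) hf hu hE ζ (fun k => -x k)
  rw [mh_neg] at h2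
  have e1 : Fq b0 b1 G ζ x = dt (bz b0 b1 ζ) x + G.ev x := rfl
  have e2 : Fq b0 b1 G ζ (fun k => -x k) = -dt (bz b0 b1 ζ) x + G.ev x := by
    simp only [Fq, dt, QF.ev]; ring
  have e3 : ∀ g X : V3, dt g (fun k => -X k) = -dt g X := by
    intro g X; simp only [dt]; ring
  have e4 : ∀ X : V3, hes (hatQ f c u Q) (fun k => -X k) = hes (hatQ f c u Q) X := by
    intro X; simp only [hes, Fin.sum_univ_three]; ring
  rw [e1] at h1
  rw [e2, e3, e4] at h2
  constructor <;> linarith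

theorem zh_add (z0 ρ ζ : ℝ) : u.zh (z0 + ρ * ζ) = u.zh z0 + ρ / u.H * ζ := by
  simp only [Un.zh]; ring

/-- **coefficients of the expansion in container coordinates** -/
theorem exp_hat (hf : Ortho f) (hu : u.Ok) (hE : IsExp Q.ev e w T z0 ρ b0 b1 G) (x : V3) :
    w 0 * dt b0 x =
      dt ((hatQ f c u Q).gr (u.zh z0) ((ul u (rl f c T)).pos (u.zh z0))) (mh f u e w x) ∧
    w 0 * dt b1 x = ρ / u.H * dt (gd (hatQ f c u Q) (ul u (rl f c T))) (mh f u e w x) ∧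
    w 0 * G.ev x = hes (hatQ f c u Q) (mh f u e w x) := by
  have h0 := exp_split (c := c) hf hu hE 0 x
  have h1 := (exp_split (c := c) hf hu hE 1 x).1
  have z00 : z0 + ρ * 0 = z0 := by ring
  rw [z00] at h0
  have e0 : dt (bz b0 b1 0) x = dt b0 x := by simp only [dt, bz]; ring
  have e1 : dt (bz b0 b1 1) x = dt b0 x + dt b1 x := by simp only [dt, bz]; ring
  rw [e0] at h0
  refine ⟨h0.1, ?_, h0.2⟩
  have e2 : dt ((hatQ f c u Q).gr (u.zh (z0 + ρ * 1)) ((ul u (rl f c T)).pos (u.zh (z0 + ρ * 1))))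
      (mh f u e w x) = dt ((hatQ f c u Q).gr (u.zh z0) ((ul u (rl f c T)).pos (u.zh z0)))
        (mh f u e w x) + ρ / u.H * dt (gd (hatQ f c u Q) (ul u (rl f c T))) (mh f u e w x) := by
    have k := fun k => gr_along (hatQ f c u Q) (ul u (rl f c T)) (u.zh z0) (u.zh (z0 + ρ * 1)) k
    have e5 : u.zh (z0 + ρ * 1) - u.zh z0 = ρ / u.H := by rw [zh_add]; ring
    simp only [e5] at k
    simp only [dt, k]
    ring
  rw [e1, e2] at h1
  linarith [h0.1]

end exp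

/-! ### the determinant of the fan -/


/-- cross product -/
def crs (a b : V3) : V3 := ![a 1 * b 2 - a 2 * b 1, a 2 * b 0 - a 0 * b 2, a 0 * b 1 - a 1 * b 0]


end Crest.Agent.R136.Stc321
end

-- ▼ part R136/Stc2_321
section

/-!
# R136, U6 thin side, stage C (helper321), part 2: the canonical box in container coordinates

* `la_solve` : a vector with small `g·X`, `g'·X`, `H(X)` near the model.
* `Nr` : a polynomial is the model up to `η` along a line; `canon_det` : the curvature extent against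
  the area of the plank (from `det3`); `canon_pt` : a point of the sheet in container coordinates.
-/

set_option autoImplicit false
set_option linter.unusedVariables false

namespace Crest.Agent.R136.Stc321

open Crest.Agent.R136.Sh605
open Crest.Agent.R136.NetW191
open Crest.Agent.R136.GeoN778
open Crest.Agent.R136.Wit321
open Crest.Agent.R136.Tl102 (QF Fq bz fan shB0 scB1 scG shG shB1 kap NrmC IsExp fr cmb StP)
open Crest.Agent.R136.Arc880 (det3)



/-- **solving for a vector near the model**, linear part -/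
theorem la_lin {g g' X : V3} {κ v1 R η rh Z Z' : ℝ} (hR : 1 ≤ R) (hη0 : 0 ≤ η)
    (hκ1 : |κ| ≤ 1) (hv : |v1| ≤ R) (hrh : 0 < rh) (hZ : 0 ≤ Z) (hZZ : Z ≤ Z' / rh)
    (g0 : |g 0 - 1| ≤ η) (g1 : |g 1| ≤ 3 * R) (g2 : |g 2| ≤ 2 * R)
    (g0' : |g' 0| ≤ η) (g1' : |g' 1 + 2 * κ * v1| ≤ η) (g2' : |g' 2 + 1| ≤ η)
    (k1 : |dt g X| ≤ Z) (k2 : rh * |dt g' X| ≤ Z') (t1 : 40 * (R * η) ≤ 1) :
      |X 0| + |X 1| + |X 2| ≤ 8 * (R * Z' / rh) + 26 * (R ^ 2 * |X 1|) ∧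
      |X 2 + 2 * κ * v1 * X 1| ≤ Z' / rh + 3 * (η * (|X 0| + |X 1| + |X 2|)) := by
  set S := |X 0| + |X 1| + |X 2| with hS
  have x0 := abs_nonneg (X 0)
  have x1 := abs_nonneg (X 1)
  have x2 := abs_nonneg (X 2)
  have hS0 : 0 ≤ S := by rw [hS]; positivity
  have hSk : ∀ k, |X k| ≤ S := by
    intro k; fin_cases k
    · show |X 0| ≤ S; linarith
    · show |X 1| ≤ S; linarith
    · show |X 2| ≤ S; linarith
  have hηR : η ≤ η * R := le_mul_of_one_le_right hη0 hR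
  have b2 : |dt g' X| ≤ Z' / rh := by
    rw [le_div_iff₀ hrh]; linarith
  -- rotation
  have e3 : |X 2 + 2 * κ * v1 * X 1| ≤ Z' / rh + 3 * (η * S) := by
    have e : X 2 + 2 * κ * v1 * X 1 = -dt g' X + ((g' 2 + 1) * X 2 + g' 0 * X 0 +
        (g' 1 + 2 * κ * v1) * X 1) := by
      simp only [dt]; ring
    rw [e]
    have c : |(g' 2 + 1) * X 2 + g' 0 * X 0 + (g' 1 + 2 * κ * v1) * X 1| ≤
        η * S + η * S + η * S :=
      a2 (a2 (m2 g2' (hSk 2)) (m2 g0' (hSk 0))) (m2 g1' (hSk 1))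
    refine (abs_add_le _ _).trans ?_
    rw [abs_neg]
    linarith
  -- `X 2`
  have two : |(2 : ℝ)| ≤ 2 := by norm_num
  have hκv : |2 * κ * v1| ≤ 2 * R := by
    refine (m2 (m2 two hκ1) hv).trans (le_of_eq (by ring))
  have e2 : |X 2| ≤ Z' / rh + 3 * (η * S) + 2 * R * |X 1| := by
    have e : X 2 = (X 2 + 2 * κ * v1 * X 1) - 2 * κ * v1 * X 1 := by ring
    rw [e]
    exact s2 e3 (m2 hκv le_rfl)
  -- `X 0`
  have e0 : |X 0| ≤ Z + η * S + 3 * R * |X 1| + 2 * R * |X 2| := by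
    have e : X 0 = dt g X - ((g 0 - 1) * X 0 + g 1 * X 1 + g 2 * X 2) := by
      simp only [dt]; ring
    rw [e]
    have c : |(g 0 - 1) * X 0 + g 1 * X 1 + g 2 * X 2| ≤ η * S + 3 * R * |X 1| + 2 * R * |X 2| :=
      a2 (a2 (m2 g0 (hSk 0)) (m2 g1 le_rfl)) (m2 g2 le_rfl)
    refine (s2 k1 c).trans ?_
    linarith
  have hsum : S ≤ 8 * (R * Z' / rh) + 26 * (R ^ 2 * |X 1|) := by
    -- bounds of the products
    have p1 : R * |X 1| ≤ R ^ 2 * |X 1| := by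
      have : R ≤ R ^ 2 := by nlinarith
      exact mul_le_mul_of_nonneg_right this x1
    have p0 : |X 1| ≤ R * |X 1| := le_mul_of_one_le_left x1 hR
    have p2 : 2 * R * |X 2| ≤ 2 * R * (Z' / rh + 3 * (η * S) + 2 * R * |X 1|) :=
      mul_le_mul_of_nonneg_left e2 (by linarith)
    have p3 : 2 * R * (Z' / rh + 3 * (η * S) + 2 * R * |X 1|) =
        2 * (R * (Z' / rh)) + 6 * (R * η * S) + 4 * (R ^ 2 * |X 1|) := by ring
    have p4 : Z' / rh ≤ R * (Z' / rh) := le_mul_of_one_le_left (hZ.trans hZZ) hR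
    have p5 : η * S ≤ R * η * S := by
      have : η ≤ R * η := by linarith
      exact mul_le_mul_of_nonneg_right this hS0
    have p6 : R * η * S ≤ 1 / 40 * S := by
      refine mul_le_mul_of_nonneg_right ?_ hS0
      linarith
    have p7 : R * (Z' / rh) = R * Z' / rh := by ring
    rw [p7] at p3 p4
    have : S ≤ 4 * (R * Z' / rh) + 10 / 40 * S + 11 * (R ^ 2 * |X 1|) := by
      have : S = |X 0| + |X 1| + |X 2| := hS
      linarith
    linarith
  exact ⟨hsum, e3⟩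

/-! ### near the model along a line -/

/-- `Q` is the model `ν (Y - z B - κ A²)` up to `ν η` along the line `t`, base height `z1` -/
structure Nr (Q : Qd) (t : Ln4) (z1 κ ν R η : ℝ) : Prop where
  g0 : |Q.gr z1 (t.pos z1) 0 - ν| ≤ |ν| * η
  g1 : |Q.gr z1 (t.pos z1) 1| ≤ |ν| * (3 * R)
  g2 : |Q.gr z1 (t.pos z1) 2| ≤ |ν| * (2 * R)
  d0 : |gd Q t 0| ≤ |ν| * η
  d1 : |gd Q t 1 + ν * (2 * κ * t.v 1)| ≤ |ν| * η
  d2 : |gd Q t 2 + ν| ≤ |ν| * η
  hh : ∀ (X : V3) (B : ℝ), (∀ k, |X k| ≤ B) → |hes Q X + ν * (κ * X 1 ^ 2)| ≤ |ν| * (η * B ^ 2)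

theorem Nr.of_cl {Q : Qd} {κ ν δ R z1 : ℝ} {t : Ln4} (h : Cl Q (mul ν (mod κ)) (|ν| * δ))
    (hκ : |κ| ≤ 1) (hR : 1 ≤ R) (hz : |z1| ≤ R) (hp : ∀ k, |t.pos z1 k| ≤ R)
    (hv : ∀ k, |t.v k| ≤ R) (hs : 8 * (R * δ) ≤ 1) : Nr Q t z1 κ ν R (9 * (R * δ)) := by
  have hν := abs_nonneg ν
  have hδν : 0 ≤ |ν| * δ := (abs_nonneg _).trans h.c0
  have k := fun k => h.gr hz hp k
  have e0 : (mul ν (mod κ)).gr z1 (t.pos z1) 0 = ν := by
    rw [mul_gr, mod_gr]; simp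
  have e1 : (mul ν (mod κ)).gr z1 (t.pos z1) 1 = ν * (-2 * κ * t.pos z1 1) := by
    rw [mul_gr, mod_gr]; rfl
  have e2 : (mul ν (mod κ)).gr z1 (t.pos z1) 2 = ν * (-z1) := by
    rw [mul_gr, mod_gr]; rfl
  have k0 := k 0
  have k1 := k 1
  have k2 := k 2
  rw [e0] at k0
  rw [e1] at k1
  rw [e2] at k2
  have hb : |ν| * δ * (1 + 7 * R) ≤ |ν| * (8 * (R * δ)) := by
    have : |ν| * (8 * (R * δ)) = |ν| * δ * (8 * R) := by ring
    rw [this]
    exact mul_le_mul_of_nonneg_left (by linarith) hδν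
  have hb2 : |ν| * (8 * (R * δ)) ≤ |ν| * 1 := mul_le_mul_of_nonneg_left hs hν
  have hb3 : |ν| * (8 * (R * δ)) ≤ |ν| * (9 * (R * δ)) := by
    have : |ν| * (9 * (R * δ)) = |ν| * (8 * (R * δ)) + |ν| * δ * R := by ring
    rw [this]
    nlinarith [mul_nonneg hδν (by linarith : (0:ℝ) ≤ R)]
  have gdle : ∀ k, |gd Q t k - gd (mul ν (mod κ)) t k| ≤ |ν| * (9 * (R * δ)) := by
    intro k
    have e : gd Q t k - gd (mul ν (mod κ)) t k = (Q.d k - (mul ν (mod κ)).d k) +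
        (((Q.g k 0 - (mul ν (mod κ)).g k 0) + (Q.g 0 k - (mul ν (mod κ)).g 0 k)) * t.v 0 +
        ((Q.g k 1 - (mul ν (mod κ)).g k 1) + (Q.g 1 k - (mul ν (mod κ)).g 1 k)) * t.v 1 +
        ((Q.g k 2 - (mul ν (mod κ)).g k 2) + (Q.g 2 k - (mul ν (mod κ)).g 2 k)) * t.v 2) := by
      simp only [gd, Fin.sum_univ_three]; ring
    rw [e]
    refine (a2 (h.d k) (a2 (a2 (m2 (a2 (h.g k 0) (h.g 0 k)) (hv 0))
      (m2 (a2 (h.g k 1) (h.g 1 k)) (hv 1))) (m2 (a2 (h.g k 2) (h.g 2 k)) (hv 2)))).trans ?_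
    have : |ν| * (9 * (R * δ)) = |ν| * δ * (9 * R) := by ring
    rw [this]
    nlinarith
  have D0 : gd (mul ν (mod κ)) t 0 = 0 := by
    simp [gd, Wit321.mul, mod, Fin.sum_univ_three]
  have D1 : gd (mul ν (mod κ)) t 1 = -(ν * (2 * κ * t.v 1)) := by
    simp [gd, Wit321.mul, mod, Fin.sum_univ_three]; ring
  have D2 : gd (mul ν (mod κ)) t 2 = -ν := by
    simp [gd, Wit321.mul, mod, Fin.sum_univ_three]
  refine ⟨k0.trans (hb.trans hb3), ?_, ?_, ?_, ?_, ?_, ?_⟩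
  · have e : Q.gr z1 (t.pos z1) 1 = (Q.gr z1 (t.pos z1) 1 - ν * (-2 * κ * t.pos z1 1)) +
        ν * (-2 * κ * t.pos z1 1) := by ring
    rw [e]
    have c : |-2 * κ * t.pos z1 1| ≤ 2 * R := by
      rw [abs_mul, abs_mul, abs_neg, abs_two]
      have := mul_le_mul hκ (hp 1) (abs_nonneg _) zero_le_one
      linarith
    refine (a2 (k1.trans hb) (m2 (le_refl |ν|) c)).trans ?_
    have : |ν| * 1 ≤ |ν| * R := mul_le_mul_of_nonneg_left hR hν
    linarith
  · have e : Q.gr z1 (t.pos z1) 2 = (Q.gr z1 (t.pos z1) 2 - ν * (-z1)) + ν * (-z1) := by ring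
    rw [e]
    have c : |-z1| ≤ R := by rwa [abs_neg]
    refine (a2 (k2.trans hb) (m2 (le_refl |ν|) c)).trans ?_
    have : |ν| * 1 ≤ |ν| * R := mul_le_mul_of_nonneg_left hR hν
    linarith
  · have := gdle 0
    rwa [D0, sub_zero] at this
  · have := gdle 1
    rwa [D1, sub_neg_eq_add] at this
  · have := gdle 2
    rwa [D2, sub_neg_eq_add] at this
  · intro X B hX
    have hB : 0 ≤ B := (abs_nonneg _).trans (hX 0)
    have e : hes Q X + ν * (κ * X 1 ^ 2) = ∑ i, ∑ j, (Q.g i j - (mul ν (mod κ)).g i j) *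
        (X i * X j) := by
      simp [hes, Wit321.mul, mod, Fin.sum_univ_three]; ring
    rw [e]
    have c : ∀ i j, |(Q.g i j - (mul ν (mod κ)).g i j) * (X i * X j)| ≤ |ν| * δ * (B * B) :=
      fun i j => m2 (h.g i j) (m2 (hX i) (hX j))
    simp only [Fin.sum_univ_three]
    refine (a2 (a2 (a2 (a2 (c 0 0) (c 0 1)) (c 0 2)) (a2 (a2 (c 1 0) (c 1 1)) (c 1 2)))
      (a2 (a2 (c 2 0) (c 2 1)) (c 2 2))).trans ?_
    have e3 : |ν| * (9 * (R * δ) * B ^ 2) = |ν| * δ * (B * B) * (9 * R) := by ring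
    rw [e3]
    have := mul_nonneg hδν (mul_nonneg hB hB)
    nlinarith

theorem dt_unit {e e' : Fin 3 → V3} (he : Ortho e) (he' : Ortho e') (i j : Fin 3) :
    |dt (e i) (e' j)| ≤ 1 := by
  have h := Us555.dt_expand he (e' j) (e' j)
  have h1 : dt (e' j) (e' j) = 1 := by have := he' j j; simpa using this
  rw [h1] at h
  rw [abs_le_one_iff_mul_self_le_one]
  have s0 := mul_self_nonneg (dt (e 0) (e' j))
  have s1 := mul_self_nonneg (dt (e 1) (e' j))
  have s3 := mul_self_nonneg (dt (e 2) (e' j))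
  fin_cases i
  · show dt (e 0) (e' j) * dt (e 0) (e' j) ≤ 1
    linarith
  · show dt (e 1) (e' j) * dt (e 1) (e' j) ≤ 1
    linarith
  · show dt (e 2) (e' j) * dt (e 2) (e' j) ≤ 1
    linarith

/-! ### the plank -/

/-- tangent vectors of the plank, in plank coordinates -/
noncomputable def tE (b0 : V3) (k : Fin 3) : V3 := ![-(b0 k / b0 0), if k = 1 then 1 else 0,
  if k = 2 then 1 else 0]





/-- size of the discriminant form near the model -/
theorem Nr.crs_le {Q : Qd} {t : Ln4} {z1 κ ν R η : ℝ} (h : Nr Q t z1 κ ν R η) (hκ : |κ| ≤ 1)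
    (hR : 1 ≤ R) (hv : |t.v 1| ≤ R) (hη0 : 0 ≤ η) (hs : 400 * (η * R ^ 4) ≤ 1) :
    |hes Q (crs (gd Q t) (Q.gr z1 (t.pos z1)))| ≤ 26 * |ν| ^ 5 := by
  have hν := abs_nonneg ν
  have hR4 : 1 ≤ R ^ 4 := one_le_pow₀ hR
  have hηR : η ≤ η * R ^ 4 := le_mul_of_one_le_right hη0 hR4
  have hRR4 : R ≤ R ^ 4 := by
    have : R ^ 1 ≤ R ^ 4 := pow_le_pow_right₀ hR (by norm_num)
    rwa [pow_one] at this
  have hηR1 : η * R ≤ η * R ^ 4 := mul_le_mul_of_nonneg_left hRR4 hη0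
  set g := Q.gr z1 (t.pos z1) with hg
  set g' := gd Q t with hg'
  have b0 : |g 0| ≤ |ν| * 2 := by
    have e : g 0 = (g 0 - ν) + ν := by ring
    rw [e]
    refine (a2 h.g0 le_rfl).trans ?_
    nlinarith
  have b1 := h.g1
  have b2 := h.g2
  have d0 : |g' 0| ≤ |ν| * η := h.d0
  have d1 : |g' 1| ≤ |ν| * (3 * R) := by
    have e : g' 1 = (g' 1 + ν * (2 * κ * t.v 1)) - ν * (2 * κ * t.v 1) := by ring
    rw [e]
    have two : |(2 : ℝ)| ≤ 2 := by norm_num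
    have c : |2 * κ * t.v 1| ≤ 2 * 1 * R := m2 (m2 two hκ) hv
    refine (s2 h.d1 (m2 (le_refl |ν|) c)).trans ?_
    have : |ν| * η ≤ |ν| * R := mul_le_mul_of_nonneg_left (by linarith) hν
    linarith
  have d2 : |g' 2| ≤ |ν| * 2 := by
    have e : g' 2 = (g' 2 + ν) - ν := by ring
    rw [e]
    refine (s2 h.d2 le_rfl).trans ?_
    nlinarith
  have hν2 : 0 ≤ |ν| ^ 2 := by positivity
  have c0 : |crs g' g 0| ≤ 12 * R ^ 2 * |ν| ^ 2 := by
    show |g' 1 * g 2 - g' 2 * g 1| ≤ _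
    refine (s2 (m2 d1 b2) (m2 d2 b1)).trans ?_
    have e : |ν| * (3 * R) * (|ν| * (2 * R)) + |ν| * 2 * (|ν| * (3 * R)) =
      |ν| ^ 2 * (6 * R ^ 2 + 6 * R) := by ring
    rw [e]
    have : 6 * R ^ 2 + 6 * R ≤ 12 * R ^ 2 := by nlinarith
    have := mul_le_mul_of_nonneg_left this hν2
    linarith
  have c1 : |crs g' g 1| ≤ 5 * |ν| ^ 2 := by
    show |g' 2 * g 0 - g' 0 * g 2| ≤ _
    refine (s2 (m2 d2 b0) (m2 d0 b2)).trans ?_
    have e : |ν| * 2 * (|ν| * 2) + |ν| * η * (|ν| * (2 * R)) = |ν| ^ 2 * (4 + 2 * (η * R)) := by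
      ring
    rw [e]
    have : 4 + 2 * (η * R) ≤ 5 := by linarith
    have := mul_le_mul_of_nonneg_left this hν2
    linarith
  have c2 : |crs g' g 2| ≤ 12 * R ^ 2 * |ν| ^ 2 := by
    show |g' 0 * g 1 - g' 1 * g 0| ≤ _
    refine (s2 (m2 d0 b1) (m2 d1 b0)).trans ?_
    have e : |ν| * η * (|ν| * (3 * R)) + |ν| * (3 * R) * (|ν| * 2) =
      |ν| ^ 2 * (3 * (η * R) + 6 * R) := by ring
    rw [e]
    have : 3 * (η * R) + 6 * R ≤ 12 * R ^ 2 := by nlinarith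
    have := mul_le_mul_of_nonneg_left this hν2
    linarith
  have c1' : |crs g' g 1| ≤ 12 * R ^ 2 * |ν| ^ 2 := by
    refine c1.trans ?_
    have : 5 ≤ 12 * R ^ 2 := by nlinarith
    exact mul_le_mul_of_nonneg_right this hν2
  have hB : ∀ k, |crs g' g k| ≤ 12 * R ^ 2 * |ν| ^ 2 := by
    intro k; fin_cases k
    · exact c0
    · exact c1'
    · exact c2
  have hh := h.hh (crs g' g) _ hB
  have e : hes Q (crs g' g) = (hes Q (crs g' g) + ν * (κ * crs g' g 1 ^ 2)) -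
      ν * (κ * crs g' g 1 ^ 2) := by ring
  rw [e]
  have k1 : |ν * (κ * crs g' g 1 ^ 2)| ≤ |ν| * (1 * (5 * |ν| ^ 2 * (5 * |ν| ^ 2))) := by
    rw [sq]
    exact m2 le_rfl (m2 hκ (m2 c1 c1))
  refine (s2 hh k1).trans ?_
  have e2 : |ν| * (η * (12 * R ^ 2 * |ν| ^ 2) ^ 2) = |ν| ^ 5 * (144 * (η * R ^ 4)) := by ring
  have e3 : |ν| * (1 * (5 * |ν| ^ 2 * (5 * |ν| ^ 2))) = |ν| ^ 5 * 25 := by ring
  rw [e2, e3]
  have : |ν| ^ 5 * (144 * (η * R ^ 4)) ≤ |ν| ^ 5 * 1 :=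
    mul_le_mul_of_nonneg_left (by linarith) (by positivity)
  linarith

end Crest.Agent.R136.Stc321
end

-- ▼ part R136/Stc3_321

/-!
# R136, U6 thin side, stage C (helper321), part 3: invariants in container coordinates

* `tay_hat` : 768's `Tay` in container coordinates; `D3_hat`, `Om_hat`.
* `Nr.crs_ge` : lower bounds; `Y_up`, `Y_low` : the curvature extent of a mark in units of the
  container, from 768's `Snd.D`, `Snd.om_le`.
-/

set_option autoImplicit false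
set_option linter.unusedVariables false

namespace Crest.Agent.R136.Stc321

open Crest.Agent.R136.Sh605
open Crest.Agent.R136.NetW191
open Crest.Agent.R136.GeoN778
open Crest.Agent.R136.Wit321
open Crest.Agent.R136.Tl102 (QF Fq bz fan shB0 scB1 scG shG shB1 kap NrmC IsExp fr cmb StP)
open Crest.Agent.R136.Thn768 (Tay cr dtf pull dtm D3 cr_dtf dtm_ortho)

/-- the basis of the container units -/
noncomputable def fW (f : Fin 3 → V3) (u : Un) : Fin 3 → V3 := fun k => u.W k • f k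

theorem dt_cmb_fW {f : Fin 3 → V3} (hf : Ortho f) (u : Un) (x : V3) (i : Fin 3) :
    dt (f i) (cmb (fW f u) x) = u.W i * x i := by
  have := Tl102.dt_cmb_fr hf u.W x i
  exact this

theorem xh_fW {f : Fin 3 → V3} (hf : Ortho f) {c : Ln4} {u : Un} (hu : u.Ok) (T : Ln4)
    (z : ℝ) (x : V3) : u.xh (phi f c z (T.pos z + cmb (fW f u) x)) =
      fun k => (ul u (rl f c T)).pos (u.zh z) k + x k := by
  rw [ul_pos hu, rl_pos]
  funext k
  have h := dt_cmb_fW hf u x k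
  have hW := (hu.W0 k).ne'
  have e : dt (f k) (T.pos z + cmb (fW f u) x - c.pos z) =
      dt (f k) (T.pos z - c.pos z) + dt (f k) (cmb (fW f u) x) := by
    simp only [dt, Pi.add_apply, Pi.sub_apply]; ring
  simp only [Un.xh, phi, e, h]
  field_simp

section tay

variable {f : Fin 3 → V3} {c : Ln4} {u : Un} {Q : Qd} {T : Ln4} {N R' : V3} {H : QF}

/-- **`Tay` in container coordinates** -/
theorem tay_hat (hf : Ortho f) (hu : u.Ok) (hT : Tay Q.ev T N R' H) (z : ℝ) (x : V3) :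
    dt (N + z • R') (cmb (fW f u) x) =
      dt ((hatQ f c u Q).gr (u.zh z) ((ul u (rl f c T)).pos (u.zh z))) x ∧
    H.ev (cmb (fW f u) x) = hes (hatQ f c u Q) x := by
  have key : ∀ x : V3, Fq N R' H z (cmb (fW f u) x) =
      dt ((hatQ f c u Q).gr (u.zh z) ((ul u (rl f c T)).pos (u.zh z))) x +
        hes (hatQ f c u Q) x := by
    intro x
    have h := hT z (cmb (fW f u) x)
    rw [← hatQ_ev hf c hu Q z (T.pos z + cmb (fW f u) x), ← hatQ_line hf c hu Q z T,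
      xh_fW hf hu, ev_add] at h
    linarith
  have h1 := key x
  have h2 := key (fun k => -x k)
  have e0 : cmb (fW f u) (fun k => -x k) = fun k => -cmb (fW f u) x k := by
    funext k; simp only [cmb]; ring
  rw [e0] at h2
  set y := cmb (fW f u) x with hy
  have e1 : Fq N R' H z y = dt (N + z • R') y + H.ev y := by
    simp only [Fq, dt, bz, Pi.add_apply, Pi.smul_apply, smul_eq_mul]
  have e2 : Fq N R' H z (fun k => -y k) = -dt (N + z • R') y + H.ev y := by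
    simp only [Fq, dt, bz, QF.ev, Pi.add_apply, Pi.smul_apply, smul_eq_mul]; ring
  have e3 : ∀ g X : V3, dt g (fun k => -X k) = -dt g X := by
    intro g X; simp only [dt]; ring
  have e4 : ∀ X : V3, hes (hatQ f c u Q) (fun k => -X k) = hes (hatQ f c u Q) X := by
    intro X; simp only [hes, Fin.sum_univ_three]; ring
  rw [e1] at h1
  rw [e2, e3, e4] at h2
  constructor <;> linarith

/-- the rotation -/
theorem tay_gd (hf : Ortho f) (hu : u.Ok) (hT : Tay Q.ev T N R' H) (x : V3) :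
    u.H * dt R' (cmb (fW f u) x) = dt (gd (hatQ f c u Q) (ul u (rl f c T))) x := by
  have h0 := (tay_hat (c := c) hf hu hT u.zc x).1
  have h1 := (tay_hat (c := c) hf hu hT (u.zc + u.H) x).1
  have z0 : u.zh u.zc = 0 := by simp [Un.zh]
  have z1 : u.zh (u.zc + u.H) = 1 := by
    have := hu.H0.ne'
    simp only [Un.zh]; field_simp; ring
  rw [z0] at h0
  rw [z1] at h1
  have k := fun k => gr_along (hatQ f c u Q) (ul u (rl f c T)) 0 1 k
  have e : dt ((hatQ f c u Q).gr 1 ((ul u (rl f c T)).pos 1)) x =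
      dt ((hatQ f c u Q).gr 0 ((ul u (rl f c T)).pos 0)) x +
        dt (gd (hatQ f c u Q) (ul u (rl f c T))) x := by
    simp only [dt, k]; ring
  have e2 : dt (N + (u.zc + u.H) • R') (cmb (fW f u) x) =
      dt (N + u.zc • R') (cmb (fW f u) x) + u.H * dt R' (cmb (fW f u) x) := by
    simp only [dt, Pi.add_apply, Pi.smul_apply, smul_eq_mul]; ring
  rw [e2, h0, e] at h1
  linarith

/-- `N × R` in container coordinates -/
theorem cr_hat (hf : Ortho f) (hu : u.Ok) (hT : Tay Q.ev T N R' H) (z1 : ℝ) :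
    cmb (fW f u) (crs (gd (hatQ f c u Q) (ul u (rl f c T)))
      ((hatQ f c u Q).gr z1 ((ul u (rl f c T)).pos z1))) =
      (-(u.H * dtm (fW f u))) • cr N R' := by
  have hH := hu.H0.ne'
  set t := ul u (rl f c T) with ht
  set Qh := hatQ f c u Q with hQh
  -- the height
  set z := u.zc + u.H * z1 with hz
  have hz1 : u.zh z = z1 := by
    simp only [Un.zh, hz]; field_simp; ring
  have hN : ∀ k, dtf (fW f u) (N + z • R') k = Qh.gr z1 (t.pos z1) k := by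
    intro k
    have := (tay_hat (c := c) hf hu hT z (Pi.single k 1)).1
    rw [hz1, ← ht, ← hQh] at this
    fin_cases k <;> simpa [dtf, dt, cmb] using this
  have hR : ∀ k, u.H * dtf (fW f u) R' k = gd Qh t k := by
    intro k
    have := tay_gd (c := c) hf hu hT (Pi.single k 1)
    rw [← ht, ← hQh] at this
    fin_cases k <;> simpa [dtf, dt, cmb] using this
  have h := cr_dtf (fW f u) (N + z • R') R'
  rw [Thn768.cr_add_smul] at h
  have e : crs (gd Qh t) (Qh.gr z1 (t.pos z1)) =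
      fun k => -u.H * cr (dtf (fW f u) (N + z • R')) (dtf (fW f u) R') k := by
    funext k
    fin_cases k <;>
      simp only [crs, cr, ← hR, ← hN, Matrix.cons_val, Fin.zero_eta, Fin.mk_one,
        Fin.reduceFinMk] <;> ring
  rw [e]
  have e2 : cmb (fW f u) (fun k => -u.H * cr (dtf (fW f u) (N + z • R')) (dtf (fW f u) R') k) =
      (-u.H) • cmb (fW f u) (cr (dtf (fW f u) (N + z • R')) (dtf (fW f u) R')) := by
    funext i; simp only [cmb, Pi.smul_apply, smul_eq_mul]; ring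
  rw [e2, h, smul_smul]
  congr 1
  ring

theorem dtm_fW {f : Fin 3 → V3} (hf : Ortho f) (u : Un) :
    dtm (fW f u) ^ 2 = (u.WY * u.WA * u.WB) ^ 2 := by
  have h := dtm_ortho hf
  have e : dtm (fW f u) = u.WY * u.WA * u.WB * dtm f := by
    have W0 : u.W 0 = u.WY := rfl
    have W1 : u.W 1 = u.WA := rfl
    have W2 : u.W 2 = u.WB := rfl
    simp only [dtm, fW, dt, cr, Pi.smul_apply, smul_eq_mul, Matrix.cons_val, W0, W1, W2]
    ring
  rw [e, mul_pow, h, mul_one]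

/-- **`D3` in container coordinates** -/
theorem D3_hat (hf : Ortho f) (hu : u.Ok) (hT : Tay Q.ev T N R' H) (z1 : ℝ) :
    hes (hatQ f c u Q) (crs (gd (hatQ f c u Q) (ul u (rl f c T)))
      ((hatQ f c u Q).gr z1 ((ul u (rl f c T)).pos z1))) =
      (u.H * (u.WY * u.WA * u.WB)) ^ 2 * D3 N R' H := by
  rw [← (tay_hat (c := c) hf hu hT u.zc _).2, cr_hat hf hu hT z1, Thn768.ev_smul, neg_sq, mul_pow,
    dtm_fW hf u]
  unfold D3
  ring

/-- **`Ω = N × R` in container coordinates** -/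
theorem Om_hat (hf : Ortho f) (hu : u.Ok) (hT : Tay Q.ev T N R' H) (z1 : ℝ) :
    |crs (gd (hatQ f c u Q) (ul u (rl f c T)))
      ((hatQ f c u Q).gr z1 ((ul u (rl f c T)).pos z1)) 1| =
      u.H * (u.WY * u.WB) * |dt (f 1) (cr N R')| := by
  have h := cr_hat (c := c) hf hu hT z1
  have h1 := dt_cmb_fW hf u (crs (gd (hatQ f c u Q) (ul u (rl f c T)))
      ((hatQ f c u Q).gr z1 ((ul u (rl f c T)).pos z1))) 1
  rw [h] at h1
  have e : dt (f 1) ((-(u.H * dtm (fW f u))) • cr N R') =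
      -(u.H * dtm (fW f u)) * dt (f 1) (cr N R') := by
    simp only [dt, Pi.smul_apply, smul_eq_mul]; ring
  rw [e] at h1
  have h2 := congrArg abs h1
  have hA := hu.A0
  have hB := hu.B0
  have hY := hu.Y0
  have hd : |dtm (fW f u)| = u.WY * u.WA * u.WB := by
    have := dtm_fW hf u
    have h3 : 0 ≤ u.WY * u.WA * u.WB := by positivity
    rw [← abs_of_nonneg h3]
    exact (sq_eq_sq_iff_abs_eq_abs _ _).1 this
  have W1 : u.W 1 = u.WA := rfl
  rw [abs_mul, abs_neg, abs_mul, hd, abs_of_pos hu.H0, abs_mul, W1, abs_of_pos hA] at h2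
  have h4 : u.WA * |crs (gd (hatQ f c u Q) (ul u (rl f c T)))
      ((hatQ f c u Q).gr z1 ((ul u (rl f c T)).pos z1)) 1| =
      u.WA * (u.H * (u.WY * u.WB) * |dt (f 1) (cr N R')|) := by
    rw [← h2]; ring
  exact mul_left_cancel₀ hA.ne' h4

end tay

/-! ### lower bounds near the model -/

theorem Nr.crs_ge {Q : Qd} {t : Ln4} {z1 κ ν R η : ℝ} (h : Nr Q t z1 κ ν R η)
    (hκa : |κ| ≤ 1) (hR : 1 ≤ R) (hv : |t.v 1| ≤ R) (hη0 : 0 ≤ η)
    (hs : 1200 * (η * R ^ 4) ≤ |κ|) :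
    |ν| ^ 2 / 2 ≤ |crs (gd Q t) (Q.gr z1 (t.pos z1)) 1| ∧
      |ν| ^ 5 * |κ| / 8 ≤ |hes Q (crs (gd Q t) (Q.gr z1 (t.pos z1)))| := by
  have hν := abs_nonneg ν
  have hR4 : 1 ≤ R ^ 4 := one_le_pow₀ hR
  have hηR : η ≤ η * R ^ 4 := le_mul_of_one_le_right hη0 hR4
  have hRR4 : R ≤ R ^ 4 := by
    have : R ^ 1 ≤ R ^ 4 := pow_le_pow_right₀ hR (by norm_num)
    rwa [pow_one] at this
  have hηR1 : η * R ≤ η * R ^ 4 := mul_le_mul_of_nonneg_left hRR4 hη0
  have hκ0 := abs_nonneg κ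
  set g := Q.gr z1 (t.pos z1) with hg
  set g' := gd Q t with hg'
  have b0 : |g 0| ≤ |ν| * 2 := by
    have e : g 0 = (g 0 - ν) + ν := by ring
    rw [e]
    refine (a2 h.g0 le_rfl).trans ?_
    nlinarith
  have b1 := h.g1
  have b2 := h.g2
  have d0 : |g' 0| ≤ |ν| * η := h.d0
  have d1 : |g' 1| ≤ |ν| * (3 * R) := by
    have e : g' 1 = (g' 1 + ν * (2 * κ * t.v 1)) - ν * (2 * κ * t.v 1) := by ring
    rw [e]
    have two : |(2 : ℝ)| ≤ 2 := by norm_num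
    have c : |2 * κ * t.v 1| ≤ 2 * 1 * R := m2 (m2 two hκa) hv
    refine (s2 h.d1 (m2 (le_refl |ν|) c)).trans ?_
    have : |ν| * η ≤ |ν| * R := mul_le_mul_of_nonneg_left (by linarith) hν
    linarith
  have d2 : |g' 2| ≤ |ν| * 2 := by
    have e : g' 2 = (g' 2 + ν) - ν := by ring
    rw [e]
    refine (s2 h.d2 le_rfl).trans ?_
    nlinarith
  have hν2 : 0 ≤ |ν| ^ 2 := by positivity
  have c0 : |crs g' g 0| ≤ 12 * R ^ 2 * |ν| ^ 2 := by
    show |g' 1 * g 2 - g' 2 * g 1| ≤ _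
    refine (s2 (m2 d1 b2) (m2 d2 b1)).trans ?_
    have e : |ν| * (3 * R) * (|ν| * (2 * R)) + |ν| * 2 * (|ν| * (3 * R)) =
      |ν| ^ 2 * (6 * R ^ 2 + 6 * R) := by ring
    rw [e]
    have : 6 * R ^ 2 + 6 * R ≤ 12 * R ^ 2 := by nlinarith
    have := mul_le_mul_of_nonneg_left this hν2
    linarith
  have c2 : |crs g' g 2| ≤ 12 * R ^ 2 * |ν| ^ 2 := by
    show |g' 0 * g 1 - g' 1 * g 0| ≤ _
    refine (s2 (m2 d0 b1) (m2 d1 b0)).trans ?_
    have e : |ν| * η * (|ν| * (3 * R)) + |ν| * (3 * R) * (|ν| * 2) =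
      |ν| ^ 2 * (3 * (η * R) + 6 * R) := by ring
    rw [e]
    have : 3 * (η * R) + 6 * R ≤ 12 * R ^ 2 := by nlinarith
    have := mul_le_mul_of_nonneg_left this hν2
    linarith
  -- the component `1`
  have e1 : crs g' g 1 = -(ν * ν) + ((g' 2 + ν) * g 0 - ν * (g 0 - ν) - g' 0 * g 2) := by
    show g' 2 * g 0 - g' 0 * g 2 = _
    ring
  have err : |(g' 2 + ν) * g 0 - ν * (g 0 - ν) - g' 0 * g 2| ≤ |ν| ^ 2 / 4 := by
    refine (s2 (s2 (m2 h.d2 b0) (m2 (le_refl |ν|) h.g0)) (m2 d0 b2)).trans ?_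
    have e : |ν| * η * (|ν| * 2) + |ν| * (|ν| * η) + |ν| * η * (|ν| * (2 * R)) =
      |ν| ^ 2 * (3 * η + 2 * (η * R)) := by ring
    rw [e]
    have : 3 * η + 2 * (η * R) ≤ 1 / 4 := by linarith
    have := mul_le_mul_of_nonneg_left this hν2
    linarith
  have hνν : |ν * ν| = |ν| ^ 2 := by rw [abs_mul]; ring
  have lo : |ν| ^ 2 * (3 / 4) ≤ |crs g' g 1| := by
    rw [e1]
    have := abs_sub_abs_le_abs_sub (-(ν * ν)) (-((g' 2 + ν) * g 0 - ν * (g 0 - ν) - g' 0 * g 2))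
    rw [sub_neg_eq_add, abs_neg, abs_neg, hνν] at this
    linarith
  have hi : |crs g' g 1| ≤ |ν| ^ 2 * (5 / 4) := by
    rw [e1]
    refine (abs_add_le _ _).trans ?_
    rw [abs_neg, hνν]
    linarith
  have c1 : |crs g' g 1| ≤ 12 * R ^ 2 * |ν| ^ 2 := by
    refine hi.trans ?_
    have : 5 / 4 ≤ 12 * R ^ 2 := by nlinarith
    have := mul_le_mul_of_nonneg_right this hν2
    linarith
  refine ⟨by linarith, ?_⟩
  have hB : ∀ k, |crs g' g k| ≤ 12 * R ^ 2 * |ν| ^ 2 := by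
    intro k; fin_cases k
    · exact c0
    · exact c1
    · exact c2
  have hh := h.hh (crs g' g) _ hB
  have e2 : |ν| * (η * (12 * R ^ 2 * |ν| ^ 2) ^ 2) = |ν| ^ 5 * (144 * (η * R ^ 4)) := by ring
  rw [e2] at hh
  have k1 : |ν| * (|κ| * (|ν| ^ 2 * (3 / 4)) ^ 2) ≤ |ν * (κ * crs g' g 1 ^ 2)| := by
    rw [abs_mul, abs_mul, abs_pow]
    refine mul_le_mul_of_nonneg_left (mul_le_mul_of_nonneg_left ?_ hκ0) hν
    exact pow_le_pow_left₀ (by positivity) lo 2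
  have k2 : |ν| * (|κ| * (|ν| ^ 2 * (3 / 4)) ^ 2) = |ν| ^ 5 * |κ| * (9 / 16) := by ring
  rw [k2] at k1
  have k3 := abs_sub_abs_le_abs_sub (ν * (κ * crs g' g 1 ^ 2)) (-hes Q (crs g' g))
  rw [sub_neg_eq_add, abs_neg] at k3
  have k4 : |ν * (κ * crs g' g 1 ^ 2) + hes Q (crs g' g)| ≤ |ν| ^ 5 * (144 * (η * R ^ 4)) := by
    rw [add_comm]; exact hh
  have hν5 : 0 ≤ |ν| ^ 5 := by positivity
  have k5 : |ν| ^ 5 * (144 * (η * R ^ 4)) ≤ |ν| ^ 5 * (|κ| * (3 / 16)) :=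
    mul_le_mul_of_nonneg_left (by linarith) hν5
  nlinarith [mul_nonneg hν5 hκ0]

/-- upper bound of the curvature extent `Ye` -/
theorem Y_up {ν H WY WA WB P C δ Ye w1 D Om h cr1 : ℝ} (hν : 0 < |ν|) (hH : 0 < H) (hY : 0 < WY)
    (hA : 0 < WA) (hB : 0 < WB) (hC : 0 ≤ C) (hYe : 0 < Ye) (hw1 : 0 ≤ w1) (hP : 0 ≤ P)
    (e1 : |h| = (H * (WY * WA * WB)) ^ 2 * |D|) (e2 : |cr1| = H * (WY * WB) * |Om|)
    (h1 : |h| ≤ 26 * |ν| ^ 5) (h2 : |ν| ^ 2 / 2 ≤ |cr1|)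
    (k1 : δ * Ye ^ 3 ≤ C * (|D| * P ^ 2)) (k2 : |Om| * P ≤ C * (Ye * w1)) :
    δ * Ye ≤ 104 * C ^ 3 * (|ν| * (w1 / WA) ^ 2) := by
  have a1 : |D| * (H * (WY * WB)) ^ 2 * WA ^ 2 ≤ 26 * |ν| ^ 5 := by
    have : |D| * (H * (WY * WB)) ^ 2 * WA ^ 2 = (H * (WY * WA * WB)) ^ 2 * |D| := by ring
    rw [this, ← e1]; exact h1
  have a3 : |ν| ^ 2 ≤ 2 * (H * (WY * WB) * |Om|) := by rw [← e2]; linarith
  have hOm : 0 ≤ |Om| := abs_nonneg _
  have a4 : |ν| ^ 4 ≤ 4 * (H * (WY * WB)) ^ 2 * |Om| ^ 2 := by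
    have := pow_le_pow_left₀ (by positivity) a3 2
    calc |ν| ^ 4 = (|ν| ^ 2) ^ 2 := by ring
      _ ≤ (2 * (H * (WY * WB) * |Om|)) ^ 2 := this
      _ = _ := by ring
  have a5 : |D| * (H * (WY * WB)) ^ 2 * WA ^ 2 ≤
      (104 * |ν| * |Om| ^ 2) * (H * (WY * WB)) ^ 2 := by
    refine a1.trans ?_
    have : 26 * |ν| ^ 5 = 26 * |ν| * |ν| ^ 4 := by ring
    rw [this]
    calc 26 * |ν| * |ν| ^ 4 ≤ 26 * |ν| * (4 * (H * (WY * WB)) ^ 2 * |Om| ^ 2) :=
          mul_le_mul_of_nonneg_left a4 (by positivity)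
      _ = _ := by ring
  have hpos : 0 < (H * (WY * WB)) ^ 2 := by positivity
  have a6 : |D| * WA ^ 2 ≤ 104 * |ν| * |Om| ^ 2 := by
    have : (|D| * WA ^ 2) * (H * (WY * WB)) ^ 2 ≤ (104 * |ν| * |Om| ^ 2) * (H * (WY * WB)) ^ 2 := by
      calc (|D| * WA ^ 2) * (H * (WY * WB)) ^ 2 = |D| * (H * (WY * WB)) ^ 2 * WA ^ 2 := by ring
        _ ≤ _ := a5
    exact le_of_mul_le_mul_right this hpos
  have a7 : (|Om| * P) ^ 2 ≤ (C * (Ye * w1)) ^ 2 := pow_le_pow_left₀ (by positivity) k2 2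
  have a8 : δ * Ye ^ 3 * WA ^ 2 ≤ 104 * C ^ 3 * |ν| * w1 ^ 2 * Ye ^ 2 := by
    calc δ * Ye ^ 3 * WA ^ 2 ≤ C * (|D| * P ^ 2) * WA ^ 2 :=
          mul_le_mul_of_nonneg_right k1 (by positivity)
      _ = C * P ^ 2 * (|D| * WA ^ 2) := by ring
      _ ≤ C * P ^ 2 * (104 * |ν| * |Om| ^ 2) := mul_le_mul_of_nonneg_left a6 (by positivity)
      _ = 104 * C * |ν| * (|Om| * P) ^ 2 := by ring
      _ ≤ 104 * C * |ν| * (C * (Ye * w1)) ^ 2 := mul_le_mul_of_nonneg_left a7 (by positivity)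
      _ = _ := by ring
  have a9 : δ * Ye * WA ^ 2 ≤ 104 * C ^ 3 * |ν| * w1 ^ 2 := by
    have : (δ * Ye * WA ^ 2) * Ye ^ 2 ≤ (104 * C ^ 3 * |ν| * w1 ^ 2) * Ye ^ 2 := by
      calc (δ * Ye * WA ^ 2) * Ye ^ 2 = δ * Ye ^ 3 * WA ^ 2 := by ring
        _ ≤ _ := a8
    exact le_of_mul_le_mul_right this (by positivity)
  rw [div_pow, ← mul_div_assoc, ← mul_div_assoc, le_div_iff₀ (by positivity)]
  linarith

/-- lower bound of the curvature extent -/
theorem Y_low {ν H WY WA WB ρ w1 w2 C Ye κ D h : ℝ} (hν : 0 < |ν|) (hH : 0 < H) (hY : 0 < WY)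
    (hA : 0 < WA) (hB : 0 < WB) (hC : 0 < C)
    (e1 : |h| = (H * (WY * WA * WB)) ^ 2 * |D|)
    (h1 : |ν| ^ 5 * κ / 8 ≤ |h|) (k1 : |D| * (ρ * (w1 * w2)) ^ 2 ≤ C * Ye ^ 3) :
    κ / (8 * C) * (|ν| / WY) ^ 2 * (ρ / H * (w1 * w2 / (WA * WB))) ^ 2 * |ν| ^ 3 ≤ Ye ^ 3 := by
  have a1 : |ν| ^ 5 * κ / 8 * (ρ * (w1 * w2)) ^ 2 ≤
      (H * (WY * WA * WB)) ^ 2 * (C * Ye ^ 3) := by
    calc |ν| ^ 5 * κ / 8 * (ρ * (w1 * w2)) ^ 2 ≤ |h| * (ρ * (w1 * w2)) ^ 2 :=
          mul_le_mul_of_nonneg_right h1 (by positivity)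
      _ = (H * (WY * WA * WB)) ^ 2 * (|D| * (ρ * (w1 * w2)) ^ 2) := by rw [e1]; ring
      _ ≤ _ := mul_le_mul_of_nonneg_left k1 (by positivity)
  have e : κ / (8 * C) * (|ν| / WY) ^ 2 * (ρ / H * (w1 * w2 / (WA * WB))) ^ 2 * |ν| ^ 3 =
      (|ν| ^ 5 * κ / 8 * (ρ * (w1 * w2)) ^ 2) / (C * (H * (WY * WA * WB)) ^ 2) := by
    field_simp
  rw [e, div_le_iff₀ (by positivity)]
  linarith

end Crest.Agent.R136.Stc321
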