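import Crest.Agent.R136.Stc3_321
import Crest.Agent.R136.Thn3_768

-- ▼ part R136/Stc4_321
section

/-!
# R136, U6 thin side, stage C (helper321), part 4: the basis adapted to a plank

`Bas` : three vectors `φ` (container coordinates) adapted to a plank, against the gradient `g` and
its derivative `g'` of a polynomial near the model; consequences: sizes, rotation, area, coordinates
of a vector (`Bas.coord`), lateral position (`Bas.lat`), inverse matrix (`Bas.inv`).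
-/

set_option autoImplicit false
set_option linter.unusedVariables false

namespace Crest.Agent.R136.Stc321

open Crest.Agent.R136.Sh605
open Crest.Agent.R136.NetW191
open Crest.Agent.R136.GeoN778
open Crest.Agent.R136.Wit321

/-- sum of the sizes -/
def sm1 (X : V3) : ℝ := |X 0| + |X 1| + |X 2|


theorem le_sm1 (X : V3) (k : Fin 3) : |X k| ≤ sm1 X := by
  have x0 := abs_nonneg (X 0)
  have x1 := abs_nonneg (X 1)
  have x2 := abs_nonneg (X 2)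
  unfold sm1
  fin_cases k
  · show |X 0| ≤ _; linarith
  · show |X 1| ≤ _; linarith
  · show |X 2| ≤ _; linarith

/-- determinant of three vectors -/
def dt3 (φ : Fin 3 → V3) : ℝ :=
  φ 0 0 * (φ 1 1 * φ 2 2 - φ 1 2 * φ 2 1) - φ 0 1 * (φ 1 0 * φ 2 2 - φ 1 2 * φ 2 0) +
    φ 0 2 * (φ 1 0 * φ 2 1 - φ 1 1 * φ 2 0)

/-- **basis adapted to a plank** -/
structure Bas (g g' : V3) (φ : Fin 3 → V3) (κ v1 R η rh Y X A1 A2 α : ℝ) : Prop where
  κ1 : |κ| ≤ 1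
  v : |v1| ≤ R
  R1 : 1 ≤ R
  η0 : 0 ≤ η
  ηR : 40 * (R * η) ≤ 1
  rh0 : 0 < rh
  rh1 : rh ≤ 1
  Y0 : 0 < Y
  X0 : 0 ≤ X
  X1 : X ≤ 1
  A0 : 0 < A2
  A12 : A2 ≤ A1
  α0 : 0 < α
  g0 : |g 0 - 1| ≤ η
  g1 : |g 1| ≤ 3 * R
  g2 : |g 2| ≤ 2 * R
  g0' : |g' 0| ≤ η
  g1' : |g' 1 + 2 * κ * v1| ≤ η
  g2' : |g' 2 + 1| ≤ η
  a0 : |dt g (φ 0)| ≤ 32 * Y
  ak : |dt g (φ 1)| ≤ X * Y ∧ |dt g (φ 2)| ≤ X * Y
  c0 : |rh * dt g' (φ 0)| ≤ 25 * Y
  ck : |rh * dt g' (φ 1)| ≤ 17 * Y ∧ |rh * dt g' (φ 2)| ≤ 17 * Y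
  lo : ∀ ζ, 0 ≤ ζ → ζ ≤ 1 → Y / 64 ≤ |dt g (φ 0) + ζ * (rh * dt g' (φ 0))|
  p0 : |φ 0 0| ≤ 200 * Y
  p1 : |φ 0 1| ≤ 200 * (Y * η)
  p2 : |φ 0 2| ≤ 200 * (Y * η)
  q1 : |φ 1 1| ≤ 3 * A1
  q2 : |φ 2 1| ≤ 3 * A2
  det : Y * α / 200 ≤ |dt3 φ|

namespace Bas

variable {g g' : V3} {φ : Fin 3 → V3} {κ v1 R η rh Y X A1 A2 α : ℝ}

/-- size of the basis -/
noncomputable def sz (R rh Y A1 : ℝ) : ℝ := 136 * (R * Y / rh) + 78 * (R ^ 2 * A1)

/-- rotation of the basis -/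
noncomputable def rt (R η rh Y A1 : ℝ) : ℝ := 17 * (Y / rh) + 3 * (η * sz R rh Y A1)

theorem Y_rh (h : Bas g g' φ κ v1 R η rh Y X A1 A2 α) : Y ≤ Y / rh := by
  rw [le_div_iff₀ h.rh0]
  have := mul_le_mul_of_nonneg_left h.rh1 h.Y0.le
  linarith

theorem A1p (h : Bas g g' φ κ v1 R η rh Y X A1 A2 α) : 0 < A1 := h.A0.trans_le h.A12

theorem sz0 (h : Bas g g' φ κ v1 R η rh Y X A1 A2 α) : 0 ≤ sz R rh Y A1 := by
  have := h.R1
  have := h.rh0
  have := h.Y0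
  have := h.A1p
  unfold sz
  positivity

theorem rt0 (h : Bas g g' φ κ v1 R η rh Y X A1 A2 α) : 0 ≤ rt R η rh Y A1 := by
  have := h.sz0
  have := h.rh0
  have := h.Y0
  have := h.η0
  unfold rt
  positivity

theorem lin {k : Fin 3} (h : Bas g g' φ κ v1 R η rh Y X A1 A2 α) (h1 : |dt g (φ k)| ≤ X * Y)
    (h2 : |rh * dt g' (φ k)| ≤ 17 * Y) (h3 : |φ k 1| ≤ 3 * A1) :
    sm1 (φ k) ≤ sz R rh Y A1 ∧ |φ k 2 + 2 * κ * v1 * φ k 1| ≤ rt R η rh Y A1 := by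
  have hXY : X * Y ≤ 17 * Y / rh := by
    have e1 : X * Y ≤ Y := mul_le_of_le_one_left h.Y0.le h.X1
    have e2 := h.Y_rh
    have e3 : 17 * Y / rh = 17 * (Y / rh) := by ring
    have := h.Y0
    rw [e3]; linarith
  have hX0 : 0 ≤ X * Y := mul_nonneg h.X0 h.Y0.le
  rw [abs_mul, abs_of_pos h.rh0] at h2
  obtain ⟨s1, s3⟩ := la_lin (Z' := 17 * Y) h.R1 h.η0 h.κ1 h.v h.rh0 hX0 hXY h.g0 h.g1 h.g2 h.g0'
    h.g1' h.g2' h1 h2 h.ηR
  have hR := h.R1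
  have hs : sm1 (φ k) ≤ sz R rh Y A1 := by
    have e : R ^ 2 * |φ k 1| ≤ R ^ 2 * (3 * A1) := mul_le_mul_of_nonneg_left h3 (sq_nonneg R)
    have e2 : 8 * (R * (17 * Y) / rh) = 136 * (R * Y / rh) := by ring
    unfold sm1 sz
    linarith
  refine ⟨hs, s3.trans ?_⟩
  have e3 : 17 * Y / rh = 17 * (Y / rh) := by ring
  unfold rt
  rw [e3]
  have := mul_le_mul_of_nonneg_left hs h.η0
  unfold sm1 at this
  linarith

theorem lin1 (h : Bas g g' φ κ v1 R η rh Y X A1 A2 α) :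
    sm1 (φ 1) ≤ sz R rh Y A1 ∧ |φ 1 2 + 2 * κ * v1 * φ 1 1| ≤ rt R η rh Y A1 :=
  h.lin h.ak.1 h.ck.1 h.q1

theorem lin2 (h : Bas g g' φ κ v1 R η rh Y X A1 A2 α) :
    sm1 (φ 2) ≤ sz R rh Y A1 ∧ |φ 2 2 + 2 * κ * v1 * φ 2 1| ≤ rt R η rh Y A1 :=
  h.lin h.ak.2 h.ck.2 (h.q2.trans (by have := h.A12; linarith))

/-- area -/
theorem area (h : Bas g g' φ κ v1 R η rh Y X A1 A2 α)
    (hs : 10 ^ 6 * (Y * (η * sz R rh Y A1)) ≤ α) :
    α / 30000 ≤ |φ 1 1 * φ 2 2 - φ 1 2 * φ 2 1| := by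
  set ar := φ 1 1 * φ 2 2 - φ 1 2 * φ 2 1 with har
  set M := sz R rh Y A1 with hM
  have hM0 : 0 ≤ M := h.sz0
  have s1 := fun k => (le_sm1 (φ 1) k).trans h.lin1.1
  have s2' := fun k => (le_sm1 (φ 2) k).trans h.lin2.1
  have e : g 0 * dt3 φ = dt g (φ 0) * ar - dt g (φ 1) * (φ 0 1 * φ 2 2 - φ 0 2 * φ 2 1) +
      dt g (φ 2) * (φ 0 1 * φ 1 2 - φ 0 2 * φ 1 1) := by
    simp only [dt3, dt, har]; ring
  have hY := h.Y0
  have b1 : |φ 0 1 * φ 2 2 - φ 0 2 * φ 2 1| ≤ 400 * (Y * η) * M := by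
    refine (s2 (m2 h.p1 (s2' 2)) (m2 h.p2 (s2' 1))).trans (le_of_eq (by ring))
  have b2 : |φ 0 1 * φ 1 2 - φ 0 2 * φ 1 1| ≤ 400 * (Y * η) * M := by
    refine (s2 (m2 h.p1 (s1 2)) (m2 h.p2 (s1 1))).trans (le_of_eq (by ring))
  have b3 : |g 0 * dt3 φ| ≤ 32 * Y * |ar| + 800 * (Y * (Y * η * M)) := by
    rw [e]
    refine (a2 (s2 (m2 h.a0 le_rfl) (m2 h.ak.1 b1)) (m2 h.ak.2 b2)).trans ?_
    have : X * Y * (400 * (Y * η) * M) ≤ 1 * Y * (400 * (Y * η) * M) := by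
      refine mul_le_mul_of_nonneg_right (mul_le_mul_of_nonneg_right h.X1 hY.le) ?_
      have := h.η0
      positivity
    linarith
  have b4 : Y * α / 400 ≤ |g 0 * dt3 φ| := by
    rw [abs_mul]
    have g1 : 1 / 2 ≤ |g 0| := by
      have h1 := (abs_le.1 h.g0).1
      have h2 := h.ηR
      have h3 : η ≤ R * η := le_mul_of_one_le_left h.η0 h.R1
      have : 1 / 2 ≤ g 0 := by linarith
      exact this.trans (le_abs_self _)
    have h0 : 0 ≤ Y * α / 200 := by have := h.α0; positivity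
    calc Y * α / 400 = 1 / 2 * (Y * α / 200) := by ring
      _ ≤ |g 0| * |dt3 φ| := mul_le_mul g1 h.det h0 (abs_nonneg _)
  have b5 : Y * (α / 400) ≤ Y * (32 * |ar| + 800 * (Y * η * M)) := by
    have : Y * α / 400 = Y * (α / 400) := by ring
    rw [← this]
    refine (b4.trans b3).trans (le_of_eq (by ring))
  have b6 := le_of_mul_le_mul_left b5 hY
  have e3 : Y * (η * M) = Y * η * M := by ring
  rw [e3] at hs
  have := h.α0
  linarith

/-- **coordinates of a vector** -/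
theorem coord (h : Bas g g' φ κ v1 R η rh Y X A1 A2 α)
    (hs : 10 ^ 6 * (Y * (η * sz R rh Y A1)) ≤ α)
    (hs2 : 2 ^ 27 * (400 * (Y * η * rt R η rh Y A1) + 3600 * (A1 * R * (Y * η))) ≤ α)
    {τ : V3} {V : V3} (hV : ∀ k, V k = τ 0 * φ 0 k + τ 1 * φ 1 k + τ 2 * φ 2 k) {a b c ζ : ℝ}
    (ha : |V 1| ≤ a) (hb : |V 2 + 2 * κ * v1 * V 1| ≤ b) (ζ0 : 0 ≤ ζ) (ζ1 : ζ ≤ 1)
    (hc : |dt g V + ζ * (rh * dt g' V)| ≤ Y * c) :
    |τ 1| + |τ 2| ≤ 2 * (30000 / α * (2 * (a * rt R η rh Y A1) + 6 * (A1 * b))) + c ∧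
      |τ 0| ≤ 128 * c + 2304 * (30000 / α * (2 * (a * rt R η rh Y A1) + 6 * (A1 * b))) := by
  set D := rt R η rh Y A1 with hD
  have D0 : 0 ≤ D := h.rt0
  have hY := h.Y0
  have hη := h.η0
  have hα := h.α0
  have hA1 := h.A1p
  have hR := h.R1
  have ha0 : 0 ≤ a := (abs_nonneg _).trans ha
  have hb0 : 0 ≤ b := (abs_nonneg _).trans hb
  set ar := φ 1 1 * φ 2 2 - φ 1 2 * φ 2 1 with har
  have har1 := h.area hs
  rw [← har] at har1
  set t := |τ 1| + |τ 2| with ht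
  have t1 := abs_nonneg (τ 1)
  have t2 := abs_nonneg (τ 2)
  have t0 := abs_nonneg (τ 0)
  -- the first coordinate
  have k0 : |τ 0| ≤ 64 * c + 1152 * t := by
    have e : dt g V + ζ * (rh * dt g' V) = τ 0 * (dt g (φ 0) + ζ * (rh * dt g' (φ 0))) +
        (τ 1 * (dt g (φ 1) + ζ * (rh * dt g' (φ 1))) +
          τ 2 * (dt g (φ 2) + ζ * (rh * dt g' (φ 2)))) := by
      simp only [dt, hV]; ring
    have eζ : |ζ| ≤ 1 := by rw [abs_of_nonneg ζ0]; exact ζ1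
    have u1 : |dt g (φ 1) + ζ * (rh * dt g' (φ 1))| ≤ 18 * Y := by
      refine (a2 h.ak.1 (m2 eζ h.ck.1)).trans ?_
      have := mul_le_of_le_one_left hY.le h.X1
      linarith
    have u2 : |dt g (φ 2) + ζ * (rh * dt g' (φ 2))| ≤ 18 * Y := by
      refine (a2 h.ak.2 (m2 eζ h.ck.2)).trans ?_
      have := mul_le_of_le_one_left hY.le h.X1
      linarith
    have e2 : τ 0 * (dt g (φ 0) + ζ * (rh * dt g' (φ 0))) =
        (dt g V + ζ * (rh * dt g' V)) - (τ 1 * (dt g (φ 1) + ζ * (rh * dt g' (φ 1))) +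
          τ 2 * (dt g (φ 2) + ζ * (rh * dt g' (φ 2)))) := by rw [e]; ring
    have e3 : |τ 0 * (dt g (φ 0) + ζ * (rh * dt g' (φ 0)))| ≤ Y * c + (|τ 1| * (18 * Y) +
        |τ 2| * (18 * Y)) := by
      rw [e2]
      exact s2 hc (a2 (m2 le_rfl u1) (m2 le_rfl u2))
    rw [abs_mul] at e3
    have e4 := mul_le_mul_of_nonneg_left (h.lo ζ ζ0 ζ1) t0
    have e5 : Y * (|τ 0| / 64) ≤ Y * (c + 18 * t) := by
      have : |τ 0| * (Y / 64) = Y * (|τ 0| / 64) := by ring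
      rw [← this]
      refine (e4.trans e3).trans (le_of_eq ?_)
      rw [ht]; ring
    have := le_of_mul_le_mul_left e5 hY
    linarith
  -- reduced vector
  set V1 := V 1 - τ 0 * φ 0 1 with hV1
  set V2 := V 2 - τ 0 * φ 0 2 with hV2
  have w1 : |V1| ≤ a + |τ 0| * (200 * (Y * η)) := s2 ha (m2 le_rfl h.p1)
  have two : |(2 : ℝ)| ≤ 2 := by norm_num
  have w2 : |V2 + 2 * κ * v1 * V1| ≤ b + |τ 0| * (600 * (R * (Y * η))) := by
    have e : V2 + 2 * κ * v1 * V1 = (V 2 + 2 * κ * v1 * V 1) -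
        τ 0 * (φ 0 2 + 2 * κ * v1 * φ 0 1) := by rw [hV1, hV2]; ring
    rw [e]
    have q : |φ 0 2 + 2 * κ * v1 * φ 0 1| ≤ 600 * (R * (Y * η)) := by
      refine (a2 h.p2 (m2 (m2 (m2 two h.κ1) h.v) h.p1)).trans ?_
      have : Y * η ≤ R * (Y * η) := le_mul_of_one_le_left (by positivity) hR
      nlinarith
    exact s2 hb (m2 le_rfl q)
  have x1 : τ 1 * ar = V1 * (φ 2 2 + 2 * κ * v1 * φ 2 1) - (V2 + 2 * κ * v1 * V1) * φ 2 1 := by
    rw [hV1, hV2, har, hV 1, hV 2]; ring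
  have x2 : τ 2 * ar = (V2 + 2 * κ * v1 * V1) * φ 1 1 - V1 * (φ 1 2 + 2 * κ * v1 * φ 1 1) := by
    rw [hV1, hV2, har, hV 1, hV 2]; ring
  have hq2 : |φ 2 1| ≤ 3 * A1 := h.q2.trans (by have := h.A12; linarith)
  have y1 := s2 (m2 w1 h.lin2.2) (m2 w2 hq2)
  have y2 := s2 (m2 w2 h.q1) (m2 w1 h.lin1.2)
  rw [← x1, abs_mul] at y1
  rw [← x2, abs_mul] at y2
  rw [← hD] at y1 y2
  have z1 := mul_le_mul_of_nonneg_left har1 t1
  have z2 := mul_le_mul_of_nonneg_left har1 t2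
  have k1 : t * (α / 30000) ≤ (2 * (a * D) + 6 * (A1 * b)) + |τ 0| *
      (400 * (Y * η * D) + 3600 * (A1 * R * (Y * η))) := by
    have e : t * (α / 30000) = |τ 1| * (α / 30000) + |τ 2| * (α / 30000) := by rw [ht]; ring
    rw [e]
    refine (add_le_add (z1.trans y1) (z2.trans y2)).trans (le_of_eq (by ring))
  set T := 30000 / α * (2 * (a * D) + 6 * (A1 * b)) with hT
  have T0 : 0 ≤ T := by rw [hT]; positivity
  have k2 : t ≤ T + |τ 0| / 4096 := by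
    have e1 : t = t * (α / 30000) * (30000 / α) := by field_simp
    have e2 : t * (α / 30000) * (30000 / α) ≤ ((2 * (a * D) + 6 * (A1 * b)) + |τ 0| *
      (400 * (Y * η * D) + 3600 * (A1 * R * (Y * η)))) * (30000 / α) :=
      mul_le_mul_of_nonneg_right k1 (by positivity)
    have e3 : ((2 * (a * D) + 6 * (A1 * b)) + |τ 0| *
      (400 * (Y * η * D) + 3600 * (A1 * R * (Y * η)))) * (30000 / α) = T + |τ 0| *
        ((400 * (Y * η * D) + 3600 * (A1 * R * (Y * η))) * (30000 / α)) := by rw [hT]; ring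
    have e4 : (400 * (Y * η * D) + 3600 * (A1 * R * (Y * η))) * (30000 / α) ≤ 1 / 4096 := by
      rw [mul_div_assoc', div_le_iff₀ hα]
      linarith
    rw [e3] at e2
    have := mul_le_mul_of_nonneg_left e4 t0
    linarith
  have hc0 : 0 ≤ c := by
    have := (abs_nonneg _).trans hc
    by_contra hn
    push Not at hn
    have := mul_neg_of_pos_of_neg hY hn
    linarith
  have k3 : |τ 0| ≤ 128 * c + 2304 * T := by linarith
  refine ⟨?_, k3⟩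
  linarith

/-- **lateral position** -/
theorem lat (h : Bas g g' φ κ v1 R η rh Y X A1 A2 α) {τ : V3} {V : V3}
    (hV : ∀ k, V k = τ 0 * φ 0 k + τ 1 * φ 1 k + τ 2 * φ 2 k) {m0 m1 : ℝ} (h0 : |τ 0| ≤ m0)
    (h1 : |τ 1| ≤ m1) (h2 : |τ 2| ≤ m1) :
    |V 1| ≤ 200 * (m0 * (Y * η)) + 6 * (m1 * A1) ∧
      |V 2 + 2 * κ * v1 * V 1| ≤ 600 * (m0 * (R * (Y * η))) + 2 * (m1 * rt R η rh Y A1) := by
  have hη := h.η0
  have hY := h.Y0
  have two : |(2 : ℝ)| ≤ 2 := by norm_num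
  have m0' : 0 ≤ m0 := (abs_nonneg _).trans h0
  have m1' : 0 ≤ m1 := (abs_nonneg _).trans h1
  constructor
  · rw [hV 1]
    refine (a2 (a2 (m2 h0 h.p1) (m2 h1 h.q1)) (m2 h2 h.q2)).trans ?_
    have := mul_le_mul_of_nonneg_left h.A12 m1'
    linarith
  · have e : V 2 + 2 * κ * v1 * V 1 = τ 0 * (φ 0 2 + 2 * κ * v1 * φ 0 1) +
        τ 1 * (φ 1 2 + 2 * κ * v1 * φ 1 1) + τ 2 * (φ 2 2 + 2 * κ * v1 * φ 2 1) := by
      rw [hV 1, hV 2]; ring
    have q : |φ 0 2 + 2 * κ * v1 * φ 0 1| ≤ 600 * (R * (Y * η)) := by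
      refine (a2 h.p2 (m2 (m2 (m2 two h.κ1) h.v) h.p1)).trans ?_
      have : Y * η ≤ R * (Y * η) := le_mul_of_one_le_left (by positivity) h.R1
      nlinarith
    rw [e]
    refine (a2 (a2 (m2 h0 q) (m2 h1 h.lin1.2)) (m2 h2 h.lin2.2)).trans (le_of_eq (by ring))

/-- all entries -/
theorem ent (h : Bas g g' φ κ v1 R η rh Y X A1 A2 α) (i k : Fin 3) :
    |φ i k| ≤ 200 * Y + sz R rh Y A1 := by
  have hY := h.Y0
  have hs := h.sz0
  have hη : Y * η ≤ Y := by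
    have h3 : η ≤ R * η := le_mul_of_one_le_left h.η0 h.R1
    have := h.ηR
    exact mul_le_of_le_one_right hY.le (by linarith)
  fin_cases i
  · fin_cases k
    · exact h.p0.trans (by linarith)
    · exact h.p1.trans (by linarith)
    · exact h.p2.trans (by linarith)
  · exact ((le_sm1 _ k).trans h.lin1.1).trans (by linarith)
  · exact ((le_sm1 _ k).trans h.lin2.1).trans (by linarith)

/-- **inverse matrix** -/
theorem inv (h : Bas g g' φ κ v1 R η rh Y X A1 A2 α) {τ : V3} {V : V3}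
    (hV : ∀ k, V k = τ 0 * φ 0 k + τ 1 * φ 1 k + τ 2 * φ 2 k) {B : ℝ} (hB : ∀ k, |V k| ≤ B)
    (i : Fin 3) : |τ i| ≤ 1200 * (B * (200 * Y + sz R rh Y A1) ^ 2) / (Y * α) := by
  have hY := h.Y0
  have hα := h.α0
  set E := 200 * Y + sz R rh Y A1 with hE
  have hent := h.ent
  rw [← hE] at hent
  have hdet := h.det
  have key : |τ i| * |dt3 φ| ≤ 6 * (B * E ^ 2) := by
    rw [← abs_mul]
    have m : ∀ i j k l, |φ i j * φ k l| ≤ E * E := fun i j k l => m2 (hent i j) (hent k l)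
    have d : ∀ a b c d e f g h, |φ a b * φ c d - φ e f * φ g h| ≤ 2 * (E * E) := by
      intro a b c d e f g h
      refine (s2 (m a b c d) (m e f g h)).trans (le_of_eq (by ring))
    fin_cases i
    · have e : τ 0 * dt3 φ = V 0 * (φ 1 1 * φ 2 2 - φ 1 2 * φ 2 1) -
          V 1 * (φ 1 0 * φ 2 2 - φ 1 2 * φ 2 0) + V 2 * (φ 1 0 * φ 2 1 - φ 1 1 * φ 2 0) := by
        simp only [hV, dt3]; ring
      show |τ 0 * dt3 φ| ≤ _
      rw [e]
      refine (a2 (s2 (m2 (hB 0) (d _ _ _ _ _ _ _ _)) (m2 (hB 1) (d _ _ _ _ _ _ _ _)))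
        (m2 (hB 2) (d _ _ _ _ _ _ _ _))).trans (le_of_eq (by ring))
    · have e : τ 1 * dt3 φ = -(V 0 * (φ 0 1 * φ 2 2 - φ 0 2 * φ 2 1)) +
          V 1 * (φ 0 0 * φ 2 2 - φ 0 2 * φ 2 0) - V 2 * (φ 0 0 * φ 2 1 - φ 0 1 * φ 2 0) := by
        simp only [hV, dt3]; ring
      show |τ 1 * dt3 φ| ≤ _
      rw [e]
      have n : |-(V 0 * (φ 0 1 * φ 2 2 - φ 0 2 * φ 2 1))| ≤ B * (2 * (E * E)) := by
        rw [abs_neg]; exact m2 (hB 0) (d _ _ _ _ _ _ _ _)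
      refine (s2 (a2 n (m2 (hB 1) (d _ _ _ _ _ _ _ _)))
        (m2 (hB 2) (d _ _ _ _ _ _ _ _))).trans (le_of_eq (by ring))
    · have e : τ 2 * dt3 φ = V 0 * (φ 0 1 * φ 1 2 - φ 0 2 * φ 1 1) -
          V 1 * (φ 0 0 * φ 1 2 - φ 0 2 * φ 1 0) + V 2 * (φ 0 0 * φ 1 1 - φ 0 1 * φ 1 0) := by
        simp only [hV, dt3]; ring
      show |τ 2 * dt3 φ| ≤ _
      rw [e]
      refine (a2 (s2 (m2 (hB 0) (d _ _ _ _ _ _ _ _)) (m2 (hB 1) (d _ _ _ _ _ _ _ _)))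
        (m2 (hB 2) (d _ _ _ _ _ _ _ _))).trans (le_of_eq (by ring))
  have k2 := (mul_le_mul_of_nonneg_left hdet (abs_nonneg (τ i))).trans key
  rw [le_div_iff₀ (by positivity)]
  linarith

end Bas

end Crest.Agent.R136.Stc321
end

-- ▼ part R136/Stc5_321

/-!
# R136, U6 thin side, stage C (helper321), part 5: the basis of a plank in container coordinates

`tb`, `φb` : adapted basis; `bas_of` : `Bas` from 768's `Own`, `OmB` and `Nr`.
-/

set_option autoImplicit false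
set_option linter.unusedVariables false

namespace Crest.Agent.R136.Stc321

open Crest.Agent.R136.Sh605
open Crest.Agent.R136.K4
open Crest.Agent.R136.NetW191
open Crest.Agent.R136.GeoN778
open Crest.Agent.R136.Wit321
open Crest.Agent.R136.Top484
open Crest.Agent.R136.Tl102 (QF Fq bz fan shB0 scB1 scG shG shB1 kap NrmC IsExp fr cmb StP OmB om0
  om1 omM tv pv gl)
open Crest.Agent.R136.Thn768 (Own Snd Tay cr dtm)
open Crest.Agent.R136.Arc880 (det3)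

/-- adapted basis in plank coordinates -/
noncomputable def tb (κ : ℝ) (b0 : V3) : Fin 3 → V3 := ![![κ, 0, 0], tE b0 1, tE b0 2]

/-- adapted basis in container coordinates -/
noncomputable def φb (f : Fin 3 → V3) (u : Un) (e : Fin 3 → V3) (w : V3) (κ : ℝ) (b0 : V3) :
    Fin 3 → V3 := fun k => mh f u e w (tb κ b0 k)

/-- slopes of the plank -/
theorem NrmC.base {b0 b1 : V3} {G : QF} (h : NrmC b0 b1 G) :
    1 / 2 ≤ b0 0 ∧ b0 0 ≤ 2 ∧ |b0 1 / b0 0| ≤ 2 ∧ |b0 2 / b0 0| ≤ 2 ∧ 1 / 2 ≤ b0 0 + b1 0 ∧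
      b0 0 + b1 0 ≤ 2 ∧ |b1 0| ≤ 3 / 2 := by
  have h0 := h.st 0 le_rfl zero_le_one 0 0 0 (by simp) (by simp) (by simp)
  have h1 := h.st 1 zero_le_one le_rfl 0 0 0 (by simp) (by simp) (by simp)
  simp only [zero_mul, mul_zero, add_zero, one_mul] at h0 h1
  have p : 0 < b0 0 := by linarith [h0.1]
  refine ⟨h0.1, h0.2, ?_, ?_, h1.1, h1.2, abs_le.2 ⟨by linarith [h0.2, h1.1], by linarith [h0.1, h1.2]⟩⟩
  · rw [abs_div, abs_of_pos p, div_le_iff₀ p]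
    have := h.b01; linarith
  · rw [abs_div, abs_of_pos p, div_le_iff₀ p]
    have := h.b02; linarith

section

variable {f e : Fin 3 → V3} {u : Un} {w b0 : V3} {κs : ℝ}

theorem φb_val (k : Fin 3) (j : Fin 3) : φb f u e w κs b0 k j =
    (∑ i, w i * tb κs b0 k i * dt (f j) (e i)) / u.W j := by
  simp only [φb, mh, dt, cmb, Tl102.fr, Pi.smul_apply, smul_eq_mul, Fin.sum_univ_three]
  ring

theorem φb0 (j : Fin 3) : φb f u e w κs b0 0 j = w 0 * κs * dt (f j) (e 0) / u.W j := by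
  rw [φb_val]
  simp [tb, Fin.sum_univ_three]

theorem φb1 (j : Fin 3) : φb f u e w κs b0 1 j =
    (w 1 * dt (f j) (e 1) - b0 1 / b0 0 * (w 0 * dt (f j) (e 0))) / u.W j := by
  rw [φb_val]
  simp [tb, tE, Fin.sum_univ_three]
  ring

theorem φb2 (j : Fin 3) : φb f u e w κs b0 2 j =
    (w 2 * dt (f j) (e 2) - b0 2 / b0 0 * (w 0 * dt (f j) (e 0))) / u.W j := by
  rw [φb_val]
  simp [tb, tE, Fin.sum_univ_three]
  ring

/-- Gram identity -/
theorem ortho_det {f e : Fin 3 → V3} (hf : Ortho f) (he : Ortho e) :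
    (dt (f 0) (e 0) * (dt (f 1) (e 1) * dt (f 2) (e 2) - dt (f 2) (e 1) * dt (f 1) (e 2)) -
      dt (f 1) (e 0) * (dt (f 0) (e 1) * dt (f 2) (e 2) - dt (f 2) (e 1) * dt (f 0) (e 2)) +
      dt (f 2) (e 0) * (dt (f 0) (e 1) * dt (f 1) (e 2) - dt (f 1) (e 1) * dt (f 0) (e 2))) ^ 2 =
      1 := by
  have h1 := Thn768.dtm_ortho hf
  have h2 := Thn768.dtm_ortho he
  have e1 : (dt (f 0) (e 0) * (dt (f 1) (e 1) * dt (f 2) (e 2) - dt (f 2) (e 1) * dt (f 1) (e 2)) -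
      dt (f 1) (e 0) * (dt (f 0) (e 1) * dt (f 2) (e 2) - dt (f 2) (e 1) * dt (f 0) (e 2)) +
      dt (f 2) (e 0) * (dt (f 0) (e 1) * dt (f 1) (e 2) - dt (f 1) (e 1) * dt (f 0) (e 2))) =
      dtm f * dtm e := by
    simp only [dtm, dt, cr, Matrix.cons_val]; ring
  rw [e1, mul_pow, h1, h2, one_mul]

theorem dt3_φb {f e : Fin 3 → V3} (hf : Ortho f) (he : Ortho e) (hu : u.Ok) (hw0 : 0 < w 0)
    (hw1 : 0 < w 1) (hw2 : 0 < w 2) (hκ : 0 < κs) :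
    |dt3 (φb f u e w κs b0)| = w 0 * κs * (w 1 * w 2) / (u.WY * u.WA * u.WB) := by
  have hY := hu.Y0
  have hA := hu.A0
  have hB := hu.B0
  have W0 : u.W 0 = u.WY := rfl
  have W1 : u.W 1 = u.WA := rfl
  have W2 : u.W 2 = u.WB := rfl
  have h := ortho_det hf he
  set d := (dt (f 0) (e 0) * (dt (f 1) (e 1) * dt (f 2) (e 2) - dt (f 2) (e 1) * dt (f 1) (e 2)) -
      dt (f 1) (e 0) * (dt (f 0) (e 1) * dt (f 2) (e 2) - dt (f 2) (e 1) * dt (f 0) (e 2)) +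
      dt (f 2) (e 0) * (dt (f 0) (e 1) * dt (f 1) (e 2) - dt (f 1) (e 1) * dt (f 0) (e 2))) with hd
  have h1 : |d| = 1 := by
    have h2 : (d - 1) * (d + 1) = 0 := by linear_combination h
    rcases mul_eq_zero.1 h2 with h3 | h3
    · rw [sub_eq_zero.1 h3, abs_one]
    · rw [eq_neg_of_add_eq_zero_left h3, abs_neg, abs_one]
  have e1 : dt3 (φb f u e w κs b0) = d * (w 0 * κs * (w 1 * w 2) / (u.WY * u.WA * u.WB)) := by
    simp only [dt3, φb0, φb1, φb2, W0, W1, W2, hd]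
    field_simp
    ring
  rw [e1, abs_mul, h1, one_mul, abs_of_pos (by positivity)]

end

section bas

variable {S : Plk4} {T : Ln4} {z0 ρ δ : ℝ} {b0 b1 : V3} {G : QF} {f : Fin 3 → V3} {c : Ln4} {u : Un}
  {Q2 : Qd} {b0' b1' : V3} {G' : QF} {X κ ν R η : ℝ}

/-- **the basis adapted to a plank, against a polynomial near the model** -/
theorem bas_of (O : Own S T z0 ρ δ b0 b1 G) (hf : Ortho f) (hu : u.Ok)
    (hE : IsExp Q2.ev S.e S.w T z0 ρ b0' b1' G') (m1 : 1 / 16 ≤ |b0' 0 / b0 0|)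
    (m2' : |b0' 0 / b0 0| ≤ 16) (hO : OmB (kap b0 b1 G) X X X b0 b1 G b0' b1' G')
    (hX0 : 0 ≤ X) (hX : X ≤ 1 / 64)
    (hN : Nr (hatQ f c u Q2) (ul u (rl f c T)) (u.zh z0) κ ν R η) (hκ : |κ| ≤ 1) (hR : 1 ≤ R)
    (hv : |(ul u (rl f c T)).v 1| ≤ R) (hη0 : 0 ≤ η) (hηR : 40 * (R * η) ≤ 1) (hρH : ρ ≤ u.H)
    (hν1 : u.WY / 200 ≤ |ν|) (hν2 : |ν| ≤ 200 * u.WY) (hYB : u.WY ≤ η * u.WB) :
    Bas (fun k => (hatQ f c u Q2).gr (u.zh z0) ((ul u (rl f c T)).pos (u.zh z0)) k / ν)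
      (fun k => gd (hatQ f c u Q2) (ul u (rl f c T)) k / ν)
      (φb f u S.e S.w (kap b0 b1 G) b0) κ ((ul u (rl f c T)).v 1) R η (ρ / u.H)
      (S.w 0 * kap b0 b1 G / |ν|) X (S.w 1 / u.WA) (S.w 2 / u.WA)
      (S.w 1 / u.WA * (S.w 2 / u.WB)) := by
  have hY := hu.Y0
  have hA := hu.A0
  have hB := hu.B0
  have hH := hu.H0
  have he := O.ortho
  have hρ := O.hρ
  have w0 := O.pos 0
  have w1 := O.pos 1
  have w2 := O.pos 2
  have hk := O.k0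
  set κs := kap b0 b1 G with hκs
  obtain ⟨n1, n2, n3, n4, n5, n6, n7⟩ := NrmC.base O.nrm
  have hb0 : b0 0 ≠ 0 := by linarith
  have hν : 0 < |ν| := by linarith
  have hνn : ν ≠ 0 := abs_pos.1 hν
  set m := b0' 0 / b0 0 with hm
  have hm0 : b0' 0 = m * b0 0 := by rw [hm, div_mul_cancel₀ _ hb0]
  have r := dt_unit hf he
  -- expansions
  have hx := exp_hat (c := c) hf hu hE
  set gr := (hatQ f c u Q2).gr (u.zh z0) ((ul u (rl f c T)).pos (u.zh z0)) with hgr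
  set gd' := gd (hatQ f c u Q2) (ul u (rl f c T)) with hgd
  set φ := φb f u S.e S.w κs b0 with hφ
  have φe : ∀ k, φ k = mh f u S.e S.w (tb κs b0 k) := fun k => rfl
  have dv : ∀ (a X : V3), dt (fun k => a k / ν) X = dt a X / ν := by
    intro a X; simp only [dt]; ring
  have hYe : 0 < S.w 0 * κs := by positivity
  -- values on the basis
  have t0 : ∀ b : V3, dt b (tb κs b0 0) = κs * b 0 := by
    intro b; simp only [dt, tb, Matrix.cons_val]; ring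
  have t1 : ∀ b : V3, dt b (tb κs b0 1) = b 1 - b0 1 / b0 0 * b 0 := by
    intro b; simp only [dt, tb, tE, Matrix.cons_val]; simp; ring
  have t2 : ∀ b : V3, dt b (tb κs b0 2) = b 2 - b0 2 / b0 0 * b 0 := by
    intro b; simp only [dt, tb, tE, Matrix.cons_val]; simp; ring
  have o01 : b0' 1 - b0 1 / b0 0 * b0' 0 = κs * om0 κs b0 b0' 1 := by
    change _ = κs * ((b0' 1 - b0' 0 / b0 0 * b0 1 - b0 1 / b0 0 * (b0' 0 - b0' 0 / b0 0 * b0 0)) / κs)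
    field_simp; ring
  have o02 : b0' 2 - b0 2 / b0 0 * b0' 0 = κs * om0 κs b0 b0' 2 := by
    change _ = κs * ((b0' 2 - b0' 0 / b0 0 * b0 2 - b0 2 / b0 0 * (b0' 0 - b0' 0 / b0 0 * b0 0)) / κs)
    field_simp; ring
  have o10 : b1' 0 = m * b1 0 + om1 κs b0 b1 b0' b1' 0 := by
    change _ = m * b1 0 + (b1' 0 - b0' 0 / b0 0 * b1 0)
    rw [hm]; ring
  have o11 : b1' 1 - b0 1 / b0 0 * b1' 0 = m * shB1 b0 b1 1 + κs * om1 κs b0 b1 b0' b1' 1 := by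
    change _ = m * (b1 1 - b0 1 / b0 0 * b1 0) +
      κs * ((b1' 1 - b0' 0 / b0 0 * b1 1 - b0 1 / b0 0 * (b1' 0 - b0' 0 / b0 0 * b1 0)) / κs)
    rw [hm]; field_simp; ring
  have o12 : b1' 2 - b0 2 / b0 0 * b1' 0 = m * shB1 b0 b1 2 + κs * om1 κs b0 b1 b0' b1' 2 := by
    change _ = m * (b1 2 - b0 2 / b0 0 * b1 0) +
      κs * ((b1' 2 - b0' 0 / b0 0 * b1 2 - b0 2 / b0 0 * (b1' 0 - b0' 0 / b0 0 * b1 0)) / κs)
    rw [hm]; field_simp; ring
  have sh1 : |shB1 b0 b1 1| ≤ κs := (le_max_left _ _).trans (le_max_left _ _)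
  have sh2 : |shB1 b0 b1 2| ≤ κs := (le_max_right _ _).trans (le_max_left _ _)
  have hκsa : |κs| ≤ κs := (abs_of_pos hk).le
  have c01 : |b0' 1 - b0 1 / b0 0 * b0' 0| ≤ κs * X := by
    rw [o01]; exact m2 hκsa hO.h01
  have c02 : |b0' 2 - b0 2 / b0 0 * b0' 0| ≤ κs * X := by
    rw [o02]; exact m2 hκsa hO.h02
  have c11 : |b1' 1 - b0 1 / b0 0 * b1' 0| ≤ 17 * κs := by
    rw [o11]
    refine (a2 (m2 m2' sh1) (m2 hκsa hO.h11)).trans ?_
    have := mul_le_mul_of_nonneg_left hX hk.le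
    linarith
  have c12 : |b1' 2 - b0 2 / b0 0 * b1' 0| ≤ 17 * κs := by
    rw [o12]
    refine (a2 (m2 m2' sh2) (m2 hκsa hO.h12)).trans ?_
    have := mul_le_mul_of_nonneg_left hX hk.le
    linarith
  have c00 : |b0' 0| ≤ 32 := by
    rw [hm0]
    have : |b0 0| ≤ 2 := by rw [abs_of_pos (by linarith)]; exact n2
    exact (m2 m2' this).trans (by norm_num)
  have c10 : |b1' 0| ≤ 25 := by
    rw [o10]
    refine (a2 (m2 m2' n7) hO.y1).trans ?_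
    linarith
  have nd : ∀ a : ℝ, ∀ {K : ℝ}, |a| ≤ K → |S.w 0 * a / ν| ≤ S.w 0 * K / |ν| := by
    intro a K ha
    rw [abs_div, abs_mul, abs_of_pos w0]
    exact div_le_div_of_nonneg_right (mul_le_mul_of_nonneg_left ha w0.le) hν.le
  have G0 : ∀ k, dt (fun k => gr k / ν) (φ k) = S.w 0 * dt b0' (tb κs b0 k) / ν := by
    intro k
    rw [dv, φe, (hx (tb κs b0 k)).1]
  have G1 : ∀ k, ρ / u.H * dt (fun k => gd' k / ν) (φ k) = S.w 0 * dt b1' (tb κs b0 k) / ν := by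
    intro k
    rw [dv, φe, (hx (tb κs b0 k)).2.1]
    ring
  have Yp : 0 < S.w 0 * κs / |ν| := by positivity
  have f0 : |S.w 0 * κs| = S.w 0 * κs := abs_of_pos hYe
  have Y200 : S.w 0 * κs / u.WY ≤ 200 * (S.w 0 * κs / |ν|) := by
    rw [div_le_iff₀ hY]
    have e : 200 * (S.w 0 * κs / |ν|) * u.WY = S.w 0 * κs * (200 * u.WY) / |ν| := by ring
    rw [e, le_div_iff₀ hν]
    exact mul_le_mul_of_nonneg_left hν2 hYe.le
  have YBl : S.w 0 * κs / u.WB ≤ 200 * (S.w 0 * κs / |ν| * η) := by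
    have e1 : S.w 0 * κs / u.WB ≤ S.w 0 * κs / u.WY * η := by
      rw [div_le_iff₀ hB]
      have e : S.w 0 * κs / u.WY * η * u.WB = S.w 0 * κs * (η * u.WB) / u.WY := by ring
      rw [e, le_div_iff₀ hY]
      exact mul_le_mul_of_nonneg_left hYB hYe.le
    have := mul_le_mul_of_nonneg_right Y200 hη0
    linarith
  have YAl : S.w 0 * κs / u.WA ≤ 200 * (S.w 0 * κs / |ν| * η) :=
    (div_le_div_of_nonneg_left hYe.le hB hu.BA).trans YBl
  have W0 : u.W 0 = u.WY := rfl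
  have W1 : u.W 1 = u.WA := rfl
  have W2 : u.W 2 = u.WB := rfl
  refine
    { κ1 := hκ, v := hv, R1 := hR, η0 := hη0, ηR := hηR, rh0 := by positivity,
      rh1 := (div_le_one hH).2 hρH, Y0 := Yp, X0 := hX0, X1 := by linarith, A0 := by positivity,
      A12 := div_le_div_of_nonneg_right O.w21 hA.le, α0 := by positivity, g0 := ?_, g1 := ?_,
      g2 := ?_, g0' := ?_, g1' := ?_, g2' := ?_, a0 := ?_, ak := ?_, c0 := ?_, ck := ?_, lo := ?_,
      p0 := ?_, p1 := ?_, p2 := ?_, q1 := ?_, q2 := ?_, det := ?_ }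
  · have e : gr 0 / ν - 1 = (gr 0 - ν) / ν := by field_simp
    rw [e, abs_div, div_le_iff₀ hν, mul_comm]
    exact hN.g0
  · rw [abs_div, div_le_iff₀ hν, mul_comm]
    exact hN.g1
  · rw [abs_div, div_le_iff₀ hν, mul_comm]
    exact hN.g2
  · rw [abs_div, div_le_iff₀ hν, mul_comm]
    exact hN.d0
  · have e : gd' 1 / ν + 2 * κ * (ul u (rl f c T)).v 1 =
        (gd' 1 + ν * (2 * κ * (ul u (rl f c T)).v 1)) / ν := by field_simp
    rw [e, abs_div, div_le_iff₀ hν]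
    exact hN.d1.trans (le_of_eq (mul_comm _ _))
  · have e : gd' 2 / ν + 1 = (gd' 2 + ν) / ν := by field_simp
    rw [e, abs_div, div_le_iff₀ hν, mul_comm]
    exact hN.d2
  · rw [G0, t0]
    refine (nd _ (K := κs * 32) (m2 hκsa c00)).trans (le_of_eq (by ring))
  · rw [G0, G0, t1, t2]
    exact ⟨(nd _ c01).trans (le_of_eq (by ring)), (nd _ c02).trans (le_of_eq (by ring))⟩
  · rw [G1, t0]
    refine (nd _ (K := κs * 25) (m2 hκsa c10)).trans (le_of_eq (by ring))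
  · rw [G1, G1, t1, t2]
    exact ⟨(nd _ c11).trans (le_of_eq (by ring)), (nd _ c12).trans (le_of_eq (by ring))⟩
  · intro ζ z0' z1'
    rw [G0, G1, t0, t0]
    have e : S.w 0 * (κs * b0' 0) / ν + ζ * (S.w 0 * (κs * b1' 0) / ν) =
        S.w 0 * κs * (b0' 0 + ζ * b1' 0) / ν := by ring
    rw [e, abs_div, abs_mul, f0]
    have e2 : b0' 0 + ζ * b1' 0 = m * (b0 0 + ζ * b1 0) + ζ * om1 κs b0 b1 b0' b1' 0 := by
      rw [hm0, o10]; ring
    have h1 := (O.nrm.st ζ z0' z1' 0 0 0 (by simp) (by simp) (by simp)).1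
    simp only [mul_zero, add_zero] at h1
    have h2 : 1 / 32 ≤ |m * (b0 0 + ζ * b1 0)| := by
      rw [abs_mul]
      calc (1 : ℝ) / 32 = 1 / 16 * (1 / 2) := by norm_num
        _ ≤ |m| * |b0 0 + ζ * b1 0| :=
          mul_le_mul m1 (h1.trans (le_abs_self _)) (by norm_num) (abs_nonneg _)
    have h3 : |ζ * om1 κs b0 b1 b0' b1' 0| ≤ 1 * X :=
      m2 (by rw [abs_of_nonneg z0']; exact z1') hO.y1
    have h4 : 1 / 64 ≤ |b0' 0 + ζ * b1' 0| := by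
      rw [e2]
      have h5 : m * (b0 0 + ζ * b1 0) = (m * (b0 0 + ζ * b1 0) + ζ * om1 κs b0 b1 b0' b1' 0) -
          ζ * om1 κs b0 b1 b0' b1' 0 := by ring
      have h6 := s2 (le_refl |m * (b0 0 + ζ * b1 0) + ζ * om1 κs b0 b1 b0' b1' 0|) h3
      rw [← h5] at h6
      linarith
    have h7 := mul_le_mul_of_nonneg_left h4 hYe.le
    have e3 : S.w 0 * κs / |ν| / 64 = S.w 0 * κs * (1 / 64) / |ν| := by ring
    rw [e3]
    exact div_le_div_of_nonneg_right h7 hν.le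
  · show |φb f u S.e S.w κs b0 0 0| ≤ _
    rw [φb0, W0, abs_div, abs_mul, f0, abs_of_pos hY]
    refine le_trans ?_ Y200
    refine div_le_div_of_nonneg_right ?_ hY.le
    exact mul_le_of_le_one_right hYe.le (r 0 0)
  · show |φb f u S.e S.w κs b0 0 1| ≤ _
    rw [φb0, W1, abs_div, abs_mul, f0, abs_of_pos hA]
    refine le_trans ?_ YAl
    refine div_le_div_of_nonneg_right ?_ hA.le
    exact mul_le_of_le_one_right hYe.le (r 1 0)
  · show |φb f u S.e S.w κs b0 0 2| ≤ _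
    rw [φb0, W2, abs_div, abs_mul, f0, abs_of_pos hB]
    refine le_trans ?_ YBl
    refine div_le_div_of_nonneg_right ?_ hB.le
    exact mul_le_of_le_one_right hYe.le (r 2 0)
  · show |φb f u S.e S.w κs b0 1 1| ≤ _
    rw [φb1, W1, abs_div, abs_of_pos hA, ← mul_div_assoc]
    refine div_le_div_of_nonneg_right ?_ hA.le
    refine (s2 (m2 (abs_of_pos w1).le (r 1 1)) (m2 n3 (m2 (abs_of_pos w0).le (r 1 0)))).trans ?_
    have := O.w02
    have := O.w21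
    linarith
  · show |φb f u S.e S.w κs b0 2 1| ≤ _
    rw [φb2, W1, abs_div, abs_of_pos hA, ← mul_div_assoc]
    refine div_le_div_of_nonneg_right ?_ hA.le
    refine (s2 (m2 (abs_of_pos w2).le (r 1 2)) (m2 n4 (m2 (abs_of_pos w0).le (r 1 0)))).trans ?_
    have := O.w02
    linarith
  · show _ ≤ |dt3 (φb f u S.e S.w κs b0)|
    rw [dt3_φb hf he hu w0 w1 w2 hk]
    have e1 : S.w 0 * κs / |ν| * (S.w 1 / u.WA * (S.w 2 / u.WB)) / 200 =
        S.w 0 * κs * (S.w 1 * S.w 2) / ((200 * |ν|) * (u.WA * u.WB)) := by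
      field_simp
    have e2 : u.WY * u.WA * u.WB = u.WY * (u.WA * u.WB) := by ring
    rw [e1, e2]
    refine div_le_div_of_nonneg_left (by positivity) (by positivity) ?_
    refine mul_le_mul_of_nonneg_right ?_ (by positivity)
    linarith

end bas

end Crest.Agent.R136.Stc321
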