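import Crest.Agent.R136.MkA_627
import Crest.Agent.R136.NetW3_191
import Crest.Agent.R136.PqG_464
import Crest.Agent.R136.StcD_321

-- ▼ part R136/Bal_768
section

/-!
# R136 (S0187), U6 thin side (helper768): a set of incidences which is almost closed under lines
and classes carries the marks; graded balls of the W-chart

* `sub_ball` : `MkA` on a set `In ⊆ Out ⊆ I` with `#Out ≤ 2 #In` such that the lines and the classes
  of the elements of `In` lie in `Out`.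
* `exists_radius` : pigeonhole over radii.
* `ball_step` : a natural step moves the graded radius by `O(1)`.
* `MkA.ball` : a graded ball of radius between `d^-C1` and `2 d^-C1` carries the marks.
-/

set_option autoImplicit false
set_option linter.unusedVariables false

open Finset Filter Topology

namespace Crest.Agent.R136.Bal768

open Crest.Agent.R138.Ex926 Crest.Agent.R138.Dp76 Crest.Agent.R138.Ps627
open Crest.Agent.R138.Mk163 (zc zl rho alive own Negl)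
open Crest.Agent.R138.MkRef627 (lc kc own_one alive_mono mem_alive card_class own_lower hh hh_even
  hh_odd exists_num)
open Crest.Agent.R136.MkA627
open Crest.Agent.R136.Net191 Crest.Agent.R136.NetW191
open Crest.Agent.R136.PqG464 (wtW wtW_list)

section sub

variable {σ κ : Type*} {B : Base} {I : ℕ → Finset (ℕ × ℝ)} {G : Geo σ κ} {lev : ℕ → ℚ → ℕ}
    {A : ℕ → ℝ} {c Λ : ℝ → ℝ} {τ : κ → ℝ → ℝ} {f : ℕ → ℚ → ℕ → ℤ → ℕ} {b : ℕ → ℚ → ℕ → σ}
    {vm : ℕ → ℚ → ℝ} {w : κ → ℕ → ℚ → ℝ}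

open Classical in
/-- **a set which is almost closed under lines and classes carries the marks.** -/
theorem sub_ball (h : MkA B I G lev A c Λ τ f b vm w) {In Out : ℕ → Finset (ℕ × ℝ)}
    (hIO : ∀ n, In n ⊆ Out n) (hO : ∀ n, Out n ⊆ I n)
    (hne : ∀ᶠ n in (U : Filter ℕ), (In n).Nonempty)
    (hcard : ∀ᶠ n in (U : Filter ℕ), (Out n).card ≤ 2 * (In n).card)
    (hl : ∀ᶠ n in (U : Filter ℕ), ∀ x ∈ In n, ∀ y ∈ I n, y.1 = x.1 → y ∈ Out n)
    (hk : ∀ v : ℚ, 0 ≤ v → v ≤ 1 → ∀ᶠ n in (U : Filter ℕ), ∀ x ∈ In n, ∀ y ∈ I n,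
      kc (lev n v) (f n v) y = kc (lev n v) (f n v) x → y ∈ Out n) :
    ∃ I' : ℕ → Finset (ℕ × ℝ), (∀ n, I' n ⊆ In n) ∧ Dense B I' In ∧
      MkA B I' G lev A c Λ τ f b vm w := by
  have hd : Dense B In Out := dense_of_half (by
    filter_upwards [hcard] with n hn
    exact ⟨hIO n, by exact_mod_cast hn⟩)
  obtain ⟨J', hsub, hhalf, hfib⟩ := prune_seq (η := fun _ _ => ℕ × ℤ) hd (hh lev f)
  have hJ'J : Dense B J' In := dense_of_half (by
    filter_upwards [hhalf] with n hn using ⟨(hsub n).1, hn⟩)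
  have fl : ∀ v : ℚ, 0 ≤ v → v ≤ 1 → ∀ ε : ℝ, 0 < ε → ∀ᶠ n in (U : Filter ℕ), ∀ x ∈ J' n,
      B.d n ^ ε * (((I n).filter fun y => lc (lev n v) y = lc (lev n v) x).card : ℝ) ≤
        (((J' n).filter fun y => lc (lev n v) y = lc (lev n v) x).card : ℝ) := by
    intro v hv0 hv1 ε hε
    obtain ⟨j, rfl⟩ := exists_num v
    filter_upwards [hfib (2 * j) ε hε, hl] with n hn hln x hx
    have := hn x hx
    simp only [hh_even] at this
    refine le_trans (mul_le_mul_of_nonneg_left ?_ (dpow_pos B n ε).le) this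
    norm_cast
    refine card_le_card fun y hy => ?_
    rw [mem_filter] at hy ⊢
    refine ⟨hln x ((hsub n).1 hx) y hy.1 ?_, hy.2⟩
    have := hy.2
    unfold lc at this
    exact (Prod.mk.injEq _ _ _ _ ▸ this).1
  have fk : ∀ v : ℚ, 0 ≤ v → v ≤ 1 → ∀ ε : ℝ, 0 < ε → ∀ᶠ n in (U : Filter ℕ), ∀ x ∈ J' n,
      B.d n ^ ε * (((I n).filter fun y => kc (lev n v) (f n v) y = kc (lev n v) (f n v) x).card : ℝ)
        ≤ (((J' n).filter fun y => kc (lev n v) (f n v) y = kc (lev n v) (f n v) x).card : ℝ) := by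
    intro v hv0 hv1 ε hε
    have hkv := hk v hv0 hv1
    obtain ⟨j, rfl⟩ := exists_num v
    filter_upwards [hfib (2 * j + 1) ε hε, hkv] with n hn hkn x hx
    have := hn x hx
    simp only [hh_odd] at this
    refine le_trans (mul_le_mul_of_nonneg_left ?_ (dpow_pos B n ε).le) this
    norm_cast
    refine card_le_card fun y hy => ?_
    rw [mem_filter] at hy ⊢
    exact ⟨hkn x ((hsub n).1 hx) y hy.1 hy.2, hy.2⟩
  exact ⟨J', fun n => (hsub n).1, hJ'J, MkA.of_fib h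
    (fun n => ((hsub n).1.trans (hIO n)).trans (hO n)) (hJ'J.nonempty hne) fl fk⟩

end sub

/-- **pigeonhole over radii** -/
theorem exists_radius {α : Type*} (S : ℕ → Finset α) (h0 : (S 0).Nonempty) {J : ℕ}
    (hJ : (S J).card < 2 ^ J) : ∃ j < J, (S (j + 1)).card ≤ 2 * (S j).card := by
  by_contra hcon
  push Not at hcon
  have key : ∀ j ≤ J, 2 ^ j ≤ (S j).card := by
    intro j
    induction j with
    | zero => intro _; simpa using card_pos.2 h0
    | succ j ih =>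
      intro hj
      have h1 := ih (by omega)
      have h2 := hcon j (by omega)
      rw [pow_succ]
      omega
  exact absurd (key J le_rfl) (not_le.2 hJ)

/-! ### graded balls -/

/-- product of a list of steps against graded bounds -/
theorem abs_prod_grad {h : Fin 4 → ℝ} {X : ℝ} (hX : 1 ≤ X) (wt : Fin 4 → ℕ)
    (hh : ∀ i, |h i| ≤ X ^ wt i) (l : List (Fin 4)) :
    |(l.map h).prod| ≤ X ^ (l.map wt).sum := by
  induction l with
  | nil => simp
  | cons i l ih =>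
    rw [List.map_cons, List.prod_cons, List.map_cons, List.sum_cons, pow_add, abs_mul]
    exact mul_le_mul (hh i) ih (abs_nonneg _) (by positivity)

/-- weights of the frame slots -/
def w4 (i : Fin 4) : ℕ := wtW (Fin.castAdd 14 i)
/-- weights of the flag slots -/
def w14 (q : Fin 14) : ℕ := wtW (Fin.natAdd 4 q)

/-- every term of `tr` contains a step: the weight of the flag slot is smaller -/
theorem tms_wt : ∀ q : Fin 14, ∀ t ∈ tms q, (t.hl.map w4).sum + w14 t.s = w14 q ∧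
    1 ≤ (t.hl.map w4).sum ∧ t.hl ≠ [] ∧ 1 ≤ w14 t.s + 1 := by
  decide

theorem w14_le : ∀ q : Fin 14, w14 q ≤ 9 := by decide
theorem w14_pos : ∀ q : Fin 14, 1 ≤ w14 q := by decide

theorem ev_grad {κ : ℝ} (hκ : |κ| ≤ 1) {h : Fin 4 → ℝ} {w : Fin 14 → ℝ} {X r : ℝ} (hX : 1 ≤ X)
    (hr : 1 ≤ r) (hh : ∀ i, |h i| ≤ X ^ w4 i) (hw : ∀ q, |w q| ≤ r ^ w14 q) {q : Fin 14} {t : Tm}
    (ht : t ∈ tms q) : |t.ev κ h w| ≤ |(t.n : ℝ)| * (X ^ 9 * r ^ (w14 q - 1)) := by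
  obtain ⟨h1, h2, -, -⟩ := tms_wt q t ht
  have hq := w14_le q
  have e1 : |t.ev κ h w| = |(t.n : ℝ)| * (|κ| ^ t.e * |(t.hl.map h).prod| * |w t.s|) := by
    unfold Tm.ev
    rw [abs_mul, abs_mul, abs_mul, abs_pow]
    ring
  rw [e1]
  refine mul_le_mul_of_nonneg_left ?_ (abs_nonneg _)
  have a1 : |κ| ^ t.e ≤ 1 := pow_le_one₀ (abs_nonneg _) hκ
  have a2 := abs_prod_grad hX w4 hh t.hl
  have a3 := hw t.s
  have a4 : X ^ (t.hl.map w4).sum ≤ X ^ 9 := pow_le_pow_right₀ hX (by omega)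
  have a5 : r ^ w14 t.s ≤ r ^ (w14 q - 1) := pow_le_pow_right₀ hr (by omega)
  calc |κ| ^ t.e * |(t.hl.map h).prod| * |w t.s|
      ≤ 1 * X ^ 9 * r ^ (w14 q - 1) := by
        refine mul_le_mul (mul_le_mul a1 (a2.trans a4) (abs_nonneg _) zero_le_one) (a3.trans a5)
          (abs_nonneg _) (by positivity)
    _ = _ := by ring

theorem sum_grad {κ : ℝ} (hκ : |κ| ≤ 1) {h : Fin 4 → ℝ} {w : Fin 14 → ℝ} {X r : ℝ} (hX : 1 ≤ X)
    (hr : 1 ≤ r) (hh : ∀ i, |h i| ≤ X ^ w4 i) (hw : ∀ q, |w q| ≤ r ^ w14 q) (q : Fin 14)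
    (L : List Tm) (hL : ∀ t ∈ L, t ∈ tms q) :
    |(L.map (Tm.ev κ h w)).sum| ≤
      (((L.map fun t => t.n.natAbs).sum : ℕ) : ℝ) * (X ^ 9 * r ^ (w14 q - 1)) := by
  induction L with
  | nil => simp
  | cons t L ih =>
    have h1 := ev_grad hκ hX hr hh hw (hL t (List.mem_cons_self))
    have h2 := ih fun s hs => hL s (List.mem_cons_of_mem _ hs)
    rw [List.map_cons, List.sum_cons, List.map_cons, List.sum_cons]
    have e : ((t.n.natAbs : ℕ) : ℝ) = |(t.n : ℝ)| := by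
      rw [Nat.cast_natAbs, Int.cast_abs]
    rw [Nat.cast_add, e, add_mul]
    exact (abs_add_le _ _).trans (add_le_add h1 h2)

/-- **a natural step moves the graded radius by `O(1)`** -/
theorem ball_step {κ : ℝ} (hκ : |κ| ≤ 1) {f0 f f' : FW} {r X δ : ℝ} (hr : 1 ≤ r) (hX : 1 ≤ X)
    (hδ : 0 ≤ δ) (h1 : ∀ k, |coW κ f0 f k| ≤ r ^ wtW k) (h2 : ∀ k, |coW κ f f' k| ≤ X ^ wtW k)
    (hs : 68 * X ^ 9 ≤ δ * r) : ∀ k, |coW κ f0 f' k| ≤ (r * (1 + δ)) ^ wtW k := by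
  have r0 : 0 < r := by linarith
  have X0 : 0 < X := by linarith
  -- it is enough to move by `68 X^9 r^(wt-1)`
  have key : ∀ (k : Fin 18) (x : ℝ), |x| ≤ r ^ wtW k + 68 * X ^ 9 * r ^ (wtW k - 1) →
      1 ≤ wtW k → |x| ≤ (r * (1 + δ)) ^ wtW k := by
    intro k x hx hk
    refine hx.trans ?_
    have e1 : r ^ wtW k = r ^ (wtW k - 1) * r := by
      rw [← pow_succ]; congr 1; omega
    have e2 : (r * (1 + δ)) ^ wtW k = r ^ wtW k * (1 + δ) ^ wtW k := mul_pow _ _ _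
    have e3 : 1 + δ ≤ (1 + δ) ^ wtW k := by
      have := pow_le_pow_right₀ (show (1 : ℝ) ≤ 1 + δ by linarith) hk
      rwa [pow_one] at this
    have p1 : 0 ≤ r ^ (wtW k - 1) := by positivity
    have p2 : 0 ≤ r ^ wtW k := by positivity
    calc r ^ wtW k + 68 * X ^ 9 * r ^ (wtW k - 1)
        ≤ r ^ wtW k + (δ * r) * r ^ (wtW k - 1) := by
          have := mul_le_mul_of_nonneg_right hs p1
          linarith
      _ = r ^ wtW k * (1 + δ) := by rw [e1]; ring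
      _ ≤ r ^ wtW k * (1 + δ) ^ wtW k := mul_le_mul_of_nonneg_left e3 p2
      _ = _ := e2.symm
  have hg : ∀ i : Fin 4, |rel κ f0.g f.g i| ≤ r ^ w4 i := by
    intro i
    have := h1 (Fin.castAdd 14 i)
    rwa [coW_left] at this
  have hh : ∀ i : Fin 4, |rel κ f.g f'.g i| ≤ X ^ w4 i := by
    intro i
    have := h2 (Fin.castAdd 14 i)
    rwa [coW_left] at this
  have hX9 : ∀ m : ℕ, m ≤ 9 → X ^ m ≤ X ^ 9 := fun m hm => pow_le_pow_right₀ hX hm
  have hXp : (1 : ℝ) ≤ X ^ 9 := one_le_pow₀ hX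
  intro k
  refine Fin.addCases (m := 4) (n := 14) (fun i => ?_) (fun q => ?_) k
  · -- frame slots
    refine key _ _ ?_ (by revert i; decide)
    rw [coW_left, ← rel_rel κ f0.g f.g f'.g]
    set g := rel κ f0.g f.g with hgd
    set h := rel κ f.g f'.g with hhd
    have g0 := hg 0
    have g1 := hg 1
    have g2 := hg 2
    have g3 := hg 3
    have h0 := hh 0
    have h1' := hh 1
    have h2' := hh 2
    have h3 := hh 3
    have w0 : w4 0 = 1 := by decide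
    have w1 : w4 1 = 1 := by decide
    have w2 : w4 2 = 2 := by decide
    have w3 : w4 3 = 3 := by decide
    rw [w0, pow_one] at g0 h0
    rw [w1, pow_one] at g1 h1'
    rw [w2] at g2 h2'
    rw [w3] at g3 h3
    have hXX : X ≤ X ^ 9 := by simpa using hX9 1 (by norm_num)
    have hX2 := hX9 2 (by norm_num)
    have hX3 := hX9 3 (by norm_num)
    have a10 : |g 1 * h 0| ≤ r * X := by
      rw [abs_mul]; exact mul_le_mul g1 h0 (abs_nonneg _) r0.le
    fin_cases i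
    · show |mul κ g h 0| ≤ r ^ (1 : ℕ) + 68 * X ^ 9 * r ^ (0 : ℕ)
      rw [mul0, pow_one, pow_zero, mul_one]
      have := abs_add_le (g 0) (h 0)
      linarith
    · show |mul κ g h 1| ≤ r ^ (1 : ℕ) + 68 * X ^ 9 * r ^ (0 : ℕ)
      rw [mul1, pow_one, pow_zero, mul_one]
      have := abs_add_le (g 1) (h 1)
      linarith
    · show |mul κ g h 2| ≤ r ^ (2 : ℕ) + 68 * X ^ 9 * r ^ (1 : ℕ)
      rw [mul2, pow_one]
      have t1 := abs_add_le (g 2 + h 2) (g 1 * h 0)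
      have t2 := abs_add_le (g 2) (h 2)
      have t3 : r * X ≤ X ^ 9 * r := by
        rw [mul_comm]; exact mul_le_mul_of_nonneg_right hXX r0.le
      have t4 : X ^ 2 ≤ X ^ 9 * r := by
        calc X ^ 2 ≤ X ^ 9 * 1 := by linarith
          _ ≤ _ := mul_le_mul_of_nonneg_left hr (by positivity)
      have t5 : 0 ≤ X ^ 9 * r := by positivity
      nlinarith
    · show |mul κ g h 3| ≤ r ^ (3 : ℕ) + 68 * X ^ 9 * r ^ (2 : ℕ)
      rw [mul3]
      have t1 := abs_sub (g 3 + h 3 - 2 * κ * g 1 * h 2) (κ * g 1 ^ 2 * h 0)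
      have t2 := abs_sub (g 3 + h 3) (2 * κ * g 1 * h 2)
      have t3 := abs_add_le (g 3) (h 3)
      have e1 : |2 * κ * g 1 * h 2| ≤ 2 * (r * X ^ 2) := by
        rw [abs_mul, abs_mul, abs_mul, abs_two]
        calc 2 * |κ| * |g 1| * |h 2| ≤ 2 * 1 * r * X ^ 2 := by
              refine mul_le_mul (mul_le_mul (by linarith) g1 (abs_nonneg _) (by norm_num)) h2'
                (abs_nonneg _) (by positivity)
          _ = _ := by ring
      have e2 : |κ * g 1 ^ 2 * h 0| ≤ r ^ 2 * X := by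
        rw [abs_mul, abs_mul, abs_pow]
        calc |κ| * |g 1| ^ 2 * |h 0| ≤ 1 * r ^ 2 * X := by
              refine mul_le_mul (mul_le_mul hκ (pow_le_pow_left₀ (abs_nonneg _) g1 2)
                (by positivity) zero_le_one) h0 (abs_nonneg _) (by positivity)
          _ = _ := by ring
      have hr2 : (1 : ℝ) ≤ r ^ 2 := one_le_pow₀ hr
      have hrr : r ≤ r ^ 2 := by nlinarith
      have t4 : X ^ 3 ≤ X ^ 9 * r ^ 2 := by
        calc X ^ 3 ≤ X ^ 9 * 1 := by linarith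
          _ ≤ _ := mul_le_mul_of_nonneg_left hr2 (by positivity)
      have t5 : r * X ^ 2 ≤ X ^ 9 * r ^ 2 := by
        calc r * X ^ 2 ≤ r ^ 2 * X ^ 9 := mul_le_mul hrr hX2 (by positivity) (by positivity)
          _ = _ := by ring
      have t6 : r ^ 2 * X ≤ X ^ 9 * r ^ 2 := by
        calc r ^ 2 * X ≤ r ^ 2 * X ^ 9 := mul_le_mul_of_nonneg_left hXX (by positivity)
          _ = _ := by ring
      have t7 : 0 ≤ X ^ 9 * r ^ 2 := by positivity
      nlinarith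
  · -- flag slots
    refine key _ _ ?_ (w14_pos q)
    have hw : ∀ q, |tr κ f.g (f.G - f0.G) q| ≤ r ^ w14 q := by
      intro q
      have := h1 (Fin.natAdd 4 q)
      rwa [coW_right] at this
    have hq := h2 (Fin.natAdd 4 q)
    rw [coW_right] at hq
    rw [coW_right, cocycle κ f0 f f', Pi.add_apply,
      tr_tms κ (rel κ f.g f'.g) (tr κ f.g (f.G - f0.G)) q]
    have hs := sum_grad hκ hX hr hh hw q (tms q) (fun _ h => h)
    have hn : ((((tms q).map fun t => t.n.natAbs).sum : ℕ) : ℝ) ≤ 67 := by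
      exact_mod_cast tms_sum q
    have p0 : 0 ≤ X ^ 9 * r ^ (w14 q - 1) := by positivity
    have hs2 : |((tms q).map (Tm.ev κ (rel κ f.g f'.g) (tr κ f.g (f.G - f0.G)))).sum| ≤
        67 * (X ^ 9 * r ^ (w14 q - 1)) := hs.trans (mul_le_mul_of_nonneg_right hn p0)
    have hXw : X ^ w14 q ≤ X ^ 9 * r ^ (w14 q - 1) := by
      calc X ^ w14 q ≤ X ^ 9 * 1 := by rw [mul_one]; exact hX9 _ (w14_le q)
        _ ≤ _ := mul_le_mul_of_nonneg_left (one_le_pow₀ hr) (by positivity)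
    have hqq : |tr κ f'.g (f'.G - f.G) q| ≤ X ^ w14 q := hq
    have t1 := abs_add_le (tr κ f'.g (f'.G - f.G) q)
      (tr κ f.g (f.G - f0.G) q + ((tms q).map (Tm.ev κ (rel κ f.g f'.g)
        (tr κ f.g (f.G - f0.G)))).sum)
    have t2 := abs_add_le (tr κ f.g (f.G - f0.G) q) (((tms q).map (Tm.ev κ (rel κ f.g f'.g)
        (tr κ f.g (f.G - f0.G)))).sum)
    have t3 := hw q
    show _ ≤ r ^ w14 q + 68 * X ^ 9 * r ^ (w14 q - 1)
    nlinarith

/-! ### the wrapper -/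

/-- the graded ball of radius `r` around `f0` -/
def InB (κ : ℝ) (f0 f : FW) (r : ℝ) : Prop := ∀ k, |coW κ f0 f k| ≤ r ^ wtW k

theorem InB.mono {κ : ℝ} {f0 f : FW} {r r' : ℝ} (h : InB κ f0 f r) (h0 : 0 ≤ r) (hr : r ≤ r') :
    InB κ f0 f r' := fun k => (h k).trans (pow_le_pow_left₀ h0 hr _)

theorem InB.self {κ : ℝ} {f0 : FW} {r : ℝ} (h0 : 0 ≤ r) : InB κ f0 f0 r := by
  intro k
  have e : coW κ f0 f0 k = 0 := by
    refine Fin.addCases (m := 4) (n := 14) (fun i => ?_) (fun q => ?_) k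
    · rw [coW_left]
      fin_cases i <;> simp [rel]
    · rw [coW_right, sub_self, tr_zero]; rfl
  rw [e, abs_zero]
  positivity

section wrap

variable {σ κ : Type*} {B : Base} {I : ℕ → Finset (ℕ × ℝ)} {G : Geo σ κ} {lev : ℕ → ℚ → ℕ}
    {A : ℕ → ℝ} {c Λ : ℝ → ℝ} {τ : κ → ℝ → ℝ} {f : ℕ → ℚ → ℕ → ℤ → ℕ} {b : ℕ → ℚ → ℕ → σ}
    {vm : ℕ → ℚ → ℝ} {w : κ → ℕ → ℚ → ℝ}

open Classical in
/-- **a graded ball carries the marks.**  `F` : flags of the incidences, `x0` : centre; the lines and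
the classes of the incidences of the ball of radius `2 d^-C1` have natural size `≤ d^-ε`. -/
theorem MkA.ball' (h : MkA B I G lev A c Λ τ f b vm w) {kp : ℕ → ℝ} (hkp : ∀ n, |kp n| ≤ 1)
    (F : ℕ → ℕ × ℝ → FW) (x0 : ℕ → ℕ × ℝ) (hx0 : ∀ᶠ n in (U : Filter ℕ), x0 n ∈ I n) {C1 : ℝ}
    (hC1 : 0 < C1)
    (hl : ∀ᶠ n in (U : Filter ℕ), ∀ x ∈ I n,
      InB (kp n) (F n (x0 n)) (F n x) (2 * B.d n ^ (-C1)) → ∀ y ∈ I n, y.1 = x.1 →
        ∀ k, |coW (kp n) (F n x) (F n y) k| ≤ B.d n ^ (-(C1 / 40)))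
    (hk : ∀ v : ℚ, 0 ≤ v → v ≤ 1 → ∀ᶠ n in (U : Filter ℕ), ∀ x ∈ I n,
      InB (kp n) (F n (x0 n)) (F n x) (2 * B.d n ^ (-C1)) → ∀ y ∈ I n,
        kc (lev n v) (f n v) y = kc (lev n v) (f n v) x →
          ∀ k, |coW (kp n) (F n x) (F n y) k| ≤ B.d n ^ (-(C1 / 40))) :
    ∃ I' : ℕ → Finset (ℕ × ℝ), (∀ n, I' n ⊆ I n) ∧ MkA B I' G lev A c Λ τ f b vm w ∧
      ∀ n, ∀ x ∈ I' n, InB (kp n) (F n (x0 n)) (F n x) (2 * B.d n ^ (-C1)) := by
  -- radii
  set J : ℕ → ℕ := fun n => 2 * ⌈Real.log ((I n).card : ℝ)⌉₊ + 2 with hJ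
  set R : ℕ → ℕ → ℝ := fun n j => B.d n ^ (-C1) * (1 + (j : ℝ) / J n) with hR
  set S : ℕ → ℕ → Finset (ℕ × ℝ) := fun n j =>
    (I n).filter fun x => InB (kp n) (F n (x0 n)) (F n x) (R n j) with hS
  have hJ0 : ∀ n, (0 : ℝ) < J n := fun n => by
    have : 0 < J n := by simp only [hJ]; omega
    exact_mod_cast this
  have hdp : ∀ n, 0 < B.d n ^ (-C1) := fun n => dpow_pos B n _
  have hcardJ : ∀ n, (S n (J n)).card < 2 ^ J n := by
    intro n
    refine lt_of_le_of_lt (card_le_card (filter_subset _ _)) ?_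
    rcases Nat.eq_zero_or_pos (I n).card with h0 | h0
    · rw [h0]; positivity
    · have h1 : Real.log ((I n).card : ℝ) ≤ (⌈Real.log ((I n).card : ℝ)⌉₊ : ℝ) := Nat.le_ceil _
      have h2 : ((I n).card : ℝ) ≤ Real.exp (⌈Real.log ((I n).card : ℝ)⌉₊ : ℝ) := by
        rw [← Real.log_le_iff_le_exp (by exact_mod_cast h0)]
        exact h1
      have h3 : Real.exp 1 < 4 := by
        have := Real.exp_one_lt_d9
        linarith
      have h4 : Real.exp (⌈Real.log ((I n).card : ℝ)⌉₊ : ℝ) ≤ (4 : ℝ) ^ ⌈Real.log ((I n).card : ℝ)⌉₊ := by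
        rw [← Real.exp_one_pow]
        exact pow_le_pow_left₀ (Real.exp_pos 1).le h3.le _
      have h5 : ((I n).card : ℝ) < (2 : ℝ) ^ J n := by
        refine lt_of_le_of_lt (h2.trans h4) ?_
        have e : (2 : ℝ) ^ J n = 4 ^ ⌈Real.log ((I n).card : ℝ)⌉₊ * 4 := by
          simp only [hJ]
          rw [pow_add, pow_mul]; norm_num
        rw [e]
        have : (0 : ℝ) < 4 ^ ⌈Real.log ((I n).card : ℝ)⌉₊ := by positivity
        linarith
      exact_mod_cast h5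
  have hex : ∀ n, ∃ j, j < J n ∧ ((S n 0).Nonempty → (S n (j + 1)).card ≤ 2 * (S n j).card) := by
    intro n
    by_cases h0 : (S n 0).Nonempty
    · obtain ⟨j, hj, hj2⟩ := exists_radius (S n) h0 (hcardJ n)
      exact ⟨j, hj, fun _ => hj2⟩
    · exact ⟨0, by simp only [hJ]; omega, fun h => absurd h h0⟩
  choose j hj hj2 using hex
  have hjR : ∀ n, (j n : ℝ) + 1 ≤ J n := fun n => by exact_mod_cast hj n
  have hR2 : ∀ n, R n (j n + 1) ≤ 2 * B.d n ^ (-C1) := by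
    intro n
    have h1 : (((j n + 1 : ℕ) : ℝ)) / J n ≤ 1 := by
      rw [div_le_one (hJ0 n)]; push_cast; exact hjR n
    have := hdp n
    simp only [hR]
    nlinarith
  have hR1 : ∀ n m, 0 ≤ R n m := fun n m => by
    have := hdp n; have := hJ0 n; simp only [hR]; positivity
  have hRm : ∀ n, R n (j n) ≤ R n (j n + 1) := by
    intro n
    simp only [hR]
    refine mul_le_mul_of_nonneg_left ?_ (hdp n).le
    have : (j n : ℝ) / J n ≤ ((j n + 1 : ℕ) : ℝ) / J n :=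
      div_le_div_of_nonneg_right (by push_cast; linarith) (hJ0 n).le
    linarith
  have hbig : ∀ n, ∀ x, x ∈ S n (j n) → x ∈ I n ∧
      InB (kp n) (F n (x0 n)) (F n x) (2 * B.d n ^ (-C1)) := by
    intro n x hx
    rw [hS, mem_filter] at hx
    exact ⟨hx.1, hx.2.mono (hR1 n _) ((hRm n).trans (hR2 n))⟩
  -- one step
  have step : ∀ᶠ n in (U : Filter ℕ), ∀ x ∈ S n (j n), ∀ y ∈ I n,
      (∀ k, |coW (kp n) (F n x) (F n y) k| ≤ B.d n ^ (-(C1 / 40))) → y ∈ S n (j n + 1) := by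
    have hc : 0 < C1 / 40 := by linarith
    filter_upwards [h.card (C1 / 4) (by linarith), Crest.Agent.R138.Ps926.dpow_small B (show 0 < C1 / 4 by linarith)
      (ε := 1 / 1000) (by norm_num)] with n hcard hsm x hx y hy hxy
    have hd1 : ∀ a : ℝ, 0 ≤ a → 1 ≤ B.d n ^ (-a) := fun a ha => by
      have := dpow_le B n (show -a ≤ (0 : ℝ) by linarith)
      rwa [Real.rpow_zero] at this
    have hx' := hx
    rw [hS, mem_filter] at hx'
    rw [hS, mem_filter]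
    refine ⟨hy, ?_⟩
    have hr1 : 1 ≤ R n (j n) := by
      have h1 := hd1 C1 hC1.le
      have h2 : 0 ≤ (j n : ℝ) / J n := by have := hJ0 n; positivity
      simp only [hR]
      nlinarith
    set δ : ℝ := B.d n ^ (-C1) / J n / R n (j n) with hδ
    have hδ0 : 0 ≤ δ := by have := hdp n; have := hJ0 n; positivity
    have hRpos : 0 < R n (j n) := by linarith
    have e1 : R n (j n) * (1 + δ) = R n (j n + 1) := by
      have e2 : R n (j n) * δ = B.d n ^ (-C1) / J n := by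
        rw [hδ, mul_div_cancel₀ _ hRpos.ne']
      rw [mul_add, mul_one, e2]
      simp only [hR]
      push_cast
      have := (hJ0 n).ne'
      field_simp
      ring
    have hJb : (J n : ℝ) ≤ 8 * B.d n ^ (-(C1 / 4)) := by
      have h1 : (⌈Real.log ((I n).card : ℝ)⌉₊ : ℝ) < Real.log ((I n).card : ℝ) + 1 :=
        Nat.ceil_lt_add_one (Real.log_natCast_nonneg _)
      have h2 := hd1 (C1 / 4) (by linarith)
      simp only [hJ]
      push_cast
      linarith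
    have hs : 68 * (B.d n ^ (-(C1 / 40))) ^ 9 ≤ δ * R n (j n) := by
      have e2 : δ * R n (j n) = B.d n ^ (-C1) / J n := by
        rw [hδ, div_mul_cancel₀ _ hRpos.ne']
      rw [e2, le_div_iff₀ (hJ0 n)]
      have e3 : (B.d n ^ (-(C1 / 40))) ^ 9 = B.d n ^ (-(9 * (C1 / 40))) := by
        rw [← Real.rpow_natCast, ← Real.rpow_mul (B.pos n).le]; congr 1; push_cast; ring
      have p1 := dpow_pos B n (-(9 * (C1 / 40)))
      have p2 := dpow_pos B n (-(C1 / 4))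
      have p3 := dpow_pos B n (C1 / 4)
      have e4 : B.d n ^ (-(9 * (C1 / 40))) ≤ B.d n ^ (-(C1 / 4)) := dpow_le B n (by linarith)
      have e5 : B.d n ^ (-(C1 / 4)) * B.d n ^ (-(C1 / 4)) = B.d n ^ (-C1) * (B.d n ^ (C1 / 4) * B.d n ^ (C1 / 4)) := by
        rw [← dpow_add, ← dpow_add, ← dpow_add]; congr 1; ring
      rw [e3]
      calc 68 * B.d n ^ (-(9 * (C1 / 40))) * (J n : ℝ)
          ≤ 68 * B.d n ^ (-(C1 / 4)) * (8 * B.d n ^ (-(C1 / 4))) :=
            mul_le_mul (by linarith) hJb (hJ0 n).le (by positivity)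
        _ = 544 * (B.d n ^ (-(C1 / 4)) * B.d n ^ (-(C1 / 4))) := by ring
        _ = B.d n ^ (-C1) * (544 * B.d n ^ (C1 / 4) * B.d n ^ (C1 / 4)) := by rw [e5]; ring
        _ ≤ B.d n ^ (-C1) * 1 := by
            refine mul_le_mul_of_nonneg_left ?_ (hdp n).le
            nlinarith
        _ = _ := mul_one _
    have hX : 1 ≤ B.d n ^ (-(C1 / 40)) := hd1 _ (by linarith)
    have h2 : ∀ k, |coW (kp n) (F n x) (F n y) k| ≤ (B.d n ^ (-(C1 / 40))) ^ wtW k := by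
      intro k
      refine (hxy k).trans ?_
      have hk1 : 1 ≤ wtW k := by revert k; decide
      have := pow_le_pow_right₀ hX hk1
      rwa [pow_one] at this
    have := ball_step (hkp n) hr1 hX hδ0 hx'.2 h2 hs
    rw [e1] at this
    exact this
  obtain ⟨I', hI', hden, hM⟩ := sub_ball h (In := fun n => S n (j n))
    (Out := fun n => S n (j n) ∪ S n (j n + 1))
    (fun n => subset_union_left)
    (fun n => union_subset (filter_subset _ _) (filter_subset _ _))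
    (by
      filter_upwards [hx0] with n hn
      refine ⟨x0 n, ?_⟩
      rw [hS, mem_filter]
      exact ⟨hn, InB.self (hR1 n _)⟩)
    (by
      filter_upwards [hx0] with n hn
      have hsub : S n (j n) ⊆ S n (j n + 1) := by
        intro x hx
        rw [hS, mem_filter] at hx ⊢
        exact ⟨hx.1, hx.2.mono (hR1 n _) (hRm n)⟩
      have h0 : (S n 0).Nonempty := by
        refine ⟨x0 n, ?_⟩
        rw [hS, mem_filter]
        exact ⟨hn, InB.self (hR1 n _)⟩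
      show (S n (j n) ∪ S n (j n + 1)).card ≤ 2 * (S n (j n)).card
      rw [union_eq_right.2 hsub]
      exact hj2 n h0)
    (by
      filter_upwards [step, hl] with n h1 h2 x hx y hy hxy
      obtain ⟨hxI, hxB⟩ := hbig n x hx
      exact mem_union_right _ (h1 x hx y hy (h2 x hxI hxB y hy hxy)))
    (by
      intro v hv0 hv1
      filter_upwards [step, hk v hv0 hv1] with n h1 h2 x hx y hy hxy
      obtain ⟨hxI, hxB⟩ := hbig n x hx
      exact mem_union_right _ (h1 x hx y hy (h2 x hxI hxB y hy hxy)))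
  refine ⟨I', fun n x hx => (hbig n x (hI' n hx)).1, hM, fun n x hx => (hbig n x (hI' n hx)).2⟩


end wrap

end Crest.Agent.R136.Bal768
end

-- ▼ part R136/Ste1_650
section

/-!
# R136, U6 thin side, stage C (helper650): the assembly, finite part

* `inB_bd` : a flag in a graded ball is bounded;
* `nrm_bd` : a line near the quadric with bounded `A`, `B`, `v 1` is bounded (`Y`, `v 2`, `v 0`);
* `hat_bd` : back to container coordinates;
* `dr_le` : drift of the line;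
* `step_k` : two incidences with lines close in the sense of a common mark have bounded natural size.
-/

set_option autoImplicit false
set_option linter.unusedVariables false

namespace Crest.Agent.R136.Ste650

open Crest.Agent.R136.Sh605
open Crest.Agent.R136.Net191
open Crest.Agent.R136.NetW191
open Crest.Agent.R136.GeoN778
open Crest.Agent.R136.Wit321
open Crest.Agent.R136.FlW464 (frW drW rel_fr tr_size1)
open Crest.Agent.R136.Fw650 (quad_coef evY_bd iv_bd)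
open Crest.Agent.R136.Tn327 (CloseW slots_of_close' unW_right)
open Crest.Agent.R136.PrW464 (unW wz wc wn)
open Crest.Agent.R136.Bal768 (InB)
open Crest.Agent.R136.PqG464 (wtW)

/-- **a flag in a graded ball is bounded** -/
theorem inB_bd {κ : ℝ} (hκ : |κ| ≤ 1) {f0 f : FW} {Γ r : ℝ} (hΓ : 1 ≤ Γ) (hr : 1 ≤ r)
    (hg : ∀ i, |f0.g i| ≤ Γ) (hG : ∀ k, |f0.G k| ≤ Γ) (h : InB κ f0 f r) :
    (∀ i, |f.g i| ≤ 5 * (Γ * r) ^ 3) ∧ ∀ k, |f.G k| ≤ 10 ^ 24 * (Γ * r) ^ 63 := by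
  have hh : ∀ i : Fin 4, |rel κ f0.g f.g i| ≤ r ^ wtW (Fin.castAdd 14 i) := by
    intro i
    have := h (Fin.castAdd 14 i)
    rwa [coW_left] at this
  have h0 : |rel κ f0.g f.g 0| ≤ r ^ 1 := hh 0
  have h1 : |rel κ f0.g f.g 1| ≤ r ^ 1 := hh 1
  have h2 : |rel κ f0.g f.g 2| ≤ r ^ 2 := hh 2
  have h3 : |rel κ f0.g f.g 3| ≤ r ^ 3 := hh 3
  rw [pow_one] at h0 h1
  set l := rel κ f0.g f.g with hl
  have e : mul κ f0.g l = f.g := mul_rel κ f0.g f.g
  have r0 : 0 ≤ r := by linarith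
  have G0 : 0 ≤ Γ := by linarith
  have X1 : 1 ≤ Γ * r := one_le_mul_of_one_le_of_one_le hΓ hr
  have gX : Γ ≤ Γ * r := le_mul_of_one_le_right G0 hr
  have rX : r ≤ Γ * r := le_mul_of_one_le_left r0 hΓ
  set X := Γ * r with hX
  have X0 : 0 ≤ X := by linarith
  have p2 : X ≤ X ^ 2 := by nlinarith
  have p3 : X ^ 2 ≤ X ^ 3 := pow_le_pow_right₀ X1 (by norm_num)
  have r2 : r ^ 2 ≤ X ^ 2 := pow_le_pow_left₀ r0 rX 2
  have r3 : r ^ 3 ≤ X ^ 3 := pow_le_pow_left₀ r0 rX 3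
  have b : ∀ i, |f0.g i| ≤ X := fun i => (hg i).trans gX
  have l0 := h0.trans rX
  have l1 := h1.trans rX
  have l2 := h2.trans r2
  have l3 := h3.trans r3
  have gg : ∀ i, |f.g i| ≤ 5 * X ^ 3 := by
    intro i
    rw [← e]
    fin_cases i
    · show |mul κ f0.g l 0| ≤ _
      rw [mul0]
      have := abs_add_le (f0.g 0) (l 0)
      have := b 0
      linarith
    · show |mul κ f0.g l 1| ≤ _
      rw [mul1]
      have := abs_add_le (f0.g 1) (l 1)
      have := b 1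
      linarith
    · show |mul κ f0.g l 2| ≤ _
      rw [mul2]
      have m : |f0.g 1 * l 0| ≤ X ^ 2 := by
        rw [abs_mul, sq]; exact mul_le_mul (b 1) l0 (abs_nonneg _) X0
      have := abs_add_le (f0.g 2 + l 2) (f0.g 1 * l 0)
      have := abs_add_le (f0.g 2) (l 2)
      have := b 2
      linarith
    · show |mul κ f0.g l 3| ≤ _
      rw [mul3]
      have m1 : |2 * κ * f0.g 1 * l 2| ≤ 2 * X ^ 3 := by
        have e1 : 2 * κ * f0.g 1 * l 2 = 2 * (κ * (f0.g 1 * l 2)) := by ring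
        have m : |f0.g 1 * l 2| ≤ X ^ 3 := by
          rw [abs_mul, pow_succ']; exact mul_le_mul (b 1) l2 (abs_nonneg _) X0
        rw [e1, abs_mul, abs_two, abs_mul]
        have := mul_le_mul hκ m (abs_nonneg _) zero_le_one
        linarith
      have m2 : |κ * f0.g 1 ^ 2 * l 0| ≤ X ^ 3 := by
        have e1 : κ * f0.g 1 ^ 2 * l 0 = κ * (f0.g 1 ^ 2 * l 0) := by ring
        have m : |f0.g 1 ^ 2 * l 0| ≤ X ^ 3 := by
          rw [abs_mul, abs_pow, pow_succ X 2]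
          exact mul_le_mul (pow_le_pow_left₀ (abs_nonneg _) (b 1) 2) l0 (abs_nonneg _)
            (by positivity)
        rw [e1, abs_mul]
        have := mul_le_mul hκ m (abs_nonneg _) zero_le_one
        linarith
      have t1 := abs_sub (f0.g 3 + l 3 - 2 * κ * f0.g 1 * l 2) (κ * f0.g 1 ^ 2 * l 0)
      have t2 := abs_sub (f0.g 3 + l 3) (2 * κ * f0.g 1 * l 2)
      have t3 := abs_add_le (f0.g 3) (l 3)
      have := b 3
      linarith
  refine ⟨gg, ?_⟩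
  have K1 : 1 ≤ 5 * X ^ 3 := by
    have := one_le_pow₀ X1 (n := 3)
    linarith
  have hiv : ∀ i, |iv κ f.g i| ≤ 1000 * X ^ 9 := fun i =>
    (iv_bd hκ K1 gg i).trans (le_of_eq (by ring))
  have hf : ∀ q, |tr κ f.g (f.G - f0.G) q| ≤ 1000 * X ^ 9 := by
    intro q
    have h1 := h (Fin.natAdd 4 q)
    rw [coW_right] at h1
    refine h1.trans ?_
    have w9 : wtW (Fin.natAdd 4 q) ≤ 9 := Bal768.w14_le q
    have a1 : r ^ wtW (Fin.natAdd 4 q) ≤ r ^ 9 := pow_le_pow_right₀ hr w9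
    have a2 : r ^ 9 ≤ X ^ 9 := pow_le_pow_left₀ r0 rX 9
    have a3 : 0 ≤ X ^ 9 := by positivity
    linarith
  have K2 : 1 ≤ 1000 * X ^ 9 := by
    have := one_le_pow₀ X1 (n := 9)
    linarith
  intro k
  have hs := tr_size1 hκ K2 hiv hf k
  rw [iv_tr, Pi.sub_apply] at hs
  have e2 : f.G k = f0.G k + (f.G k - f0.G k) := by ring
  rw [e2]
  refine (abs_add_le _ _).trans ?_
  have e3 : 470 * (1000 * X ^ 9) ^ 7 = 470 * 10 ^ 21 * X ^ 63 := by ring
  rw [e3] at hs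
  have e4 : X ≤ X ^ 63 := by
    calc X = X ^ 1 := (pow_one _).symm
      _ ≤ X ^ 63 := pow_le_pow_right₀ X1 (by norm_num)
  have := (hG k).trans (gX.trans e4)
  have q0 : 0 ≤ X ^ 63 := by positivity
  have q1 : X ^ 63 + 470 * 10 ^ 21 * X ^ 63 ≤ 10 ^ 24 * X ^ 63 := by
    have : X ^ 63 + 470 * 10 ^ 21 * X ^ 63 = (1 + 470 * 10 ^ 21) * X ^ 63 := by ring
    rw [this]
    exact mul_le_mul_of_nonneg_right (by norm_num) q0
  linarith

/-- the height polynomial along a line -/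
theorem ht_line (κ : ℝ) (L : Ln4) (z : ℝ) : ht κ z (L.pos z 1) (L.pos z 2) (L.pos z 0) =
    (L.p 0 - κ * L.p 1 ^ 2) + (L.v 0 - L.p 2 - 2 * κ * L.p 1 * L.v 1) * z +
      (-drW κ L) * z ^ 2 := by
  simp only [ht, drW, Ln4.pos]
  ring

theorem ht_coef {κ m zl : ℝ} {L : Ln4} (hz : |zl| ≤ 1)
    (h : ∀ z, zl ≤ z → z ≤ zl + 1 / 2 → |ht κ z (L.pos z 1) (L.pos z 2) (L.pos z 0)| ≤ m) :
    |drW κ L| ≤ 32 * m ∧ |L.v 0 - L.p 2 - 2 * κ * L.p 1 * L.v 1| ≤ 160 * m ∧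
      |L.p 0 - κ * L.p 1 ^ 2| ≤ 196 * m := by
  have := quad_coef (r0 := L.p 0 - κ * L.p 1 ^ 2)
    (r1 := L.v 0 - L.p 2 - 2 * κ * L.p 1 * L.v 1) (r2 := -drW κ L) (z0 := zl) (ρ := 1 / 2)
    (m := m) (R := 1) (by norm_num) hz le_rfl (by norm_num) (fun z h1 h2 => by
      have := h z h1 h2
      rwa [ht_line] at this)
  obtain ⟨a, b, c⟩ := this
  rw [abs_neg] at a
  refine ⟨a.trans (le_of_eq (by ring)), b.trans (le_of_eq (by ring)), c.trans (le_of_eq (by ring))⟩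

/-- bound of the height polynomial of a line in a sheet -/
theorem ht_le {κ σ Γ R A zl : ℝ} {L : Ln4} {M : Fin 14 → ℝ} (hσ : 0 ≤ σ) (hz : |zl| ≤ 1)
    (hR : 1 ≤ R) (hp : ∀ k, |L.p k| ≤ R) (hv : ∀ k, |L.v k| ≤ R) (hM : ∀ k, |M k| ≤ Γ)
    (h : ∀ z, zl ≤ z → z ≤ zl + 1 / 2 →
      |ht κ z (L.pos z 1) (L.pos z 2) (L.pos z 0) -
        σ * evY M z (L.pos z 1) (L.pos z 2) (L.pos z 0)| ≤ σ * A) (z : ℝ) (h1 : zl ≤ z)
    (h2 : z ≤ zl + 1 / 2) :
    |ht κ z (L.pos z 1) (L.pos z 2) (L.pos z 0)| ≤ σ * (126 * (Γ * R ^ 2) + A) := by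
  have hz2 : |z| ≤ 2 := by
    rw [abs_le] at hz ⊢
    constructor <;> linarith
  have hx : ∀ k, |L.pos z k| ≤ 3 * R := by
    intro k
    show |L.p k + z * L.v k| ≤ _
    refine (abs_add_le _ _).trans ?_
    rw [abs_mul]
    have := mul_le_mul hz2 (hv k) (abs_nonneg _) (by norm_num)
    have := hp k
    linarith
  have he := evY_bd (w := M) (W := Γ) (X := 3 * R) (by linarith) hM (hz2.trans (by linarith))
    (hx 1) (hx 2) (hx 0)
  have hh := h z h1 h2
  have e : ht κ z (L.pos z 1) (L.pos z 2) (L.pos z 0) =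
      (ht κ z (L.pos z 1) (L.pos z 2) (L.pos z 0) -
        σ * evY M z (L.pos z 1) (L.pos z 2) (L.pos z 0)) +
      σ * evY M z (L.pos z 1) (L.pos z 2) (L.pos z 0) := by ring
  rw [e]
  refine (abs_add_le _ _).trans ?_
  rw [abs_mul σ, abs_of_nonneg hσ]
  have := mul_le_mul_of_nonneg_left he hσ
  have e2 : 14 * Γ * (3 * R) ^ 2 = 126 * (Γ * R ^ 2) := by ring
  rw [e2] at this
  linarith

/-- **a line near the quadric with bounded `A`, `B`, `v 1` is bounded** -/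
theorem nrm_bd {κ zl z1 Γ : ℝ} {L : Ln4} (hκ : |κ| ≤ 1) (hΓ : 1 ≤ Γ) (hz : |zl| ≤ 1)
    (hz1 : |z1| ≤ 1) (h : ∀ z, zl ≤ z → z ≤ zl + 1 / 2 →
      |ht κ z (L.pos z 1) (L.pos z 2) (L.pos z 0)| ≤ 1)
    (v1 : |L.v 1| ≤ Γ) (a1 : |L.pos z1 1| ≤ Γ) (b1 : |L.pos z1 2| ≤ Γ) :
    (∀ k, |L.p k| ≤ 400 * Γ ^ 2) ∧ ∀ k, |L.v k| ≤ 400 * Γ ^ 2 := by
  obtain ⟨c2, c1, c0⟩ := ht_coef hz h
  have G2 : Γ ≤ Γ ^ 2 := by nlinarith
  have G0 : 0 ≤ Γ := by linarith
  have one : 1 ≤ Γ ^ 2 := by linarith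
  -- slope and position of `A`
  have hp1 : |L.p 1| ≤ 2 * Γ := by
    have e : L.p 1 = L.pos z1 1 - z1 * L.v 1 := by simp only [Ln4.pos]; ring
    rw [e]
    refine (abs_sub _ _).trans ?_
    rw [abs_mul]
    have := mul_le_mul hz1 v1 (abs_nonneg _) zero_le_one
    linarith
  have kv : |κ * L.v 1 ^ 2| ≤ Γ ^ 2 := by
    rw [abs_mul, abs_pow]
    have := mul_le_mul hκ (pow_le_pow_left₀ (abs_nonneg _) v1 2) (by positivity) zero_le_one
    linarith
  have hv2 : |L.v 2| ≤ 33 * Γ ^ 2 := by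
    have e : L.v 2 = drW κ L - κ * L.v 1 ^ 2 := by simp only [drW]; ring
    rw [e]
    refine (abs_sub _ _).trans ?_
    linarith
  have hp2 : |L.p 2| ≤ 34 * Γ ^ 2 := by
    have e : L.p 2 = L.pos z1 2 - z1 * L.v 2 := by simp only [Ln4.pos]; ring
    rw [e]
    refine (abs_sub _ _).trans ?_
    rw [abs_mul]
    have := mul_le_mul hz1 hv2 (abs_nonneg _) zero_le_one
    linarith
  have kpv : |κ * (L.p 1 * L.v 1)| ≤ 2 * Γ ^ 2 := by
    have m : |L.p 1 * L.v 1| ≤ 2 * Γ ^ 2 := by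
      rw [abs_mul]
      calc |L.p 1| * |L.v 1| ≤ 2 * Γ * Γ := mul_le_mul hp1 v1 (abs_nonneg _) (by positivity)
        _ = _ := by ring
    rw [abs_mul]
    have := mul_le_mul hκ m (abs_nonneg _) zero_le_one
    linarith
  have kpp : |κ * L.p 1 ^ 2| ≤ 4 * Γ ^ 2 := by
    rw [abs_mul, abs_pow]
    have := mul_le_mul hκ (pow_le_pow_left₀ (abs_nonneg _) hp1 2) (by positivity) zero_le_one
    nlinarith
  have hv0 : |L.v 0| ≤ 198 * Γ ^ 2 := by
    have e : L.v 0 = (L.v 0 - L.p 2 - 2 * κ * L.p 1 * L.v 1) + L.p 2 +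
        2 * (κ * (L.p 1 * L.v 1)) := by ring
    rw [e]
    refine (abs_add_le _ _).trans ?_
    have t := abs_add_le (L.v 0 - L.p 2 - 2 * κ * L.p 1 * L.v 1) (L.p 2)
    rw [abs_mul 2, abs_two]
    linarith
  have hp0 : |L.p 0| ≤ 200 * Γ ^ 2 := by
    have e : L.p 0 = (L.p 0 - κ * L.p 1 ^ 2) + κ * L.p 1 ^ 2 := by ring
    rw [e]
    refine (abs_add_le _ _).trans ?_
    linarith
  constructor
  · intro k
    fin_cases k
    · exact hp0.trans (by linarith)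
    · exact hp1.trans (by linarith)
    · exact hp2.trans (by linarith)
  · intro k
    fin_cases k
    · exact hv0.trans (by linarith)
    · exact v1.trans (by linarith)
    · exact hv2.trans (by linarith)

/-- container coordinates against normal coordinates -/
theorem hat_bd {P : Pj} {η R : ℝ} {t : Ln4} (h : P.Sm η) (hR : 1 ≤ R)
    (hη : 40 * (η * R ^ 2) ≤ 1) (hp : ∀ k, |t.p k| ≤ R) (hv : ∀ k, |t.v k| ≤ R) :
    (∀ k, |(P.line t).p k - t.p k| ≤ 1) ∧ ∀ k, |(P.line t).v k - t.v k| ≤ 1 := by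
  have hn := h.nn
  have h20 : 20 * (η * R) ≤ 1 := by
    have : η * R ≤ η * R ^ 2 := mul_le_mul_of_nonneg_left (by nlinarith) hn
    have := mul_nonneg hn (by linarith : (0:ℝ) ≤ R)
    linarith
  exact ⟨fun k => (Pj.line_p h hp hv hR h20 k).trans hη, fun k => (Pj.line_v h hp hv hR h20 k).trans hη⟩

/-- sizes of the slots -/
theorem unW_bd {uz uc D X : ℝ} (hX : 1 ≤ X) (hz : 0 < uz) (hc : 0 < uc) (hz' : 1 / uz ≤ X)
    (hc' : 1 / uc ≤ X) (hD : D ≤ X) (k : Fin 14) : unW uz uc D (Fin.natAdd 4 k) ≤ X ^ 9 := by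
  have X0 : 0 ≤ X := by linarith
  have key : ∀ {u : ℝ}, 0 < u → 1 / u ≤ X → ∀ m : ℤ, -4 ≤ m → m ≤ 0 → u ^ m ≤ X ^ 4 := by
    intro u hu hu' m h1 h2
    obtain ⟨j, hj⟩ := Int.exists_eq_neg_ofNat h2
    have hj4 : j ≤ 4 := by omega
    rw [hj, zpow_neg, zpow_natCast, ← inv_pow, ← one_div]
    exact (pow_le_pow_left₀ (by positivity) hu' j).trans (pow_le_pow_right₀ hX hj4)
  have a1 : -4 ≤ wz (Fin.natAdd 4 k) ∧ wz (Fin.natAdd 4 k) ≤ 0 := by revert k; decide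
  have a2 : -4 ≤ wc (Fin.natAdd 4 k) ∧ wc (Fin.natAdd 4 k) ≤ 0 := by revert k; decide
  unfold unW
  rw [Tn327.wn_right, zpow_one]
  have b1 := key hz hz' _ a1.1 a1.2
  have b2 := key hc hc' _ a2.1 a2.2
  have p1 : 0 < uz ^ wz (Fin.natAdd 4 k) := zpow_pos hz _
  have p2 : 0 < uc ^ wc (Fin.natAdd 4 k) := zpow_pos hc _
  calc uz ^ wz (Fin.natAdd 4 k) * uc ^ wc (Fin.natAdd 4 k) * D
      ≤ uz ^ wz (Fin.natAdd 4 k) * uc ^ wc (Fin.natAdd 4 k) * X :=
        mul_le_mul_of_nonneg_left hD (by positivity)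
    _ ≤ X ^ 4 * X ^ 4 * X := mul_le_mul_of_nonneg_right (mul_le_mul b1 b2 p2.le (by positivity)) X0
    _ = _ := by ring

/-- flags of two incidences of a class of marks -/
theorem step_k {κ : ℝ} (hκ : |κ| ≤ 1) {Lx Ly : Ln4} {zx zy zm zn r α D X : ℝ} (hX : 6 ≤ X)
    (hr : 0 < r) (hα : 0 < α) (hr' : 1 / r ≤ X) (hc' : 1 / (α / r) ≤ X) (hD : D ≤ X)
    {M Gx Gy : Fin 14 → ℝ} (hrel : ∀ i, |rel κ (frW Lx zx) (frW Ly zy) i| ≤ X)
    (cx : CloseW κ (frW Lx zm) r α (α ^ 2 / r) D M Gx)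
    (cy : CloseW κ (frW Ly zn) r α (α ^ 2 / r) D M Gy)
    (hzx : |zx - zm| ≤ X * r) (hzy : |zy - zn| ≤ X * r)
    (hdx : |drW κ Lx * (zx - zm)| ≤ X * (α ^ 2 / r))
    (hdy : |drW κ Ly * (zy - zn)| ≤ X * (α ^ 2 / r)) (k : Fin 14) :
    |tr κ (frW Ly zy) (Gy - Gx) k| ≤ 10 ^ 22 * X ^ 112 := by
  have X1 : 1 ≤ X := by linarith
  have sx : ∀ q, |tr κ (frW Lx zx) (M - Gx) q| ≤ 470 * X ^ 16 := fun q => by
    refine (slots_of_close' hκ Lx hr hα hX cx hzx hdx q).trans ?_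
    have := unW_bd X1 hr (div_pos hα hr) hr' hc' hD q
    calc 470 * X ^ 7 * unW r (α / r) D (Fin.natAdd 4 q) ≤ 470 * X ^ 7 * X ^ 9 :=
          mul_le_mul_of_nonneg_left this (by positivity)
      _ = _ := by ring
  have sy : ∀ q, |tr κ (frW Ly zy) (M - Gy) q| ≤ 470 * X ^ 16 := fun q => by
    refine (slots_of_close' hκ Ly hr hα hX cy hzy hdy q).trans ?_
    have := unW_bd X1 hr (div_pos hα hr) hr' hc' hD q
    calc 470 * X ^ 7 * unW r (α / r) D (Fin.natAdd 4 q) ≤ 470 * X ^ 7 * X ^ 9 :=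
          mul_le_mul_of_nonneg_left this (by positivity)
      _ = _ := by ring
  have e1 : Gy - Gx = (M - Gx) - (M - Gy) := by
    funext q; simp only [Pi.sub_apply]; ring
  have e2 : tr κ (frW Ly zy) (M - Gx) =
      tr κ (rel κ (frW Lx zx) (frW Ly zy)) (tr κ (frW Lx zx) (M - Gx)) := tr_rel κ _ _ _
  rw [e1, tr_sub, Pi.sub_apply, e2]
  have K1 : 1 ≤ 470 * X ^ 16 := by
    have := one_le_pow₀ X1 (n := 16)
    linarith
  have XK : X ≤ 470 * X ^ 16 := by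
    have h1 : X ≤ X ^ 16 := by
      calc X = X ^ 1 := (pow_one _).symm
        _ ≤ X ^ 16 := pow_le_pow_right₀ X1 (by norm_num)
    have : 0 ≤ X ^ 16 := by positivity
    linarith
  have s1 := tr_size1 hκ K1 (fun i => (hrel i).trans XK) sx k
  refine (abs_sub _ _).trans ?_
  have s2 := sy k
  have e3 : 470 * (470 * X ^ 16) ^ 7 = (470 : ℝ) ^ 8 * X ^ 112 := by ring
  rw [e3] at s1
  have q1 : X ^ 16 ≤ X ^ 112 := pow_le_pow_right₀ X1 (by norm_num)
  have q0 : 0 ≤ X ^ 112 := by positivity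
  have q2 : (470 : ℝ) ^ 8 * X ^ 112 + 470 * X ^ 112 ≤ 10 ^ 22 * X ^ 112 := by
    rw [← add_mul]
    exact mul_le_mul_of_nonneg_right (by norm_num) q0
  linarith

end Crest.Agent.R136.Ste650
end

-- ▼ part R136/Ste2_650
section

/-!
# R136, U6 thin side, stage C (helper650): the assembly, elementary consequences of `StcA`

* `exists_diag` : a slowly growing parameter;
* `gd_mono`, `geo`, `lin_bd`, `lin_aS`; `nrm` : normal coordinates of good lines are bounded;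
* `drift` : the drift of good lines is infinitely small; `slope` : slopes of two lines of a class;
* `rel_two`, `rel_bd` : frames of two incidences of a class.
-/

set_option autoImplicit false
set_option linter.unusedVariables false

open Finset Filter Topology

namespace Crest.Agent.R136.Ste650

open Crest.Agent.R138.Ex926 (Base U)
open Crest.Agent.R138.Mk163 (zc zl rho)
open Crest.Agent.R138.MkRef627 (lc kc)
open Crest.Agent.R138.Dp76 (dpow_pos dpow_add dpow_le dpow_le_one)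
open Crest.Agent.R138.ArgM163 (ev_const ev_const_mul)
open Crest.Agent.R136.ArgA163 (rho_pos tau_zero)
open Crest.Agent.R136.Sh605
open Crest.Agent.R136.MkA627
open Crest.Agent.R136.NetW191
open Crest.Agent.R136.GeoN778
open Crest.Agent.R136.Wit321
open Crest.Agent.R136.Stc321
open Crest.Agent.R136.Top484
open Crest.Agent.R136.Tlt51 (mk4 zx rh)
open Crest.Agent.R136.FlW464 (frW drW)
open Crest.Agent.R136.Fw650 (z0N zhN rhN cellN)
open Crest.Agent.R136.GW650 (Lin lin_wid lin_rho)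
open Crest.Agent.R136.Tn327 (lin_two zmN abs_zh_zm)
open Crest.Agent.R136.Thn768 (ThinW)

/-- **a slowly growing parameter** -/
theorem exists_diag {P : ℕ → ℕ → Prop} (h : ∀ m, ∀ᶠ n in (U : Filter ℕ), P m n) :
    ∃ N : ℕ → ℕ, (∀ᶠ n in (U : Filter ℕ), P (N n) n) ∧
      ∀ m, ∀ᶠ n in (U : Filter ℕ), m ≤ N n := by
  classical
  refine ⟨fun n => Nat.findGreatest (fun m => P m n) n, ?_, fun m => ?_⟩
  · filter_upwards [h 0] with n hn
    exact Nat.findGreatest_spec (P := fun m => P m n) (Nat.zero_le n) hn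
  · have hU : ∀ᶠ n in (U : Filter ℕ), m ≤ n :=
      (Nat.hyperfilter_le_atTop : (U : Filter ℕ) ≤ atTop) (eventually_ge_atTop m)
    filter_upwards [h m, hU] with n hn hm
    exact Nat.le_findGreatest (P := fun m => P m n) hm hn

/-- two-sided power bounds, uniform in the level -/
theorem lin_bd {B : Base} {x : ℕ → ℚ → ℝ} {β C : ℝ} (h : Lin B x β)
    (h0 : ∀ᶠ n in (U : Filter ℕ), B.d n ^ C ≤ x n 0 ∧ x n 0 ≤ B.d n ^ (-C)) :
    ∀ v : ℚ, 0 ≤ v → v ≤ 1 → ∀ᶠ n in (U : Filter ℕ),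
      B.d n ^ (|C| + |β| + 1) ≤ x n v ∧ x n v ≤ B.d n ^ (-(|C| + |β| + 1)) := by
  intro v v0 v1
  have v0' : (0 : ℝ) ≤ v := by exact_mod_cast v0
  have v1' : (v : ℝ) ≤ 1 := by exact_mod_cast v1
  filter_upwards [lin_two h le_rfl zero_le_one v0 v1 one_pos, h0] with n h1 h2
  obtain ⟨-, -, a1, a2⟩ := h1
  have dp := dpow_pos B n
  have hβ : |β * ((v : ℝ) - (0 : ℚ))| ≤ |β| := by
    rw [abs_mul]
    refine mul_le_of_le_one_right (abs_nonneg _) ?_
    push_cast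
    rw [sub_zero, abs_of_nonneg v0']
    exact v1'
  obtain ⟨b1, b2⟩ := abs_le.1 hβ
  obtain ⟨c1, c2⟩ := abs_le.1 (le_refl |C|)
  constructor
  · calc B.d n ^ (|C| + |β| + 1) ≤ B.d n ^ (C + (β * ((v : ℝ) - (0 : ℚ)) + 1)) :=
          dpow_le B n (by linarith)
      _ = B.d n ^ C * B.d n ^ (β * ((v : ℝ) - (0 : ℚ)) + 1) := dpow_add B n _ _
      _ ≤ x n 0 * B.d n ^ (β * ((v : ℝ) - (0 : ℚ)) + 1) :=
          mul_le_mul_of_nonneg_right h2.1 (dp _).le
      _ ≤ _ := a1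
  · calc x n v ≤ x n 0 * B.d n ^ (β * ((v : ℝ) - (0 : ℚ)) - 1) := a2
      _ ≤ B.d n ^ (-C) * B.d n ^ (β * ((v : ℝ) - (0 : ℚ)) - 1) :=
          mul_le_mul_of_nonneg_right h2.2 (dp _).le
      _ = B.d n ^ (-C + (β * ((v : ℝ) - (0 : ℚ)) - 1)) := (dpow_add B n _ _).symm
      _ ≤ _ := dpow_le B n (by linarith)

/-- frames of two incidences -/
theorem rel_two (κ : ℝ) (L M : Ln4) (z z' : ℝ) : rel κ (frW L z) (frW M z') =
    ![z' - z, M.v 1 - L.v 1, M.pos z' 1 - L.pos z' 1,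
      (M.pos z' 2 - L.pos z' 2 + 2 * κ * L.v 1 * (M.pos z' 1 - L.pos z' 1)) +
        drW κ L * (z' - z)] := by
  funext k
  fin_cases k <;> simp [rel, frW, drW, Ln4.pos] <;> ring

section

variable {p : Par4} {D : Dat4} {K : ℕ → CtD} {x0 : ℕ → ℕ × ℝ}

theorem gd_mono {C C' : ℝ} (h : C ≤ C') {n : ℕ} {x : ℕ × ℝ} (hx : Gd D K C n x) :
    Gd D K C' n x := by
  have hd : D.B.d n ^ (-C) ≤ D.B.d n ^ (-C') := dpow_le D.B n (by linarith)
  exact ⟨fun k => ⟨(hx.1 k).1.trans hd, (hx.1 k).2.trans hd⟩, hx.2.1, fun k => (hx.2.2 k).trans hd⟩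

theorem hz_pos (hs : StcA p D K x0) (n : ℕ) : 0 < hzS K n := one_div_pos.2 (hs.ok n).H0

/-- heights: the cell of level `0` is `[-1/4, 1/4]` -/
theorem geo (hs : StcA p D K x0) : ∀ᶠ n in (U : Filter ℕ), rhN D.lev (hzS K) n 0 = 1 / 2 ∧
    ∀ x ∈ D.I n, z0N D.lev (hzS K) (zsS K) 0 n (zc (D.lev n 0) x.2) = -1 / 4 ∧
      |zhN (hzS K) (zsS K) n x| ≤ 1 / 4 := by
  filter_upwards [hs.H, hs.zcc] with n h1 h2
  have hH := (hs.ok n).H0
  have hr := rho_pos (D.lev n 0)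
  have e1 : rhN D.lev (hzS K) n 0 = 1 / 2 := by
    unfold rhN hzS
    rw [h1]
    field_simp
  refine ⟨e1, fun x hx => ?_⟩
  have e2 : z0N D.lev (hzS K) (zsS K) 0 n (zc (D.lev n 0) x.2) = -1 / 4 := by
    unfold z0N hzS zsS
    rw [h2 x hx, h1]
    unfold zx
    field_simp
    ring
  refine ⟨e2, ?_⟩
  obtain ⟨c1, c2⟩ := cellN (lev := D.lev) (hz := hzS K) (zs := zsS K) (hz_pos hs n) 0 x
  rw [e2] at c1 c2
  rw [e1] at c2
  rw [abs_le]
  constructor <;> linarith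

/-- two incidences of a class lie in the same cell -/
theorem cell_kc {n : ℕ} {v : ℚ} {x y : ℕ × ℝ}
    (h : kc (D.lev n v) (D.f n v) y = kc (D.lev n v) (D.f n v) x) :
    zc (D.lev n v) y.2 = zc (D.lev n v) x.2 := (Prod.mk.injEq _ _ _ _ ▸ h).2

/-- normal coordinates of good lines -/
theorem nrm (hs : StcA p D K x0) {C : ℝ} (hC : 0 ≤ C) : ∀ᶠ n in (U : Filter ℕ), ∀ x,
    Gd D K C n x → ∀ k, |(LS D K n x.1).p k| ≤ D.B.d n ^ (-(C + 1)) ∧
      |(LS D K n x.1).v k| ≤ D.B.d n ^ (-(C + 1)) := by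
  filter_upwards [hs.sm (2 * C + 1), ev_const_mul D.B (show (0 : ℝ) < 40 by norm_num) one_pos,
    ev_const D.B (show (0 : ℝ) < 2 by norm_num) one_pos] with n h1 h2 h3 x hx k
  set R := D.B.d n ^ (-C) with hR
  have R1 : 1 ≤ R := by
    have := dpow_le D.B n (show -C ≤ (0 : ℝ) by linarith)
    rwa [Real.rpow_zero] at this
  have e : 40 * (D.B.d n ^ (2 * C + 1) * R ^ 2) = 40 * D.B.d n ^ (1 : ℝ) := by
    have e2 : R ^ 2 = D.B.d n ^ (-(2 * C)) := by
      rw [hR, ← Real.rpow_natCast, ← Real.rpow_mul (D.B.pos n).le]; congr 1; push_cast; ring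
    rw [e2, ← dpow_add]; congr 2; ring
  obtain ⟨a, b⟩ := hat_bd (t := (K n).t (D.L n x.1)) h1 R1 (by rw [e]; exact h2)
    (fun k => (hx.1 k).1) (fun k => (hx.1 k).2)
  have hR2 : R + 1 ≤ D.B.d n ^ (-(C + 1)) := by
    have e3 : D.B.d n ^ (-(C + 1)) = R * D.B.d n ^ (-(1 : ℝ)) := by
      rw [hR, ← dpow_add]; congr 1; ring
    rw [e3]
    nlinarith
  have t1 : ∀ {u v : ℝ}, |u - v| ≤ 1 → |v| ≤ R → |u| ≤ R + 1 := by
    intro u v h h'
    rw [abs_le] at *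
    constructor <;> linarith
  exact ⟨(t1 (a k) (hx.1 k).1).trans hR2, (t1 (b k) (hx.1 k).2).trans hR2⟩

/-- unit of the thickness -/
theorem aS_zero (hs : StcA p D K x0) (h : ThinW p D) :
    ∀ᶠ n in (U : Filter ℕ), aS D n 0 = 1 := by
  filter_upwards [h.mka.wpos 0 0 le_rfl zero_le_one] with n h1
  unfold aS
  exact div_self h1.ne'

/-- **the drift of good lines is infinitely small** -/
theorem drift (h : ThinW p D) (hs : StcA p D K x0) (C M : ℝ) : ∀ᶠ n in (U : Filter ℕ),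
    ∀ x ∈ D.I n, Gd D K C n x → |drW (K n).κ (LS D K n x.1)| ≤ D.B.d n ^ M := by
  set C' := max C 0 with hC'
  have C0 : 0 ≤ C' := le_max_right _ _
  filter_upwards [nrm hs C0, hs.thick C' 0 le_rfl zero_le_one 1 one_pos, geo hs, aS_zero hs h,
    hs.σs (3 * C' + 3 + M + 1), ev_const_mul D.B (show (0 : ℝ) < 32 * 127 by norm_num) one_pos]
    with n h1 h2 h3 h4 h5 h6 x hx hg0
  have hg : Gd D K C' n x := gd_mono (le_max_left _ _) hg0
  have dp := dpow_pos D.B n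
  set R := D.B.d n ^ (-(C' + 1)) with hR
  have R1 : 1 ≤ R := by
    have := dpow_le D.B n (show -(C' + 1) ≤ (0 : ℝ) by linarith)
    rwa [Real.rpow_zero] at this
  have hM : ∀ k, |MkS D K 0 n (kc (D.lev n 0) (D.f n 0) x) k| ≤ R := fun k =>
    (hg.2.2 k).trans (dpow_le D.B n (by linarith))
  obtain ⟨g1, g2⟩ := h3
  obtain ⟨g3, g4⟩ := g2 x hx
  have hσ := (hs.σ0 n).le
  have hth := h2 x hx hg
  rw [g3, g1, h4, one_mul] at hth
  have hle := ht_le (κ := (K n).κ) (zl := -1 / 4) hσ (by rw [abs_le]; constructor <;> norm_num)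
    R1 (fun k => (h1 x hg k).1) (fun k => (h1 x hg k).2) hM hth
  have hd := (ht_coef (κ := (K n).κ) (zl := -1 / 4) (by rw [abs_le]; constructor <;> norm_num)
    hle).1
  refine hd.trans ?_
  have e1 : D.B.d n ^ (-(1 : ℝ)) ≤ R ^ 3 := by
    have e2 : R ^ 3 = D.B.d n ^ (-(3 * (C' + 1))) := by
      rw [hR, ← Real.rpow_natCast, ← Real.rpow_mul (D.B.pos n).le]; congr 1; push_cast; ring
    rw [e2]
    exact dpow_le D.B n (by linarith)
  have e3 : 126 * (R * R ^ 2) + D.B.d n ^ (-(1 : ℝ)) ≤ 127 * R ^ 3 := by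
    have : R * R ^ 2 = R ^ 3 := by ring
    rw [this]; linarith
  have e4 : R ^ 3 = D.B.d n ^ (-(3 * C' + 3)) := by
    rw [hR, ← Real.rpow_natCast, ← Real.rpow_mul (D.B.pos n).le]; congr 1; push_cast; ring
  calc 32 * ((K n).σ * (126 * (R * R ^ 2) + D.B.d n ^ (-(1 : ℝ))))
      ≤ 32 * (D.B.d n ^ (3 * C' + 3 + M + 1) * (127 * R ^ 3)) := by
        refine mul_le_mul_of_nonneg_left (mul_le_mul h5 e3 ?_ (dp _).le) (by norm_num)
        have := dp (-(1 : ℝ))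
        positivity
    _ = 32 * 127 * (D.B.d n ^ (3 * C' + 3 + M + 1) * D.B.d n ^ (-(3 * C' + 3))) := by
        rw [e4]; ring
    _ = 32 * 127 * D.B.d n ^ (1 : ℝ) * D.B.d n ^ M := by
        rw [← dpow_add, mul_assoc (32 * 127 : ℝ), ← dpow_add]; congr 2; ring
    _ ≤ 1 * D.B.d n ^ M := mul_le_mul_of_nonneg_right h6 (dp _).le
    _ = _ := one_mul _

/-- **slopes of two lines of a class** -/
theorem slope (hs : StcA p D K x0) (C : ℝ) {v : ℚ} (v0 : 0 ≤ v) (v1 : v ≤ 1) {ε : ℝ}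
    (hε : 0 < ε) : ∀ᶠ n in (U : Filter ℕ), ∀ x ∈ D.I n, ∀ y ∈ D.I n,
      kc (D.lev n v) (D.f n v) y = kc (D.lev n v) (D.f n v) x → Gd D K C n x →
        |(LS D K n y.1).v 1 - (LS D K n x.1).v 1| ≤
          2 * (wAS D K n v / rhN D.lev (hzS K) n v * D.B.d n ^ (-ε)) := by
  filter_upwards [hs.lat C v v0 v1 ε hε] with n h1 x hx y hy hxy hg
  have hr : 0 < rhN D.lev (hzS K) n v := mul_pos (hz_pos hs n) (rho_pos _)
  set z := z0N D.lev (hzS K) (zsS K) v n (zc (D.lev n v) x.2) with hz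
  set r := rhN D.lev (hzS K) n v with hrr
  have a1 := (h1 x hx y hy hxy hg z le_rfl (by linarith)).1
  have a2 := (h1 x hx y hy hxy hg (z + r) (by linarith) le_rfl).1
  have e : ((LS D K n y.1).v 1 - (LS D K n x.1).v 1) * r =
      ((LS D K n y.1).pos (z + r) 1 - (LS D K n x.1).pos (z + r) 1) -
        ((LS D K n y.1).pos z 1 - (LS D K n x.1).pos z 1) := by
    simp only [Ln4.pos]; ring
  have e2 : |((LS D K n y.1).v 1 - (LS D K n x.1).v 1)| * r ≤
      2 * (wAS D K n v * D.B.d n ^ (-ε)) := by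
    have e5 : |((LS D K n y.1).v 1 - (LS D K n x.1).v 1)| * r =
        |((LS D K n y.1).v 1 - (LS D K n x.1).v 1) * r| := by rw [abs_mul, abs_of_pos hr]
    rw [e5, e]
    refine (abs_sub _ _).trans ?_
    linarith
  have e3 : 2 * (wAS D K n v / r * D.B.d n ^ (-ε)) = 2 * (wAS D K n v * D.B.d n ^ (-ε)) / r := by
    ring
  rw [e3, le_div_iff₀ hr]
  exact e2

/-- exponents of the thickness -/
theorem lin_aS (h : ThinW p D) : Lin D.B (aS D) (1 - p.θ 0) := by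
  refine ⟨fun v h0 h1 => ?_, fun v h0 h1 => (tau_zero h.mka 0 h0 h1).congr' ?_⟩
  · filter_upwards [h.mka.wpos 0 v h0 h1, h.mka.wpos 0 0 le_rfl zero_le_one] with n a b
      using div_pos a b
  · filter_upwards [h.mka.wpos 0 v h0 h1, h.mka.wpos 0 0 le_rfl zero_le_one] with n a b
    unfold aS
    rw [Real.log_div a.ne' b.ne', Real.log_div b.ne' b.ne']
    ring

theorem lin_wAS (h : ThinW p D) (hs : StcA p D K x0) : Lin D.B (wAS D K) (1 - p.θ 1) :=
  lin_wid h.mka 1 (W := fun n => (K n).u.WA) fun n => (hs.ok n).A0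

theorem lin_rhS (h : ThinW p D) (hs : StcA p D K x0) : Lin D.B (rhN D.lev (hzS K)) 1 :=
  lin_rho h.mka (hz_pos hs)

/-- **uniform exponents** -/
theorem exps (h : ThinW p D) (hs : StcA p D K x0) : ∃ E : ℝ, 0 ≤ E ∧ ∀ v : ℚ, 0 ≤ v → v ≤ 1 →
    ∀ᶠ n in (U : Filter ℕ), (D.B.d n ^ E ≤ wAS D K n v ∧ wAS D K n v ≤ D.B.d n ^ (-E)) ∧
      (D.B.d n ^ E ≤ rhN D.lev (hzS K) n v ∧ rhN D.lev (hzS K) n v ≤ D.B.d n ^ (-E)) ∧
      (D.B.d n ^ E ≤ aS D n v ∧ aS D n v ≤ D.B.d n ^ (-E)) := by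
  have w0 : ∀ᶠ n in (U : Filter ℕ), D.B.d n ^ (1 : ℝ) ≤ wAS D K n 0 ∧
      wAS D K n 0 ≤ D.B.d n ^ (-(1 : ℝ)) := by
    filter_upwards [hs.wid 1 one_pos] with n hn
    have hA := (hs.ok n).A0
    unfold wAS
    rw [le_div_iff₀ hA, div_le_iff₀ hA]
    exact ⟨hn.1, hn.2.1⟩
  have one_le : ∀ n, 1 ≤ D.B.d n ^ (-(1 : ℝ)) := fun n => by
    have := dpow_le D.B n (show -(1 : ℝ) ≤ (0 : ℝ) by norm_num)
    rwa [Real.rpow_zero] at this
  have r0 : ∀ᶠ n in (U : Filter ℕ), D.B.d n ^ (1 : ℝ) ≤ rhN D.lev (hzS K) n 0 ∧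
      rhN D.lev (hzS K) n 0 ≤ D.B.d n ^ (-(1 : ℝ)) := by
    filter_upwards [geo hs, ev_const_mul D.B (show (0 : ℝ) < 2 by norm_num) one_pos] with n h1 h2
    rw [h1.1]
    have := one_le n
    constructor <;> linarith
  have a0 : ∀ᶠ n in (U : Filter ℕ), D.B.d n ^ (1 : ℝ) ≤ aS D n 0 ∧
      aS D n 0 ≤ D.B.d n ^ (-(1 : ℝ)) := by
    filter_upwards [aS_zero hs h] with n h1
    rw [h1]
    exact ⟨dpow_le_one D.B n zero_le_one, one_le n⟩
  have b1 := lin_bd (lin_wAS h hs) w0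
  have b2 := lin_bd (lin_rhS h hs) r0
  have b3 := lin_bd (lin_aS h) a0
  have n1 := abs_nonneg (1 - p.θ 1)
  have n0 := abs_nonneg (1 - p.θ 0)
  refine ⟨|1 - p.θ 1| + |1 - p.θ 0| + 3, by positivity, fun v v0 v1 => ?_⟩
  filter_upwards [b1 v v0 v1, b2 v v0 v1, b3 v v0 v1] with n c1 c2 c3
  rw [abs_one] at c1 c2 c3
  have q1 : ∀ {s t x : ℝ}, s ≤ t → (D.B.d n ^ s ≤ x ∧ x ≤ D.B.d n ^ (-s)) →
      (D.B.d n ^ t ≤ x ∧ x ≤ D.B.d n ^ (-t)) := fun hst hx =>
    ⟨(dpow_le D.B n hst).trans hx.1, hx.2.trans (dpow_le D.B n (by linarith))⟩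
  exact ⟨q1 (by linarith) c1, q1 (by linarith) c2, q1 (by linarith) c3⟩

end

end Crest.Agent.R136.Ste650
end

-- ▼ part R136/Ste3_650
section

/-!
# R136, U6 thin side, stage C (helper650): the assembly, the ball

* `exists_cut` : the cutoff; `FlS` : flags of the incidences, far away if not good;
* `ball_gd` : the incidences of a graded ball are good;
* `step_l`, `step_v` : lines and classes have natural size `≤ d^-C`, `C` independent of the ball;
* **`exists_ball`** : marks on good incidences.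
-/

set_option autoImplicit false
set_option linter.unusedVariables false

open Finset Filter Topology

namespace Crest.Agent.R136.Ste650

open Crest.Agent.R138.Ex926 (Base U)
open Crest.Agent.R138.Mk163 (zc zl rho)
open Crest.Agent.R138.MkRef627 (lc kc)
open Crest.Agent.R138.Dp76 (dpow_pos dpow_add dpow_le dpow_le_one)
open Crest.Agent.R138.ArgM163 (ev_const ev_const_mul)
open Crest.Agent.R136.ArgA163 (rho_pos tau_zero)
open Crest.Agent.R136.Sh605
open Crest.Agent.R136.MkA627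
open Crest.Agent.R136.Net191
open Crest.Agent.R136.NetW191
open Crest.Agent.R136.GeoN778
open Crest.Agent.R136.Wit321
open Crest.Agent.R136.Stc321
open Crest.Agent.R136.Top484
open Crest.Agent.R136.Tlt51 (mk4 zx rh)
open Crest.Agent.R136.FlW464 (frW drW rel_fr)
open Crest.Agent.R136.Fw650 (z0N zhN rhN cellN)
open Crest.Agent.R136.GW650 (Lin lin_wid lin_rho)
open Crest.Agent.R136.Tn327 (lin_two zmN abs_zh_zm CloseW)
open Crest.Agent.R136.Thn768 (ThinW)
open Crest.Agent.R136.Bal768 (InB MkA.ball')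
open Crest.Agent.R136.PqG464 (wtW)

theorem dpow_nat (B : Base) (n : ℕ) (a : ℝ) (m : ℕ) : (B.d n ^ a) ^ m = B.d n ^ ((m : ℝ) * a) := by
  rw [← Real.rpow_natCast, ← Real.rpow_mul (B.pos n).le]
  congr 1
  ring

theorem one_le_dpow (B : Base) (n : ℕ) {a : ℝ} (h : 0 ≤ a) : 1 ≤ B.d n ^ (-a) := by
  have := dpow_le B n (show -a ≤ (0 : ℝ) by linarith)
  rwa [Real.rpow_zero] at this

section

variable {p : Par4} {D : Dat4} {K : ℕ → CtD} {x0 : ℕ → ℕ × ℝ}

/-- properties of the cutoff `m` -/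
def Cut (D : Dat4) (K : ℕ → CtD) (m n : ℕ) : Prop :=
  (∀ x ∈ D.I n, Gd D K m n x → ∀ z, z0N D.lev (hzS K) (zsS K) 0 n (zc (D.lev n 0) x.2) ≤ z →
      z ≤ z0N D.lev (hzS K) (zsS K) 0 n (zc (D.lev n 0) x.2) + rhN D.lev (hzS K) n 0 →
      |ht (K n).κ z ((LS D K n x.1).pos z 1) ((LS D K n x.1).pos z 2) ((LS D K n x.1).pos z 0) -
        (K n).σ * evY (MkS D K 0 n (kc (D.lev n 0) (D.f n 0) x)) z ((LS D K n x.1).pos z 1)
          ((LS D K n x.1).pos z 2) ((LS D K n x.1).pos z 0)| ≤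
        (K n).σ * (aS D n 0 * D.B.d n ^ (-(1 : ℝ)))) ∧
  (K n).σ ≤ D.B.d n ^ (4 * (m : ℝ) + 4) ∧ (K n).P.Sm (D.B.d n ^ (4 * (m : ℝ) + 4))

theorem exists_cut (hs : StcA p D K x0) : ∃ N : ℕ → ℕ,
    (∀ᶠ n in (U : Filter ℕ), Cut D K (N n) n) ∧ ∀ m, ∀ᶠ n in (U : Filter ℕ), m ≤ N n :=
  exists_diag (P := Cut D K) fun m => by
    filter_upwards [hs.thick m 0 le_rfl zero_le_one 1 one_pos, hs.σs (4 * (m : ℝ) + 4),
      hs.sm (4 * (m : ℝ) + 4)] with n h1 h2 h3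
    exact ⟨h1, h2, h3⟩

/-- the true flag of level `0` -/
noncomputable def rF (D : Dat4) (K : ℕ → CtD) (n : ℕ) (x : ℕ × ℝ) : FW :=
  ⟨frW (LS D K n x.1) (zhN (hzS K) (zsS K) n x), MkS D K 0 n (kc (D.lev n 0) (D.f n 0) x)⟩

open Classical in
/-- flags of the incidences -/
noncomputable def FlS (D : Dat4) (K : ℕ → CtD) (N : ℕ → ℕ) (R : ℕ → ℝ) (n : ℕ) (x : ℕ × ℝ) : FW :=
  if Gd D K (N n) n x then rF D K n x else ⟨![R n + 2, 0, 0, 0], 0⟩

theorem FlS_pos {N : ℕ → ℕ} {R : ℕ → ℝ} {n : ℕ} {x : ℕ × ℝ} (h : Gd D K (N n) n x) :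
    FlS D K N R n x = rF D K n x := if_pos h

/-- **the incidences of a graded ball are good** -/
theorem ball_gd (h : ThinW p D) (hs : StcA p D K x0) {N : ℕ → ℕ}
    (hN : ∀ᶠ n in (U : Filter ℕ), Cut D K (N n) n) (hN' : ∀ m, ∀ᶠ n in (U : Filter ℕ), m ≤ N n)
    {C1 : ℝ} (hC1 : 0 < C1) : ∃ C3 : ℝ, ∀ᶠ n in (U : Filter ℕ), ∀ x ∈ D.I n,
      InB (K n).κ (FlS D K N (fun n => 2 * D.B.d n ^ (-C1)) n (x0 n))
        (FlS D K N (fun n => 2 * D.B.d n ^ (-C1)) n x) (2 * D.B.d n ^ (-C1)) → Gd D K C3 n x := by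
  obtain ⟨CG, hCG⟩ := hs.cenG
  set c0 := max CG 0 with hc0
  have c00 : 0 ≤ c0 := le_max_right _ _
  set c2 : ℝ := 63 * (c0 + 2 + C1) + 1 with hc2
  have c20 : 0 ≤ c2 := by positivity
  have cc2 : c0 ≤ c2 := by rw [hc2]; linarith
  refine ⟨2 * c2 + 1, ?_⟩
  filter_upwards [hN, hN' ⌈c2⌉₊, hCG, hs.cen, geo hs, nrm hs c00, aS_zero hs h,
    ev_const D.B (show (0 : ℝ) < 10 ^ 24 * 2 ^ 63 by norm_num) one_pos,
    ev_const_mul D.B (show (0 : ℝ) < 2000 by norm_num) one_pos] with n hcut hNn hG0 hx0 hgeo hnrm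
    ha hb hd x hx hin
  have dp := dpow_pos D.B n
  have Nc : c2 ≤ (N n : ℝ) := (Nat.le_ceil c2).trans (by exact_mod_cast hNn)
  have Nn0 : (0 : ℝ) ≤ (N n : ℝ) := Nat.cast_nonneg _
  have hG0' : Gd D K c0 n (x0 n) := gd_mono (le_max_left _ _) hG0
  have hG1 : Gd D K (N n) n (x0 n) := gd_mono (cc2.trans Nc) hG0'
  obtain ⟨g1, g2⟩ := hgeo
  obtain ⟨-, z00⟩ := g2 _ hx0
  obtain ⟨zc0, zx0⟩ := g2 x hx
  rw [FlS_pos hG1] at hin
  set r := 2 * D.B.d n ^ (-C1) with hr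
  have r1 : 1 ≤ r := by
    have := one_le_dpow D.B n hC1.le
    rw [hr]; linarith
  -- `x` is good for the cutoff
  have hGx : Gd D K (N n) n x := by
    by_contra hcon
    have e : FlS D K N (fun n => 2 * D.B.d n ^ (-C1)) n x = ⟨![r + 2, 0, 0, 0], 0⟩ := if_neg hcon
    rw [e] at hin
    have h0 := hin (Fin.castAdd 14 0)
    rw [coW_left] at h0
    have e2 : rel (K n).κ (rF D K n (x0 n)).g
        (⟨![r + 2, 0, 0, 0], 0⟩ : FW).g 0 = r + 2 - zhN (hzS K) (zsS K) n (x0 n) := rfl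
    have e3 : wtW (Fin.castAdd 14 (0 : Fin 4)) = 1 := rfl
    rw [e2, e3, pow_one] at h0
    have := (abs_le.1 h0).2
    have := (abs_le.1 z00).2
    linarith
  rw [FlS_pos hGx] at hin
  -- bounds of the flag of the centre
  set Γ := D.B.d n ^ (-(c0 + 2)) with hΓ
  have Γ1 : 1 ≤ Γ := one_le_dpow D.B n (by linarith)
  have hd2 : 2 ≤ D.B.d n ^ (-(1 : ℝ)) := by
    refine le_trans ?_ hb
    norm_num
  have hΓ' : 2 * D.B.d n ^ (-(c0 + 1)) ≤ Γ := by
    have e : Γ = D.B.d n ^ (-(1 : ℝ)) * D.B.d n ^ (-(c0 + 1)) := by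
      rw [hΓ, ← dpow_add]; congr 1; ring
    rw [e]
    exact mul_le_mul_of_nonneg_right hd2 (dp _).le
  have q1 : D.B.d n ^ (-(c0 + 1)) ≤ Γ := dpow_le D.B n (by linarith)
  have f0g : ∀ i, |(rF D K n (x0 n)).g i| ≤ Γ := by
    have hp : ∀ k, |(LS D K n (x0 n).1).pos (zhN (hzS K) (zsS K) n (x0 n)) k| ≤ Γ := by
      intro k
      show |(LS D K n (x0 n).1).p k + _ * (LS D K n (x0 n).1).v k| ≤ Γ
      refine (abs_add_le _ _).trans ?_
      rw [abs_mul]
      have a1 := hnrm (x0 n) hG0' k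
      have a2 := mul_le_mul (z00.trans (by norm_num : (1 : ℝ) / 4 ≤ 1)) a1.2 (abs_nonneg _)
        zero_le_one
      linarith [a1.1]
    intro i
    fin_cases i
    · exact z00.trans (by linarith)
    · exact (hnrm (x0 n) hG0' 1).2.trans q1
    · exact hp 1
    · exact hp 2
  have f0G : ∀ k, |(rF D K n (x0 n)).G k| ≤ Γ := fun k =>
    (hG0'.2.2 k).trans (dpow_le D.B n (by linarith))
  obtain ⟨bg, bG⟩ := inB_bd (hs.kp1 n) Γ1 r1 f0g f0G hin
  -- one bound for everything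
  set Γ2 := D.B.d n ^ (-c2) with hΓ2
  have eX : Γ * r = 2 * D.B.d n ^ (-(c0 + 2 + C1)) := by
    rw [hΓ, hr, show -(c0 + 2 + C1) = -(c0 + 2) + -C1 by ring, dpow_add]; ring
  have X1 : 1 ≤ Γ * r := one_le_mul_of_one_le_of_one_le Γ1 r1
  have big : 10 ^ 24 * (Γ * r) ^ 63 ≤ Γ2 := by
    rw [eX, mul_pow, dpow_nat]
    have e : Γ2 = D.B.d n ^ (-(1 : ℝ)) * D.B.d n ^ (((63 : ℕ) : ℝ) * -(c0 + 2 + C1)) := by
      rw [hΓ2, ← dpow_add]
      congr 1
      rw [hc2]; push_cast; ring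
    rw [e, ← mul_assoc]
    exact mul_le_mul_of_nonneg_right hb (dp _).le
  have sml : 5 * (Γ * r) ^ 3 ≤ Γ2 := by
    refine le_trans ?_ big
    have h1 : (Γ * r) ^ 3 ≤ (Γ * r) ^ 63 := pow_le_pow_right₀ X1 (by norm_num)
    have h2 : 0 ≤ (Γ * r) ^ 63 := by positivity
    nlinarith
  have g' : ∀ i, |(rF D K n x).g i| ≤ Γ2 := fun i => (bg i).trans sml
  have G' : ∀ k, |(rF D K n x).G k| ≤ Γ2 := fun k => (bG k).trans big
  have Γ21 : 1 ≤ Γ2 := one_le_dpow D.B n c20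
  -- a priori bound of the line
  obtain ⟨t1, t2, t3⟩ := hcut
  set R := D.B.d n ^ (-(N n : ℝ)) with hR
  have R1 : 1 ≤ R := one_le_dpow D.B n Nn0
  set τ := D.B.d n ^ (1 : ℝ) with hτ
  have τ0 : 0 < τ := dp _
  have η2 : 40 * (D.B.d n ^ (4 * (N n : ℝ) + 4) * R ^ 2) ≤ 1 := by
    have e : D.B.d n ^ (4 * (N n : ℝ) + 4) * R ^ 2 = D.B.d n ^ (2 * (N n : ℝ) + 4) := by
      rw [hR, dpow_nat, ← dpow_add]; congr 1; push_cast; ring
    have : D.B.d n ^ (2 * (N n : ℝ) + 4) ≤ τ := dpow_le D.B n (by linarith)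
    rw [e]
    linarith
  obtain ⟨hp, hv⟩ := hat_bd t3 R1 η2 (fun k => (hGx.1 k).1) (fun k => (hGx.1 k).2)
  have tri : ∀ {u v s : ℝ}, |u - v| ≤ 1 → |v| ≤ s → |u| ≤ s + 1 := by
    intro u v s h h'
    rw [abs_le] at *
    constructor <;> linarith
  have Lp : ∀ k, |(LS D K n x.1).p k| ≤ 2 * R := fun k =>
    (tri (hp k) (hGx.1 k).1).trans (by linarith)
  have Lv : ∀ k, |(LS D K n x.1).v k| ≤ 2 * R := fun k =>
    (tri (hv k) (hGx.1 k).2).trans (by linarith)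
  have hth := t1 x hx hGx
  rw [zc0, g1, ha, one_mul] at hth
  have zl1 : |(-1 / 4 : ℝ)| ≤ 1 := by rw [abs_le]; constructor <;> norm_num
  have hle := ht_le (κ := (K n).κ) (hs.σ0 n).le zl1 (show 1 ≤ 2 * R by linarith) Lp Lv G' hth
  have hsm : (K n).σ * (126 * (Γ2 * (2 * R) ^ 2) + D.B.d n ^ (-(1 : ℝ))) ≤ 1 := by
    have e1 : D.B.d n ^ (4 * (N n : ℝ) + 4) * (126 * (Γ2 * (2 * R) ^ 2)) =
        504 * D.B.d n ^ (2 * (N n : ℝ) + 4 - c2) := by
      have : D.B.d n ^ (4 * (N n : ℝ) + 4) * Γ2 * R ^ 2 = D.B.d n ^ (2 * (N n : ℝ) + 4 - c2) := by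
        rw [hR, hΓ2, dpow_nat, ← dpow_add, ← dpow_add]; congr 1; push_cast; ring
      rw [← this]; ring
    have e2 : D.B.d n ^ (2 * (N n : ℝ) + 4 - c2) ≤ τ := dpow_le D.B n (by linarith)
    have e3 : D.B.d n ^ (4 * (N n : ℝ) + 4) * D.B.d n ^ (-(1 : ℝ)) ≤ τ := by
      rw [← dpow_add]; exact dpow_le D.B n (by linarith)
    have e4 : 0 ≤ 126 * (Γ2 * (2 * R) ^ 2) + D.B.d n ^ (-(1 : ℝ)) := by
      have := dp (-(1 : ℝ))
      positivity
    refine (mul_le_mul_of_nonneg_right t2 e4).trans ?_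
    rw [mul_add, e1]
    linarith
  obtain ⟨np, nv⟩ := nrm_bd (κ := (K n).κ) (zl := -1 / 4) (z1 := zhN (hzS K) (zsS K) n x)
    (hs.kp1 n) Γ21 zl1 (zx0.trans (by norm_num)) (fun z h1 h2 => (hle z h1 h2).trans hsm)
    (g' 1) (g' 2) (g' 3)
  -- back to container coordinates
  have tri2 : ∀ {u v s : ℝ}, |u - v| ≤ 1 → |u| ≤ s → |v| ≤ s + 1 := by
    intro u v s h h'
    rw [abs_le] at *
    constructor <;> linarith
  have fin : 400 * Γ2 ^ 2 + 1 ≤ D.B.d n ^ (-(2 * c2 + 1)) := by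
    have e : D.B.d n ^ (-(2 * c2 + 1)) = D.B.d n ^ (-(1 : ℝ)) * Γ2 ^ 2 := by
      rw [hΓ2, dpow_nat, ← dpow_add]; congr 1; push_cast; ring
    have h2 : 401 ≤ D.B.d n ^ (-(1 : ℝ)) := le_trans (by norm_num) hb
    have h3 : 1 ≤ Γ2 ^ 2 := one_le_pow₀ Γ21
    rw [e]
    nlinarith
  refine ⟨fun k => ⟨(tri2 (hp k) (np k)).trans fin, (tri2 (hv k) (nv k)).trans fin⟩, hGx.2.1,
    fun k => (G' k).trans ?_⟩
  exact dpow_le D.B n (by linarith)

/-- **a line does not leave the ball** -/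
theorem step_l (h : ThinW p D) (hs : StcA p D K x0) (C : ℝ) : ∀ᶠ n in (U : Filter ℕ),
    ∀ x ∈ D.I n, Gd D K C n x → ∀ y ∈ D.I n, y.1 = x.1 →
      Gd D K C n y ∧ ∀ k, |coW (K n).κ (rF D K n x) (rF D K n y) k| ≤ 1 := by
  filter_upwards [drift h hs C 0, h.mka.cell0, geo hs] with n h1 h2 h3 x hx hg y hy hxy
  have hz := h2 y hy x hx
  have em : mk4 D n 0 y = mk4 D n 0 x := by
    unfold mk4
    rw [hxy, hz]
  have ek : kc (D.lev n 0) (D.f n 0) y = kc (D.lev n 0) (D.f n 0) x := by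
    unfold kc
    rw [hxy, hz]
  refine ⟨⟨by rw [hxy]; exact hg.1, by rw [em]; exact hg.2.1, by rw [em]; exact hg.2.2⟩, ?_⟩
  have hzx := (h3.2 x hx).2
  have hzy := (h3.2 y hy).2
  have hdz : |zhN (hzS K) (zsS K) n y - zhN (hzS K) (zsS K) n x| ≤ 1 := by
    rw [abs_le] at *
    constructor <;> linarith
  have hdr := h1 x hx hg
  rw [Real.rpow_zero] at hdr
  intro k
  refine Fin.addCases (m := 4) (n := 14) (fun i => ?_) (fun q => ?_) k
  · rw [coW_left]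
    show |rel (K n).κ (frW (LS D K n x.1) _) (frW (LS D K n y.1) _) i| ≤ 1
    rw [hxy, rel_fr]
    fin_cases i
    · exact hdz
    · show |(0 : ℝ)| ≤ 1
      rw [abs_zero]; exact zero_le_one
    · show |(0 : ℝ)| ≤ 1
      rw [abs_zero]; exact zero_le_one
    · show |drW _ _ * (_ - _)| ≤ 1
      rw [abs_mul]
      exact mul_le_one₀ hdr (abs_nonneg _) hdz
  · rw [coW_right]
    have e : (rF D K n y).G - (rF D K n x).G = 0 := by
      show MkS D K 0 n _ - MkS D K 0 n _ = 0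
      rw [ek, sub_self]
    rw [e, tr_zero, Pi.zero_apply, abs_zero]
    exact zero_le_one

/-- **a class does not leave the ball**, the constant does not depend on the level and on the
goodness -/
theorem step_v (h : ThinW p D) (hs : StcA p D K x0) : ∃ Ck : ℝ, 0 < Ck ∧ ∀ v : ℚ, 0 ≤ v → v ≤ 1 →
    ∀ C : ℝ, ∃ C' : ℝ, ∀ᶠ n in (U : Filter ℕ), ∀ x ∈ D.I n, Gd D K C n x → ∀ y ∈ D.I n,
      kc (D.lev n v) (D.f n v) y = kc (D.lev n v) (D.f n v) x →
        Gd D K C' n y ∧ ∀ k, |coW (K n).κ (rF D K n x) (rF D K n y) k| ≤ D.B.d n ^ (-Ck) := by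
  obtain ⟨E, E0, hE⟩ := exps h hs
  obtain ⟨C0, C00, hcl⟩ := hs.clw
  set c1 : ℝ := 4 * E + C0 + 4 with hc1
  have c10 : 0 ≤ c1 := by positivity
  refine ⟨112 * c1 + 1, by positivity, fun v v0 v1 C => ?_⟩
  have v0' : (0 : ℝ) ≤ v := by exact_mod_cast v0
  have v1' : (v : ℝ) ≤ 1 := by exact_mod_cast v1
  have hv01 : C0 * ((v : ℝ) - ((0 : ℚ) : ℝ)) ≤ C0 :=
    mul_le_of_le_one_right C00 (by push_cast; linarith)
  obtain ⟨Cm, hCm⟩ := hs.mate C v v0 v1
  refine ⟨Cm, ?_⟩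
  set C2 := max C Cm with hC2
  have hclv : ∀ᶠ n in (U : Filter ℕ), 0 < v → ∀ x ∈ D.I n, Gd D K C2 n x →
      CloseW (K n).κ (frW (LS D K n x.1) (zmN D.lev (hzS K) (zsS K) v n x))
        (rhN D.lev (hzS K) n v * D.B.d n ^ (1 : ℝ)) (wAS D K n v * D.B.d n ^ (1 : ℝ))
        (wAS D K n v ^ 2 / rhN D.lev (hzS K) n v * D.B.d n ^ (1 : ℝ))
        (max (aS D n 0) (aS D n v) * D.B.d n ^ (-(C0 * ((v : ℝ) - (0 : ℚ))) - 1))
        (MkS D K v n (kc (D.lev n v) (D.f n v) x)) (MkS D K 0 n (kc (D.lev n 0) (D.f n 0) x)) := by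
    rcases v0.eq_or_lt with hv | hv
    · exact Eventually.of_forall fun n h0 => absurd h0 (by rw [← hv]; exact lt_irrefl _)
    · filter_upwards [hcl C2 0 v le_rfl hv v1 1 one_pos] with n hn _
      exact hn
  filter_upwards [hCm, hs.lat C v v0 v1 1 one_pos, slope hs C v0 v1 one_pos, drift h hs C2 E,
    hE v v0 v1, hE 0 le_rfl zero_le_one, geo hs, hclv,
    ev_const D.B (show (0 : ℝ) < 10 ^ 22 by norm_num) one_pos] with n hm hlat hsl hdr hEv hE0 hgeo
    hclo hb x hx hg y hy hxy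
  obtain ⟨⟨wa1, wa2⟩, ⟨rh1, rh2⟩, as1, as2⟩ := hEv
  have hgy : Gd D K Cm n y := hm x hx y hy hxy hg
  refine ⟨hgy, ?_⟩
  have dp := dpow_pos D.B n
  have hr0 : 0 < rhN D.lev (hzS K) n v := (dp _).trans_le rh1
  have hA0 : 0 < wAS D K n v := (dp _).trans_le wa1
  set ρ := rhN D.lev (hzS K) n v with hρ
  set wA := wAS D K n v with hwA
  set zx := zhN (hzS K) (zsS K) n x with hzx
  set zy := zhN (hzS K) (zsS K) n y with hzy
  have hzx4 : |zx| ≤ 1 / 4 := (hgeo.2 x hx).2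
  have hzy4 : |zy| ≤ 1 / 4 := (hgeo.2 y hy).2
  have hdz : |zy - zx| ≤ 1 := by
    rw [abs_le] at *
    constructor <;> linarith
  set X := D.B.d n ^ (-c1) with hX
  have d2 : 2 ≤ D.B.d n ^ (-(1 : ℝ)) := le_trans (by norm_num) hb
  have d6 : 6 ≤ D.B.d n ^ (-(1 : ℝ)) := le_trans (by norm_num) hb
  have dinv : D.B.d n ^ (-(1 : ℝ)) * D.B.d n ^ (1 : ℝ) = 1 := by
    rw [← dpow_add, neg_add_cancel, Real.rpow_zero]
  have X6 : 6 ≤ X := d6.trans (dpow_le D.B n (by linarith))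
  have X1 : 1 ≤ X := by linarith
  -- quotients of sizes
  have q1 : wA / ρ ≤ D.B.d n ^ (-(2 * E)) := by
    rw [div_le_iff₀ hr0]
    calc wA ≤ D.B.d n ^ (-E) := wa2
      _ = D.B.d n ^ (-(2 * E)) * D.B.d n ^ E := by rw [← dpow_add]; congr 1; ring
      _ ≤ _ := mul_le_mul_of_nonneg_left rh1 (dp _).le
  have q2 : ρ / wA ≤ D.B.d n ^ (-(2 * E)) := by
    rw [div_le_iff₀ hA0]
    calc ρ ≤ D.B.d n ^ (-E) := rh2
      _ = D.B.d n ^ (-(2 * E)) * D.B.d n ^ E := by rw [← dpow_add]; congr 1; ring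
      _ ≤ _ := mul_le_mul_of_nonneg_left wa1 (dp _).le
  have q3 : wA ^ 2 / ρ ≤ D.B.d n ^ (-(3 * E)) := by
    have e : wA ^ 2 / ρ = wA * (wA / ρ) := by ring
    rw [e]
    calc wA * (wA / ρ) ≤ D.B.d n ^ (-E) * D.B.d n ^ (-(2 * E)) :=
          mul_le_mul wa2 q1 (by positivity) (dp _).le
      _ = _ := by rw [← dpow_add]; congr 1; ring
  have q4 : D.B.d n ^ (3 * E) ≤ wA ^ 2 / ρ := by
    rw [le_div_iff₀ hr0]
    have e2 : (D.B.d n ^ E) ^ 2 ≤ wA ^ 2 := pow_le_pow_left₀ (dp _).le wa1 2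
    calc D.B.d n ^ (3 * E) * ρ ≤ D.B.d n ^ (3 * E) * D.B.d n ^ (-E) :=
          mul_le_mul_of_nonneg_left rh2 (dp _).le
      _ = (D.B.d n ^ E) ^ 2 := by rw [dpow_nat, ← dpow_add]; congr 1; push_cast; ring
      _ ≤ _ := e2
  have p0 : 0 < wA ^ 2 / ρ := by positivity
  have hgx2 : Gd D K C2 n x := gd_mono (le_max_left _ _) hg
  have hgy2 : Gd D K C2 n y := gd_mono (le_max_right _ _) hgy
  -- frames
  have hcell := cell_kc hxy
  obtain ⟨cy1, cy2⟩ := cellN (lev := D.lev) (hz := hzS K) (zs := zsS K) (hz_pos hs n) v y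
  rw [hcell] at cy1 cy2
  obtain ⟨l1, l2⟩ := hlat x hx y hy hxy hg zy cy1 cy2
  have l3 := hsl x hx y hy hxy hg
  have hdx := hdr x hx hgx2
  have hdy := hdr y hy hgy2
  have dE1 : D.B.d n ^ E ≤ 1 := dpow_le_one D.B n E0
  have hrel : ∀ i, |rel (K n).κ (frW (LS D K n x.1) zx) (frW (LS D K n y.1) zy) i| ≤ X := by
    rw [rel_two]
    intro i
    fin_cases i
    · exact hdz.trans X1
    · refine le_trans l3 ?_
      calc 2 * (wA / ρ * D.B.d n ^ (-(1 : ℝ)))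
          ≤ D.B.d n ^ (-(1 : ℝ)) * (D.B.d n ^ (-(2 * E)) * D.B.d n ^ (-(1 : ℝ))) :=
            mul_le_mul d2 (mul_le_mul_of_nonneg_right q1 (dp _).le)
              (mul_nonneg (by positivity) (dp _).le) (dp _).le
        _ = D.B.d n ^ (-(2 * E + 2)) := by rw [← dpow_add, ← dpow_add]; congr 1; ring
        _ ≤ _ := dpow_le D.B n (by linarith)
    · refine le_trans l1 ?_
      calc wA * D.B.d n ^ (-(1 : ℝ)) ≤ D.B.d n ^ (-E) * D.B.d n ^ (-(1 : ℝ)) :=
            mul_le_mul_of_nonneg_right wa2 (dp _).le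
        _ = D.B.d n ^ (-(E + 1)) := by rw [← dpow_add]; congr 1; ring
        _ ≤ _ := dpow_le D.B n (by linarith)
    · refine (abs_add_le _ _).trans ?_
      rw [abs_mul (drW _ _)]
      have a1 : |drW (K n).κ (LS D K n x.1)| * |zy - zx| ≤ 1 :=
        mul_le_one₀ (hdx.trans dE1) (abs_nonneg _) hdz
      have a2 : wBS D K n v * D.B.d n ^ (-(1 : ℝ)) ≤ D.B.d n ^ (-(3 * E + 1)) := by
        calc wBS D K n v * D.B.d n ^ (-(1 : ℝ)) ≤ D.B.d n ^ (-(3 * E)) * D.B.d n ^ (-(1 : ℝ)) :=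
              mul_le_mul_of_nonneg_right q3 (dp _).le
          _ = _ := by rw [← dpow_add]; congr 1; ring
      have a3 : 1 ≤ D.B.d n ^ (-(3 * E + 1)) := one_le_dpow D.B n (by linarith)
      calc _ ≤ D.B.d n ^ (-(3 * E + 1)) + 1 := add_le_add (l2.trans a2) a1
        _ ≤ 2 * D.B.d n ^ (-(3 * E + 1)) := by linarith
        _ ≤ D.B.d n ^ (-(1 : ℝ)) * D.B.d n ^ (-(3 * E + 1)) :=
            mul_le_mul_of_nonneg_right d2 (dp _).le
        _ = D.B.d n ^ (-(3 * E + 2)) := by rw [← dpow_add]; congr 1; ring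
        _ ≤ _ := dpow_le D.B n (by linarith)
  have XK : X ≤ D.B.d n ^ (-(112 * c1 + 1)) := dpow_le D.B n (by linarith)
  intro k
  refine Fin.addCases (m := 4) (n := 14) (fun i => ?_) (fun q => ?_) k
  · rw [coW_left]
    exact (hrel i).trans XK
  · rw [coW_right]
    show |tr (K n).κ (frW (LS D K n y.1) zy) (MkS D K 0 n (kc (D.lev n 0) (D.f n 0) y) -
      MkS D K 0 n (kc (D.lev n 0) (D.f n 0) x)) q| ≤ _
    rcases v0.eq_or_lt with hv | hv
    · rw [← hv] at hxy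
      rw [hxy, sub_self, tr_zero, Pi.zero_apply, abs_zero]
      exact (dp _).le
    · have cx := hclo hv x hx hgx2
      have cy := hclo hv y hy hgy2
      rw [hxy] at cy
      have hd1 : 0 < D.B.d n ^ (1 : ℝ) := dp _
      have er : wA ^ 2 / ρ * D.B.d n ^ (1 : ℝ) = (wA * D.B.d n ^ (1 : ℝ)) ^ 2 /
          (ρ * D.B.d n ^ (1 : ℝ)) := by
        field_simp
      rw [er] at cx cy
      have Xr : ρ ≤ X * (ρ * D.B.d n ^ (1 : ℝ)) := by
        have h1 : 1 ≤ X * D.B.d n ^ (1 : ℝ) := by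
          rw [hX, ← dpow_add]
          have := one_le_dpow D.B n (show 0 ≤ c1 - 1 by linarith)
          rwa [show -c1 + 1 = -(c1 - 1) by ring]
        calc ρ = 1 * ρ := (one_mul _).symm
          _ ≤ X * D.B.d n ^ (1 : ℝ) * ρ := mul_le_mul_of_nonneg_right h1 hr0.le
          _ = _ := by ring
      have Xb : 1 ≤ X * ((wA * D.B.d n ^ (1 : ℝ)) ^ 2 / (ρ * D.B.d n ^ (1 : ℝ))) := by
        rw [← er]
        calc (1 : ℝ) ≤ D.B.d n ^ (-(c1 - 3 * E - 1)) := one_le_dpow D.B n (by linarith)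
          _ = X * (D.B.d n ^ (3 * E) * D.B.d n ^ (1 : ℝ)) := by
              rw [hX, ← dpow_add, ← dpow_add]; congr 1; ring
          _ ≤ _ := mul_le_mul_of_nonneg_left (mul_le_mul_of_nonneg_right q4 hd1.le) (by linarith)
      have drb : ∀ {δ z z' : ℝ}, |δ| ≤ D.B.d n ^ E → |z - z'| ≤ ρ → |δ * (z - z')| ≤
          X * ((wA * D.B.d n ^ (1 : ℝ)) ^ 2 / (ρ * D.B.d n ^ (1 : ℝ))) := by
        intro δ z z' h1 h2
        rw [abs_mul]
        refine le_trans ?_ Xb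
        calc |δ| * |z - z'| ≤ D.B.d n ^ E * D.B.d n ^ (-E) :=
              mul_le_mul h1 (h2.trans rh2) (abs_nonneg _) (dp _).le
          _ = 1 := by rw [← dpow_add, add_neg_cancel, Real.rpow_zero]
      have zmx := abs_zh_zm (lev := D.lev) (hz := hzS K) (zs := zsS K) (hz_pos hs n) v x
      have zmy := abs_zh_zm (lev := D.lev) (hz := hzS K) (zs := zsS K) (hz_pos hs n) v y
      have h1r : 1 / (ρ * D.B.d n ^ (1 : ℝ)) ≤ X := by
        rw [div_le_iff₀ (mul_pos hr0 hd1)]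
        calc (1 : ℝ) ≤ D.B.d n ^ (-(c1 - E - 1)) := one_le_dpow D.B n (by linarith)
          _ = X * (D.B.d n ^ E * D.B.d n ^ (1 : ℝ)) := by
              rw [hX, ← dpow_add, ← dpow_add]; congr 1; ring
          _ ≤ _ := mul_le_mul_of_nonneg_left (mul_le_mul_of_nonneg_right rh1 hd1.le) (by linarith)
      have h1c : 1 / (wA * D.B.d n ^ (1 : ℝ) / (ρ * D.B.d n ^ (1 : ℝ))) ≤ X := by
        have e : 1 / (wA * D.B.d n ^ (1 : ℝ) / (ρ * D.B.d n ^ (1 : ℝ))) = ρ / wA := by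
          field_simp
        rw [e]
        exact q2.trans (dpow_le D.B n (by linarith))
      have hD : max (aS D n 0) (aS D n v) * D.B.d n ^ (-(C0 * ((v : ℝ) - (0 : ℚ))) - 1) ≤ X := by
        have m1 : max (aS D n 0) (aS D n v) ≤ D.B.d n ^ (-E) := max_le hE0.2.2.2 as2
        have m2 : D.B.d n ^ (-(C0 * ((v : ℝ) - (0 : ℚ))) - 1) ≤ D.B.d n ^ (-(C0 + 1)) := by
          refine dpow_le D.B n ?_
          linarith
        calc _ ≤ D.B.d n ^ (-E) * D.B.d n ^ (-(C0 + 1)) :=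
              mul_le_mul m1 m2 (dp _).le (dp _).le
          _ = D.B.d n ^ (-(E + C0 + 1)) := by rw [← dpow_add]; congr 1; ring
          _ ≤ _ := dpow_le D.B n (by linarith)
      have main := step_k (hs.kp1 n) (zx := zx) (zy := zy) (zm := zmN D.lev (hzS K) (zsS K) v n x)
        (zn := zmN D.lev (hzS K) (zsS K) v n y) X6 (mul_pos hr0 hd1) (mul_pos hA0 hd1) h1r h1c hD
        hrel cx cy (zmx.trans Xr) (zmy.trans Xr) (drb hdx zmx) (drb hdy zmy) q
      refine main.trans ?_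
      have e : X ^ 112 = D.B.d n ^ (-(112 * c1)) := by
        rw [hX, dpow_nat]; congr 1; push_cast; ring
      rw [e]
      calc 10 ^ 22 * D.B.d n ^ (-(112 * c1)) ≤ D.B.d n ^ (-(1 : ℝ)) * D.B.d n ^ (-(112 * c1)) :=
            mul_le_mul_of_nonneg_right hb (dp _).le
        _ = _ := by rw [← dpow_add]; congr 1; ring

/-- **marks on good incidences** -/
theorem exists_ball (h : ThinW p D) (hs : StcA p D K x0) :
    ∃ (I' : ℕ → Finset (ℕ × ℝ)) (C : ℝ), (∀ n, I' n ⊆ D.I n) ∧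
      MkA D.B I' (D.G p) D.lev D.A (fun v => p.g * v) (fun v => 0 * v)
        (fun j v => p.θ j * (1 - v)) D.f D.b D.vm D.w ∧
      ∀ᶠ n in (U : Filter ℕ), ∀ x ∈ I' n, Gd D K C n x := by
  obtain ⟨N, hN, hN'⟩ := exists_cut hs
  obtain ⟨Ck, Ck0, hCk⟩ := step_v h hs
  have hC1 : 0 < 40 * Ck := by linarith
  obtain ⟨C3, hC3⟩ := ball_gd h hs hN hN' hC1
  have hge : ∀ C : ℝ, ∀ᶠ n in (U : Filter ℕ), C ≤ (N n : ℝ) := fun C => by
    filter_upwards [hN' ⌈C⌉₊] with n hn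
    exact (Nat.le_ceil C).trans (by exact_mod_cast hn)
  have e40 : -(40 * Ck / 40) = -Ck := by ring
  obtain ⟨I', hI, hM, hB⟩ := MkA.ball' h.mka hs.kp1 (FlS D K N (fun n => 2 * D.B.d n ^ (-(40 * Ck))))
    x0 hs.cen hC1
    (by
      filter_upwards [hC3, step_l h hs C3, hge C3] with n h1 h2 h3 x hx hin y hy hxy k
      have hg := h1 x hx hin
      obtain ⟨hgy, hk⟩ := h2 x hx hg y hy hxy
      rw [FlS_pos (gd_mono h3 hg), FlS_pos (gd_mono h3 hgy), e40]
      exact (hk k).trans (one_le_dpow D.B n Ck0.le))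
    (by
      intro v v0 v1
      obtain ⟨C', hC'⟩ := hCk v v0 v1 C3
      filter_upwards [hC3, hC', hge C3, hge C'] with n h1 h2 h3 h4 x hx hin y hy hxy k
      have hg := h1 x hx hin
      obtain ⟨hgy, hk⟩ := h2 x hx hg y hy hxy
      rw [FlS_pos (gd_mono h3 hg), FlS_pos (gd_mono h4 hgy), e40]
      exact hk k)
  refine ⟨I', C3, hI, hM, ?_⟩
  filter_upwards [hC3] with n h1 x hx
  exact h1 x (hI n hx) (hB n x hx)

end

end Crest.Agent.R136.Ste650
end

-- ▼ part R136/Ste_650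

/-!
# R136, U6 thin side, stage C (helper650): the assembly

**`exists_thinG`** : `ThinW` + `StcA` ⊢ marks on good incidences, `ThinG`, `ClW`, linear exponents.
-/

set_option autoImplicit false
set_option linter.unusedVariables false

open Finset Filter Topology

namespace Crest.Agent.R136.Ste650

open Crest.Agent.R138.Ex926 (Base U)
open Crest.Agent.R138.Mk163 (zc zl rho Negl)
open Crest.Agent.R138.MkRef627 (lc kc)
open Crest.Agent.R138.Dp76 (dpow_pos dpow_add dpow_le dpow_le_one)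
open Crest.Agent.R138.ArgM163 (ev_const ev_const_mul)
open Crest.Agent.R136.ArgA163 (rho_pos tau_zero)
open Crest.Agent.R136.Sh605
open Crest.Agent.R136.MkA627
open Crest.Agent.R136.Net191
open Crest.Agent.R136.NetW191
open Crest.Agent.R136.GeoN778
open Crest.Agent.R136.Wit321
open Crest.Agent.R136.Stc321
open Crest.Agent.R136.Top484
open Crest.Agent.R136.Tlt51 (mk4 zx rh)
open Crest.Agent.R136.FlW464 (frW drW rel_fr)
open Crest.Agent.R136.Fw650 (z0N zhN rhN cellN ThinG)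
open Crest.Agent.R136.GW650 (Lin)
open Crest.Agent.R136.Tn327 (zmN ClW CloseW)
open Crest.Agent.R136.Thn768 (ThinW)

section

variable {p : Par4} {D : Dat4} {K : ℕ → CtD} {x0 : ℕ → ℕ × ℝ}

open Classical in
/-- a representative of a class -/
noncomputable def rep (D : Dat4) (I : ℕ → Finset (ℕ × ℝ)) (v : ℚ) (n : ℕ) (c : ℕ × ℤ) : ℕ × ℝ :=
  if h : ∃ x ∈ I n, kc (D.lev n v) (D.f n v) x = c then h.choose else (0, 0)

theorem rep_spec {D : Dat4} {I : ℕ → Finset (ℕ × ℝ)} (v : ℚ) (n : ℕ) {x : ℕ × ℝ} (hx : x ∈ I n) :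
    rep D I v n (kc (D.lev n v) (D.f n v) x) ∈ I n ∧
      kc (D.lev n v) (D.f n v) (rep D I v n (kc (D.lev n v) (D.f n v) x)) =
        kc (D.lev n v) (D.f n v) x := by
  have h : ∃ y ∈ I n, kc (D.lev n v) (D.f n v) y = kc (D.lev n v) (D.f n v) x := ⟨x, hx, rfl⟩
  unfold rep
  rw [dif_pos h]
  exact h.choose_spec

/-- tangent of the null cone at a representative -/
noncomputable def ES (D : Dat4) (K : ℕ → CtD) (I : ℕ → Finset (ℕ × ℝ)) (v : ℚ) (n : ℕ)
    (c : ℕ × ℤ) : ℝ := -(2 * (K n).κ * (LS D K n (rep D I v n c).1).v 1)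

/-- **`ThinG` and `ClW` on good incidences** -/
theorem thinG_of (h : ThinW p D) (hs : StcA p D K x0) {I : ℕ → Finset (ℕ × ℝ)} {C : ℝ}
    (hI : ∀ n, I n ⊆ D.I n) (hg : ∀ᶠ n in (U : Filter ℕ), ∀ x ∈ I n, Gd D K C n x) :
    ThinG D.B I D.lev D.f (fun n => (K n).κ) (fun n => (K n).σ) (hzS K) (zsS K) (LS D K)
      (wAS D K) (wBS D K) (aS D) (MkS D K) (ES D K I) ∧
    ClW D.B I D.lev D.f (fun n => (K n).κ) (LS D K) (zmN D.lev (hzS K) (zsS K))
      (rhN D.lev (hzS K)) (wAS D K) (aS D) (MkS D K) := by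
  obtain ⟨E, E0, hE⟩ := exps h hs
  have hrp : ∀ n v, 0 < rhN D.lev (hzS K) n v := fun n v => mul_pos (hz_pos hs n) (rho_pos _)
  -- slopes of the representatives
  have hsl : ∀ v : ℚ, 0 ≤ v → v ≤ 1 → ∀ ε : ℝ, 0 < ε → ∀ᶠ n in (U : Filter ℕ), ∀ x ∈ I n,
      |(LS D K n (rep D I v n (kc (D.lev n v) (D.f n v) x)).1).v 1 - (LS D K n x.1).v 1| ≤
        2 * (wAS D K n v / rhN D.lev (hzS K) n v * D.B.d n ^ (-ε)) := by
    intro v v0 v1 ε hε
    filter_upwards [slope hs C v0 v1 hε, hg] with n h1 h2 x hx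
    obtain ⟨r1, r2⟩ := rep_spec (D := D) v n hx
    exact h1 x (hI n hx) _ (hI n r1) r2 (h2 x hx)
  refine ⟨?_, ?_⟩
  · refine
    { kp1 := hs.kp1
      σ0 := hs.σ0
      hz0 := hz_pos hs
      σs := hs.σs
      zb := ?_
      Lb := ?_
      rb := ⟨E, (hE 0 le_rfl zero_le_one).mono fun n hn => hn.2.1⟩
      top := ⟨E, (hE 0 le_rfl zero_le_one).mono fun n hn => ⟨hn.2.2.2, hn.1.2⟩⟩
      Mb := ?_
      A0 := fun v v0 v1 => (hE v v0 v1).mono fun n hn => (dpow_pos D.B n E).trans_le hn.1.1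
      low := fun v v0 v1 => ⟨3 * E, (hE v v0 v1).mono fun n hn => ?_⟩
      q := ?_
      lat := ?_
      ax := ?_
      bal := ?_ }
    · filter_upwards [geo hs] with n hn x hx
      exact (hn.2 x (hI n hx)).2.trans (by norm_num)
    · refine ⟨max C 0 + 1, ?_⟩
      filter_upwards [nrm hs (le_max_right C 0), hg] with n h1 h2 x hx k
      have := h1 x (gd_mono (le_max_left _ _) (h2 x hx)) k
      exact ⟨this.2, this.1⟩
    · intro v v0 v1
      obtain ⟨C', hC'⟩ := hs.Mb C v v0 v1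
      refine ⟨C', ?_⟩
      filter_upwards [hC', hg] with n h1 h2 x hx
      exact (h1 x (hI n hx) (h2 x hx)).2
    · refine ⟨(dpow_le D.B n (by linarith)).trans hn.2.2.1, ?_⟩
      have dp := dpow_pos D.B n
      unfold wBS
      rw [le_div_iff₀ (hrp n v)]
      calc D.B.d n ^ (3 * E) * rhN D.lev (hzS K) n v ≤ D.B.d n ^ (3 * E) * D.B.d n ^ (-E) :=
            mul_le_mul_of_nonneg_left hn.2.1.2 (dp _).le
        _ = (D.B.d n ^ E) ^ 2 := by rw [dpow_nat, ← dpow_add]; congr 1; push_cast; ring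
        _ ≤ _ := pow_le_pow_left₀ (dp _).le hn.1.1 2
    · intro v v0 v1 ε hε
      filter_upwards [hs.thick C v v0 v1 ε hε, hg] with n h1 h2 x hx
      exact h1 x (hI n hx) (h2 x hx)
    · intro v v0 v1 ε hε
      have hε4 : 0 < ε / 4 := by positivity
      have hε2 : 0 < ε / 2 := by positivity
      filter_upwards [hs.lat C v v0 v1 _ hε4, hsl v v0 v1 _ hε4, hg, hE v v0 v1,
        ev_const D.B (show (0 : ℝ) < 5 by norm_num) hε2] with n h1 h2 h3 hEv h5 x hx y hy hxy z z1 z2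
      obtain ⟨l1, l2⟩ := h1 x (hI n hx) y (hI n hy) hxy (h3 x hx) z z1 z2
      have l3 := h2 x hx
      have dp := dpow_pos D.B n
      have hA0 : 0 < wAS D K n v := (dp _).trans_le hEv.1.1
      have hB0 : 0 < wBS D K n v := div_pos (pow_pos hA0 2) (hrp n v)
      have hd4 : 1 ≤ D.B.d n ^ (-(ε / 4)) := one_le_dpow D.B n hε4.le
      set δ := D.B.d n ^ (-(ε / 4)) with hδ
      have hδ2 : δ ^ 2 = D.B.d n ^ (-(ε / 2)) := by
        rw [hδ, dpow_nat]; congr 1; push_cast; ring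
      have hδε : 5 * δ ^ 2 ≤ D.B.d n ^ (-ε) := by
        rw [hδ2]
        calc 5 * D.B.d n ^ (-(ε / 2)) ≤ D.B.d n ^ (-(ε / 2)) * D.B.d n ^ (-(ε / 2)) :=
              mul_le_mul_of_nonneg_right h5 (dp _).le
          _ = _ := by rw [← dpow_add]; congr 1; ring
      refine ⟨l1.trans (mul_le_mul_of_nonneg_left (dpow_le D.B n (by linarith)) hA0.le), ?_⟩
      set ΔA := (LS D K n y.1).pos z 1 - (LS D K n x.1).pos z 1 with hΔA
      set ΔB := (LS D K n y.1).pos z 2 - (LS D K n x.1).pos z 2 with hΔB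
      set vr := (LS D K n (rep D I v n (kc (D.lev n v) (D.f n v) x)).1).v 1 with hvr
      set vx := (LS D K n x.1).v 1 with hvx
      have e : ΔB - ES D K I v n (kc (D.lev n v) (D.f n v) x) * ΔA =
          (ΔB + 2 * (K n).κ * vx * ΔA) + 2 * ((K n).κ * ((vr - vx) * ΔA)) := by
        unfold ES
        rw [← hvr]
        ring
      rw [e]
      have m1 : |(vr - vx) * ΔA| ≤ 2 * (wBS D K n v * δ ^ 2) := by
        rw [abs_mul]
        calc |vr - vx| * |ΔA| ≤ 2 * (wAS D K n v / rhN D.lev (hzS K) n v * δ) *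
              (wAS D K n v * δ) :=
              mul_le_mul l3 l1 (abs_nonneg _) (by
                have := hrp n v
                positivity)
          _ = 2 * (wBS D K n v * δ ^ 2) := by unfold wBS; ring
      have m2 : |2 * ((K n).κ * ((vr - vx) * ΔA))| ≤ 4 * (wBS D K n v * δ ^ 2) := by
        rw [abs_mul, abs_two, abs_mul (K n).κ]
        have := mul_le_mul (hs.kp1 n) m1 (abs_nonneg _) zero_le_one
        linarith
      have m3 : wBS D K n v * δ ≤ wBS D K n v * δ ^ 2 :=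
        mul_le_mul_of_nonneg_left (by nlinarith) hB0.le
      calc _ ≤ wBS D K n v * δ + 4 * (wBS D K n v * δ ^ 2) :=
            (abs_add_le _ _).trans (add_le_add l2 m2)
        _ ≤ wBS D K n v * (5 * δ ^ 2) := by linarith
        _ ≤ _ := mul_le_mul_of_nonneg_left hδε hB0.le
    · intro v v0 v1 ε hε
      have hε2 : 0 < ε / 2 := by positivity
      filter_upwards [hsl v v0 v1 _ hε2, hE v v0 v1,
        ev_const D.B (show (0 : ℝ) < 4 by norm_num) hε2] with n h2 hEv h5 x hx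
      have l3 := h2 x hx
      have dp := dpow_pos D.B n
      have hA0 : 0 < wAS D K n v := (dp _).trans_le hEv.1.1
      have hr := hrp n v
      set vr := (LS D K n (rep D I v n (kc (D.lev n v) (D.f n v) x)).1).v 1 with hvr
      set vx := (LS D K n x.1).v 1 with hvx
      have e : ES D K I v n (kc (D.lev n v) (D.f n v) x) + 2 * (K n).κ * vx =
          -(2 * ((K n).κ * (vr - vx))) := by
        unfold ES
        rw [← hvr]
        ring
      rw [e, abs_neg, abs_mul, abs_two, abs_mul]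
      have e2 : wBS D K n v / wAS D K n v = wAS D K n v / rhN D.lev (hzS K) n v := by
        unfold wBS
        field_simp
      rw [e2]
      have m1 := mul_le_mul (hs.kp1 n) l3 (abs_nonneg _) zero_le_one
      have p1 : 0 < wAS D K n v / rhN D.lev (hzS K) n v := div_pos hA0 hr
      calc 2 * (|(K n).κ| * |vr - vx|)
          ≤ 4 * D.B.d n ^ (-(ε / 2)) * (wAS D K n v / rhN D.lev (hzS K) n v) := by linarith
        _ ≤ (D.B.d n ^ (-(ε / 2)) * D.B.d n ^ (-(ε / 2))) *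
            (wAS D K n v / rhN D.lev (hzS K) n v) :=
            mul_le_mul_of_nonneg_right (mul_le_mul_of_nonneg_right h5 (dp _).le) p1.le
        _ = _ := by rw [← dpow_add, mul_comm]; congr 2; ring
    · intro v v0 v1 ε hε
      filter_upwards [hE v v0 v1] with n hEv
      have hA0 : 0 < wAS D K n v := (dpow_pos D.B n E).trans_le hEv.1.1
      have hB0 : 0 < wBS D K n v := div_pos (pow_pos hA0 2) (hrp n v)
      have h1 := one_le_dpow D.B n hε.le
      have e : wAS D K n v ^ 2 / rhN D.lev (hzS K) n v = wBS D K n v := rfl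
      rw [e]
      exact ⟨le_mul_of_one_le_right hB0.le h1, le_mul_of_one_le_right hB0.le h1⟩
  · obtain ⟨C0, C00, hcl⟩ := hs.clw
    refine ⟨C0, fun u v u0 uv v1 ε hε => Negl.false.mono ?_⟩
    filter_upwards [hcl C u v u0 uv v1 ε hε, hg] with n h1 h2 x hx hbad
    exact hbad (h1 x (hI n hx) (h2 x hx))

/-- **the assembly of stage C** -/
theorem exists_thinG (h : ThinW p D) (hs : StcA p D K x0) :
    ∃ (I' : ℕ → Finset (ℕ × ℝ)) (E : ℚ → ℕ → ℕ × ℤ → ℝ) (C : ℝ), (∀ n, I' n ⊆ D.I n) ∧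
      MkA D.B I' (D.G p) D.lev D.A (fun v => p.g * v) (fun v => 0 * v)
        (fun j v => p.θ j * (1 - v)) D.f D.b D.vm D.w ∧
      (∀ᶠ n in (U : Filter ℕ), ∀ x ∈ I' n, Gd D K C n x) ∧
      ThinG D.B I' D.lev D.f (fun n => (K n).κ) (fun n => (K n).σ) (hzS K) (zsS K) (LS D K)
        (wAS D K) (wBS D K) (aS D) (MkS D K) E ∧
      ClW D.B I' D.lev D.f (fun n => (K n).κ) (LS D K) (zmN D.lev (hzS K) (zsS K))
        (rhN D.lev (hzS K)) (wAS D K) (aS D) (MkS D K) ∧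
      Lin D.B (wAS D K) (1 - p.θ 1) ∧ Lin D.B (aS D) (1 - p.θ 0) := by
  obtain ⟨I', C, hI, hM, hg⟩ := exists_ball h hs
  obtain ⟨h1, h2⟩ := thinG_of h hs hI hg
  exact ⟨I', ES D K I', C, hI, hM, hg, h1, h2, lin_wAS h hs, lin_aS h⟩

end

end Crest.Agent.R136.Ste650
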