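import Crest.Agent.R136.WkG_626
import Crest.Agent.R136.RgN2_344

-- ▼ part R136/Wk6_323
section

/-!
# R136 (S0187): RIG wrapper, HEIGHTS (Z1) (helper323)

`heights_fin` : one actual height per mesh cell of mesh `h`, in one window `[z* + n h, z* + 2 n h)`;
`exists_heights` : the same for a relative model with full (`σ = 1`) heights.
-/

set_option autoImplicit false
set_option linter.unusedVariables false

open Filter Topology Finset

namespace Crest.Agent.R136.Wk323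

open Crest.Agent.R136.Sh605
open Crest.Agent.R138.Ex926 (Base U)
open Crest.Agent.R136.Gf356

/-- **one actual height per mesh cell** -/
theorem heights_fin {ι : Type*} (L : Finset ι) (Z : Finset ℕ) (al : ι → ℕ → Prop)
    [∀ l k, Decidable (al l k)] (z : ℕ → ℝ)
    {h κ : ℝ} {n : ℕ} (hn0 : 0 < n) (hh : 0 < h) (hκ : 0 < κ) (hn : 1 < (n + 1) * h)
    (hZ : Z.Nonempty) (hz : ∀ k ∈ Z, |z k| ≤ 1)
    (hsl : ∀ k ∈ Z, κ * (L.card : ℝ) ≤ ((L.filter fun l => al l k).card : ℝ))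
    (hfr : ∀ k ∈ Z, κ * n * ((Z.filter fun k' => |z k' - z k| ≤ h).card : ℝ) ≤ (Z.card : ℝ)) :
    ∃ w : ℤ, |(w : ℝ)| ≤ 3 ∧ ∃ kst : ℤ → ℕ, ∃ Lg ⊆ L, κ / 8 * (L.card : ℝ) ≤ (Lg.card : ℝ) ∧
      ∀ l ∈ Lg, κ ^ 2 / 8 * n ≤ (((Finset.Ico (n : ℤ) (2 * n)).filter fun g =>
        kst g ∈ Z ∧ al l (kst g) ∧ |z (kst g) - (w * (n * h) + g * h)| ≤ h).card : ℝ) := by
  set S := Z.image fun k => ⌊z k / h⌋ with hS
  have hrep : ∀ s ∈ S, ∃ k ∈ Z, ⌊z k / h⌋ = s := fun s hs => mem_image.1 hs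
  choose! k0 hk0Z hk0s using hrep
  have hnR : (0 : ℝ) < n := by exact_mod_cast hn0
  -- positions of the cells
  have hpos : ∀ s ∈ S, |z (k0 s) - s * h| ≤ h := by
    intro s hs
    have h1 := hk0s s hs
    have h2 := Int.floor_le (z (k0 s) / h)
    have h3 := Int.lt_floor_add_one (z (k0 s) / h)
    rw [h1] at h2 h3
    rw [le_div_iff₀ hh] at h2
    rw [div_lt_iff₀ hh] at h3
    rw [abs_le]
    constructor <;> linarith
  -- number of cells
  have hcardS : κ * n ≤ (S.card : ℝ) := by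
    have h1 : (Z.card : ℝ) = ∑ s ∈ S, ((Z.filter fun k => ⌊z k / h⌋ = s).card : ℝ) := by
      have := card_eq_sum_card_fiberwise (s := Z) (t := S) (f := fun k => ⌊z k / h⌋)
        (fun i hi => mem_image_of_mem _ hi)
      rw [this]
      push_cast
      rfl
    have h2 : ∀ s ∈ S, κ * n * ((Z.filter fun k => ⌊z k / h⌋ = s).card : ℝ) ≤ (Z.card : ℝ) := by
      intro s hs
      refine le_trans ?_ (hfr (k0 s) (hk0Z s hs))
      refine mul_le_mul_of_nonneg_left ?_ (by positivity)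
      refine mod_cast card_le_card ?_
      intro k hk
      rw [mem_filter] at hk ⊢
      refine ⟨hk.1, ?_⟩
      have h3 : ⌊z k / h⌋ = ⌊z (k0 s) / h⌋ := by rw [hk.2, hk0s s hs]
      have := floor_close hh h3
      rwa [abs_sub_comm] at this
    have hZ0 : (0 : ℝ) < Z.card := by exact_mod_cast hZ.card_pos
    have h3 : κ * n * (Z.card : ℝ) ≤ S.card * (Z.card : ℝ) := by
      calc κ * n * (Z.card : ℝ) = ∑ s ∈ S, κ * n * ((Z.filter fun k => ⌊z k / h⌋ = s).card : ℝ) := by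
            rw [← mul_sum, ← h1]
        _ ≤ ∑ _s ∈ S, (Z.card : ℝ) := sum_le_sum h2
        _ = _ := by rw [sum_const, nsmul_eq_mul]
    exact le_of_mul_le_mul_right h3 hZ0
  have hS0 : (0 : ℝ) < S.card := lt_of_lt_of_le (by positivity) hcardS
  -- windows
  have hwin : ∀ s ∈ S, s / (n : ℤ) ∈ Finset.Icc (-2 : ℤ) 1 := by
    intro s hs
    have h1 := hz _ (hk0Z s hs)
    rw [abs_le] at h1
    have h2 := hk0s s hs
    have h3 := Int.floor_le (z (k0 s) / h)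
    have h4 := Int.lt_floor_add_one (z (k0 s) / h)
    rw [h2] at h3 h4
    rw [le_div_iff₀ hh] at h3
    rw [div_lt_iff₀ hh] at h4
    have h5 : (s : ℝ) < n + 1 := by
      have : (s : ℝ) * h < (n + 1) * h := by linarith [h1.2]
      exact lt_of_mul_lt_mul_right this hh.le
    have h6 : -((n : ℝ) + 2) < s := by
      have : -((n : ℝ) + 1) * h < (s + 1) * h := by linarith [h1.1]
      have := lt_of_mul_lt_mul_right this hh.le
      linarith
    have h7 : s < (n : ℤ) + 1 := by exact_mod_cast h5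
    have h8 : -((n : ℤ) + 2) < s := by exact_mod_cast h6
    have hnZ : (0 : ℤ) < n := by exact_mod_cast hn0
    rw [Finset.mem_Icc]
    constructor
    · rw [Int.le_ediv_iff_mul_le hnZ]
      have : (1 : ℤ) ≤ n := hnZ
      omega
    · rw [← Int.lt_add_one_iff, Int.ediv_lt_iff_lt_mul hnZ]
      have : (1 : ℤ) ≤ n := hnZ
      omega
  -- the popular window
  have htot : κ * (S.card : ℝ) * (L.card : ℝ) ≤ ∑ w ∈ Finset.Icc (-2 : ℤ) 1,
      ∑ s ∈ S.filter fun s => s / (n : ℤ) = w, ((L.filter fun l => al l (k0 s)).card : ℝ) := by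
    rw [sum_fiberwise_of_maps_to hwin]
    calc κ * (S.card : ℝ) * (L.card : ℝ) = ∑ _s ∈ S, κ * (L.card : ℝ) := by
          rw [sum_const, nsmul_eq_mul]; ring
      _ ≤ _ := sum_le_sum fun s hs => hsl _ (hk0Z s hs)
  obtain ⟨w, hw, hww⟩ : ∃ w ∈ Finset.Icc (-2 : ℤ) 1, κ * (S.card : ℝ) * (L.card : ℝ) / 4 ≤
      ∑ s ∈ S.filter fun s => s / (n : ℤ) = w, ((L.filter fun l => al l (k0 s)).card : ℝ) := by
    by_contra hcon
    push Not at hcon
    have := sum_lt_sum_of_nonempty (s := Finset.Icc (-2 : ℤ) 1) ⟨0, by decide⟩ hcon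
    rw [sum_const] at this
    have hc : (Finset.Icc (-2 : ℤ) 1).card = 4 := by decide
    rw [hc, nsmul_eq_mul] at this
    push_cast at this
    linarith
  set Sw := S.filter fun s => s / (n : ℤ) = w with hSw
  -- double count
  have hdc : ∑ s ∈ Sw, ((L.filter fun l => al l (k0 s)).card : ℝ) =
      ∑ l ∈ L, ((Sw.filter fun s => al l (k0 s)).card : ℝ) := by
    have := sum_card_bipartiteAbove_eq_sum_card_bipartiteBelow (s := Sw) (t := L)
      (fun s l => al l (k0 s))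
    exact_mod_cast this
  rw [hdc] at hww
  have hale : ∀ l, ((Sw.filter fun s => al l (k0 s)).card : ℝ) ≤ S.card := by
    intro l
    exact_mod_cast card_le_card ((filter_subset _ _).trans (filter_subset _ _))
  set Lg := L.filter fun l => κ / 8 * (S.card : ℝ) ≤ ((Sw.filter fun s => al l (k0 s)).card : ℝ)
    with hLg
  have hLgc : κ / 8 * (L.card : ℝ) ≤ (Lg.card : ℝ) := by
    have h1 := sum_filter_add_sum_filter_not L
      (fun l => κ / 8 * (S.card : ℝ) ≤ ((Sw.filter fun s => al l (k0 s)).card : ℝ))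
      (fun l => ((Sw.filter fun s => al l (k0 s)).card : ℝ))
    rw [← h1] at hww
    have h2 : ∑ l ∈ Lg, ((Sw.filter fun s => al l (k0 s)).card : ℝ) ≤ Lg.card * (S.card : ℝ) := by
      calc _ ≤ ∑ _l ∈ Lg, (S.card : ℝ) := sum_le_sum fun l _ => hale l
        _ = _ := by rw [sum_const, nsmul_eq_mul]
    have h3 : ∑ l ∈ L.filter fun l => ¬ (κ / 8 * (S.card : ℝ) ≤
        ((Sw.filter fun s => al l (k0 s)).card : ℝ)), ((Sw.filter fun s => al l (k0 s)).card : ℝ) ≤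
        κ / 8 * (S.card : ℝ) * (L.card : ℝ) := by
      calc _ ≤ ∑ _l ∈ L.filter fun l => ¬ (κ / 8 * (S.card : ℝ) ≤
          ((Sw.filter fun s => al l (k0 s)).card : ℝ)), κ / 8 * (S.card : ℝ) := by
            refine sum_le_sum fun l hl => ?_
            exact (not_le.1 (mem_filter.1 hl).2).le
        _ = ((L.filter fun l => ¬ (κ / 8 * (S.card : ℝ) ≤
          ((Sw.filter fun s => al l (k0 s)).card : ℝ))).card : ℝ) * (κ / 8 * (S.card : ℝ)) := by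
            rw [sum_const, nsmul_eq_mul]
        _ ≤ (L.card : ℝ) * (κ / 8 * (S.card : ℝ)) := by
            refine mul_le_mul_of_nonneg_right ?_ (by positivity)
            exact_mod_cast card_le_card (filter_subset _ _)
        _ = _ := by ring
    have h4 : κ / 8 * (L.card : ℝ) * (S.card : ℝ) ≤ Lg.card * (S.card : ℝ) := by linarith
    exact le_of_mul_le_mul_right h4 hS0
  refine ⟨w - 1, ?_, fun g => k0 (g + (w - 1) * n), Lg, filter_subset _ _, hLgc, ?_⟩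
  · rw [Finset.mem_Icc] at hw
    have h1 : (-2 : ℝ) ≤ w := by exact_mod_cast hw.1
    have h2 : (w : ℝ) ≤ 1 := by exact_mod_cast hw.2
    push_cast
    rw [abs_le]
    constructor <;> linarith
  · intro l hl
    have h1 := (mem_filter.1 hl).2
    have h2 : κ ^ 2 / 8 * n ≤ ((Sw.filter fun s => al l (k0 s)).card : ℝ) := by
      refine le_trans ?_ h1
      calc κ ^ 2 / 8 * n = κ / 8 * (κ * n) := by ring
        _ ≤ κ / 8 * S.card := mul_le_mul_of_nonneg_left hcardS (by positivity)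
    refine h2.trans ?_
    have h3 : (Sw.filter fun s => al l (k0 s)).card ≤
        ((Finset.Ico (n : ℤ) (2 * n)).filter fun g => k0 (g + (w - 1) * n) ∈ Z ∧
          al l (k0 (g + (w - 1) * n)) ∧
          |z (k0 (g + (w - 1) * n)) - (((w - 1 : ℤ) : ℝ) * (n * h) + g * h)| ≤ h).card := by
      refine card_le_card_of_injOn (fun s => s - (w - 1) * n) ?_ ?_
      · intro s hs
        rw [mem_coe, mem_filter, hSw, mem_filter] at hs
        obtain ⟨⟨hsS, hsw⟩, hsal⟩ := hs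
        have hnZ : (0 : ℤ) < n := by exact_mod_cast hn0
        have e0 : s - (w - 1) * n + (w - 1) * n = s := by ring
        have e1 := Int.mul_ediv_add_emod s n
        have e2 := Int.emod_nonneg s hnZ.ne'
        have e3 := Int.emod_lt_of_pos s hnZ
        rw [hsw] at e1
        simp only [coe_filter, Set.mem_ofPred_eq, Finset.mem_Ico, e0]
        refine ⟨⟨?_, ?_⟩, hk0Z s hsS, hsal, ?_⟩
        · nlinarith
        · nlinarith
        · have := hpos s hsS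
          have e4 : (((w - 1 : ℤ) : ℝ) * (n * h) + ((s - (w - 1) * n : ℤ) : ℝ) * h) = s * h := by
            push_cast; ring
          rw [e4]
          exact this
      · intro s _ s' _ hss
        simp only at hss
        linarith
    exact_mod_cast h3

/-- absorbing constants -/
theorem ev_abs (B : Base) {s t : ℝ} (h : t < s) (c : ℝ) :
    ∀ᶠ n in (U : Filter ℕ), c * B.d n ^ s ≤ B.d n ^ t := by
  filter_upwards [ev_const_le B (sub_pos.2 h) c] with n hn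
  have e : B.d n ^ t = B.d n ^ (-(s - t)) * B.d n ^ s := by
    rw [← rpow_add']; congr 1; ring
  rw [e]
  exact mul_le_mul_of_nonneg_right hn (rpos B n s).le

/-- number of mesh heights -/
noncomputable def Nn (B : Base) (x : ℝ) (n : ℕ) : ℕ := ⌊B.d n ^ (-x)⌋₊

theorem Nn_mul_le (B : Base) (x : ℝ) (n : ℕ) : (Nn B x n : ℝ) * B.d n ^ x ≤ 1 := by
  have h1 := Nat.floor_le (rpos B n (-x)).le
  calc (Nn B x n : ℝ) * B.d n ^ x ≤ B.d n ^ (-x) * B.d n ^ x :=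
        mul_le_mul_of_nonneg_right h1 (rpos B n x).le
    _ = 1 := by rw [← rpow_add', neg_add_cancel, Real.rpow_zero]

theorem lt_Nn_mul (B : Base) (x : ℝ) (n : ℕ) : 1 < ((Nn B x n : ℝ) + 1) * B.d n ^ x := by
  have h1 := Nat.lt_floor_add_one (B.d n ^ (-x))
  calc (1 : ℝ) = B.d n ^ (-x) * B.d n ^ x := by
        rw [← rpow_add', neg_add_cancel, Real.rpow_zero]
    _ < _ := mul_lt_mul_of_pos_right h1 (rpos B n x)

theorem Nn_pos (B : Base) {x : ℝ} (hx : 0 ≤ x) (n : ℕ) : 0 < Nn B x n := by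
  unfold Nn
  rw [Nat.floor_pos]
  exact Real.one_le_rpow_of_pos_of_le_one_of_nonpos (B.pos n) (B.lt n).le (by linarith)

/-- `N ≥ ρ^(-x) / 2` -/
theorem half_le_Nn (B : Base) {x : ℝ} (hx : 0 ≤ x) (n : ℕ) : B.d n ^ (-x) ≤ 2 * (Nn B x n : ℝ) := by
  have h1 := Nat.lt_floor_add_one (B.d n ^ (-x))
  have h2 : (1 : ℝ) ≤ (Nn B x n : ℝ) := by exact_mod_cast Nn_pos B hx n
  have h3 : B.d n ^ (-x) < (Nn B x n : ℝ) + 1 := h1
  linarith

/-- **(Z1)** one actual height per mesh cell of mesh `ρ^x` -/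
theorem exists_heights {B : Base} {G : ℕ → RCfg (Fin 11)} {Leg : Set (Fin 11 → ℝ)}
    {ν : (Fin 11 → ℝ) → ℝ} {D R x : ℝ} (H : RModel B G 1 R Leg ν D) (hx : 0 < x) (hxR : x ≤ R)
    (hz : ∀ᶠ n in (U : Filter ℕ), ∀ l k, (l, k) ∈ (G n).I → |(G n).z k| ≤ 1) {ε : ℝ} (hε : 0 < ε) :
    ∀ᶠ n in (U : Filter ℕ), ∃ w : ℤ, |(w : ℝ)| ≤ 3 ∧ ∃ kst : ℤ → ℕ, ∃ Lg ⊆ (G n).L,
      B.d n ^ ε * ((G n).L.card : ℝ) ≤ (Lg.card : ℝ) ∧
      ∀ l ∈ Lg, B.d n ^ ε * (Nn B x n : ℝ) ≤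
        (((Finset.Ico (Nn B x n : ℤ) (2 * Nn B x n)).filter fun g => (l, kst g) ∈ (G n).I ∧
          |(G n).z (kst g) - (w * (Nn B x n * B.d n ^ x) + g * B.d n ^ x)| ≤ B.d n ^ x).card : ℝ) := by
  have hε4 : 0 < ε / 4 := by linarith
  have hε8 : 0 < ε / 8 := by linarith
  filter_upwards [H.slice (ε / 4) hε4, H.frost x hx.le hxR (ε / 8) hε8, hz,
    ev_abs B (show ε / 2 < ε by linarith) 8, ev_abs B (show ε / 4 < ε by linarith) 8]
    with n h1 h2 h3 h4 h5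
  obtain ⟨⟨i1, k1⟩, hI1⟩ := H.nonempty n
  have hZne : (G n).Z.Nonempty := ⟨k1, H.memZ hI1⟩
  have hL0 : (0 : ℝ) < (G n).L.card := by
    exact_mod_cast (Finset.card_pos.2 ⟨i1, H.memL hI1⟩)
  have hpow : ∀ t : ℝ, 0 < B.d n ^ t := fun t => rpos B n t
  obtain ⟨w, hw, kst, Lg, hLg, hLgc, hal⟩ := heights_fin (G n).L (G n).Z
    (fun l k => (l, k) ∈ (G n).I) (G n).z (h := B.d n ^ x) (κ := B.d n ^ (ε / 4)) (n := Nn B x n)
    (Nn_pos B hx.le n) (hpow x) (hpow _) (lt_Nn_mul B x n) hZne (by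
      intro k hk
      have h6 : (0 : ℝ) < (((G n).slice k).card : ℝ) :=
        lt_of_lt_of_le (mul_pos (hpow _) hL0) (h1 k hk)
      have h7 : ((G n).slice k).Nonempty := by
        rw [← Finset.card_pos]; exact_mod_cast h6
      obtain ⟨l, hl⟩ := h7
      exact h3 l k (H.memSlice.1 hl)) (by
      intro k hk
      exact h1 k hk) (by
      intro k hk
      have h6 := h2 k hk
      have h7 : (((G n).Z.filter fun k' => |(G n).z k' - (G n).z k| ≤ B.d n ^ x).card : ℝ) ≤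
          B.d n ^ (1 * x - ε / 8) * ((G n).Z.card : ℝ) := by
        refine le_trans (le_of_eq ?_) h6
        unfold RCfg.hbox
        rw [H.base n]
      have hZ0 : (0 : ℝ) ≤ ((G n).Z.card : ℝ) := Nat.cast_nonneg _
      have e1 : B.d n ^ (1 * x - ε / 8) = B.d n ^ x * B.d n ^ (-(ε / 8)) := by
        rw [← rpow_add']; congr 1; ring
      have e2 : B.d n ^ (ε / 4) * B.d n ^ (-(ε / 8)) ≤ 1 := by
        rw [← rpow_add']
        exact Real.rpow_le_one (B.pos n).le (B.lt n).le (by linarith)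
      have e3 := Nn_mul_le B x n
      have e4 : 0 ≤ (Nn B x n : ℝ) * B.d n ^ x := mul_nonneg (Nat.cast_nonneg _) (hpow _).le
      calc B.d n ^ (ε / 4) * (Nn B x n : ℝ) *
            (((G n).Z.filter fun k' => |(G n).z k' - (G n).z k| ≤ B.d n ^ x).card : ℝ)
          ≤ B.d n ^ (ε / 4) * (Nn B x n : ℝ) * (B.d n ^ (1 * x - ε / 8) * ((G n).Z.card : ℝ)) := by
            refine mul_le_mul_of_nonneg_left h7 ?_
            exact mul_nonneg (hpow _).le (Nat.cast_nonneg _)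
        _ = (B.d n ^ (ε / 4) * B.d n ^ (-(ε / 8))) * ((Nn B x n : ℝ) * B.d n ^ x) *
              ((G n).Z.card : ℝ) := by rw [e1]; ring
        _ ≤ 1 * 1 * ((G n).Z.card : ℝ) := by
            refine mul_le_mul_of_nonneg_right ?_ hZ0
            exact mul_le_mul e2 e3 e4 (by norm_num)
        _ = _ := by ring)
  refine ⟨w, hw, kst, Lg, hLg, ?_, ?_⟩
  · refine le_trans ?_ hLgc
    refine mul_le_mul_of_nonneg_right ?_ hL0.le
    linarith
  · intro l hl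
    have h6 := hal l hl
    refine le_trans ?_ (h6.trans ?_)
    · refine mul_le_mul_of_nonneg_right ?_ (Nat.cast_nonneg _)
      have e1 : (B.d n ^ (ε / 4)) ^ 2 = B.d n ^ (ε / 2) := by
        rw [sq, ← rpow_add']; congr 1; ring
      rw [e1]
      linarith
    · refine mod_cast card_le_card ?_
      intro g hg
      rw [mem_filter] at hg ⊢
      exact ⟨hg.1, hg.2.2.1, hg.2.2.2⟩

end Crest.Agent.R136.Wk323
end

-- ▼ part R136/Wk7_323
section

/-!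
# R136 (S0187): RIG wrapper, from one configuration to `RigData` (helper323)

`ARel` : one configuration in absolute coordinates (at a fixed number `n`);
`rigData_of`, `thinFib_of` : the data of the walk lemma.
-/

set_option autoImplicit false
set_option linter.unusedVariables false

open Finset

namespace Crest.Agent.R136.Wk323

open Crest.Agent.R136.Sh605
open Crest.Agent.R136.Gf356

/-- one configuration in absolute coordinates, error `δ`, no affine relation -/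
structure ARel0 (I : Finset (ℕ × ℕ)) (z : ℕ → ℝ) (T : ℕ → Ln4) (E : ℕ → ℝ) (fa : ℕ → ℕ → ℝ)
    (fb : ℕ → ℝ) (δ : ℝ) (Fc : ℕ → ℝ) : Prop where
  z1 : ∀ l k, (l, k) ∈ I → |z k| ≤ 1
  v1 : ∀ l k, (l, k) ∈ I → ∀ j, |(T l).v j| ≤ 1
  E1 : ∀ l k, (l, k) ∈ I → |E l| ≤ 1
  fa1 : ∀ l k, (l, k) ∈ I → |fa l k| ≤ 1
  fb1 : ∀ l k, (l, k) ∈ I → |fb k| ≤ 1
  own : ∀ l k k', (l, k) ∈ I → (l, k') ∈ I → |fa l k' - fa l k + E l * (fb k' - fb k)| ≤ δ
  Fc : ∀ l k, (l, k) ∈ I → |Fc l - (fa l k + E l * fb k)| ≤ δ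

/-- one configuration in absolute coordinates, error `δ` -/
structure ARel (I : Finset (ℕ × ℕ)) (z : ℕ → ℝ) (T : ℕ → Ln4) (E : ℕ → ℝ) (fa : ℕ → ℕ → ℝ)
    (fb : ℕ → ℝ) (mu be δ : ℝ) (Fc : ℕ → ℝ) : Prop extends ARel0 I z T E fa fb δ Fc where
  aff : ∀ l k, (l, k) ∈ I → |fb k - be - mu * z k| ≤ δ

/-- smaller incidence sets -/
theorem ARel0.mono {I I' : Finset (ℕ × ℕ)} {z : ℕ → ℝ} {T : ℕ → Ln4} {E : ℕ → ℝ}
    {fa : ℕ → ℕ → ℝ} {fb : ℕ → ℝ} {δ : ℝ} {Fc : ℕ → ℝ} (A : ARel0 I z T E fa fb δ Fc)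
    (h : I' ⊆ I) : ARel0 I' z T E fa fb δ Fc where
  z1 := fun l k hl => A.z1 l k (h hl)
  v1 := fun l k hl => A.v1 l k (h hl)
  E1 := fun l k hl => A.E1 l k (h hl)
  fa1 := fun l k hl => A.fa1 l k (h hl)
  fb1 := fun l k hl => A.fb1 l k (h hl)
  own := fun l k k' hl hl' => A.own l k k' (h hl) (h hl')
  Fc := fun l k hl => A.Fc l k (h hl)

/-- the line moved by `c` in height -/
def shf (c : ℝ) (T : Ln4) : Ln4 where
  p := fun i => T.p i + c * T.v i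
  v := T.v

theorem shf_pos (c : ℝ) (T : Ln4) (z : ℝ) (k : Fin 3) : (shf c T).pos z k = T.pos (c + z) k := by
  simp only [shf, Ln4.pos]; ring

/-- alive mesh heights -/
noncomputable def alf (I : Finset (ℕ × ℕ)) (z : ℕ → ℝ) (h : ℝ) (N : ℕ) (w : ℤ) (kst : ℤ → ℕ) (l : ℕ) :
    Finset ℤ :=
  (Finset.Ico (N : ℤ) (2 * N)).filter fun g => (l, kst g) ∈ I ∧
    |z (kst g) - (w * (N * h) + g * h)| ≤ h

theorem mem_alf {I : Finset (ℕ × ℕ)} {z : ℕ → ℝ} {h : ℝ} {N : ℕ} {w : ℤ} {kst : ℤ → ℕ} {l : ℕ}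
    {g : ℤ} : g ∈ alf I z h N w kst l ↔ ((N : ℤ) ≤ g ∧ g < 2 * N) ∧ (l, kst g) ∈ I ∧
      |z (kst g) - (w * (N * h) + g * h)| ≤ h := by
  unfold alf
  rw [mem_filter, Finset.mem_Ico]

/-- positions at a mesh height against positions at the actual height -/
theorem pos_diff (T T' : Ln4) (z z' : ℝ) (k : Fin 3) :
    T'.pos z k - T.pos z k = (T'.pos z' k - T.pos z' k) + (z - z') * (T'.v k - T.v k) := by
  simp only [Ln4.pos]; ring

variable {I : Finset (ℕ × ℕ)} {z : ℕ → ℝ} {T : ℕ → Ln4} {E : ℕ → ℝ} {fa : ℕ → ℕ → ℝ}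
    {fb : ℕ → ℝ} {mu be δ : ℝ} {Fc : ℕ → ℝ}

namespace ARel

variable (A : ARel I z T E fa fb mu be δ Fc)

include A

theorem rigData_of' {h κ eo : ℝ} {N : ℕ} {w : ℤ} {kst : ℤ → ℕ} {Ls : Finset ℕ} (hδ : 0 < δ)
    (hh : 0 < h) (hhδ : h ≤ δ) (hNh : N * h ≤ 1) (heo : 3 * δ + 2 * (|mu| * h) ≤ eo) (hN : 0 < N)
    (hκ : 0 < κ)
    (hinj : ∀ i ∈ Ls, ∀ j ∈ Ls, cellL δ (T i) (E i) (Fc i) = cellL δ (T j) (E j) (Fc j) → i = j)
    (hal : ∀ l ∈ Ls, κ * N ≤ ((alf I z h N w kst l).card : ℝ)) :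
    RigData (fun l => shf (w * (N * h)) (T l)) E (fun l g => fa l (kst g)) (fun _ g => fb (kst g))
      Ls (fun l => alf I z h N w kst l)
      (fun l g => posL δ (T l) (fa l (kst g)) (fb (kst g)) (z (kst g)))
      (fun l => dirL δ (T l) (E l)) N (13 ^ 8) κ (3 * δ) eo h mu where
  hts := fun i _ k hk => (mem_alf.1 hk).1
  alive := hal
  mult := by
    intro i hi k hk
    have hI := (mem_alf.1 hk).2.1
    refine cell_mult _ T E Fc (fun l => fa l (kst k)) (fb := fb (kst k)) (z := z (kst k)) hδ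
      (A.z1 _ _ hI) (A.fb1 _ _ hI) ?_ ?_ ?_ ?_ ?_ ?_
    · intro j hj
      exact A.v1 _ _ (mem_alf.1 (mem_filter.1 hj).2.2.1).2.1 1
    · intro j hj
      exact A.fa1 _ _ (mem_alf.1 (mem_filter.1 hj).2.2.1).2.1
    · intro j hj
      exact A.Fc _ _ (mem_alf.1 (mem_filter.1 hj).2.2.1).2.1
    · intro j hj j' hj'
      exact hinj j (mem_filter.1 hj).1 j' (mem_filter.1 hj').1
    · intro j hj j' hj'
      exact (mem_filter.1 hj).2.2.2.trans (mem_filter.1 hj').2.2.2.symm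
    · intro j hj j' hj'
      exact (mem_filter.1 hj).2.1.trans (mem_filter.1 hj').2.1.symm
  hpos := hh
  hle := hNh
  near := by
    intro i hi j hj k hki hkj hp
    have hm0 : 0 ≤ |mu| * h := by positivity
    obtain ⟨-, hIi, hzi⟩ := mem_alf.1 hki
    obtain ⟨-, hIj, -⟩ := mem_alf.1 hkj
    obtain ⟨h1, h2, h3⟩ := posL_near hδ (A.v1 _ _ hIj 1) hp
    refine ⟨?_, ?_, ?_, ?_⟩
    · intro m
      rw [shf_pos, shf_pos, pos_diff _ _ _ (z (kst k))]
      have e1 := h1 m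
      have e2 : |(T j).v m - (T i).v m| ≤ 2 := by
        have := abs_sub ((T j).v m) ((T i).v m)
        have := A.v1 _ _ hIj m
        have := A.v1 _ _ hIi m
        linarith
      have e3 : |(w * (N * h) + k * h) - z (kst k)| ≤ h := by rw [abs_sub_comm]; exact hzi
      have e4 := abs_mul_le e3 e2
      refine (abs_add_le _ _).trans ?_
      linarith
    · have e : Pd (shf (w * (N * h)) (T i)) (shf (w * (N * h)) (T j)) (fa i (kst k)) (fb (kst k)) =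
          Pd (T i) (T j) (fa i (kst k)) (fb (kst k)) := rfl
      rw [e]
      linarith
    · exact h3.trans (by linarith)
    · rw [sub_self, abs_zero]; linarith
  bdd := by
    intro i hi k hk
    have hI := (mem_alf.1 hk).2.1
    exact ⟨A.fa1 _ _ hI, A.fb1 _ _ hI⟩
  own := by
    intro i hi k hk k' hk'
    have hm0 : 0 ≤ |mu| * h := by positivity
    obtain ⟨-, hI, hz⟩ := mem_alf.1 hk
    obtain ⟨-, hI', hz'⟩ := mem_alf.1 hk'
    have o := A.own _ _ _ hI hI'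
    have a1 := A.aff _ _ hI
    have a2 := A.aff _ _ hI'
    have hE := A.E1 _ _ hI
    have b1 : |mu * ((z (kst k') - (w * (N * h) + k' * h)) - (z (kst k) - (w * (N * h) + k * h)))| ≤
        2 * (|mu| * h) := by
      rw [abs_mul]
      have : |(z (kst k') - (w * (N * h) + k' * h)) - (z (kst k) - (w * (N * h) + k * h))| ≤ 2 * h :=
        (abs_sub _ _).trans (by linarith)
      have h2 := mul_le_mul_of_nonneg_left this (abs_nonneg mu)
      linarith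
    have b2 : |fb (kst k') - fb (kst k) - mu * (((k' : ℝ) - k) * h)| ≤
        2 * δ + 2 * (|mu| * h) := by
      have e : fb (kst k') - fb (kst k) - mu * (((k' : ℝ) - k) * h) =
          (fb (kst k') - be - mu * z (kst k')) - (fb (kst k) - be - mu * z (kst k)) +
          mu * ((z (kst k') - (w * (N * h) + k' * h)) - (z (kst k) - (w * (N * h) + k * h))) := by
        ring
      rw [e]
      refine (abs_add_le _ _).trans ?_
      have := abs_sub (fb (kst k') - be - mu * z (kst k')) (fb (kst k) - be - mu * z (kst k))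
      linarith
    refine ⟨?_, b2.trans (by linarith)⟩
    have e : fa i (kst k') - fa i (kst k) + mu * E i * (((k' : ℝ) - k) * h) =
        (fa i (kst k') - fa i (kst k) + E i * (fb (kst k') - fb (kst k))) -
          E i * (fb (kst k') - fb (kst k) - mu * (((k' : ℝ) - k) * h)) := by ring
    rw [e]
    have b3 := abs_mul_le hE b2
    refine (abs_sub _ _).trans ?_
    linarith
  vel := by
    intro i hi
    have hne : (alf I z h N w kst i).Nonempty := by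
      rw [← card_pos]
      have h1 := hal i hi
      have hNp : (0 : ℝ) < N := by exact_mod_cast hN
      have h2 : 0 < κ * N := by positivity
      exact_mod_cast lt_of_lt_of_le h2 h1
    obtain ⟨g, hg⟩ := hne
    have hI := (mem_alf.1 hg).2.1
    exact ⟨A.v1 _ _ hI 1, A.v1 _ _ hI 2, A.E1 _ _ hI⟩
  same := by
    intro i hi j hj hd
    obtain ⟨h1, h2, h3⟩ := dirL_near hδ hd
    exact ⟨h1.trans (by linarith), h2.trans (by linarith), h3.trans (by linarith)⟩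

theorem rigData_of {h κ : ℝ} {N : ℕ} {w : ℤ} {kst : ℤ → ℕ} {Ls : Finset ℕ} (hδ : 0 < δ)
    (hh : 0 < h) (hhδ : h ≤ δ) (hNh : N * h ≤ 1) (hmu : |mu| * h ≤ δ) (hN : 0 < N) (hκ : 0 < κ)
    (hinj : ∀ i ∈ Ls, ∀ j ∈ Ls, cellL δ (T i) (E i) (Fc i) = cellL δ (T j) (E j) (Fc j) → i = j)
    (hal : ∀ l ∈ Ls, κ * N ≤ ((alf I z h N w kst l).card : ℝ)) :
    RigData (fun l => shf (w * (N * h)) (T l)) E (fun l g => fa l (kst g)) (fun _ g => fb (kst g))
      Ls (fun l => alf I z h N w kst l)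
      (fun l g => posL δ (T l) (fa l (kst g)) (fb (kst g)) (z (kst g)))
      (fun l => dirL δ (T l) (E l)) N (13 ^ 8) κ (3 * δ) (5 * δ) h mu :=
  A.rigData_of' hδ hh hhδ hNh (by linarith) hN hκ hinj hal

/-- **thin fibres**: from actual heights to mesh heights -/
theorem thinFib_of {h rF a Kf' tol : ℝ} {N : ℕ} {w : ℤ} {kst : ℤ → ℕ} {Ls : Finset ℕ}
    (hδ : 0 < δ) (hh : 0 < h) (hhδ : h ≤ δ) (hrF : 0 < rF) (hrF2 : 2 * h ≤ rF)
    (htol : 56 * δ ≤ tol) (hKf : 0 ≤ Kf') (ha0 : 0 ≤ a) (ha1 : a < 1)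
    (hfib : ∀ k, ∀ F : Finset ℕ, (∀ i ∈ F, (i, k) ∈ I) → F.Nonempty →
      (∀ i ∈ F, ∀ i' ∈ F, ∀ m : Fin 3, m ≠ 0 → |(T i).pos (z k) m - (T i').pos (z k) m| ≤ tol) →
      ∀ R0 : ℝ, rF ≤ R0 →
      (∀ i ∈ F, ∀ i' ∈ F, |(T i).pos (z k) 0 - (T i').pos (z k) 0| ≤ R0) →
      (∀ i ∈ F, ∀ i' ∈ F, i ≠ i' → rF ≤ |(T i).pos (z k) 0 - (T i').pos (z k) 0|) →
      (F.card : ℝ) ≤ Kf' * (R0 / rF) ^ a) :
    RigData.ThinFib (fun l => shf (w * (N * h)) (T l)) Ls (fun l => alf I z h N w kst l)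
      (fun l => dirL δ (T l) (E l)) (3 * δ) h (2 * rF) a (4 * Kf') := by
  intro F hF hne g hal hdir hbase R0 hR0 hup hlow
  have hI : ∀ i ∈ F, (i, kst g) ∈ I := fun i hi => (mem_alf.1 (hal i hi)).2.1
  obtain ⟨i1, hi1⟩ := hne
  have hz := (mem_alf.1 (hal i1 hi1)).2.2
  -- change of height
  have key : ∀ i ∈ F, ∀ i' ∈ F, ∀ m : Fin 3,
      |((T i).pos (z (kst g)) m - (T i').pos (z (kst g)) m) -
        ((shf (w * (N * h)) (T i)).pos (g * h) m - (shf (w * (N * h)) (T i')).pos (g * h) m)| ≤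
        2 * h := by
    intro i hi i' hi' m
    rw [shf_pos, shf_pos, pos_diff (T i') (T i) (z (kst g)) (w * (N * h) + g * h)]
    have e2 : |(T i).v m - (T i').v m| ≤ 2 := by
      have := abs_sub ((T i).v m) ((T i').v m)
      have := A.v1 _ _ (hI i hi) m
      have := A.v1 _ _ (hI i' hi') m
      linarith
    rw [add_sub_cancel_left]
    have := abs_mul_le hz e2
    linarith
  have h1 := hfib (kst g) F hI ⟨i1, hi1⟩ (by
      intro i hi i' hi' m hm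
      have e1 := key i hi i' hi' m
      have e2 := hbase i hi i' hi' m hm
      rw [abs_le] at *
      constructor <;> linarith [e1.1, e1.2, e2.1, e2.2])
    (R0 + 2 * h) (by linarith) (by
      intro i hi i' hi'
      have e1 := key i hi i' hi' 0
      have e2 := hup i hi i' hi'
      rw [abs_le] at *
      constructor <;> linarith [e1.1, e1.2, e2.1, e2.2]) (by
      intro i hi i' hi' hne'
      have e1 := key i hi i' hi' 0
      have e2 : 2 * rF ≤ |(shf (w * (N * h)) (T i)).pos (g * h) 0 -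
        (shf (w * (N * h)) (T i')).pos (g * h) 0| := hlow i hi i' hi' hne'
      generalize (shf (w * (N * h)) (T i)).pos (g * h) 0 -
        (shf (w * (N * h)) (T i')).pos (g * h) 0 = u at e1 e2
      generalize (T i).pos (z (kst g)) 0 - (T i').pos (z (kst g)) 0 = v at e1
      have e3 := abs_sub_abs_le_abs_sub u v
      rw [abs_sub_comm] at e3
      have e4 : |u| - |v| ≤ 2 * h := e3.trans e1
      linarith)
  have hR00 : 0 < R0 := by linarith
  have h2 : (R0 + 2 * h) / rF ≤ 4 * (R0 / (2 * rF)) := by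
    rw [mul_div_assoc', div_le_div_iff₀ hrF (by positivity)]
    nlinarith
  have h3 : ((R0 + 2 * h) / rF) ^ a ≤ 4 * (R0 / (2 * rF)) ^ a := by
    calc ((R0 + 2 * h) / rF) ^ a ≤ (4 * (R0 / (2 * rF))) ^ a :=
          Real.rpow_le_rpow (by positivity) h2 ha0
      _ = 4 ^ a * (R0 / (2 * rF)) ^ a := Real.mul_rpow (by norm_num) (by positivity)
      _ ≤ 4 * (R0 / (2 * rF)) ^ a := by
          refine mul_le_mul_of_nonneg_right ?_ (by positivity)
          calc (4 : ℝ) ^ a ≤ 4 ^ (1 : ℝ) := Real.rpow_le_rpow_of_exponent_le (by norm_num) ha1.le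
            _ = 4 := Real.rpow_one 4
  calc (F.card : ℝ) ≤ Kf' * ((R0 + 2 * h) / rF) ^ a := h1
    _ ≤ Kf' * (4 * (R0 / (2 * rF)) ^ a) := mul_le_mul_of_nonneg_left h3 hKf
    _ = _ := by ring

end ARel

end Crest.Agent.R136.Wk323
end

-- ▼ part R136/Wk8_323
section

/-!
# R136 (S0187): RIG wrapper, finite counting for the assembly (helper323)
-/

set_option autoImplicit false
set_option linter.unusedVariables false

open Finset

namespace Crest.Agent.R136.Wk323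

open Crest.Agent.R136.Sh605
open Crest.Agent.R136.Gf356

/-- one element per label -/
theorem exists_reps {β : Type*} [DecidableEq β] (Lg : Finset ℕ) (c : ℕ → β) :
    ∃ Ls ⊆ Lg, (∀ i ∈ Ls, ∀ j ∈ Ls, c i = c j → i = j) ∧ (∀ l ∈ Lg, ∃ i ∈ Ls, c i = c l) ∧
      Ls.card = (Lg.image c).card := by
  classical
  rcases Lg.eq_empty_or_nonempty with rfl | ⟨l0, -⟩
  · exact ⟨∅, by simp, by simp, by simp, by simp⟩
  have hrep : ∀ b ∈ Lg.image c, ∃ i ∈ Lg, c i = b := fun b hb => mem_image.1 hb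
  choose! rep h1 h2 using hrep
  refine ⟨(Lg.image c).image rep, ?_, ?_, ?_, ?_⟩
  · intro i hi
    obtain ⟨b, hb, rfl⟩ := mem_image.1 hi
    exact h1 b hb
  · intro i hi j hj hij
    obtain ⟨b, hb, rfl⟩ := mem_image.1 hi
    obtain ⟨b', hb', rfl⟩ := mem_image.1 hj
    rw [h2 b hb, h2 b' hb'] at hij
    rw [hij]
  · intro l hl
    exact ⟨rep (c l), mem_image_of_mem _ (mem_image_of_mem _ hl), h2 _ (mem_image_of_mem _ hl)⟩
  · refine card_image_of_injOn ?_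
    intro b hb b' hb' h
    rw [← h2 b hb, ← h2 b' hb', h]

/-- lines against labels: many lines per label -/
theorem card_le_labels {β : Type*} [DecidableEq β] (F : Finset ℕ) (Z : Finset ℕ)
    (al : ℕ → ℕ → Prop) [∀ i k, Decidable (al i k)] (lab : ℕ → β) {κ₀ M : ℝ} (hZ : Z.Nonempty)
    (hM : 0 ≤ M) (hline : ∀ i ∈ F, κ₀ * (Z.card : ℝ) ≤ ((Z.filter fun k => al i k).card : ℝ))
    (h : ∀ k ∈ Z, ∀ S ⊆ F, (∀ i ∈ S, al i k) → (∀ i ∈ S, ∀ j ∈ S, lab i = lab j) →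
      (S.card : ℝ) ≤ M) :
    κ₀ * (F.card : ℝ) ≤ ((F.image lab).card : ℝ) * M := by
  classical
  have hZ0 : (0 : ℝ) < Z.card := by exact_mod_cast hZ.card_pos
  have h1 : κ₀ * (Z.card : ℝ) * (F.card : ℝ) ≤ ∑ i ∈ F, ((Z.filter fun k => al i k).card : ℝ) := by
    calc κ₀ * (Z.card : ℝ) * (F.card : ℝ) = ∑ _i ∈ F, κ₀ * (Z.card : ℝ) := by
          rw [sum_const, nsmul_eq_mul]; ring
      _ ≤ _ := sum_le_sum hline
  have h2 : ∑ i ∈ F, ((Z.filter fun k => al i k).card : ℝ) =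
      ∑ k ∈ Z, ((F.filter fun i => al i k).card : ℝ) := by
    have := sum_card_bipartiteAbove_eq_sum_card_bipartiteBelow (s := F) (t := Z)
      (fun i k => al i k)
    exact_mod_cast this
  have h3 : ∀ k ∈ Z, ((F.filter fun i => al i k).card : ℝ) ≤ ((F.image lab).card : ℝ) * M := by
    intro k hk
    have e1 := card_eq_sum_card_fiberwise (s := F.filter fun i => al i k) (t := F.image lab)
      (f := lab) (fun i hi => mem_image_of_mem _ (filter_subset _ _ hi))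
    rw [e1]
    push_cast
    calc ∑ b ∈ F.image lab, ((((F.filter fun i => al i k).filter fun i => lab i = b).card : ℕ) : ℝ)
        ≤ ∑ _b ∈ F.image lab, M := by
          refine sum_le_sum fun b _ => h k hk _ ?_ ?_ ?_
          · exact (filter_subset _ _).trans (filter_subset _ _)
          · intro i hi
            exact (mem_filter.1 (mem_filter.1 hi).1).2
          · intro i hi j hj
            exact (mem_filter.1 hi).2.trans (mem_filter.1 hj).2.symm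
      _ = _ := by rw [sum_const, nsmul_eq_mul]
  have h4 : κ₀ * (F.card : ℝ) * (Z.card : ℝ) ≤ ((F.image lab).card : ℝ) * M * (Z.card : ℝ) := by
    calc κ₀ * (F.card : ℝ) * (Z.card : ℝ) = κ₀ * (Z.card : ℝ) * (F.card : ℝ) := by ring
      _ ≤ ∑ k ∈ Z, ((F.filter fun i => al i k).card : ℝ) := h1.trans (le_of_eq h2)
      _ ≤ ∑ _k ∈ Z, ((F.image lab).card : ℝ) * M := sum_le_sum h3
      _ = _ := by rw [sum_const, nsmul_eq_mul]; ring
  exact le_of_mul_le_mul_right h4 hZ0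

/-- union of sets with bounded overlap -/
theorem union_ge {ι : Type*} [DecidableEq ι] (S : Finset ι) (F : ι → Finset ℕ) {m0 : ℝ} {Bm : ℕ}
    (hF : ∀ i ∈ S, m0 ≤ ((F i).card : ℝ))
    (hB : ∀ l, (S.filter fun i => l ∈ F i).card ≤ Bm) :
    m0 * (S.card : ℝ) ≤ Bm * ((S.biUnion F).card : ℝ) := by
  classical
  have h1 : ∑ i ∈ S, ((F i).card : ℝ) = ∑ l ∈ S.biUnion F, ((S.filter fun i => l ∈ F i).card : ℝ) := by
    have h2 := sum_card_bipartiteAbove_eq_sum_card_bipartiteBelow (s := S) (t := S.biUnion F)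
      (fun i l => l ∈ F i)
    have h3 : ∀ i ∈ S, (bipartiteAbove (fun i l => l ∈ F i) (S.biUnion F) i) = F i := by
      intro i hi
      ext l
      simp only [bipartiteAbove, mem_filter, mem_biUnion]
      constructor
      · exact fun h => h.2
      · exact fun h => ⟨⟨i, hi, h⟩, h⟩
    rw [sum_congr rfl fun i hi => by rw [h3 i hi]] at h2
    exact_mod_cast h2
  calc m0 * (S.card : ℝ) = ∑ _i ∈ S, m0 := by rw [sum_const, nsmul_eq_mul]; ring
    _ ≤ ∑ i ∈ S, ((F i).card : ℝ) := sum_le_sum hF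
    _ = _ := h1
    _ ≤ ∑ _l ∈ S.biUnion F, (Bm : ℝ) := sum_le_sum fun l _ => by exact_mod_cast hB l
    _ = _ := by rw [sum_const, nsmul_eq_mul]; ring

variable {I : Finset (ℕ × ℕ)} {z : ℕ → ℝ} {T : ℕ → Ln4} {E : ℕ → ℝ} {fa : ℕ → ℕ → ℝ}
    {fb : ℕ → ℝ} {mu be δ : ℝ} {Fc : ℕ → ℝ}

/-- number of points of the configuration of the walk lemma -/
theorem pts_card_le {α : Type*} [DecidableEq α] {h : ℝ} {N : ℕ} {w : ℤ} {kst : ℤ → ℕ}
    (Ls : Finset ℕ) (lab : ℕ → ℕ → α) {M : ℝ} (hM0 : 0 ≤ M)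
    (hM : ∀ k, (((Ls.filter fun l => (l, k) ∈ I).image fun l => lab l k).card : ℝ) ≤ M) :
    ((pts (fun l => alf I z h N w kst l) (fun l g => lab l (kst g)) Ls).card : ℝ) ≤ N * M := by
  classical
  have hsub : pts (fun l => alf I z h N w kst l) (fun l g => lab l (kst g)) Ls ⊆
      (Finset.Ico (N : ℤ) (2 * N)).biUnion fun g =>
        (((Ls.filter fun l => (l, kst g) ∈ I).image fun l => lab l (kst g)).image
          fun p => (g, p)) := by
    rintro ⟨g, p⟩ hp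
    rw [mem_pts] at hp
    obtain ⟨i, hi, h1, h2⟩ := hp
    rw [mem_alf] at h1
    rw [mem_biUnion]
    refine ⟨g, Finset.mem_Ico.2 h1.1, mem_image.2 ⟨p, mem_image.2 ⟨i, ?_, h2⟩, rfl⟩⟩
    exact mem_filter.2 ⟨hi, h1.2.1⟩
  have h1 : ((pts (fun l => alf I z h N w kst l) (fun l g => lab l (kst g)) Ls).card : ℝ) ≤
      ∑ g ∈ Finset.Ico (N : ℤ) (2 * N),
        (((((Ls.filter fun l => (l, kst g) ∈ I).image fun l => lab l (kst g)).image
          fun p => ((g, p) : ℤ × α)).card : ℕ) : ℝ) := by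
    exact_mod_cast (card_le_card hsub).trans card_biUnion_le
  refine h1.trans ?_
  calc _ ≤ ∑ _g ∈ Finset.Ico (N : ℤ) (2 * N), M := by
        refine sum_le_sum fun g _ => ?_
        refine le_trans ?_ (hM (kst g))
        exact_mod_cast card_image_le
    _ = _ := by
        rw [sum_const, nsmul_eq_mul, Int.card_Ico]
        congr 1
        have : (2 * (N : ℤ) - N).toNat = N := by omega
        rw [this]

/-- lines near `i` at a common height: near cell labels -/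
theorem ARel.near_cells (A : ARel I z T E fa fb mu be δ Fc) (hδ : 0 < δ) {i l k : ℕ}
    (hi : (i, k) ∈ I) (hl : (l, k) ∈ I)
    (h : ∀ s ∈ fAll, |coA (T i) (T l) (E i) (E l) (fa i k) (fa l k) (fb k) (z k) s| ≤ δ) :
    ∀ s, |cellL δ (T l) (E l) (Fc l) s - cellL δ (T i) (E i) (Fc i) s| ≤ 20 :=
  cellL_of_coA hδ (A.z1 _ _ hi) (A.E1 _ _ hi) (A.fa1 _ _ hi) (A.fb1 _ _ hi) (A.Fc _ _ hi)
    (A.Fc _ _ hl) h

/-- overlap of the fat lines around representatives -/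
theorem ARel.overlap (A : ARel I z T E fa fb mu be δ Fc) (hδ : 0 < δ) {Ls : Finset ℕ}
    (hinj : ∀ i ∈ Ls, ∀ j ∈ Ls, cellL δ (T i) (E i) (Fc i) = cellL δ (T j) (E j) (Fc j) → i = j)
    (k0 : ℕ → ℕ) (F : ℕ → Finset ℕ) (hk0 : ∀ i ∈ Ls, (i, k0 i) ∈ I)
    (hF : ∀ i ∈ Ls, ∀ l ∈ F i, (l, k0 i) ∈ I ∧ ∀ s ∈ fAll,
      |coA (T i) (T l) (E i) (E l) (fa i (k0 i)) (fa l (k0 i)) (fb (k0 i)) (z (k0 i)) s| ≤ δ)
    (l : ℕ) : (Ls.filter fun i => l ∈ F i).card ≤ 81 ^ 8 := by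
  have h1 : ∀ i ∈ Ls.filter fun i => l ∈ F i, ∀ s,
      |cellL δ (T l) (E l) (Fc l) s - cellL δ (T i) (E i) (Fc i) s| ≤ 20 := by
    intro i hi
    obtain ⟨hi1, hi2⟩ := mem_filter.1 hi
    obtain ⟨a1, a2⟩ := hF i hi1 l hi2
    exact A.near_cells hδ (hk0 i hi1) a1 a2
  have := card_le_of_near (Ls.filter fun i => l ∈ F i) (fun i => cellL δ (T i) (E i) (Fc i))
    (fun i hi j hj => hinj i (mem_filter.1 hi).1 j (mem_filter.1 hj).1) 40 (by
      intro i hi j hj s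
      have a1 := h1 i hi s
      have a2 := h1 j hj s
      push_cast
      rw [abs_le] at *
      constructor <;> linarith [a1.1, a1.2, a2.1, a2.2])
  exact this

/-- passing from a representative to a nearby line -/
theorem conic_transfer {δ err S0 c l2 El c0 C0 E0 s0 ci l2i Ei : ℝ} (hδ : 0 ≤ δ)
    (hE : |El - Ei| ≤ δ) (hc : |c - ci| ≤ δ) (hC : |(l2 - l2i) - Ei * (c - ci)| ≤ δ)
    (hEi : |Ei| ≤ 1) (hE0 : |E0| ≤ 1) (hc1 : |c| ≤ 1) (hci : |ci| ≤ 1) (hc0 : |c0| ≤ 1)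
    (hs0 : |s0| ≤ S0) (h1 : |Ei - (E0 - s0 * (ci - c0))| ≤ err)
    (h2 : |l2i - (C0 + E0 * (ci - c0) - s0 * (ci - c0) ^ 2 / 2)| ≤ err) :
    |El - (E0 - s0 * (c - c0))| ≤ err + (3 + 2 * S0) * δ ∧
      |l2 - (C0 + E0 * (c - c0) - s0 * (c - c0) ^ 2 / 2)| ≤ err + (3 + 2 * S0) * δ := by
  have hS0 : 0 ≤ S0 := (abs_nonneg _).trans hs0
  have b1 : |s0 * (c - ci)| ≤ S0 * δ := abs_mul_le hs0 hc
  have b2 : |E0 * (c - ci)| ≤ 1 * δ := abs_mul_le hE0 hc
  have b3 : |Ei * (c - ci)| ≤ 1 * δ := abs_mul_le hEi hc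
  have b4 : |(c - c0) + (ci - c0)| ≤ 4 := four_bound hc1 hci hc0
  have b5 : |s0 * (c - ci) * ((c - c0) + (ci - c0)) / 2| ≤ 2 * (S0 * δ) := by
    have := abs_mul_le b1 b4
    rw [abs_div, abs_of_pos (by norm_num : (0 : ℝ) < 2), div_le_iff₀ (by norm_num)]
    linarith
  have hSδ : 0 ≤ S0 * δ := by positivity
  constructor
  · have e : El - (E0 - s0 * (c - c0)) = (Ei - (E0 - s0 * (ci - c0))) + (El - Ei) +
        s0 * (c - ci) := by ring
    rw [e]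
    refine (abs_add_three _ _ _).trans ?_
    linarith
  · have e : l2 - (C0 + E0 * (c - c0) - s0 * (c - c0) ^ 2 / 2) =
        (l2i - (C0 + E0 * (ci - c0) - s0 * (ci - c0) ^ 2 / 2)) +
        ((l2 - l2i) - Ei * (c - ci)) + (Ei * (c - ci) - E0 * (c - ci)) +
        s0 * (c - ci) * ((c - c0) + (ci - c0)) / 2 := by ring
    rw [e]
    have t1 := abs_add_le ((l2i - (C0 + E0 * (ci - c0) - s0 * (ci - c0) ^ 2 / 2)) +
        ((l2 - l2i) - Ei * (c - ci)) + (Ei * (c - ci) - E0 * (c - ci)))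
        (s0 * (c - ci) * ((c - c0) + (ci - c0)) / 2)
    have t2 := abs_add_three (l2i - (C0 + E0 * (ci - c0) - s0 * (ci - c0) ^ 2 / 2))
        ((l2 - l2i) - Ei * (c - ci)) (Ei * (c - ci) - E0 * (c - ci))
    have t3 := abs_sub (Ei * (c - ci)) (E0 * (c - ci))
    linarith

end Crest.Agent.R136.Wk323
end

-- ▼ part R136/Wk9_323

/-!
# R136 (S0187): RIG wrapper, assembly (helper323)

`rigWin_of` : rigidity of a lightlike window from the counting statements of `WkD_323`.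
-/

set_option autoImplicit false
set_option linter.unusedVariables false

open Filter Topology Finset

namespace Crest.Agent.R136.Wk323

open Crest.Agent.R136.Sh605
open Crest.Agent.R138.Ex926 (Base U)
open Crest.Agent.R136.Gf356

section

variable (B : Base) (G : ℕ → RCfg (Fin 11)) (ν : (Fin 11 → ℝ) → ℝ) (x a : ℝ)
  (T : ℕ → ℕ → Ln4) (E : ℕ → ℕ → ℝ) (fa : ℕ → ℕ → ℕ → ℝ) (fb : ℕ → ℕ → ℝ)

/-- the lines of a slice with close directions -/
def DirUp : Prop := ∃ C : ℝ, 0 ≤ C ∧ ∀ ε₀ : ℝ, 0 < ε₀ → ∀ᶠ n in (U : Filter ℕ), ∀ k i,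
  (i, k) ∈ (G n).I → ∀ F ⊆ (G n).slice k, (∀ l ∈ F, ∀ s ∈ fDir, |coA (T n i) (T n l) (E n i) (E n l)
    (fa n i k) (fa n l k) (fb n k) ((G n).z k) s| ≤ B.d n ^ (x - ε₀)) →
    (F.card : ℝ) ≤ B.d n ^ (-ν (vec fDir x) - C * ε₀)

end

/-- size of `etaR` -/
theorem etaR_le (B : Base) {x a e Cf Kk : ℝ} (he : 0 < e) (ha0 : 0 ≤ a) (ha1 : a < 1)
    (hCf : 1 ≤ Cf) (hKk : 0 ≤ Kk) :
    ∀ᶠ n in (U : Filter ℕ), ∀ nh : ℝ, 1 / 2 ≤ nh →
      RigData.etaR (B.d n ^ (Kk * e)) ((13 ^ 8 : ℕ) : ℝ) (4 * B.d n ^ (-(Cf * (3 * e)))) nh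
        (2 * B.d n ^ (x - Cf * (3 * e))) a (B.d n ^ e) ≤
      2 * B.d n ^ (x - (3 * Cf + (3 * Cf + 43 * Kk + 1) / (1 - a) + 1) * e) := by
  set b : ℝ := ((13 ^ 8 : ℕ) : ℝ) with hb
  have hb0 : 0 < b := by rw [hb]; positivity
  set c : ℝ := 4 * (131072 * 383 * b ^ 6 * 4 * (2 * b ^ 4) ^ 6 * 4) with hc
  have h1a : 0 < 1 - a := by linarith
  have hKQ : 0 < 3 * Cf + 43 * Kk + 1 := by linarith
  filter_upwards [ev_abs B (show -((3 * Cf + 43 * Kk + 1) * e) < -((3 * Cf + 43 * Kk) * e) by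
    nlinarith) c, ev_const_le B (show 0 < (3 * Cf + 43 * Kk + 1) * e / (1 - a) by positivity) 191]
    with n h1 h2 nh hnh
  have hpow : ∀ t : ℝ, 0 < B.d n ^ t := fun t => rpos B n t
  unfold RigData.etaR
  set κ : ℝ := B.d n ^ (Kk * e) with hκ
  have hκ0 : 0 < κ := hpow _
  have hκ43 : κ ^ 43 = B.d n ^ (43 * Kk * e) := by
    rw [hκ, ← Real.rpow_natCast, ← Real.rpow_mul (B.pos n).le]
    congr 1; push_cast; ring
  have hQ : 4 * (131072 * 383 * b ^ 6 * (4 * B.d n ^ (-(Cf * (3 * e)))) /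
      (κ * (κ ^ 7 / (2 * b ^ 4)) ^ 6 * nh ^ 2)) ≤ B.d n ^ (-((3 * Cf + 43 * Kk + 1) * e)) := by
    refine le_trans ?_ h1
    have e1 : κ * (κ ^ 7 / (2 * b ^ 4)) ^ 6 * nh ^ 2 = κ ^ 43 * nh ^ 2 / (2 * b ^ 4) ^ 6 := by
      field_simp
    have e2 : B.d n ^ (-((3 * Cf + 43 * Kk) * e)) * κ ^ 43 = B.d n ^ (-(Cf * (3 * e))) := by
      rw [hκ43, ← rpow_add']; congr 1; ring
    have hnh0 : 0 < nh := by linarith
    have hnh2 : 1 ≤ 4 * nh ^ 2 := by nlinarith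
    rw [e1, mul_div_assoc', div_le_iff₀ (by positivity)]
    have e3 : c * B.d n ^ (-((3 * Cf + 43 * Kk) * e)) * (κ ^ 43 * nh ^ 2 / (2 * b ^ 4) ^ 6) =
        c / (2 * b ^ 4) ^ 6 * nh ^ 2 * (B.d n ^ (-((3 * Cf + 43 * Kk) * e)) * κ ^ 43) := by ring
    rw [e3, e2]
    have e4 : c / (2 * b ^ 4) ^ 6 * nh ^ 2 = 4 * (131072 * 383 * b ^ 6 * 4) * (4 * nh ^ 2) := by
      rw [hc]; field_simp
    rw [e4]
    have e5 : 0 ≤ 4 * (131072 * 383 * b ^ 6 * 4) * B.d n ^ (-(Cf * (3 * e))) := by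
      have := hpow (-(Cf * (3 * e)))
      positivity
    calc 4 * (131072 * 383 * b ^ 6 * (4 * B.d n ^ (-(Cf * (3 * e))))) =
          4 * (131072 * 383 * b ^ 6 * 4) * B.d n ^ (-(Cf * (3 * e))) * 1 := by ring
      _ ≤ 4 * (131072 * 383 * b ^ 6 * 4) * B.d n ^ (-(Cf * (3 * e))) * (4 * nh ^ 2) :=
          mul_le_mul_of_nonneg_left hnh2 e5
      _ = _ := by ring
  have hQ0 : 0 ≤ 4 * (131072 * 383 * b ^ 6 * (4 * B.d n ^ (-(Cf * (3 * e)))) /
      (κ * (κ ^ 7 / (2 * b ^ 4)) ^ 6 * nh ^ 2)) := by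
    have := hpow (-(Cf * (3 * e)))
    positivity
  have hY : max 191 ((4 * (131072 * 383 * b ^ 6 * (4 * B.d n ^ (-(Cf * (3 * e)))) /
      (κ * (κ ^ 7 / (2 * b ^ 4)) ^ 6 * nh ^ 2))) ^ (1 / (1 - a))) ≤
      B.d n ^ (-((3 * Cf + 43 * Kk + 1) * e / (1 - a))) := by
    refine max_le h2 ?_
    refine (Real.rpow_le_rpow hQ0 hQ (by positivity)).trans (le_of_eq ?_)
    rw [← Real.rpow_mul (B.pos n).le]
    congr 1
    ring
  rw [div_le_iff₀ (hpow e)]
  calc 2 * B.d n ^ (x - Cf * (3 * e)) * _ ≤ 2 * B.d n ^ (x - Cf * (3 * e)) *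
        B.d n ^ (-((3 * Cf + 43 * Kk + 1) * e / (1 - a))) :=
        mul_le_mul_of_nonneg_left hY (by have := hpow (x - Cf * (3 * e)); positivity)
    _ = 2 * (B.d n ^ (x - (3 * Cf + (3 * Cf + 43 * Kk + 1) / (1 - a) + 1) * e) * B.d n ^ e) := by
        rw [mul_assoc, ← rpow_add', ← rpow_add']
        congr 2
        ring
    _ = _ := by ring

theorem aux_div {A Y : ℝ} (hY : Y ≠ 0) : 16 * (A * Y) / (2 * Y) = 8 * A := by
  field_simp
  ring

/-- the numerical hypotheses `hn`, `hn2` of the walk lemma -/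
theorem hn_ev (B : Base) {x a e Cf Kk : ℝ} (hx : 0 < x) (he : 0 < e) (ha0 : 0 ≤ a) (ha1 : a < 1)
    (hCf : 1 ≤ Cf) (hKk : 0 ≤ Kk) (h1 : (22 * Kk + 3 * Cf + 2) * e < (1 - a) * x) :
    ∀ᶠ n in (U : Filter ℕ),
      256 * (((13 ^ 8 : ℕ) : ℝ)) ^ 3 ≤
        ((B.d n ^ (Kk * e)) ^ 7 / (2 * (((13 ^ 8 : ℕ) : ℝ)) ^ 4)) ^ 3 * (Nn B x n : ℝ) ∧
      256 * (((13 ^ 8 : ℕ) : ℝ)) ^ 3 * (4 * B.d n ^ (-(Cf * (3 * e))) *
        (16 * B.d n ^ (-e) / (2 * B.d n ^ (x - Cf * (3 * e))) + 382) ^ a) <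
        B.d n ^ (Kk * e) * ((B.d n ^ (Kk * e)) ^ 7 / (2 * (((13 ^ 8 : ℕ) : ℝ)) ^ 4)) ^ 3 *
          (Nn B x n : ℝ) := by
  set b : ℝ := ((13 ^ 8 : ℕ) : ℝ) with hb
  have hb0 : 0 < b := by rw [hb]; positivity
  have hax : a * x < x := by nlinarith
  have hKe : 0 ≤ Kk * e := by positivity
  have hCe : 0 < Cf * e := by nlinarith
  filter_upwards [ev_abs B (show 21 * Kk * e - x < 0 by nlinarith)
      (256 * b ^ 3 * (8 * b ^ 12) * 2),
    ev_abs B (show -(x + e) < -x by linarith) 16, ev_abs B (show -(x + e) < 0 by linarith) 764,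
    ev_abs B (show 22 * Kk * e - x < -(Cf * (3 * e)) - a * (x + e) by nlinarith)
      (256 * b ^ 3 * 4 * (8 * b ^ 12) * 2 + 1)] with n h2 h3 h4 h5
  have hpow : ∀ t : ℝ, 0 < B.d n ^ t := fun t => rpos B n t
  set κ : ℝ := B.d n ^ (Kk * e) with hκ
  have hκ0 : 0 < κ := hpow _
  have hκk : ∀ k : ℕ, κ ^ k = B.d n ^ (k * Kk * e) := by
    intro k
    rw [hκ, ← Real.rpow_natCast, ← Real.rpow_mul (B.pos n).le]
    congr 1; ring
  have hκ21 : κ ^ 21 = B.d n ^ (21 * Kk * e) := by simpa using hκk 21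
  have hκ22 : κ ^ 22 = B.d n ^ (22 * Kk * e) := by simpa using hκk 22
  have hN := half_le_Nn B hx.le n
  have e1 : (κ ^ 7 / (2 * b ^ 4)) ^ 3 = κ ^ 21 / (8 * b ^ 12) := by
    field_simp
    ring
  constructor
  · rw [e1]
    rw [Real.rpow_zero, mul_one] at h2
    have e2 : B.d n ^ (21 * Kk * e - x) = κ ^ 21 * B.d n ^ (-x) := by
      rw [hκ21, ← rpow_add']; congr 1
    rw [e2] at h2
    have h6 : κ ^ 21 * B.d n ^ (-x) ≤ κ ^ 21 * (2 * (Nn B x n : ℝ)) :=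
      mul_le_mul_of_nonneg_left hN (by positivity)
    rw [div_mul_eq_mul_div, le_div_iff₀ (by positivity)]
    nlinarith
  · rw [e1]
    -- base of the power
    have h6 : 16 * B.d n ^ (-e) / (2 * B.d n ^ (x - Cf * (3 * e))) + 382 ≤ B.d n ^ (-(x + e)) := by
      have e2 : 16 * B.d n ^ (-e) / (2 * B.d n ^ (x - Cf * (3 * e))) =
          8 * B.d n ^ (-e - (x - Cf * (3 * e))) := by
        have : B.d n ^ (-e) = B.d n ^ (-e - (x - Cf * (3 * e))) * B.d n ^ (x - Cf * (3 * e)) := by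
          rw [← rpow_add']; congr 1; ring
        rw [this]
        exact aux_div (hpow (x - Cf * (3 * e))).ne'
      have e3 : B.d n ^ (-e - (x - Cf * (3 * e))) ≤ B.d n ^ (-x) := rpow_anti B n (by nlinarith)
      rw [e2]
      rw [Real.rpow_zero, mul_one] at h4
      linarith
    have h7 : (16 * B.d n ^ (-e) / (2 * B.d n ^ (x - Cf * (3 * e))) + 382) ^ a ≤
        B.d n ^ (-(a * (x + e))) := by
      refine (Real.rpow_le_rpow ?_ h6 ha0).trans (le_of_eq ?_)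
      · have a1 := hpow (-e)
        have a2 := hpow (x - Cf * (3 * e))
        positivity
      · rw [← Real.rpow_mul (B.pos n).le]
        congr 1; ring
    have e4 : κ * (κ ^ 21 / (8 * b ^ 12)) * (Nn B x n : ℝ) =
        κ ^ 22 * (Nn B x n : ℝ) / (8 * b ^ 12) := by ring
    rw [e4, lt_div_iff₀ (by positivity)]
    have e5 : B.d n ^ (-(Cf * (3 * e)) - a * (x + e)) =
        B.d n ^ (-(Cf * (3 * e))) * B.d n ^ (-(a * (x + e))) := by
      rw [← rpow_add']; congr 1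
    have e6 : B.d n ^ (22 * Kk * e - x) = κ ^ 22 * B.d n ^ (-x) := by
      rw [hκ22, ← rpow_add']; congr 1
    rw [e5, e6] at h5
    have h8 : κ ^ 22 * B.d n ^ (-x) ≤ κ ^ 22 * (2 * (Nn B x n : ℝ)) :=
      mul_le_mul_of_nonneg_left hN (by positivity)
    have h9 : 0 < B.d n ^ (-(Cf * (3 * e))) * B.d n ^ (-(a * (x + e))) :=
      mul_pos (hpow _) (hpow _)
    have h10 : B.d n ^ (-(Cf * (3 * e))) * (16 * B.d n ^ (-e) / (2 * B.d n ^ (x - Cf * (3 * e)))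
        + 382) ^ a ≤ B.d n ^ (-(Cf * (3 * e))) * B.d n ^ (-(a * (x + e))) :=
      mul_le_mul_of_nonneg_left h7 (hpow _).le
    have h11 : 0 ≤ 256 * b ^ 3 * 4 * (8 * b ^ 12) := by positivity
    calc 256 * b ^ 3 * (4 * B.d n ^ (-(Cf * (3 * e))) * (16 * B.d n ^ (-e) /
          (2 * B.d n ^ (x - Cf * (3 * e))) + 382) ^ a) * (8 * b ^ 12) =
          256 * b ^ 3 * 4 * (8 * b ^ 12) * (B.d n ^ (-(Cf * (3 * e))) * (16 * B.d n ^ (-e) /
          (2 * B.d n ^ (x - Cf * (3 * e))) + 382) ^ a) := by ring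
      _ ≤ 256 * b ^ 3 * 4 * (8 * b ^ 12) *
          (B.d n ^ (-(Cf * (3 * e))) * B.d n ^ (-(a * (x + e)))) :=
          mul_le_mul_of_nonneg_left h10 h11
      _ < κ ^ 22 * (Nn B x n : ℝ) := by
          nlinarith

/-! ### counting at one number `n` -/

section fin

variable {g : RCfg (Fin 11)} {t : ℕ → Ln4} {u : ℕ → ℝ} {fA : ℕ → ℕ → ℝ} {fB : ℕ → ℝ}
  {mu be δ : ℝ} {Fc : ℕ → ℝ}

/-- many lines in few cells -/
theorem lines_le_cells (A : ARel0 g.I g.z t u fA fB δ Fc) (hδ : 0 < δ) {κ₀ M tol : ℝ}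
    (hM : 0 ≤ M) (htol : 20 * δ ≤ tol) (hZ : g.Z.Nonempty)
    (hline : ∀ i ∈ g.L, κ₀ * (g.Z.card : ℝ) ≤ ((g.hts i).card : ℝ))
    (hup : ∀ k i, (i, k) ∈ g.I → ∀ F ⊆ g.slice k, (∀ l ∈ F, ∀ s ∈ fAll,
      |coA (t i) (t l) (u i) (u l) (fA i k) (fA l k) (fB k) (g.z k) s| ≤ tol) → (F.card : ℝ) ≤ M)
    {Lg : Finset ℕ} (hLg : Lg ⊆ g.L) :
    κ₀ * (Lg.card : ℝ) ≤ ((Lg.image fun l => cellL δ (t l) (u l) (Fc l)).card : ℝ) * M := by
  refine card_le_labels Lg g.Z (fun i k => (i, k) ∈ g.I) _ hZ hM (fun i hi => hline i (hLg hi)) ?_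
  intro k hk S hS hal hlab
  rcases S.eq_empty_or_nonempty with rfl | ⟨i, hi⟩
  · simpa using hM
  · refine hup k i (hal i hi) S ?_ ?_
    · intro l hl
      exact RCfg.mem_slice.2 ⟨hLg (hS hl), hal l hl⟩
    · intro l hl s hs
      refine (coA_of_cellL hδ (A.z1 _ _ (hal i hi)) (A.E1 _ _ (hal i hi)) (A.fa1 _ _ (hal i hi))
        (A.fb1 _ _ (hal i hi)) (A.Fc _ _ (hal i hi)) (A.Fc _ _ (hal l hl)) (hlab i hi l hl) s).trans
        htol

/-- many lines in few directions -/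
theorem lines_le_dirs (A : ARel0 g.I g.z t u fA fB δ Fc) (hδ : 0 < δ) {κ₀ M tol : ℝ}
    (hM : 0 ≤ M) (htol : 20 * δ ≤ tol) (hZ : g.Z.Nonempty)
    (hline : ∀ i ∈ g.L, κ₀ * (g.Z.card : ℝ) ≤ ((g.hts i).card : ℝ))
    (hup : ∀ k i, (i, k) ∈ g.I → ∀ F ⊆ g.slice k, (∀ l ∈ F, ∀ s ∈ fDir,
      |coA (t i) (t l) (u i) (u l) (fA i k) (fA l k) (fB k) (g.z k) s| ≤ tol) → (F.card : ℝ) ≤ M)
    {Lg : Finset ℕ} (hLg : Lg ⊆ g.L) :
    κ₀ * (Lg.card : ℝ) ≤ ((Lg.image fun l => dirL δ (t l) (u l)).card : ℝ) * M := by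
  refine card_le_labels Lg g.Z (fun i k => (i, k) ∈ g.I) _ hZ hM (fun i hi => hline i (hLg hi)) ?_
  intro k hk S hS hal hlab
  rcases S.eq_empty_or_nonempty with rfl | ⟨i, hi⟩
  · simpa using hM
  · refine hup k i (hal i hi) S ?_ ?_
    · intro l hl
      exact RCfg.mem_slice.2 ⟨hLg (hS hl), hal l hl⟩
    · intro l hl s hs
      exact (coA_of_dirL hδ (A.E1 _ _ (hal i hi)) (hlab i hi l hl) s hs).trans htol

/-- global number of directions -/
theorem dirs_le {κ₀ M : ℝ} (hZ : g.Z.Nonempty)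
    (hline : ∀ i ∈ g.L, κ₀ * (g.Z.card : ℝ) ≤ ((g.hts i).card : ℝ)) (Q : ℕ → Prop)
    [DecidablePred Q]
    (hup : ∀ k, ((((g.slice k).filter Q).image fun l => dirL δ (t l) (u l)).card : ℝ) ≤ M)
    {Ls : Finset ℕ} (hLs : Ls ⊆ g.L) :
    κ₀ * (((Ls.filter Q).image fun l => dirL δ (t l) (u l)).card : ℝ) ≤ M := by
  refine RgN344.image_line_le (Ls.filter Q) g.Z (fun i k => (i, k) ∈ g.I) _ hZ
    (fun i hi => hline i (hLs (mem_filter.1 hi).1)) ?_
  intro k hk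
  refine le_trans ?_ (hup k)
  refine mod_cast card_le_card (image_subset_image ?_)
  intro l hl
  obtain ⟨h1, h2⟩ := mem_filter.1 hl
  obtain ⟨h3, h4⟩ := mem_filter.1 h1
  exact mem_filter.2 ⟨RCfg.mem_slice.2 ⟨hLs h3, h2⟩, h4⟩

/-- directions of the representatives -/
theorem dirs_reps {Lg Ls : Finset ℕ}
    (hrep : ∀ l ∈ Lg, ∃ i ∈ Ls, cellL δ (t i) (u i) (Fc i) = cellL δ (t l) (u l) (Fc l)) :
    (Lg.image fun l => dirL δ (t l) (u l)) ⊆ (Ls.image fun l => dirL δ (t l) (u l)) := by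
  intro b hb
  obtain ⟨l, hl, rfl⟩ := mem_image.1 hb
  obtain ⟨i, hi, h⟩ := hrep l hl
  refine mem_image.2 ⟨i, hi, ?_⟩
  have h4 := congrFun h 4
  have h5 := congrFun h 5
  have h6 := congrFun h 6
  simp only [cellL, Matrix.cons_val] at h4 h5 h6
  funext s
  fin_cases s
  · exact h4
  · exact h5
  · exact h6

end fin

/-! ### the assembly -/

/-- `ARel` from the window, with the slope of `V2` -/
theorem exists_ARel {g : RCfg (Fin 11)} {t : ℕ → Ln4} {u : ℕ → ℝ} {fA : ℕ → ℕ → ℝ} {fB : ℕ → ℝ}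
    {mu be δ : ℝ} (hbd : ∀ l k, (l, k) ∈ g.I → |g.z k| ≤ 1 ∧
    (∀ j, |(t l).pos (g.z k) j| ≤ 1) ∧ (∀ j, |(t l).v j| ≤ 1) ∧ |u l| ≤ 1 ∧
      |fA l k| ≤ 1 ∧ |fB k| ≤ 1)
    (hown : ∀ l k k', (l, k) ∈ g.I → (l, k') ∈ g.I →
      |fA l k' - fA l k + u l * (fB k' - fB k)| ≤ δ)
    (haff : ∀ l k, (l, k) ∈ g.I → |fB k - be - mu * g.z k| ≤ δ) :
    ∃ Fc : ℕ → ℝ, ARel g.I g.z t u fA fB mu be δ Fc := by
  classical
  refine ⟨fun l => if h : ∃ k, (l, k) ∈ g.I then fA l h.choose + u l * fB h.choose else 0, ?_⟩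
  refine ⟨⟨fun l k h => (hbd l k h).1, fun l k h => (hbd l k h).2.2.1,
    fun l k h => (hbd l k h).2.2.2.1, fun l k h => (hbd l k h).2.2.2.2.1,
    fun l k h => (hbd l k h).2.2.2.2.2, hown, ?_⟩, haff⟩
  intro l k hlk
  have hex : ∃ k, (l, k) ∈ g.I := ⟨k, hlk⟩
  have h1 := hown l k hex.choose hlk hex.choose_spec
  simp only [dif_pos hex]
  have e : fA l hex.choose + u l * fB hex.choose - (fA l k + u l * fB k) =
      fA l hex.choose - fA l k + u l * (fB hex.choose - fB k) := by ring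
  rw [e]
  exact h1

/-- the choice of the small parameter -/
theorem exists_e {K1 K2 K3 K4 K5 ε X x : ℝ} (h1 : 0 ≤ K1) (h2 : 0 ≤ K2) (h3 : 0 ≤ K3) (h4 : 0 ≤ K4)
    (h5 : 0 ≤ K5) (hε : 0 < ε) (hX : 0 < X) (hXx : X ≤ x) :
    ∃ e : ℝ, 0 < e ∧ K1 * e < ε ∧ K2 * e < ε ∧ K3 * e < X ∧ K4 * e ≤ x ∧ K5 * e ≤ x := by
  set K := K1 + K2 + K3 + K4 + K5 + 1 with hK
  have hK0 : 0 < K := by positivity
  have hm : 0 < min ε X := lt_min hε hX
  refine ⟨min ε X / (2 * K), by positivity, ?_⟩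
  have hee : ∀ k : ℝ, 0 ≤ k → k ≤ K → k * (min ε X / (2 * K)) < min ε X := by
    intro k hk hkK
    rw [mul_div_assoc', div_lt_iff₀ (by positivity)]
    nlinarith
  have a1 := hee K1 h1 (by linarith)
  have a2 := hee K2 h2 (by linarith)
  have a3 := hee K3 h3 (by linarith)
  have a4 := hee K4 h4 (by linarith)
  have a5 := hee K5 h5 (by linarith)
  have b1 := min_le_left ε X
  have b2 := min_le_right ε X
  exact ⟨by linarith, by linarith, by linarith, by linarith, by linarith⟩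

/-- **the wrapper at one number `n`** -/
theorem wrap_one {g : RCfg (Fin 11)} {t : ℕ → Ln4} {u : ℕ → ℝ} {fA : ℕ → ℕ → ℝ} {fB : ℕ → ℝ}
    {mu be δ : ℝ} {Fc : ℕ → ℝ} (AR : ARel g.I g.z t u fA fB mu be δ Fc)
    (hsub : g.I ⊆ g.L ×ˢ g.Z) {h κ κ₀ lm lm0 r a Kf sep tol MP MD Mu Md Mc mL err : ℝ} {N : ℕ}
    {w : ℤ} {kst : ℤ → ℕ} {Lg Ls : Finset ℕ}
    (hδ : 0 < δ) (hh : 0 < h) (hhδ : h ≤ δ) (hNh : N * h ≤ 1) (hN : 0 < N) (hmuh : |mu| * h ≤ δ)
    (hlm : |mu| ≤ lm) (hlm0 : 0 < lm0) (hlm0' : lm0 ≤ |mu|) (hL : g.L.Nonempty)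
    (hZ : g.Z.Nonempty) (hκ₀ : 0 < κ₀)
    (hline : ∀ i ∈ g.L, κ₀ * (g.Z.card : ℝ) ≤ ((g.hts i).card : ℝ))
    (hκ : 0 < κ) (hκκ : κ ≤ κ₀) (hLg : Lg ⊆ g.L) (hLgc : κ₀ * (g.L.card : ℝ) ≤ (Lg.card : ℝ))
    (hal : ∀ l ∈ Lg, κ₀ * N ≤ ((alf g.I g.z h N w kst l).card : ℝ)) (hLsLg : Ls ⊆ Lg)
    (hinj : ∀ i ∈ Ls, ∀ j ∈ Ls, cellL δ (t i) (u i) (Fc i) = cellL δ (t j) (u j) (Fc j) → i = j)
    (hrep : ∀ l ∈ Lg, ∃ i ∈ Ls, cellL δ (t i) (u i) (Fc i) = cellL δ (t l) (u l) (Fc l))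
    (hLsc : Ls.card = (Lg.image fun l => cellL δ (t l) (u l) (Fc l)).card)
    (htol : 20 * δ ≤ tol) (hMP : 0 ≤ MP) (hMD : 0 ≤ MD) (hMu : 0 < Mu) (hMd : 0 < Md)
    (hpc : ∀ k, (((g.slice k).image fun l => posL δ (t l) (fA l k) (fB k) (g.z k)).card : ℝ) ≤ MP)
    (hdc : ∀ k, (((g.slice k).image fun l => dirL δ (t l) (u l)).card : ℝ) ≤ MD)
    (hcu : ∀ k i, (i, k) ∈ g.I → ∀ F ⊆ g.slice k, (∀ l ∈ F, ∀ s ∈ fAll,
      |coA (t i) (t l) (u i) (u l) (fA i k) (fA l k) (fB k) (g.z k) s| ≤ tol) → (F.card : ℝ) ≤ Mu)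
    (hdu : ∀ k i, (i, k) ∈ g.I → ∀ F ⊆ g.slice k, (∀ l ∈ F, ∀ s ∈ fDir,
      |coA (t i) (t l) (u i) (u l) (fA i k) (fA l k) (fB k) (g.z k) s| ≤ tol) → (F.card : ℝ) ≤ Md)
    (hcl : ∀ k i, (i, k) ∈ g.I → ∃ F ⊆ g.slice k, mL ≤ (F.card : ℝ) ∧ ∀ l ∈ F, ∀ s ∈ fAll,
      |coA (t i) (t l) (u i) (u l) (fA i k) (fA l k) (fB k) (g.z k) s| ≤ δ)
    (hcc : ∀ k, ∀ c : ℝ, ((((g.slice k).filter fun l => |(t l).v 1 - c| ≤ sep).image fun l =>
      dirL δ (t l) (u l)).card : ℝ) ≤ Mc)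
    (hfib : RigData.ThinFib (fun l => shf (w * (N * h)) (t l)) Ls
      (fun l => alf g.I g.z h N w kst l) (fun l => dirL δ (t l) (u l)) (3 * δ) h r a Kf)
    (n1 : κ * MP * MD * Mu ≤ κ₀ ^ 3 * (g.L.card : ℝ))
    (n2 : Mc * Md ≤ (κ ^ 2 / ((13 ^ 8 : ℕ) : ℝ)) ^ 3 / 4 * (κ₀ ^ 3 * (g.L.card : ℝ)))
    (hr : 0 < r) (hδr : 3 * δ ≤ r) (her : 5 * δ ≤ r) (hlr : lm * (3 * δ) ≤ r) (ha0 : 0 ≤ a)
    (ha1 : a < 1) (hKf : 0 ≤ Kf) (hsep0 : 0 < sep) (hsep1 : sep ≤ 1)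
    (hn : 256 * (((13 ^ 8 : ℕ) : ℝ)) ^ 3 ≤ (κ ^ 7 / (2 * (((13 ^ 8 : ℕ) : ℝ)) ^ 4)) ^ 3 * N)
    (hn2 : 256 * (((13 ^ 8 : ℕ) : ℝ)) ^ 3 * (Kf * (16 * lm / r + 382) ^ a) <
      κ * (κ ^ 7 / (2 * (((13 ^ 8 : ℕ) : ℝ)) ^ 4)) ^ 3 * N)
    (herr : (4 * RigData.etaR κ ((13 ^ 8 : ℕ) : ℝ) Kf (N * h) r a lm0 + 6 * r) / sep ≤ err) :
    ∃ s0 c0 C0 E0 : ℝ, |s0| ≤ 2 / sep ∧ |c0| ≤ 1 ∧ |C0| ≤ 1 ∧ |E0| ≤ 1 ∧
      ∃ L' ⊆ g.L, mL * ((κ ^ 2 / ((13 ^ 8 : ℕ) : ℝ)) ^ 6 * κ / (8 * ((13 ^ 8 : ℕ) : ℝ)) *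
          (κ₀ ^ 2 * (g.L.card : ℝ))) ≤ Mu * ((81 ^ 8 : ℕ) * (L'.card : ℝ)) ∧
        ∀ l ∈ L', |u l - (E0 - s0 * ((t l).v 1 - c0))| ≤ err + (3 + 2 * (2 / sep)) * δ ∧
          |(t l).v 2 - (C0 + E0 * ((t l).v 1 - c0) - s0 * ((t l).v 1 - c0) ^ 2 / 2)| ≤
            err + (3 + 2 * (2 / sep)) * δ := by
  classical
  have hNr : (0 : ℝ) < N := by exact_mod_cast hN
  have hLpos : (0 : ℝ) < g.L.card := by exact_mod_cast hL.card_pos
  have hLgpos : (0 : ℝ) < Lg.card := lt_of_lt_of_le (by positivity) hLgc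
  have hLsL : Ls ⊆ g.L := hLsLg.trans hLg
  have hLsne : Ls.Nonempty := by
    obtain ⟨l, hl⟩ : Lg.Nonempty := by rw [← Finset.card_pos]; exact_mod_cast hLgpos
    obtain ⟨i, hi, -⟩ := hrep l hl
    exact ⟨i, hi⟩
  have hali : ∀ i ∈ g.L, ∃ k, (i, k) ∈ g.I := by
    intro i hi
    have h1 := hline i hi
    have h2 : (0 : ℝ) < g.Z.card := by exact_mod_cast hZ.card_pos
    have h3 : (0 : ℝ) < (g.hts i).card := lt_of_lt_of_le (by positivity) h1
    obtain ⟨k, hk⟩ : (g.hts i).Nonempty := by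
      rw [← Finset.card_pos]; exact_mod_cast h3
    exact ⟨k, (RCfg.mem_hts.1 hk).2⟩
  have hDat := AR.rigData_of (h := h) (κ := κ) (N := N) (w := w) (kst := kst) (Ls := Ls) hδ hh hhδ
    hNh hmuh hN hκ hinj (fun l hl => le_trans (mul_le_mul_of_nonneg_right hκκ hNr.le)
      (hal l (hLsLg hl)))
  -- counting
  have c1 := lines_le_cells AR.toARel0 hδ hMu.le htol hZ hline hcu hLg
  rw [← hLsc] at c1
  have c2 := (lines_le_dirs AR.toARel0 hδ hMd.le htol hZ hline hdu hLg).trans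
    (mul_le_mul_of_nonneg_right (Nat.cast_le.2 (card_le_card (dirs_reps hrep))) hMd.le)
  have c3 : κ₀ * ((Ls.image fun l => dirL δ (t l) (u l)).card : ℝ) ≤ MD := by
    have := dirs_le (t := t) (u := u) (δ := δ) hZ hline (fun _ => True) (M := MD) (by
      intro k
      rw [filter_true]
      exact hdc k) hLsL
    rwa [filter_true] at this
  have c4 : ((pts (fun l => alf g.I g.z h N w kst l)
      (fun l k => posL δ (t l) (fA l (kst k)) (fB (kst k)) (g.z (kst k))) Ls).card : ℝ) ≤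
      N * MP := by
    refine pts_card_le Ls (fun l k => posL δ (t l) (fA l k) (fB k) (g.z k)) hMP ?_
    intro k
    refine le_trans ?_ (hpc k)
    refine mod_cast card_le_card (image_subset_image ?_)
    intro l hl
    obtain ⟨a1, a2⟩ := mem_filter.1 hl
    exact RCfg.mem_slice.2 ⟨hLsL a1, a2⟩
  have c5 : κ₀ ^ 2 * (g.L.card : ℝ) ≤ κ₀ * (Lg.card : ℝ) := by
    calc κ₀ ^ 2 * (g.L.card : ℝ) = κ₀ * (κ₀ * (g.L.card : ℝ)) := by ring
      _ ≤ _ := mul_le_mul_of_nonneg_left hLgc hκ₀.le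
  have hcount : κ * ((pts (fun l => alf g.I g.z h N w kst l)
      (fun l k => posL δ (t l) (fA l (kst k)) (fB (kst k)) (g.z (kst k))) Ls).card : ℝ) *
      ((Ls.image fun l => dirL δ (t l) (u l)).card : ℝ) ≤ N * (Ls.card : ℝ) := by
    set P : ℝ := ((pts (fun l => alf g.I g.z h N w kst l)
      (fun l k => posL δ (t l) (fA l (kst k)) (fB (kst k)) (g.z (kst k))) Ls).card : ℝ) with hP
    set Dn : ℝ := ((Ls.image fun l => dirL δ (t l) (u l)).card : ℝ) with hDn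
    have hP0 : 0 ≤ P := Nat.cast_nonneg _
    have hDn0 : 0 ≤ Dn := Nat.cast_nonneg _
    have h1 : (κ * P * Dn) * (κ₀ * Mu) ≤ (N * (Ls.card : ℝ)) * (κ₀ * Mu) := by
      calc (κ * P * Dn) * (κ₀ * Mu) = κ * Mu * (P * (κ₀ * Dn)) := by ring
        _ ≤ κ * Mu * ((N * MP) * MD) := by
            refine mul_le_mul_of_nonneg_left ?_ (by positivity)
            exact mul_le_mul c4 c3 (by positivity) (by positivity)
        _ = N * (κ * MP * MD * Mu) := by ring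
        _ ≤ N * (κ₀ ^ 3 * (g.L.card : ℝ)) := mul_le_mul_of_nonneg_left n1 hNr.le
        _ = N * κ₀ * (κ₀ ^ 2 * (g.L.card : ℝ)) := by ring
        _ ≤ N * κ₀ * ((Ls.card : ℝ) * Mu) :=
            mul_le_mul_of_nonneg_left (c5.trans c1) (by positivity)
        _ = _ := by ring
    exact le_of_mul_le_mul_right h1 (by positivity)
  have hconc : ∀ i ∈ Ls, (((Ls.filter fun j => |(t j).v 1 - (t i).v 1| ≤ sep).image fun l =>
      dirL δ (t l) (u l)).card : ℝ) ≤ (κ ^ 2 / ((13 ^ 8 : ℕ) : ℝ)) ^ 3 / 4 *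
        ((Ls.image fun l => dirL δ (t l) (u l)).card : ℝ) := by
    intro i hi
    have h1 := dirs_le (t := t) (u := u) (δ := δ) hZ hline
      (fun j => |(t j).v 1 - (t i).v 1| ≤ sep) (M := Mc) (fun k => hcc k _) hLsL
    set X : ℝ := (((Ls.filter fun j => |(t j).v 1 - (t i).v 1| ≤ sep).image fun l =>
      dirL δ (t l) (u l)).card : ℝ) with hX
    set Dn : ℝ := ((Ls.image fun l => dirL δ (t l) (u l)).card : ℝ) with hDn
    set c : ℝ := (κ ^ 2 / ((13 ^ 8 : ℕ) : ℝ)) ^ 3 / 4 with hc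
    have hc0 : 0 ≤ c := by rw [hc]; positivity
    have h2 : X * (κ₀ * Md) ≤ c * Dn * (κ₀ * Md) := by
      calc X * (κ₀ * Md) = (κ₀ * X) * Md := by ring
        _ ≤ Mc * Md := mul_le_mul_of_nonneg_right h1 hMd.le
        _ ≤ c * (κ₀ ^ 3 * (g.L.card : ℝ)) := n2
        _ = c * κ₀ * (κ₀ ^ 2 * (g.L.card : ℝ)) := by ring
        _ ≤ c * κ₀ * (Dn * Md) := mul_le_mul_of_nonneg_left (c5.trans c2) (by positivity)
        _ = _ := by ring
    exact le_of_mul_le_mul_right h2 (by positivity)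
  -- rigidity
  obtain ⟨i0, hi0, s0, hs0, Ls', hLs', hLs'c, hcon⟩ := hDat.rig hκ (by positivity) (lm := lm)
    (lm0 := lm0) (r := r) (a := a) (Kf := Kf) (sep := sep) hlm hlm0 hlm0' hr hδr her hlr ha0 ha1
    hKf hsep0 hsep1 hLsne hN hcount hconc hfib hn hn2
  -- fat lines around the representatives
  have hLs'L : Ls' ⊆ g.L := hLs'.trans hLsL
  have hF0 : ∀ i ∈ Ls', ∃ k, (i, k) ∈ g.I ∧ ∃ F ⊆ g.slice k, mL ≤ (F.card : ℝ) ∧ ∀ l ∈ F,
      ∀ s ∈ fAll, |coA (t i) (t l) (u i) (u l) (fA i k) (fA l k) (fB k) (g.z k) s| ≤ δ := by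
    intro i hi
    obtain ⟨k, hk⟩ := hali i (hLs'L hi)
    exact ⟨k, hk, hcl k i hk⟩
  choose! k0 hk0 F hFs hFc hFn using hF0
  have hFI : ∀ i ∈ Ls', ∀ l ∈ F i, (l, k0 i) ∈ g.I := fun i hi l hl =>
    (RCfg.mem_slice.1 (hFs i hi hl)).2
  have hov := AR.overlap hδ (Ls := Ls') (fun i hi j hj => hinj i (hLs' hi) j (hLs' hj)) k0 F hk0
    (fun i hi l hl => ⟨hFI i hi l hl, hFn i hi l hl⟩)
  have hun := union_ge Ls' F (m0 := mL) (Bm := 81 ^ 8) hFc hov
  obtain ⟨ki0, hki0⟩ := hali i0 (hLsL hi0)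
  have hv0 := AR.v1 _ _ hki0
  have hE0 := AR.E1 _ _ hki0
  refine ⟨s0, (t i0).v 1, (t i0).v 2, u i0, hs0, hv0 1, hv0 2, hE0, Ls'.biUnion F, ?_, ?_, ?_⟩
  · intro l hl
    obtain ⟨i, hi, hl⟩ := mem_biUnion.1 hl
    exact (RCfg.mem_slice.1 (hFs i hi hl)).1
  · set bb : ℝ := ((13 ^ 8 : ℕ) : ℝ) with hbb
    have hbb0 : 0 < bb := by rw [hbb]; positivity
    rcases le_or_gt mL 0 with hm | hm
    · have h1 : mL * ((κ ^ 2 / bb) ^ 6 * κ / (8 * bb) * (κ₀ ^ 2 * (g.L.card : ℝ))) ≤ 0 :=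
        mul_nonpos_of_nonpos_of_nonneg hm (by positivity)
      exact h1.trans (by positivity)
    · have hc0 : 0 ≤ (κ ^ 2 / bb) ^ 6 * κ / (8 * bb) := by positivity
      calc mL * ((κ ^ 2 / bb) ^ 6 * κ / (8 * bb) * (κ₀ ^ 2 * (g.L.card : ℝ)))
          ≤ mL * ((κ ^ 2 / bb) ^ 6 * κ / (8 * bb) * ((Ls.card : ℝ) * Mu)) :=
            mul_le_mul_of_nonneg_left (mul_le_mul_of_nonneg_left (c5.trans c1) hc0) hm.le
        _ = Mu * (mL * ((κ ^ 2 / bb) ^ 6 * κ / (8 * bb) * (Ls.card : ℝ))) := by ring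
        _ ≤ Mu * (mL * (Ls'.card : ℝ)) :=
            mul_le_mul_of_nonneg_left (mul_le_mul_of_nonneg_left hLs'c hm.le) hMu.le
        _ ≤ Mu * ((81 ^ 8 : ℕ) * ((Ls'.biUnion F).card : ℝ)) :=
            mul_le_mul_of_nonneg_left hun hMu.le
  · intro l hl
    obtain ⟨i, hi, hl⟩ := mem_biUnion.1 hl
    have hIl := hFI i hi l hl
    have hIi := hk0 i hi
    obtain ⟨g1, g2⟩ := hcon i hi
    have hn3 := hFn i hi l hl
    have h2 : |u l - u i| ≤ δ := hn3 2 (by decide)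
    have h5 : |(t l).v 1 - (t i).v 1| ≤ δ := hn3 5 (by decide)
    have h6 : |((t l).v 2 - (t i).v 2) - u i * ((t l).v 1 - (t i).v 1)| ≤ δ := hn3 6 (by decide)
    exact conic_transfer hδ.le h2 h5 h6 (AR.E1 _ _ hIi) hE0 (AR.v1 _ _ hIl 1) (AR.v1 _ _ hIi 1)
      (hv0 1) hs0 (g1.trans herr) (g2.trans herr)

end Crest.Agent.R136.Wk323
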