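import Crest.Agent.R136.Xd7_272

-- ▼ part R136/Xd8_272
section

/-!
# R136: the strip of the linear window (helper272)
-/

set_option autoImplicit false
set_option linter.unusedVariables false
set_option linter.unusedSectionVars false

open Finset Filter Topology

namespace Crest.Agent.R136.Xd272

open Crest.Agent.R138.Ex926 (Base U)
open Crest.Agent.R138.TwA501 (ev_const_mul)
open Crest.Agent.R136.Gf356
open Crest.Agent.R136.Prn779 (OneBox)
open Crest.Agent.R136.Rg6_501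

theorem bxD_le {pb : Fin 11 → ℝ} {ca cb p xa xb n ca' cb' p' xa' xb' n' : ℝ} (h5 : ca ≤ ca')
    (h6 : cb ≤ cb') (h7 : p ≤ p') (h8 : xa ≤ xa') (h9 : xb ≤ xb') (h10 : n ≤ n') :
    ∀ j, bxD pb ca cb p xa xb n j ≤ bxD pb ca' cb' p' xa' xb' n' j := by
  intro j
  fin_cases j
  · show pb 0 ≤ pb 0
    exact le_rfl
  · show pb 1 ≤ pb 1
    exact le_rfl
  · show pb 2 ≤ pb 2
    exact le_rfl
  · show pb 3 ≤ pb 3
    exact le_rfl
  · show pb 4 ≤ pb 4
    exact le_rfl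
  · show ca ≤ ca'
    exact h5
  · show cb ≤ cb'
    exact h6
  · show p ≤ p'
    exact h7
  · show xa ≤ xa'
    exact h8
  · show xb ≤ xb'
    exact h9
  · show n ≤ n'
    exact h10

variable {B : Base} {G : ℕ → RCfg (Fin 11)} {Leg : Set (Fin 11 → ℝ)} {ν : (Fin 11 → ℝ) → ℝ}
  {σ R D x K : ℝ} {pb : Fin 11 → ℝ} {e fa fb : ℕ → ℕ → ℝ}

/-- Frostman bound with a constant -/
theorem frostT {κ : Type} {G : ℕ → RCfg κ} {Leg : Set (κ → ℝ)} {ν : (κ → ℝ) → ℝ}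
    (H : RModel B G σ R Leg ν D) {y : ℝ} (hy0 : 0 ≤ y) (hyR : y ≤ R)
    {ε : ℝ} (hε : 0 < ε) :
    ∀ᶠ n in (U : Filter ℕ), ∀ k ∈ (G n).Z, ∀ T ⊆ (G n).Z,
      (∀ k' ∈ T, |(G n).z k' - (G n).z k| ≤ K * B.d n ^ y) →
      (T.card : ℝ) ≤ B.d n ^ (σ * y - ε) * ((G n).Z.card : ℝ) := by
  have hσ0 := H.σ_nonneg
  have hσ1 := H.σ_le
  rcases le_or_gt y ε with h | h
  · filter_upwards with n k hk T hT _
    have h1 : (T.card : ℝ) ≤ (G n).Z.card := by exact_mod_cast card_le_card hT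
    refine h1.trans (le_mul_of_one_le_left (Nat.cast_nonneg _) ?_)
    apply Real.one_le_rpow_of_pos_of_le_one_of_nonpos (B.pos n) (B.lt n).le
    have : σ * y ≤ 1 * y := mul_le_mul_of_nonneg_right hσ1 hy0
    linarith
  · filter_upwards [H.frost (y - ε / 2) (by linarith) (by linarith) (ε / 2) (by positivity),
      ev_const_le B (t := ε / 2) (by positivity) K] with n h1 h2 k hk T hT hTk
    refine le_trans ?_ ((h1 k hk).trans (mul_le_mul_of_nonneg_right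
      (rpow_anti B n ?_) (Nat.cast_nonneg _)))
    · refine mod_cast card_le_card fun k' hk' => ?_
      unfold RCfg.hbox
      rw [mem_filter, H.base n]
      refine ⟨hT hk', (hTk k' hk').trans ?_⟩
      have e1 : B.d n ^ (y - ε / 2) = B.d n ^ (-(ε / 2)) * B.d n ^ y := by
        rw [← rpow_add']; congr 1; ring
      rw [e1]
      exact mul_le_mul_of_nonneg_right h2 (rpos B n _).le
    · nlinarith

/-- the normal motion of frozen pairs -/
theorem rig_mv (H : RUnif B G Leg ν D) (hW : LinWin B G x K pb e fa fb) {ε ε' : ℝ}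
    (hε : 0 < ε) (hεε : ε ≤ ε') :
    ∀ᶠ n in (U : Filter ℕ), ∀ k k' i l, (i, k) ∈ (G n).I → (l, k) ∈ (G n).I →
      (i, k') ∈ (G n).I → (l, k') ∈ (G n).I → (G n).loose (bxD pb x x 0 x 0 x) ε' k i l →
      |(G n).rel k' i l 10| ≤ B.d n ^ (x - ε) →
      |((G n).z k' - (G n).z k) * (G n).rel k i l 7 -
        (fb n k' - fb n k) * (G n).rel k i l 9| ≤ B.d n ^ (x - (ε' + ε)) := by
  have hK := hW.K1
  filter_upwards [hW.mot, hW.mv ε hε, ev_const_le B hε (3 + 4 * K ^ 2 + 8 * K ^ 3 + 4 * K ^ 2)]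
    with n hmot hmv hc k k' i l h1 h2 h3 h4 hl hN
  have hk : k ∈ (G n).Z := H.memZ h1
  have hk' : k' ∈ (G n).Z := H.memZ h3
  obtain ⟨m1, m2, m3, m4⟩ := hmot k hk k' hk'
  obtain ⟨e5, e6, e7, e8, e9, e10⟩ := hmv i l k k' h1 h2 h3 h4
  obtain ⟨l0, l5, l6, l7, l8, l9, l10⟩ := loose_bxD.1 hl
  rw [H.base n] at l5 l6 l8 l10
  have hp : 0 < B.d n ^ (x - ε') := rpos B n _
  have hxe : B.d n ^ (x - ε) ≤ B.d n ^ (x - ε') := rpow_anti B n (by linarith)
  have hfin : (3 + 4 * K ^ 2 + 8 * K ^ 3 + 4 * K ^ 2) * B.d n ^ (x - ε') ≤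
      B.d n ^ (x - (ε' + ε)) := by
    have e1 : B.d n ^ (x - (ε' + ε)) = B.d n ^ (-ε) * B.d n ^ (x - ε') := by
      rw [← rpow_add']; congr 1; ring
    rw [e1]
    exact mul_le_mul_of_nonneg_right hc hp.le
  refine le_trans ?_ hfin
  generalize (G n).z k' - (G n).z k = u at *
  generalize fb n k' - fb n k = b at *
  generalize fa n k' - fa n k + e n k * b = a at *
  generalize B.d n ^ (x - ε') = X at *
  generalize B.d n ^ (x - ε) = X' at *
  have q1 := bm m4 l8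
  have q2 := bm m4 (bm m1 l5)
  have q3 := bm m3 (bm m1 l6)
  have e1 : u * (G n).rel k i l 7 - b * (G n).rel k i l 9 =
      (G n).rel k' i l 10 - (G n).rel k i l 10 + a * (G n).rel k i l 8 +
      a * (u * (G n).rel k i l 5) + b * (u * (G n).rel k i l 6) -
      ((G n).rel k' i l 10 - ((G n).rel k i l 10 + u * (G n).rel k i l 7 -
        a * ((G n).rel k i l 8 + u * (G n).rel k i l 5) -
        b * ((G n).rel k i l 9 + u * (G n).rel k i l 6))) := by ring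
  rw [e1]
  generalize (G n).rel k' i l 10 - ((G n).rel k i l 10 + u * (G n).rel k i l 7 -
        a * ((G n).rel k i l 8 + u * (G n).rel k i l 5) -
        b * ((G n).rel k i l 9 + u * (G n).rel k i l 6)) = Er at *
  have e2 : 4 * K ^ 2 * (2 * K * X) = 8 * K ^ 3 * X := by ring
  have e3 : 2 * K * (2 * K * X) = 4 * K ^ 2 * X := by ring
  rw [e2] at q2
  rw [e3] at q3
  have e4 : (3 + 4 * K ^ 2 + 8 * K ^ 3 + 4 * K ^ 2) * X =
      3 * X + 4 * K ^ 2 * X + 8 * K ^ 3 * X + 4 * K ^ 2 * X := by ring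
  rw [e4]
  rw [abs_le] at *
  constructor <;> linarith [q1.1, q1.2, q2.1, q2.2, q3.1, q3.2, hN.1, hN.2, l10.1, l10.2,
    e10.1, e10.2]

/-- the data of [RIG-0] -/
theorem rdataL (H : RModel B G σ R Leg ν D) (hW : LinWin B G x K pb e fa fb) {R0 a m : ℝ}
    {α β : ℝ → ℝ → ℝ} (hν : SplitD Leg ν pb R0 a m α β) (hx : 0 < x) (hxR : x ≤ R)
    (hxR0 : x ≤ R0) {s : ℝ} (hs : ∀ t, 0 ≤ t → t ≤ R0 → s * t ≤ β t t) (i0 : ℕ → ℕ)
    (hi0 : ∀ n, i0 n ∈ (G n).L) :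
    RDataL B G Leg ν i0 (fun n => (G n).Z) (fun n => (G n).hts (i0 n))
      (fun n k => (G n).z k / K) (fun n k => fb n k / K)
      (fun n k i i' => (G n).rel k i i' 7) (fun n k i i' => (G n).rel k i i' 9)
      (bxD pb x x 0 x 0 x) (bxD pb x x 0 x 0 0) (bxD pb x x 0 x 0 x) (fun t => bxD pb x x t x t x)
      σ x s a (2 * D ^ 2 + 3) (D ^ 2) := by
  have hK := hW.K1
  have hK0 : 0 < K := by linarith
  have hD := H.D1
  have hD2 : 1 ≤ D ^ 2 := one_le_pow₀ hD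
  have hR0 : 0 ≤ R0 := hx.le.trans hxR0
  have hxI : x ∈ Set.Icc 0 R0 := ⟨hx.le, hxR0⟩
  have h0I : (0 : ℝ) ∈ Set.Icc 0 R0 := ⟨le_rfl, hR0⟩
  have hpS : bxD pb x x 0 x 0 x ∈ Leg := hν.leg _ _ _ _ _ _ hxI hxI h0I hxI h0I hxI
  have hpT : bxD pb x x 0 x 0 0 ∈ Leg := hν.leg _ _ _ _ _ _ hxI hxI h0I hxI h0I h0I
  refine ⟨hx, by positivity, by positivity, ?_, ?_, ?_, ?_, hpS, hpT, hpS, ?_, ?_, ?_, ?_, ?_,
    ?_, ?_, ?_, ?_⟩
  · -- bd
    filter_upwards [hW.bd] with n hn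
    obtain ⟨⟨i, k⟩, hI⟩ := H.nonempty n
    refine ⟨⟨k, H.memZ hI⟩, fun k hk => ?_⟩
    obtain ⟨a1, _, _, a4⟩ := hn k hk
    rw [abs_div, abs_div, abs_of_pos hK0, div_le_one hK0, div_le_one hK0]
    exact ⟨a1, a4⟩
  · -- frost
    intro y hy0 hyx ε hε
    filter_upwards [frostT H (K := K) hy0 (hyx.trans hxR) hε] with n hn k hk T hT hTk
    refine hn k hk T hT fun k' hk' => ?_
    have := hTk k' hk'
    rw [← sub_div, abs_div, abs_of_pos hK0, div_le_iff₀ hK0] at this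
    linarith
  · -- pins
    intro ε hε
    filter_upwards [H.line ε hε] with n hn
    refine ⟨filter_subset _ _, le_trans (mul_le_mul_of_nonneg_right (rpow_anti B n ?_)
      (Nat.cast_nonneg _)) (hn (i0 n) (hi0 n))⟩
    nlinarith
  · -- pinI
    filter_upwards with n k hk
    exact (RCfg.mem_hts.1 hk).2
  · -- Tr
    exact bxD_le le_rfl le_rfl le_rfl le_rfl le_rfl hx.le
  · -- legQ
    intro t ht0 htx
    have htI : t ∈ Set.Icc 0 R0 := ⟨ht0, htx.trans hxR0⟩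
    exact hν.leg _ _ _ _ _ _ hxI hxI htI hxI htI hxI
  · -- one
    intro ε hε
    filter_upwards [hW.one ε hε] with n hn k hk i hi i' hi'
    have h1 := H.memSlice.1 (RCfg.box_subset_slice hi)
    have h2 := H.memSlice.1 (RCfg.box_subset_slice hi')
    obtain ⟨_, _, _, o7, _, o9, _⟩ := loose_bxD.1 (hn i i' k h1 h2)
    rw [H.base n] at o7 o9
    have : 0 ≤ D ^ 2 * ε := by positivity
    exact ⟨o7.trans (rpow_anti B n (by linarith)), o9.trans (rpow_anti B n (by linarith))⟩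
  · -- alive
    intro ε hε
    filter_upwards [H.line ε hε] with n hn k hk i hi T hT hTk
    have h1 := (RCfg.mem_slice.1 (RCfg.box_subset_slice hi)).1
    refine le_trans (mul_le_mul_of_nonneg_right (rpow_anti B n ?_) (Nat.cast_nonneg _))
      ((hn i h1).trans ?_)
    · nlinarith
    · refine mod_cast card_le_card fun k hk => ?_
      obtain ⟨a1, a2⟩ := RCfg.mem_hts.1 hk
      exact hTk k a1 a2
  · -- mv
    intro ε hε
    have h1e : ε ≤ D ^ 2 * ε := le_mul_of_one_le_left hε.le hD2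
    filter_upwards [rig_mv H.toRUnif hW hε h1e, pair_box H.toRUnif hpS hε] with n hn hp k0 hk0 k
      hk i hi i' hi' hI hI' hl
    have h1 := H.memSlice.1 (RCfg.box_subset_slice hi)
    have h2 := H.memSlice.1 (RCfg.box_subset_slice hi')
    have h3 := hp (i0 n) k0 (RCfg.mem_hts.1 hk0).2 i hi i' hi'
    obtain ⟨_, _, _, _, _, _, l10⟩ := loose_bxD.1 hl
    rw [H.base n] at l10
    have h4 := hn k0 k i i' h1 h2 hI hI' h3 l10
    have e1 : ((G n).z k / K - (G n).z k0 / K) * (G n).rel k0 i i' 7 -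
        (fb n k / K - fb n k0 / K) * (G n).rel k0 i i' 9 =
        (((G n).z k - (G n).z k0) * (G n).rel k0 i i' 7 -
        (fb n k - fb n k0) * (G n).rel k0 i i' 9) / K := by
      field_simp
    rw [e1, abs_div, abs_of_pos hK0, div_le_iff₀ hK0]
    have h5 : B.d n ^ (x - (D ^ 2 * ε + ε)) ≤ B.d n ^ (x - (2 * D ^ 2 + 3) * ε) := by
      refine rpow_anti B n ?_
      have : 0 ≤ D ^ 2 * ε := by positivity
      linarith
    have h6 : 0 < B.d n ^ (x - (2 * D ^ 2 + 3) * ε) := rpos B n _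
    nlinarith
  · -- inT
    intro ε hε
    filter_upwards [frozen_inT H.toRUnif hW (le_refl x) (ε := D ^ 2 * ε) (by positivity),
      pair_box H.toRUnif hpS hε] with n hn hp k0 hk0 k hk i hi i' hi' hI hI'
    have h1 := H.memSlice.1 (RCfg.box_subset_slice hi)
    have h2 := H.memSlice.1 (RCfg.box_subset_slice hi')
    have h3 := hp (i0 n) k0 (RCfg.mem_hts.1 hk0).2 i hi i' hi'
    have h4 : (G n).loose (bxD pb x x 0 x 0 0) (D ^ 2 * ε) k0 i i' :=
      H.loose_mono (bxD_le le_rfl le_rfl le_rfl le_rfl le_rfl hx.le) le_rfl h3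
    exact H.loose_mono (fun _ => le_rfl) (by nlinarith) (hn k0 k i i' h1 h2 hI hI' h4)
  · -- inQ
    intro t ht0 htx ε hε
    have h1e : ε ≤ D ^ 2 * ε := le_mul_of_one_le_left hε.le hD2
    filter_upwards [pair_box H.toRUnif hpS hε] with n hp k0 hk0 i hi i' hi' h7 h9
    have h3 := hp (i0 n) k0 (RCfg.mem_hts.1 hk0).2 i hi i' hi'
    obtain ⟨l0, l5, l6, l7, l8, l9, l10⟩ := loose_bxD.1 h3
    refine loose_bxD.2 ⟨l0, l5, l6, ?_, l8, ?_, l10⟩
    · rw [H.base n]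
      exact h7.trans (rpow_anti B n (by linarith))
    · rw [H.base n]
      exact h9.trans (rpow_anti B n (by linarith))
  · -- lossQ
    intro t ht0 htx
    have htI : t ∈ Set.Icc 0 R0 := ⟨ht0, htx.trans hxR0⟩
    rw [hν.eq _ _ _ _ _ _ hxI hxI h0I hxI h0I hxI, hν.eq _ _ _ _ _ _ hxI hxI htI hxI htI hxI,
      hν.β0]
    have := hs t ht0 (htx.trans hxR0)
    linarith
  · -- lossF
    rw [hν.eq _ _ _ _ _ _ hxI hxI h0I hxI h0I h0I, hν.eq _ _ _ _ _ _ hxI hxI h0I hxI h0I hxI]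
    linarith

open Classical in
/-- **the strip of the linear window** -/
theorem strip_L (H : RModel B G σ R Leg ν D) (hW : LinWin B G x K pb e fa fb) {R0 a m : ℝ}
    {α β : ℝ → ℝ → ℝ} (hν : SplitD Leg ν pb R0 a m α β) (hx : 0 < x) (hxR : x ≤ R)
    (hxR0 : x ≤ R0) (ha : 0 ≤ a) (haσ : a < σ) {s : ℝ} (has : a < s)
    (hs : ∀ t, 0 ≤ t → t ≤ R0 → s * t ≤ β t t) {η : ℝ} (hη : 0 < η) (hησ : 2 * η ≤ σ) :
    ∃ (y : ℝ) (μ : ℕ → ℝ) (Zs : ℕ → Finset ℕ), 0 < y ∧ y ≤ x ∧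
      Strip B (fun n => (G n).Z) Zs (fun n => (G n).z) fb μ y (η * y) (3 * η / σ) := by
  have hK := hW.K1
  have hK0 : 0 < K := by linarith
  obtain ⟨s', hs1, hs2, hs3⟩ : ∃ s', a < s' ∧ s' < σ ∧ s' ≤ s := by
    refine ⟨(a + min s σ) / 2, ?_, ?_, ?_⟩
    · have : a < min s σ := lt_min has haσ
      linarith
    · have : min s σ ≤ σ := min_le_right _ _
      linarith
    · have : min s σ ≤ s := min_le_left _ _
      linarith
  obtain ⟨θ, hθ, hθ1, HE⟩ := rig0_RL ha hs1 hs2 H.σ_le hη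
  have hne : ∀ n, ∃ i, i ∈ (G n).L := by
    intro n
    obtain ⟨⟨i, k⟩, hI⟩ := H.nonempty n
    exact ⟨i, H.memL hI⟩
  choose i0 hi0 using hne
  have A := rdataL H hW hν hx hxR hxR0 (s := s')
    (fun t h0 h1 => (mul_le_mul_of_nonneg_right hs3 h0).trans (hs t h0 h1)) i0 hi0
  have hc := HE H.toRUnif i0 _ _ _ _ _ _ _ _ _ _ x _ _ A
  obtain ⟨y, μ, Zs, hy1, hy2, S⟩ := exists_strip (B := B) (Z := fun n => (G n).Z)
    (z := fun n k => (G n).z k / K) (f := fun n k => fb n k / K) (θ := θ) (x := x) (η := η)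
    (σ := σ) hθ hx hη (ha.trans_lt haσ) hησ A.bd A.frost (by
      filter_upwards [hc] with n hn
      obtain ⟨w, μ, h1, h2, h3, k1, hk1, h4⟩ := hn
      exact ⟨w, μ, h1, h2, k1, hk1, _, filter_subset _ _, fun k hk => (mem_filter.1 hk).2, h4⟩)
  refine ⟨y, μ, Zs, (mul_pos hθ hx).trans_le hy1, hy2, S.sub, S.dens, ?_, S.mu⟩
  intro ε hε
  filter_upwards [S.aff (ε / 2) (by positivity), ev_const_le B (t := ε / 2) (by positivity) K]
    with n h1 h2 k hk k' hk'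
  have h3 := h1 k hk k' hk'
  have e1 : fb n k' / K - fb n k / K - μ n * ((G n).z k' / K - (G n).z k / K) =
      (fb n k' - fb n k - μ n * ((G n).z k' - (G n).z k)) / K := by
    field_simp
  rw [e1, abs_div, abs_of_pos hK0, div_le_iff₀ hK0] at h3
  have e2 : B.d n ^ (y - ε) = B.d n ^ (-(ε / 2)) * B.d n ^ (y - ε / 2) := by
    rw [← rpow_add']; congr 1; ring
  rw [e2]
  refine h3.trans ?_
  rw [mul_comm]
  exact mul_le_mul_of_nonneg_right h2 (rpos B n _).le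

end Crest.Agent.R136.Xd272
end

-- ▼ part R136/Xd9_272
section

/-!
# R136: transport of heavy level sets (helper272)
-/

set_option autoImplicit false
set_option linter.unusedVariables false
set_option linter.unusedSectionVars false

open Finset Filter Topology

namespace Crest.Agent.R136.Xd272

open Crest.Agent.R138.Ex926 (Base U)
open Crest.Agent.R138.TwA501 (ev_const_mul)
open Crest.Agent.R136.Gf356
open Crest.Agent.R136.Prn779 (OneBox)

open Classical in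
/-- **transport**: heavy lines take few values; a family with one free slot takes many -/
theorem transport {κ : Type} {B : Base} {G : ℕ → RCfg κ} {Leg : Set (κ → ℝ)} {ν : (κ → ℝ) → ℝ}
    {D : ℝ} (H : RUnif B G Leg ν D) {qH r2 qr p00 : κ → ℝ} (hqH : qH ∈ Leg) (hr2 : r2 ∈ Leg)
    (hqr : qr ∈ Leg) (hp00 : p00 ∈ Leg) (h0r : ∀ j, p00 j ≤ r2 j)
    (hmax : ∀ j, qr j ≤ max (qH j) (r2 j)) (hone : OneBox G p00)
    (hsplit : ν p00 - ν r2 ≤ ν qH - ν qr) (dn : ℕ → ℕ → ℕ → ℕ → ℝ) {c c' w εH : ℝ}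
    (hεH : 0 < εH) (hcc : c < c')
    (hadd : ∀ᶠ n in (U : Filter ℕ), ∀ k i j l, (i, k) ∈ (G n).I → (j, k) ∈ (G n).I →
      (l, k) ∈ (G n).I → |dn n k i l - dn n k i j - dn n k j l| ≤ B.d n ^ c')
    (hsm : ∀ᶠ n in (U : Filter ℕ), ∀ k i l, (i, k) ∈ (G n).I → (l, k) ∈ (G n).I →
      (G n).loose r2 (D ^ 5 * εH) k i l → |dn n k i l| ≤ B.d n ^ c')
    {p0 p4 : κ → ℝ} (hp0 : p0 ∈ Leg) (hp4 : p4 ∈ Leg) {sF : κ} {t4 cl : ℝ}
    (hp4F : p4 sF ≤ t4) (hp4o : ∀ j, j ≠ sF → p4 j ≤ p0 j) (ht4 : t4 < c - cl)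
    {ε : ℝ} (hε : 0 < ε)
    (hloss : w + (D ^ 6 + D ^ 2 + 1) * εH + (D ^ 6 + 3) * ε < ν p0 - ν p4) :
    ∀ᶠ n in (U : Filter ℕ), ∀ k k', ∀ W ⊆ (G n).slice k, W ⊆ (G n).slice k' → W.Nonempty →
      (∀ e ∈ W, B.d n ^ (-ν qH + w) ≤
        ((((G n).box qH εH e k').filter fun l => |dn n k' e l| ≤ B.d n ^ c').card : ℝ)) →
      B.d n ^ ε * (((G n).slice k).card : ℝ) ≤ (W.card : ℝ) → ∀ lam : ℝ, B.d n ^ cl ≤ |lam| →
      ¬ (∀ i ∈ W, ∀ l ∈ W, (G n).loose p0 (D ^ 5 * ε) k i l →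
        |dn n k' i l - lam * (G n).rel k i l sF| ≤ B.d n ^ c) := by
  have hD := H.D1
  have hD0 : 0 < D := by linarith
  filter_upwards [few_vals H hqH hr2 hqr hp00 h0r hmax hone hsplit dn (w := w) hεH hcc hadd hsm,
    dense_fibre H hp0 hε, hadd, H.up p4 hp4 (D ^ 5 * ε) (by positivity),
    ev_const_mul B 3 hcc, ev_const_mul B 3 ht4]
    with n hfew hfib hadd hup h3 h3' k k' W hW hW' hWne hheavy hdens lam hlam hval
  have hpow : ∀ t : ℝ, 0 < B.d n ^ t := fun t => rpos B n t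
  obtain ⟨T, hTW, hTne, hTl, hTc⟩ := hfib k W hW hWne (B.d n ^ ε) (hpow _) hdens
  have hI : ∀ i ∈ W, (i, k) ∈ (G n).I := fun i hi => H.memSlice.1 (hW hi)
  have hI' : ∀ i ∈ W, (i, k') ∈ (G n).I := fun i hi => H.memSlice.1 (hW' hi)
  have hself : ∀ t ∈ T, |dn n k' t t| ≤ B.d n ^ c' := by
    intro t ht
    have := hadd k' t t t (hI' t (hTW ht)) (hI' t (hTW ht)) (hI' t (hTW ht))
    have e1 : dn n k' t t - dn n k' t t - dn n k' t t = - dn n k' t t := by ring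
    rwa [e1, abs_neg] at this
  obtain ⟨E, hET, hEsep, hEc⟩ := sep_card T (fun t t' => dn n k' t t') (s := B.d n ^ c)
    (M := B.d n ^ (-ν p4 - D * (D ^ 5 * ε))) (by
      intro t ht
      refine le_trans ?_ (hup t k (hI t (hTW ht)))
      refine mod_cast card_le_card fun t' ht' => ?_
      obtain ⟨ht1, ht2⟩ := mem_filter.1 ht'
      have hl := hTl t ht t' ht1
      refine RCfg.mem_box.2 ⟨hW (hTW ht1), fun j => ?_⟩
      by_cases hj : j = sF
      · subst hj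
        have h5 : |dn n k' t t'| ≤ 2 * B.d n ^ c := by
          rcases ht2 with h | h
          · linarith [hpow c]
          · have a1 := hadd k' t t' t (hI' t (hTW ht)) (hI' t' (hTW ht1)) (hI' t (hTW ht))
            have a2 := hself t ht
            rw [abs_le] at a1 a2 h ⊢
            constructor <;> linarith [a1.1, a1.2, a2.1, a2.2, h.1, h.2]
        have h6 := hval t (hTW ht) t' (hTW ht1) hl
        have h7 : |lam * (G n).rel k t t' j| ≤ 3 * B.d n ^ c := by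
          rw [abs_le] at h5 h6 ⊢
          constructor <;> linarith [h5.1, h5.2, h6.1, h6.2]
        rw [abs_mul] at h7
        have h8 : B.d n ^ cl * |(G n).rel k t t' j| ≤ 3 * B.d n ^ c :=
          (mul_le_mul_of_nonneg_right hlam (abs_nonneg _)).trans h7
        have h9 : |(G n).rel k t t' j| ≤ 3 * B.d n ^ (c - cl) := by
          have e1 : B.d n ^ (c - cl) = B.d n ^ c * B.d n ^ (-cl) := by
            rw [← rpow_add']; congr 1
          have e2 : B.d n ^ (-cl) * B.d n ^ cl = 1 := by rw [← rpow_add']; simp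
          calc |(G n).rel k t t' j| = B.d n ^ (-cl) * (B.d n ^ cl * |(G n).rel k t t' j|) := by
                rw [← mul_assoc, e2, one_mul]
            _ ≤ B.d n ^ (-cl) * (3 * B.d n ^ c) := mul_le_mul_of_nonneg_left h8 (hpow _).le
            _ = _ := by rw [e1]; ring
        rw [H.base n]
        refine h9.trans (h3'.trans (rpow_anti B n ?_))
        have h13 : 0 ≤ D ^ 5 * ε := by positivity
        linarith
      · have := hl j
        rw [H.base n] at this ⊢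
        exact this.trans (rpow_anti B n (by linarith [hp4o j hj]))) (by
      intro t ht
      exact (hself t ht).trans (by linarith [hpow c, hpow c']))
  have h10 := hfew k' E (hET.trans (hTW.trans hW')) (fun e he => hheavy e (hTW (hET he))) hEsep
  have h11 : B.d n ^ (-ν p0 + 2 * ε) ≤
      B.d n ^ (-(w + (D ^ 6 + D ^ 2 + 1) * εH) + (-ν p4 - D * (D ^ 5 * ε))) := by
    rw [rpow_add' B n (-(w + (D ^ 6 + D ^ 2 + 1) * εH))]
    refine le_trans ?_ ((hTc.trans hEc).trans (mul_le_mul_of_nonneg_right h10 (hpow _).le))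
    rw [← rpow_add']
    refine le_of_eq ?_
    congr 1
    ring
  have h12 := (Real.rpow_le_rpow_left_iff_of_base_lt_one (B.pos n) (B.lt n)).1 h11
  have e6 : D * (D ^ 5 * ε) = D ^ 6 * ε := by ring
  rw [e6] at h12
  linarith

variable {B : Base} {G : ℕ → RCfg (Fin 11)} {Leg : Set (Fin 11 → ℝ)} {ν : (Fin 11 → ℝ) → ℝ}
  {σ R D x K : ℝ} {pb : Fin 11 → ℝ} {e fa fb : ℕ → ℕ → ℝ}

/-- the velocity functional -/
def dnL (G : ℕ → RCfg (Fin 11)) (μ : ℕ → ℝ) (n k i l : ℕ) : ℝ :=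
  (G n).rel k i l 7 - μ n * (G n).rel k i l 9

/-- the motion of `N` on the strip -/
theorem mv_L (H : RUnif B G Leg ν D) (hW : LinWin B G x K pb e fa fb) {Zs : ℕ → Finset ℕ}
    {μ : ℕ → ℝ} {y h c : ℝ}
    (S : Strip B (fun n => (G n).Z) Zs (fun n => (G n).z) fb μ y h c) (hyx : y ≤ x) :
    Mv B G Zs 10 (dnL G μ) (bxD pb y y 0 y 0 0) (bxD pb y y 0 y 0 0) y 3 := by
  have hK := hW.K1
  refine ⟨by norm_num, ?_, ?_⟩
  · intro ε hε
    filter_upwards [hW.mot, hW.mv ε hε, S.aff ε hε, ev_const_le B hε (2 + 8 * K ^ 2 + 8 * K ^ 3)]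
      with n hmot hmv haff hc k0 hk0 k hk i l h1 h2 h3 h4 hl
    have hk0Z : k0 ∈ (G n).Z := H.memZ h1
    have hkZ : k ∈ (G n).Z := H.memZ h3
    obtain ⟨m1, m2, m3, m4⟩ := hmot k0 hk0Z k hkZ
    obtain ⟨e5, e6, e7, e8, e9, e10⟩ := hmv i l k0 k h1 h2 h3 h4
    obtain ⟨l0, l5, l6, l7, l8, l9, l10⟩ := loose_bxD.1 hl
    have hb := haff k0 hk0 k hk
    rw [H.base n] at l5 l6 l8 l9
    unfold dnL
    have hp : 0 < B.d n ^ (y - 2 * ε) := rpos B n _
    have hX : B.d n ^ (y - ε) ≤ B.d n ^ (y - 2 * ε) := rpow_anti B n (by linarith)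
    have hE : B.d n ^ (x - ε) ≤ B.d n ^ (y - 2 * ε) := rpow_anti B n (by linarith)
    have hbX : B.d n ^ (y - ε) * B.d n ^ (0 - ε) = B.d n ^ (y - 2 * ε) := by
      rw [← rpow_add']; congr 1; ring
    have hfin : (2 + 8 * K ^ 2 + 8 * K ^ 3) * B.d n ^ (y - 2 * ε) ≤ B.d n ^ (y - 3 * ε) := by
      have e1 : B.d n ^ (y - 3 * ε) = B.d n ^ (-ε) * B.d n ^ (y - 2 * ε) := by
        rw [← rpow_add']; congr 1; ring
      rw [e1]
      exact mul_le_mul_of_nonneg_right hc hp.le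
    refine le_trans ?_ hfin
    have q4 := bm hb l9
    rw [hbX] at q4
    have l5' := l5.trans hX
    have l6' := l6.trans hX
    have l8' := l8.trans hX
    have e10' := e10.trans hE
    generalize B.d n ^ (y - 2 * ε) = X at *
    generalize (G n).z k - (G n).z k0 = u at *
    generalize fb n k - fb n k0 = b at *
    generalize fa n k - fa n k0 + e n k0 * b = a at *
    have q1 := bm m4 l8'
    have q2 := bm m4 (bm m1 l5')
    have q3 := bm m3 (bm m1 l6')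
    have e2 : 4 * K ^ 2 * (2 * K * X) = 8 * K ^ 3 * X := by ring
    have e3 : 2 * K * (2 * K * X) = 4 * K ^ 2 * X := by ring
    rw [e2] at q2
    rw [e3] at q3
    have e1 : (G n).rel k i l 10 - ((G n).rel k0 i l 10 +
        u * ((G n).rel k0 i l 7 - μ n * (G n).rel k0 i l 9)) =
        ((G n).rel k i l 10 - ((G n).rel k0 i l 10 + u * (G n).rel k0 i l 7 -
        a * ((G n).rel k0 i l 8 + u * (G n).rel k0 i l 5) -
        b * ((G n).rel k0 i l 9 + u * (G n).rel k0 i l 6))) - a * (G n).rel k0 i l 8 -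
        a * (u * (G n).rel k0 i l 5) - b * (u * (G n).rel k0 i l 6) -
        (b - μ n * u) * (G n).rel k0 i l 9 := by ring
    rw [e1]
    generalize (G n).rel k i l 10 - ((G n).rel k0 i l 10 + u * (G n).rel k0 i l 7 -
        a * ((G n).rel k0 i l 8 + u * (G n).rel k0 i l 5) -
        b * ((G n).rel k0 i l 9 + u * (G n).rel k0 i l 6)) = Er at *
    have e4 : (2 + 8 * K ^ 2 + 8 * K ^ 3) * X =
        X + X + 4 * K ^ 2 * X + 8 * K ^ 3 * X + 4 * K ^ 2 * X := by ring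
    rw [e4]
    rw [abs_le] at q1 q2 q3 q4 e10' ⊢
    constructor <;> linarith [q1.1, q1.2, q2.1, q2.2, q3.1, q3.2, q4.1, q4.2, e10'.1, e10'.2]
  · intro ε hε
    filter_upwards [frozen_inT H hW hyx hε] with n hn k0 hk0 k hk i l h1 h2 h3 h4 hl
    exact H.loose_mono (fun _ => le_rfl) (by linarith) (hn k0 k i l h1 h2 h3 h4 hl)

theorem update_bxD (pb : Fin 11 → ℝ) (ca cb p xa xb n t : ℝ) :
    Function.update (bxD pb ca cb p xa xb n) 10 t = bxD pb ca cb p xa xb t := by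
  funext j
  fin_cases j <;> rfl

open Classical in
/-- heavy level sets on the strip -/
theorem heavy_L (H : RModel B G σ R Leg ν D) (hW : LinWin B G x K pb e fa fb) {R0 a m : ℝ}
    {α β : ℝ → ℝ → ℝ} (hν : SplitD Leg ν pb R0 a m α β) {Zs : ℕ → Finset ℕ}
    {μ : ℕ → ℝ} {y h c : ℝ}
    (S : Strip B (fun n => (G n).Z) Zs (fun n => (G n).z) fb μ y h c) (hy : 0 < y) (hyx : y ≤ x)
    (hyR : y ≤ R) (hyR0 : y ≤ R0) (hh : 0 ≤ h) (ha : 0 ≤ a) (haσ : a < σ) {δ g : ℝ} (hδ : 0 < δ)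
    (hδ1 : δ < 1) (hh1 : h < (σ - a) * δ * y / 8) (hh2 : h < (g - a * δ) * y) {εH : ℝ}
    (hεH : 0 < εH) :
    ∀ᶠ n in (U : Filter ℕ), 2 * ((((G n).I.filter fun q => q.2 ∈ Zs n).filter fun q =>
        ¬ B.d n ^ (-ν (bxD pb y y 0 y 0 ((1 - δ) * y)) + g * y) ≤
          lev (G n) (bxD pb y y 0 y 0 ((1 - δ) * y)) εH (B.d n ^ ((1 - δ) * y)) (dnL G μ n)
            q.1 q.2).card : ℝ) ≤ (((G n).I.filter fun q => q.2 ∈ Zs n).card : ℝ) := by
  have hR0 : 0 ≤ R0 := hy.le.trans hyR0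
  have hyI : y ∈ Set.Icc 0 R0 := ⟨hy.le, hyR0⟩
  have h0I : (0 : ℝ) ∈ Set.Icc 0 R0 := ⟨le_rfl, hR0⟩
  have hz : ∀ᶠ n in (U : Filter ℕ), ∀ k ∈ (G n).Z, |(G n).z k| ≤ K := by
    filter_upwards [hW.bd] with n hn k hk using (hn k hk).1
  have h1 := heavy_R H S.sub hh S.dens (sN := 10) (dn := dnL G μ) hW.K1 hz hy hyR
    (mv_L H.toRUnif hW S hyx) (show bxD pb y y 0 y 0 0 10 = 0 from rfl)
    (hν.leg _ _ _ _ _ _ hyI hyI h0I hyI h0I h0I) (hν.leg _ _ _ _ _ _ hyI hyI h0I hyI h0I hyI)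
    (bxD_le le_rfl le_rfl le_rfl le_rfl le_rfl hy.le)
    (show y ≤ bxD pb y y 0 y 0 y 10 from le_refl y)
    (fun t h0 h1 => by
      rw [update_bxD]
      exact hν.leg _ _ _ _ _ _ hyI hyI h0I hyI h0I ⟨h0, h1.trans hyR0⟩)
    (a := a) (fun t h0 h1 => by
      have htI : t ∈ Set.Icc 0 R0 := ⟨h0, h1.trans hyR0⟩
      rw [update_bxD, hν.eq _ _ _ _ _ _ hyI hyI h0I hyI h0I h0I,
        hν.eq _ _ _ _ _ _ hyI hyI h0I hyI h0I htI]
      linarith)
    (by
      rw [hν.eq _ _ _ _ _ _ hyI hyI h0I hyI h0I h0I, hν.eq _ _ _ _ _ _ hyI hyI h0I hyI h0I hyI]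
      linarith) ha haσ hδ hδ1 hh1 hh2 hεH
  rw [update_bxD] at h1
  exact h1

end Crest.Agent.R136.Xd272
end

-- ▼ part R136/Xd10_272
section

/-!
# R136: the three cases of the crossed window (helper272)
-/

set_option autoImplicit false
set_option linter.unusedVariables false
set_option linter.unusedSectionVars false

open Finset Filter Topology

namespace Crest.Agent.R136.Xd272

open Crest.Agent.R138.Ex926 (Base U)
open Crest.Agent.R138.TwA501 (ev_const_mul)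
open Crest.Agent.R136.Gf356
open Crest.Agent.R136.Prn779 (OneBox)

/-- remainder, `C_b` free -/
theorem rem_A {u δ b a E v5 v6 v7 v8 v9 w7 w9 μ K X Y Z M : ℝ}
    (hμ : |μ| ≤ M) (hu : |u| ≤ 2 * K) (hδ : |δ| ≤ Y) (hδ2 : |δ| ≤ 2 * K)
    (ha : |a| ≤ 4 * K ^ 2) (hE : E ≤ X) (h5 : |v5| ≤ X) (h7 : |v7| ≤ X) (h9 : |v9| ≤ X)
    (h8 : |v8| ≤ Z) (r7 : |w7 - (v7 - a * v5 - b * v6)| ≤ E)
    (r9 : |w9 - (v9 + u * v6 - δ * (v8 + u * v5))| ≤ E) :
    |w7 - μ * w9 - (-(b + μ * u)) * v6| ≤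
      (2 + 4 * K ^ 2) * X + M * ((2 + 4 * K ^ 2) * X + Y * Z) := by
  have r7' := r7.trans hE
  have r9' := r9.trans hE
  have q1 := bm ha h5
  have q2 : |w9 - (v9 + u * v6 - δ * (v8 + u * v5)) + v9 - δ * v8 - δ * (u * v5)| ≤
      X + X + Y * Z + 2 * K * (2 * K * X) := by
    have a1 := bm hδ h8
    have a2 := bm hδ2 (bm hu h5)
    generalize w9 - (v9 + u * v6 - δ * (v8 + u * v5)) = E9 at *
    rw [abs_le] at a1 a2 r9' h9 ⊢
    constructor <;> linarith [a1.1, a1.2, a2.1, a2.2, r9'.1, r9'.2, h9.1, h9.2]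
  have q3 := bm hμ q2
  have e1 : w7 - μ * w9 - (-(b + μ * u)) * v6 = (w7 - (v7 - a * v5 - b * v6)) + v7 - a * v5 -
      μ * (w9 - (v9 + u * v6 - δ * (v8 + u * v5)) + v9 - δ * v8 - δ * (u * v5)) := by ring
  rw [e1]
  have e2 : M * (X + X + Y * Z + 2 * K * (2 * K * X)) =
      M * ((2 + 4 * K ^ 2) * X + Y * Z) := by ring
  rw [e2] at q3
  have e3 : (2 + 4 * K ^ 2) * X = X + X + 4 * K ^ 2 * X := by ring
  generalize M * ((2 + 4 * K ^ 2) * X + Y * Z) = Q at *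
  generalize μ * (w9 - (v9 + u * v6 - δ * (v8 + u * v5)) + v9 - δ * v8 - δ * (u * v5)) = q at *
  generalize w7 - (v7 - a * v5 - b * v6) = E7 at *
  rw [e3]
  rw [abs_le] at q1 q3 r7' h7 ⊢
  constructor <;> linarith [q1.1, q1.2, q3.1, q3.2, r7'.1, r7'.2, h7.1, h7.2]

/-- remainder, `C_a` free -/
theorem rem_B {u δ b a E v5 v6 v7 v8 v9 w7 w9 μ K X M : ℝ}
    (hμ : |μ| ≤ M) (hu : |u| ≤ 2 * K) (hδ : |δ| ≤ 2 * K) (hb : |b| ≤ 2 * K)
    (hE : E ≤ X) (h6 : |v6| ≤ X) (h7 : |v7| ≤ X) (h9 : |v9| ≤ X)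
    (h8 : |v8| ≤ X) (r7 : |w7 - (v7 - a * v5 - b * v6)| ≤ E)
    (r9 : |w9 - (v9 + u * v6 - δ * (v8 + u * v5))| ≤ E) :
    |w7 - μ * w9 - (μ * δ * u - a) * v5| ≤
      (2 + 2 * K) * X + M * ((2 + 4 * K) * X) := by
  have r7' := r7.trans hE
  have r9' := r9.trans hE
  have q1 := bm hb h6
  have q2 : |w9 - (v9 + u * v6 - δ * (v8 + u * v5)) + v9 + u * v6 - δ * v8| ≤
      X + X + 2 * K * X + 2 * K * X := by
    have a1 := bm hδ h8
    have a2 := bm hu h6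
    generalize w9 - (v9 + u * v6 - δ * (v8 + u * v5)) = E9 at *
    rw [abs_le] at a1 a2 r9' h9 ⊢
    constructor <;> linarith [a1.1, a1.2, a2.1, a2.2, r9'.1, r9'.2, h9.1, h9.2]
  have q3 := bm hμ q2
  have e1 : w7 - μ * w9 - (μ * δ * u - a) * v5 = (w7 - (v7 - a * v5 - b * v6)) + v7 - b * v6 -
      μ * (w9 - (v9 + u * v6 - δ * (v8 + u * v5)) + v9 + u * v6 - δ * v8) := by ring
  rw [e1]
  have e2 : M * (X + X + 2 * K * X + 2 * K * X) = M * ((2 + 4 * K) * X) := by ring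
  rw [e2] at q3
  have e3 : (2 + 2 * K) * X = X + X + 2 * K * X := by ring
  generalize M * ((2 + 4 * K) * X) = Q at *
  generalize μ * (w9 - (v9 + u * v6 - δ * (v8 + u * v5)) + v9 + u * v6 - δ * v8) = q at *
  generalize w7 - (v7 - a * v5 - b * v6) = E7 at *
  rw [e3]
  rw [abs_le] at q1 q3 r7' h7 ⊢
  constructor <;> linarith [q1.1, q1.2, q3.1, q3.2, r7'.1, r7'.2, h7.1, h7.2]

/-- the coefficient of `C_b` is large -/
theorem lam_A {u b μ X t : ℝ} (hb : |b - μ * u| ≤ X) (ht : t ≤ |μ| * |u|) (hX : X ≤ t) :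
    t ≤ |(-(b + μ * u))| := by
  rw [abs_neg]
  have h1 : |μ * u| = |μ| * |u| := abs_mul _ _
  have h2 : b + μ * u = (b - μ * u) + 2 * (μ * u) := by ring
  have h3 : |2 * (μ * u)| ≤ |b + μ * u| + |b - μ * u| := by
    have h4 : 2 * (μ * u) = (b + μ * u) - (b - μ * u) := by ring
    rw [h4]
    exact abs_sub _ _
  rw [abs_mul, abs_two, h1] at h3
  linarith

/-- one of the two coefficients of `C_a` is large -/
theorem lam_B {u δ b μ a a' X K t : ℝ} (hb : |b - μ * u| ≤ X) (hδ : |δ| ≤ 2 * K)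
    (haa : a + a' = -(δ * b)) (ht : t ≤ |μ| * |u| * |δ|) (hX : 2 * K * X ≤ t) :
    t ≤ |μ * δ * u - a| ∨ t ≤ |μ * δ * u - a'| := by
  by_contra hcon
  push Not at hcon
  obtain ⟨h1, h2⟩ := hcon
  have h3 : 3 * (μ * δ * u) = (μ * δ * u - a) + (μ * δ * u - a') - δ * (b - μ * u) := by
    have : a = -(δ * b) - a' := by linarith
    rw [this]; ring
  have h4 : |3 * (μ * δ * u)| ≤ |μ * δ * u - a| + |μ * δ * u - a'| + |δ * (b - μ * u)| := by
    rw [h3]
    exact (abs_sub _ _).trans (add_le_add_left (abs_add_le _ _) _)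
  have h5 := bm hδ hb
  have h6 : |3 * (μ * δ * u)| = 3 * (|μ| * |u| * |δ|) := by
    rw [abs_mul, abs_mul, abs_mul]
    have : |(3 : ℝ)| = 3 := abs_of_pos (by norm_num)
    rw [this]; ring
  rw [h6] at h4
  linarith

variable {B : Base} {G : ℕ → RCfg (Fin 11)} {Leg : Set (Fin 11 → ℝ)} {ν : (Fin 11 → ℝ) → ℝ}
  {σ R D x K : ℝ} {pb : Fin 11 → ℝ} {e fa fb : ℕ → ℕ → ℝ}

/-- additivity of the functional -/
theorem dnL_add (H : RUnif B G Leg ν D) (hW : LinWin B G x K pb e fa fb) {μ : ℕ → ℝ} {y c δ : ℝ}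
    (hμ : ∀ᶠ n in (U : Filter ℕ), |μ n| ≤ B.d n ^ (-(c * y))) (hy : 0 < y) (hyx : y ≤ x)
    (hc0 : 0 ≤ c) (hc : c < δ) :
    ∀ᶠ n in (U : Filter ℕ), ∀ k i j l, (i, k) ∈ (G n).I → (j, k) ∈ (G n).I →
      (l, k) ∈ (G n).I → |dnL G μ n k i l - dnL G μ n k i j - dnL G μ n k j l| ≤
        B.d n ^ ((1 - δ) * y) := by
  have hε : 0 < (δ - c) * y / 2 := by
    have := mul_pos (sub_pos.2 hc) hy
    linarith
  filter_upwards [hW.add ((δ - c) * y / 2) hε, hμ, ev_const_mul B 2 (show (1 - δ) * y <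
    -(c * y) + (y - (δ - c) * y / 2) by linarith)] with n hadd hμ hc k i j l h1 h2 h3
  have a7 := hadd i j l k h1 h2 h3 7 (by decide)
  have a9 := hadd i j l k h1 h2 h3 9 (by decide)
  unfold dnL
  have hX : B.d n ^ (x - (δ - c) * y / 2) ≤ B.d n ^ (y - (δ - c) * y / 2) :=
    rpow_anti B n (by linarith)
  have a7' := a7.trans hX
  have q := bm hμ (a9.trans hX)
  rw [← rpow_add'] at q
  have hX2 : B.d n ^ (y - (δ - c) * y / 2) ≤ B.d n ^ (-(c * y) + (y - (δ - c) * y / 2)) := by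
    refine rpow_anti B n ?_
    have : 0 ≤ c * y := by positivity
    linarith
  have e1 : (G n).rel k i l 7 - μ n * (G n).rel k i l 9 -
      ((G n).rel k i j 7 - μ n * (G n).rel k i j 9) -
      ((G n).rel k j l 7 - μ n * (G n).rel k j l 9) =
      ((G n).rel k i l 7 - (G n).rel k i j 7 - (G n).rel k j l 7) -
      μ n * ((G n).rel k i l 9 - (G n).rel k i j 9 - (G n).rel k j l 9) := by ring
  rw [e1]
  refine (abs_sub _ _).trans ?_
  linarith

/-- smallness of the functional in small boxes -/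
theorem dnL_sm (H : RUnif B G Leg ν D) {μ : ℕ → ℝ} {y c δ t : ℝ}
    (hμ : ∀ᶠ n in (U : Filter ℕ), |μ n| ≤ B.d n ^ (-(c * y))) (hy : 0 < y)
    (hc0 : 0 ≤ c) (hc : c * y + t < δ * y) :
    ∀ᶠ n in (U : Filter ℕ), ∀ k i l, (i, k) ∈ (G n).I → (l, k) ∈ (G n).I →
      (G n).loose (bxD pb 0 0 y 0 y 0) t k i l → |dnL G μ n k i l| ≤ B.d n ^ ((1 - δ) * y) := by
  filter_upwards [hμ, ev_const_mul B 2 (show (1 - δ) * y < -(c * y) + (y - t) by linarith)]
    with n hμ hc k i l h1 h2 hl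
  obtain ⟨_, _, _, l7, _, l9, _⟩ := loose_bxD.1 hl
  rw [H.base n] at l7 l9
  unfold dnL
  have q := bm hμ l9
  rw [← rpow_add'] at q
  have hX2 : B.d n ^ (y - t) ≤ B.d n ^ (-(c * y) + (y - t)) := by
    refine rpow_anti B n ?_
    have : 0 ≤ c * y := by positivity
    linarith
  refine (abs_sub _ _).trans ?_
  linarith

end Crest.Agent.R136.Xd272
end

-- ▼ part R136/Xd11_272
section

/-!
# R136: the crossed window (helper272)
-/

set_option autoImplicit false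
set_option linter.unusedVariables false
set_option linter.unusedSectionVars false

open Finset Filter Topology

namespace Crest.Agent.R136.Xd272

open Crest.Agent.R138.Ex926 (Base U)
open Crest.Agent.R138.TwA501 (ev_const_mul)
open Crest.Agent.R136.Gf356
open Crest.Agent.R136.Prn779 (OneBox)

/-- the set-up of the three cases -/
structure Cr (B : Base) (G : ℕ → RCfg (Fin 11)) (Leg : Set (Fin 11 → ℝ)) (ν : (Fin 11 → ℝ) → ℝ)
    (σ R D x K : ℝ) (pb : Fin 11 → ℝ) (e fa fb : ℕ → ℕ → ℝ) (R0 a m : ℝ) (α β : ℝ → ℝ → ℝ)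
    (Zs : ℕ → Finset ℕ) (μ : ℕ → ℝ) (y c δ g εH ε : ℝ) : Prop where
  hH : RModel B G σ R Leg ν D
  hW : LinWin B G x K pb e fa fb
  hV : SplitD Leg ν pb R0 a m α β
  sub : ∀ n, Zs n ⊆ (G n).Z
  mu : ∀ᶠ n in (U : Filter ℕ), |μ n| ≤ B.d n ^ (-(c * y))
  aff : ∀ ε : ℝ, 0 < ε → ∀ᶠ n in (U : Filter ℕ), ∀ k ∈ Zs n, ∀ k' ∈ Zs n,
    |fb n k' - fb n k - μ n * ((G n).z k' - (G n).z k)| ≤ B.d n ^ (y - ε)
  y0 : 0 < y
  yx : y ≤ x
  yR0 : y ≤ R0
  c0 : 0 ≤ c
  cδ : c ≤ δ / 4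
  δ0 : 0 < δ
  δ1 : δ ≤ 1 / 2048
  g0 : 0 < g
  εH0 : 0 < εH
  εH1 : (D ^ 6 + D ^ 2 + 1) * εH ≤ δ * y / 4
  ε0 : 0 < ε
  ε1 : (D ^ 6 + 3) * ε ≤ δ * y / 8

/-- a heavy incidence -/
def Hv (B : Base) (G : ℕ → RCfg (Fin 11)) (ν : (Fin 11 → ℝ) → ℝ) (pb : Fin 11 → ℝ) (μ : ℕ → ℝ)
    (y δ g εH : ℝ) (n i k : ℕ) : Prop :=
  B.d n ^ (-ν (bxD pb y y 0 y 0 ((1 - δ) * y)) + g * y) ≤
    lev (G n) (bxD pb y y 0 y 0 ((1 - δ) * y)) εH (B.d n ^ ((1 - δ) * y)) (dnL G μ n) i k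

theorem bxD_max {pb : Fin 11 → ℝ} {y t : ℝ} (hy : 0 ≤ y) :
    ∀ j, bxD pb y y y y y t j ≤ max (bxD pb y y 0 y 0 t j) (bxD pb 0 0 y 0 y 0 j) := by
  intro j
  fin_cases j
  · show pb 0 ≤ max (pb 0) (pb 0)
    exact le_max_left _ _
  · show pb 1 ≤ max (pb 1) (pb 1)
    exact le_max_left _ _
  · show pb 2 ≤ max (pb 2) (pb 2)
    exact le_max_left _ _
  · show pb 3 ≤ max (pb 3) (pb 3)
    exact le_max_left _ _
  · show pb 4 ≤ max (pb 4) (pb 4)
    exact le_max_left _ _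
  · show y ≤ max y 0
    exact le_max_left _ _
  · show y ≤ max y 0
    exact le_max_left _ _
  · show y ≤ max 0 y
    exact le_max_right _ _
  · show y ≤ max y 0
    exact le_max_left _ _
  · show y ≤ max 0 y
    exact le_max_right _ _
  · show t ≤ max t 0
    exact le_max_left _ _

section

variable {B : Base} {G : ℕ → RCfg (Fin 11)} {Leg : Set (Fin 11 → ℝ)} {ν : (Fin 11 → ℝ) → ℝ}
  {σ R D x K : ℝ} {pb : Fin 11 → ℝ} {e fa fb : ℕ → ℕ → ℝ} {R0 a m : ℝ} {α β : ℝ → ℝ → ℝ}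
  {Zs : ℕ → Finset ℕ} {μ : ℕ → ℝ} {y c δ g εH ε : ℝ}

theorem Cr.small (C : Cr B G Leg ν σ R D x K pb e fa fb R0 a m α β Zs μ y c δ g εH ε) :
    1 ≤ D ∧ 0 < δ * y ∧ D ^ 5 * εH ≤ δ * y / 4 ∧ D * εH ≤ δ * y / 4 ∧ D ^ 5 * ε ≤ δ * y / 8 ∧
      ε ≤ δ * y / 8 ∧ 0 < D ^ 5 * ε ∧ 0 < D ^ 5 * εH ∧ δ * y ≤ y / 2048 ∧ c * y ≤ δ * y / 4 ∧
      0 ≤ c * y := by
  have hD := C.hH.D1
  have hy := C.y0
  have hδ := C.δ0
  have h1 := C.εH1
  have h2 := C.ε1
  have h3 := C.εH0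
  have h4 := C.ε0
  have e1 : D ^ 5 ≤ D ^ 6 := pow_le_pow_right₀ hD (by norm_num)
  have e2 : D ≤ D ^ 6 := by
    calc D = D ^ 1 := (pow_one D).symm
      _ ≤ _ := pow_le_pow_right₀ hD (by norm_num)
  have e3 : 0 ≤ D ^ 2 := by positivity
  have e4 : 0 ≤ D ^ 6 := by positivity
  refine ⟨hD, mul_pos hδ hy, ?_, ?_, ?_, ?_, by positivity, by positivity, ?_, ?_,
    mul_nonneg C.c0 hy.le⟩
  · refine le_trans (mul_le_mul_of_nonneg_right ?_ h3.le) h1
    linarith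
  · refine le_trans (mul_le_mul_of_nonneg_right ?_ h3.le) h1
    linarith
  · refine le_trans (mul_le_mul_of_nonneg_right ?_ h4.le) h2
    linarith
  · refine le_trans ?_ h2
    exact le_mul_of_one_le_left h4.le (by linarith)
  · have := mul_le_mul_of_nonneg_right C.δ1 hy.le
    linarith
  · have := mul_le_mul_of_nonneg_right C.cδ hy.le
    linarith

/-- transport in the linear window -/
theorem Cr.transport (C : Cr B G Leg ν σ R D x K pb e fa fb R0 a m α β Zs μ y c δ g εH ε)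
    {p0 p4 : Fin 11 → ℝ} (hp0 : p0 ∈ Leg) (hp4 : p4 ∈ Leg) {sF : Fin 11} {t4 cl cc : ℝ}
    (hp4F : p4 sF ≤ t4) (hp4o : ∀ j, j ≠ sF → p4 j ≤ p0 j) (ht4 : t4 < cc - cl)
    (hcc : cc < (1 - δ) * y)
    (hloss : g * y + δ * y / 4 + δ * y / 8 < ν p0 - ν p4) :
    ∀ᶠ n in (U : Filter ℕ), ∀ k k', ∀ W ⊆ (G n).slice k, W ⊆ (G n).slice k' → W.Nonempty →
      (∀ i ∈ W, Hv B G ν pb μ y δ g εH n i k') →
      B.d n ^ ε * (((G n).slice k).card : ℝ) ≤ (W.card : ℝ) → ∀ lam : ℝ, B.d n ^ cl ≤ |lam| →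
      ¬ (∀ i ∈ W, ∀ l ∈ W, (G n).loose p0 (D ^ 5 * ε) k i l →
        |dnL G μ n k' i l - lam * (G n).rel k i l sF| ≤ B.d n ^ cc) := by
  obtain ⟨hD, hδy, s1, s2, s3, s4, s5, s6, s7, s8, s9⟩ := C.small
  have hy := C.y0
  have hR0 : 0 ≤ R0 := hy.le.trans C.yR0
  have hyI : y ∈ Set.Icc 0 R0 := ⟨hy.le, C.yR0⟩
  have h0I : (0 : ℝ) ∈ Set.Icc 0 R0 := ⟨le_rfl, hR0⟩
  have hδI : (1 - δ) * y ∈ Set.Icc 0 R0 := by
    have := C.δ1
    have h1 : 0 ≤ (1 - δ) * y := mul_nonneg (by linarith) hy.le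
    exact ⟨h1, by linarith [C.yR0]⟩
  have hε1 := C.ε1
  have hεH1 := C.εH1
  have hT := Xd272.transport C.hH.toRUnif (hV1 C hyI h0I hδI) (C.hV.leg 0 0 y 0 y 0 h0I h0I hyI h0I hyI h0I)
    (C.hV.leg y y y y y ((1 - δ) * y) hyI hyI hyI hyI hyI hδI)
    (C.hV.leg 0 0 0 0 0 0 h0I h0I h0I h0I h0I h0I)
    (bxD_le le_rfl le_rfl hy.le le_rfl hy.le le_rfl) (bxD_max hy.le) C.hW.one (by
      rw [C.hV.eq _ _ _ _ _ _ h0I h0I hyI h0I hyI h0I,
        C.hV.eq _ _ _ _ _ _ hyI hyI h0I hyI h0I hδI,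
        C.hV.eq _ _ _ _ _ _ hyI hyI hyI hyI hyI hδI, C.hV.α0, C.hV.β0]
      linarith) (dnL G μ) C.εH0 hcc
    (dnL_add C.hH.toRUnif C.hW C.mu hy C.yx C.c0 (by linarith [C.cδ, C.δ0]))
    (dnL_sm C.hH.toRUnif C.mu hy C.c0 (by linarith)) hp0 hp4 hp4F hp4o ht4 C.ε0
    (w := g * y) (by linarith)
  exact hT
where
  hV1 (C : Cr B G Leg ν σ R D x K pb e fa fb R0 a m α β Zs μ y c δ g εH ε)
    (hyI : y ∈ Set.Icc 0 R0) (h0I : (0 : ℝ) ∈ Set.Icc 0 R0) (hδI : (1 - δ) * y ∈ Set.Icc 0 R0) :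
    bxD pb y y 0 y 0 ((1 - δ) * y) ∈ Leg :=
    C.hV.leg y y 0 y 0 ((1 - δ) * y) hyI hyI h0I hyI h0I hδI

/-- case A -/
theorem Cr.case_A (C : Cr B G Leg ν σ R D x K pb e fa fb R0 a m α β Zs μ y c δ g εH ε)
    (hα : g * y + δ * y / 4 + δ * y / 8 < α 0 (y / 64)) :
    ∀ᶠ n in (U : Filter ℕ), B.d n ^ (y / 64) ≤ |μ n| → ∀ k ∈ Zs n, ∀ k' ∈ Zs n,
      B.d n ^ (y / 64) ≤ |(G n).z k' - (G n).z k| → |e n k' - e n k| ≤ B.d n ^ (y / 8) →
      ∀ W ⊆ (G n).slice k, W ⊆ (G n).slice k' → W.Nonempty →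
      (∀ i ∈ W, Hv B G ν pb μ y δ g εH n i k') →
      ¬ B.d n ^ ε * (((G n).slice k).card : ℝ) ≤ (W.card : ℝ) := by
  obtain ⟨hD, hδy, s1, s2, s3, s4, s5, s6, s7, s8, s9⟩ := C.small
  have hy := C.y0
  have hK := C.hW.K1
  have hR0 : 0 ≤ R0 := hy.le.trans C.yR0
  have hyI : y ∈ Set.Icc 0 R0 := ⟨hy.le, C.yR0⟩
  have h0I : (0 : ℝ) ∈ Set.Icc 0 R0 := ⟨le_rfl, hR0⟩
  have h64 : y / 64 ∈ Set.Icc 0 R0 := ⟨by linarith, by linarith [C.yR0]⟩
  have hp0 := C.hV.leg y 0 y 0 y y hyI h0I hyI h0I hyI hyI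
  have hp4 := C.hV.leg y (y / 64) y 0 y y hyI h64 hyI h0I hyI hyI
  have hT := C.transport hp0 hp4 (sF := 6) (t4 := y / 64) (cl := y / 32) (cc := y / 16)
    (show bxD pb y (y / 64) y 0 y y 6 ≤ y / 64 from le_refl (y / 64)) (by
      intro j hj
      fin_cases j
      · exact le_refl (pb 0)
      · exact le_refl (pb 1)
      · exact le_refl (pb 2)
      · exact le_refl (pb 3)
      · exact le_refl (pb 4)
      · exact le_refl y
      · exact absurd rfl hj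
      · exact le_refl y
      · exact le_refl (0 : ℝ)
      · exact le_refl y
      · exact le_refl y) (by linarith) (by linarith) (by
      rw [C.hV.eq _ _ _ _ _ _ hyI h0I hyI h0I hyI hyI,
        C.hV.eq _ _ _ _ _ _ hyI h64 hyI h0I hyI hyI, C.hV.α0]
      linarith)
  filter_upwards [hT, C.hW.mot, C.hW.mv (D ^ 5 * ε) s5, C.aff (D ^ 5 * ε) s5, C.mu,
    ev_const_mul B (3 * (2 + 4 * K ^ 2)) (show y / 16 < y / 8 + (-(c * y) + (-(D ^ 5 * ε))) by
      linarith)] with n hT hmot hmv haff hmu hc3 hμ k hk k' hk' hu hδe W hW hW' hWne hheavy hdens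
  have hpow : ∀ t : ℝ, 0 < B.d n ^ t := fun t => rpos B n t
  have hkZ := C.sub n hk
  have hkZ' := C.sub n hk'
  obtain ⟨m1, m2, m3, m4⟩ := hmot k hkZ k' hkZ'
  have hb := haff k hk k' hk'
  have hlam : B.d n ^ (y / 32) ≤ |(-(fb n k' - fb n k + μ n * ((G n).z k' - (G n).z k)))| := by
    refine lam_A hb ?_ (rpow_anti B n (by linarith))
    have e1 : B.d n ^ (y / 32) = B.d n ^ (y / 64) * B.d n ^ (y / 64) := by
      rw [← rpow_add']; congr 1; ring
    rw [e1]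
    exact mul_le_mul hμ hu (hpow _).le (abs_nonneg _)
  refine hT k k' W hW hW' hWne hheavy hdens _ hlam ?_
  intro i hi l hl hil
  have h1 := C.hH.toRUnif.memSlice.1 (hW hi)
  have h2 := C.hH.toRUnif.memSlice.1 (hW hl)
  have h3 := C.hH.toRUnif.memSlice.1 (hW' hi)
  have h4 := C.hH.toRUnif.memSlice.1 (hW' hl)
  obtain ⟨e5, e6, e7, e8, e9, e10⟩ := hmv i l k k' h1 h2 h3 h4
  obtain ⟨l0, l5, l6, l7, l8, l9, l10⟩ := loose_bxD.1 hil
  rw [C.hH.base n] at l5 l7 l8 l9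
  have hr := rem_A hmu m1 hδe m2 m4 (show B.d n ^ (x - D ^ 5 * ε) ≤ B.d n ^ (y - D ^ 5 * ε) from
    rpow_anti B n (by linarith [C.yx])) l5 l7 l9 l8 e7 e9
  unfold dnL
  refine hr.trans (le_trans ?_ hc3)
  have f1 : B.d n ^ (y - D ^ 5 * ε) ≤ B.d n ^ (y / 8 + (-(c * y) + (-(D ^ 5 * ε)))) :=
    rpow_anti B n (by linarith)
  have f2 : B.d n ^ (-(c * y)) * B.d n ^ (y - D ^ 5 * ε) ≤
      B.d n ^ (y / 8 + (-(c * y) + (-(D ^ 5 * ε)))) := by
    rw [← rpow_add']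
    exact rpow_anti B n (by linarith)
  have f3 : B.d n ^ (-(c * y)) * (B.d n ^ (y / 8) * B.d n ^ (0 - D ^ 5 * ε)) =
      B.d n ^ (y / 8 + (-(c * y) + (-(D ^ 5 * ε)))) := by
    rw [← rpow_add', ← rpow_add']
    congr 1
    ring
  have hQ := hpow (y / 8 + (-(c * y) + (-(D ^ 5 * ε))))
  have e1 : (2 + 4 * K ^ 2) * B.d n ^ (y - D ^ 5 * ε) + B.d n ^ (-(c * y)) *
      ((2 + 4 * K ^ 2) * B.d n ^ (y - D ^ 5 * ε) + B.d n ^ (y / 8) * B.d n ^ (0 - D ^ 5 * ε)) =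
      (2 + 4 * K ^ 2) * B.d n ^ (y - D ^ 5 * ε) + (2 + 4 * K ^ 2) *
        (B.d n ^ (-(c * y)) * B.d n ^ (y - D ^ 5 * ε)) +
        B.d n ^ (-(c * y)) * (B.d n ^ (y / 8) * B.d n ^ (0 - D ^ 5 * ε)) := by ring
  rw [e1, f3]
  have g1 : (0 : ℝ) ≤ 2 + 4 * K ^ 2 := by positivity
  have g2 := mul_le_mul_of_nonneg_left f1 g1
  have g3 := mul_le_mul_of_nonneg_left f2 g1
  have g4 : 0 ≤ K ^ 2 * B.d n ^ (y / 8 + (-(c * y) + (-(D ^ 5 * ε)))) := by positivity
  linarith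

/-- case B, one orientation -/
theorem Cr.case_B1 (C : Cr B G Leg ν σ R D x K pb e fa fb R0 a m α β Zs μ y c δ g εH ε)
    (hm : g * y + δ * y / 4 + δ * y / 8 < m * (y / 4)) :
    ∀ᶠ n in (U : Filter ℕ), ∀ k ∈ Zs n, ∀ k' ∈ Zs n,
      B.d n ^ (5 / 32 * y) ≤ |μ n * (e n k' - e n k) * ((G n).z k' - (G n).z k) -
        (fa n k' - fa n k + e n k * (fb n k' - fb n k))| →
      ∀ W ⊆ (G n).slice k, W ⊆ (G n).slice k' → W.Nonempty →
      (∀ i ∈ W, Hv B G ν pb μ y δ g εH n i k') →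
      ¬ B.d n ^ ε * (((G n).slice k).card : ℝ) ≤ (W.card : ℝ) := by
  obtain ⟨hD, hδy, s1, s2, s3, s4, s5, s6, s7, s8, s9⟩ := C.small
  have hy := C.y0
  have hK := C.hW.K1
  have hR0 : 0 ≤ R0 := hy.le.trans C.yR0
  have hyI : y ∈ Set.Icc 0 R0 := ⟨hy.le, C.yR0⟩
  have h0I : (0 : ℝ) ∈ Set.Icc 0 R0 := ⟨le_rfl, hR0⟩
  have h4I : y / 4 ∈ Set.Icc 0 R0 := ⟨by linarith, by linarith [C.yR0]⟩
  have hp0 := C.hV.leg 0 y y y y y h0I hyI hyI hyI hyI hyI
  have hp4 := C.hV.leg (y / 4) y y y y y h4I hyI hyI hyI hyI hyI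
  have hT := C.transport hp0 hp4 (sF := 5) (t4 := y / 4) (cl := 5 / 32 * y) (cc := y / 2)
    (show bxD pb (y / 4) y y y y y 5 ≤ y / 4 from le_refl (y / 4)) (by
      intro j hj
      fin_cases j
      · exact le_refl (pb 0)
      · exact le_refl (pb 1)
      · exact le_refl (pb 2)
      · exact le_refl (pb 3)
      · exact le_refl (pb 4)
      · exact absurd rfl hj
      · exact le_refl y
      · exact le_refl y
      · exact le_refl y
      · exact le_refl y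
      · exact le_refl y) (by linarith) (by linarith) (by
      rw [C.hV.eq _ _ _ _ _ _ h0I hyI hyI hyI hyI hyI,
        C.hV.eq _ _ _ _ _ _ h4I hyI hyI hyI hyI hyI]
      linarith)
  filter_upwards [hT, C.hW.mot, C.hW.mv (D ^ 5 * ε) s5, C.mu,
    ev_const_mul B (2 * (2 + 4 * K)) (show y / 2 < -(c * y) + (y - D ^ 5 * ε) by
      linarith)] with n hT hmot hmv hmu hc3 k hk k' hk' hlam W hW hW' hWne hheavy hdens
  have hpow : ∀ t : ℝ, 0 < B.d n ^ t := fun t => rpos B n t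
  have hkZ := C.sub n hk
  have hkZ' := C.sub n hk'
  obtain ⟨m1, m2, m3, m4⟩ := hmot k hkZ k' hkZ'
  refine hT k k' W hW hW' hWne hheavy hdens _ hlam ?_
  intro i hi l hl hil
  have h1 := C.hH.toRUnif.memSlice.1 (hW hi)
  have h2 := C.hH.toRUnif.memSlice.1 (hW hl)
  have h3 := C.hH.toRUnif.memSlice.1 (hW' hi)
  have h4 := C.hH.toRUnif.memSlice.1 (hW' hl)
  obtain ⟨e5, e6, e7, e8, e9, e10⟩ := hmv i l k k' h1 h2 h3 h4
  obtain ⟨l0, l5, l6, l7, l8, l9, l10⟩ := loose_bxD.1 hil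
  rw [C.hH.base n] at l6 l7 l8 l9
  have hr := rem_B hmu m1 m2 m3 (show B.d n ^ (x - D ^ 5 * ε) ≤ B.d n ^ (y - D ^ 5 * ε) from
    rpow_anti B n (by linarith [C.yx])) l6 l7 l9 l8 e7 e9
  unfold dnL
  refine hr.trans (le_trans ?_ hc3)
  have f1 : B.d n ^ (y - D ^ 5 * ε) ≤ B.d n ^ (-(c * y) + (y - D ^ 5 * ε)) :=
    rpow_anti B n (by linarith)
  have f2 : B.d n ^ (-(c * y)) * B.d n ^ (y - D ^ 5 * ε) =
      B.d n ^ (-(c * y) + (y - D ^ 5 * ε)) := by
    rw [← rpow_add']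
  have e1 : B.d n ^ (-(c * y)) * ((2 + 4 * K) * B.d n ^ (y - D ^ 5 * ε)) =
      (2 + 4 * K) * (B.d n ^ (-(c * y)) * B.d n ^ (y - D ^ 5 * ε)) := by ring
  rw [e1, f2]
  have g1 : (0 : ℝ) ≤ 2 + 2 * K := by linarith
  have g2 := mul_le_mul_of_nonneg_left f1 g1
  have g4 : 0 ≤ K * B.d n ^ (-(c * y) + (y - D ^ 5 * ε)) :=
    mul_nonneg (by linarith) (hpow _).le
  linarith

/-- case C -/
theorem Cr.case_C (C : Cr B G Leg ν σ R D x K pb e fa fb R0 a m α β Zs μ y c δ g εH ε)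
    (hβ : g * y + 2 * (δ * y / 4) < β 0 (y / 64)) :
    ∀ᶠ n in (U : Filter ℕ), |μ n| ≤ B.d n ^ (y / 64) → ∀ i k, (i, k) ∈ (G n).I →
      ¬ Hv B G ν pb μ y δ g εH n i k := by
  obtain ⟨hD, hδy, s1, s2, s3, s4, s5, s6, s7, s8, s9⟩ := C.small
  have hy := C.y0
  have hεH := C.εH0
  have hR0 : 0 ≤ R0 := hy.le.trans C.yR0
  have hyI : y ∈ Set.Icc 0 R0 := ⟨hy.le, C.yR0⟩
  have h0I : (0 : ℝ) ∈ Set.Icc 0 R0 := ⟨le_rfl, hR0⟩
  have h64 : y / 64 ∈ Set.Icc 0 R0 := ⟨by linarith, by linarith [C.yR0]⟩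
  have hδI : (1 - δ) * y ∈ Set.Icc 0 R0 := by
    have := C.δ1
    have h1 : 0 ≤ (1 - δ) * y := mul_nonneg (by linarith) hy.le
    exact ⟨h1, by linarith [C.yR0]⟩
  have hεD : εH ≤ D * εH := le_mul_of_one_le_left hεH.le hD
  have hq := C.hV.leg y y (y / 64) y 0 ((1 - δ) * y) hyI hyI h64 hyI h0I hδI
  filter_upwards [C.hH.up _ hq (2 * εH) (by positivity), ev_const_le B hεH 2]
    with n hup h2 hμ i k hI hv
  have hpow : ∀ t : ℝ, 0 < B.d n ^ t := fun t => rpos B n t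
  unfold Hv lev at hv
  have h5 := hup i k hI
  have h6 : B.d n ^ (-ν (bxD pb y y 0 y 0 ((1 - δ) * y)) + g * y) ≤
      B.d n ^ (-ν (bxD pb y y (y / 64) y 0 ((1 - δ) * y)) - D * (2 * εH)) := by
    refine hv.trans (le_trans ?_ h5)
    refine mod_cast card_le_card fun l hl => ?_
    obtain ⟨hl1, hl2⟩ := mem_filter.1 hl
    obtain ⟨hl3, hl4⟩ := RCfg.mem_box.1 hl1
    obtain ⟨l0, l5, l6, l7, l8, l9, l10⟩ := loose_bxD.1 hl4
    have hle : ∀ t : ℝ, (G n).ρ ^ (t - εH) ≤ (G n).ρ ^ (t - 2 * εH) := by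
      intro t
      rw [C.hH.base n]
      exact rpow_anti B n (by linarith)
    refine RCfg.mem_box.2 ⟨hl3, loose_bxD.2 ⟨fun j hj => (l0 j hj).trans (hle _),
      l5.trans (hle _), l6.trans (hle _), ?_, l8.trans (hle _), l9.trans (hle _),
      l10.trans (hle _)⟩⟩
    rw [C.hH.base n] at l9 ⊢
    unfold dnL at hl2
    have q := bm hμ l9
    rw [← rpow_add'] at q
    have q2 : B.d n ^ ((1 - δ) * y) ≤ B.d n ^ (y / 64 + (0 - εH)) :=
      rpow_anti B n (by linarith)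
    have e1 : B.d n ^ (y / 64 - 2 * εH) = B.d n ^ (-εH) * B.d n ^ (y / 64 + (0 - εH)) := by
      rw [← rpow_add']; congr 1; ring
    rw [e1]
    have e2 : (G n).rel k i l 7 = ((G n).rel k i l 7 - μ n * (G n).rel k i l 9) +
        μ n * (G n).rel k i l 9 := by ring
    rw [e2]
    refine (abs_add_le _ _).trans (le_trans ?_ (mul_le_mul_of_nonneg_right h2 (hpow _).le))
    linarith
  have h7 := (Real.rpow_le_rpow_left_iff_of_base_lt_one (B.pos n) (B.lt n)).1 h6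
  rw [C.hV.eq _ _ _ _ _ _ hyI hyI h0I hyI h0I hδI, C.hV.eq _ _ _ _ _ _ hyI hyI h64 hyI h0I hδI,
    C.hV.β0] at h7
  linarith

end

end Crest.Agent.R136.Xd272
end

-- ▼ part R136/Xd12_272

/-!
# R136: **the crossed window, case (D)** (helper272)
-/

set_option autoImplicit false
set_option linter.unusedVariables false
set_option linter.unusedSectionVars false

open Finset Filter Topology

namespace Crest.Agent.R136.Xd272

open Crest.Agent.R138.Ex926 (Base U)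
open Crest.Agent.R138.TwA501 (ev_const_mul)
open Crest.Agent.R136.Gf356
open Crest.Agent.R136.Prn779 (OneBox)

open Classical in
/-- the incidences over `Zs`, counted by slices -/
theorem sum_slice_le (G : RCfg (Fin 11)) (Zs : Finset ℕ) :
    ∑ k ∈ Zs, (G.slice k).card ≤ (G.I.filter fun q => q.2 ∈ Zs).card := by
  have h1 := card_eq_sum_card_fiberwise (s := G.I.filter fun q => q.2 ∈ Zs) (t := Zs)
    (f := Prod.snd) (fun q hq => (mem_filter.1 hq).2)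
  rw [h1]
  refine sum_le_sum fun k hk => ?_
  refine card_le_card_of_injOn (fun i => (i, k)) ?_ ?_
  · intro i hi
    have := (RCfg.mem_slice.1 hi).2
    exact mem_filter.2 ⟨mem_filter.2 ⟨this, hk⟩, rfl⟩
  · intro i _ i' _ h
    exact congrArg Prod.fst h

variable {B : Base} {G : ℕ → RCfg (Fin 11)} {Leg : Set (Fin 11 → ℝ)} {ν : (Fin 11 → ℝ) → ℝ}
  {σ R D x K : ℝ} {pb : Fin 11 → ℝ} {e fa fb : ℕ → ℕ → ℝ} {R0 a m : ℝ} {α β : ℝ → ℝ → ℝ}
  {Zs : ℕ → Finset ℕ} {μ : ℕ → ℝ} {y c δ g εH ε : ℝ}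

open Classical in
set_option maxHeartbeats 1000000 in
/-- the contradiction from the set-up -/
theorem Cr.false (C : Cr B G Leg ν σ R D x K pb e fa fb R0 a m α β Zs μ y c δ g εH ε)
    (hyR : y ≤ R) {h : ℝ}
    (hdens : ∀ ε : ℝ, 0 < ε → ∀ᶠ n in (U : Filter ℕ),
      B.d n ^ (h + ε) * ((G n).Z.card : ℝ) ≤ ((Zs n).card : ℝ))
    (hfr : h + ε < σ * (y / 64))
    (hα : g * y + δ * y / 4 + δ * y / 8 < α 0 (y / 64))
    (hm : g * y + δ * y / 4 + δ * y / 8 < m * (y / 4))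
    (hβ : g * y + 2 * (δ * y / 4) < β 0 (y / 64))
    (hheavy : ∀ᶠ n in (U : Filter ℕ), 2 * ((((G n).I.filter fun q => q.2 ∈ Zs n).filter fun q =>
        ¬ B.d n ^ (-ν (bxD pb y y 0 y 0 ((1 - δ) * y)) + g * y) ≤
          lev (G n) (bxD pb y y 0 y 0 ((1 - δ) * y)) εH (B.d n ^ ((1 - δ) * y)) (dnL G μ n)
            q.1 q.2).card : ℝ) ≤ (((G n).I.filter fun q => q.2 ∈ Zs n).card : ℝ)) : False := by
  obtain ⟨hD, hδy, s1, s2, s3, s4, s5, s6, s7, s8, s9⟩ := C.small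
  have hy := C.y0
  have hK := C.hW.K1
  have hε := C.ε0
  have hε1 : 0 < ε / 8 := by positivity
  have key : ∀ᶠ n in (U : Filter ℕ), False := by
    filter_upwards [hheavy, C.hH.slice (ε / 8) hε1, hdens (ε / 8) hε1,
      frostT C.hH (K := 1) (y := y / 64) (by linarith) (by linarith) hε1,
      C.case_A hα, C.case_B1 hm, C.case_C hβ, C.aff (D ^ 5 * ε) s5, C.hW.mot,
      ev_const_mul B 16 (show 2 * (ε / 8) < σ * (y / 64) - ε / 8 - (h + ε / 8) by linarith),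
      ev_const_mul B 8 (show 2 * (ε / 8) < ε by linarith),
      ev_const_mul B (2 * K) (show 5 / 32 * y < y - D ^ 5 * ε by linarith)]
      with n hhv hsl hdens hfrn hA hB hC haff hmot h16 h8 h2K
    have hpow : ∀ t : ℝ, 0 < B.d n ^ t := fun t => rpos B n t
    obtain ⟨⟨i1, k1⟩, hI1⟩ := C.hH.nonempty n
    have hLne : (G n).L.Nonempty := ⟨i1, C.hH.memL hI1⟩
    have hZne : (G n).Z.Nonempty := ⟨k1, C.hH.memZ hI1⟩
    have hZc : (0 : ℝ) < (G n).Z.card := by exact_mod_cast hZne.card_pos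
    have hLc : (0 : ℝ) < (G n).L.card := by exact_mod_cast hLne.card_pos
    have hZsc : (0 : ℝ) < (Zs n).card := (mul_pos (hpow _) hZc).trans_le hdens
    have hZsne : (Zs n).Nonempty := by
      rw [← Finset.card_pos]
      exact_mod_cast hZsc
    have e2 : B.d n ^ (2 * (ε / 8)) = B.d n ^ (ε / 8) * B.d n ^ (ε / 8) := by
      rw [← rpow_add']; congr 1; ring
    -- heavy incidences
    have hJc : B.d n ^ (ε / 8) / 2 * (((G n).L.card : ℝ) * (Zs n).card) ≤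
        ((((G n).I.filter fun q => q.2 ∈ Zs n).filter fun q =>
          Hv B G ν pb μ y δ g εH n q.1 q.2).card : ℝ) := by
      have a1 : ((((G n).I.filter fun q => q.2 ∈ Zs n).filter fun q =>
          Hv B G ν pb μ y δ g εH n q.1 q.2).card : ℝ) +
          ((((G n).I.filter fun q => q.2 ∈ Zs n).filter fun q =>
          ¬ Hv B G ν pb μ y δ g εH n q.1 q.2).card : ℝ) =
          (((G n).I.filter fun q => q.2 ∈ Zs n).card : ℝ) := by
        have := card_filter_add_card_filter_not (s := (G n).I.filter fun q => q.2 ∈ Zs n)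
          (fun q => Hv B G ν pb μ y δ g εH n q.1 q.2)
        exact_mod_cast this
      have a2 : 2 * ((((G n).I.filter fun q => q.2 ∈ Zs n).filter fun q =>
          ¬ Hv B G ν pb μ y δ g εH n q.1 q.2).card : ℝ) ≤
          (((G n).I.filter fun q => q.2 ∈ Zs n).card : ℝ) := hhv
      have a3 : B.d n ^ (ε / 8) * ((G n).L.card : ℝ) * (Zs n).card ≤
          (((G n).I.filter fun q => q.2 ∈ Zs n).card : ℝ) := by
        have b1 : ((∑ k ∈ Zs n, ((G n).slice k).card : ℕ) : ℝ) ≤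
            (((G n).I.filter fun q => q.2 ∈ Zs n).card : ℝ) := by
          exact_mod_cast sum_slice_le (G n) (Zs n)
        refine le_trans ?_ b1
        push_cast
        calc B.d n ^ (ε / 8) * ((G n).L.card : ℝ) * (Zs n).card =
            ∑ k ∈ Zs n, B.d n ^ (ε / 8) * ((G n).L.card : ℝ) := by
              rw [sum_const, nsmul_eq_mul]; ring
          _ ≤ _ := sum_le_sum fun k hk => hsl k (C.sub n hk)
      linarith
    have hfar := far_pair (G n).L (Zs n) (((G n).I.filter fun q => q.2 ∈ Zs n).filter fun q =>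
          Hv B G ν pb μ y δ g εH n q.1 q.2) (G n).z (θ := B.d n ^ (ε / 8) / 2)
      (s := B.d n ^ (y / 64)) (by have := hpow (ε / 8); positivity) hLne hZsne (by
        intro q hq
        obtain ⟨b1, b2⟩ := mem_filter.1 (mem_filter.1 hq).1
        exact mem_product.2 ⟨C.hH.memL b1, b2⟩) hJc (by
        intro k hk
        have b1 := hfrn k (C.sub n hk) ((Zs n).filter fun k' =>
          |(G n).z k' - (G n).z k| ≤ B.d n ^ (y / 64))
          (fun k' hk' => C.sub n (mem_filter.1 hk').1)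
          (fun k' hk' => by rw [one_mul]; exact (mem_filter.1 hk').2)
        refine b1.trans ?_
        have b2 : ((G n).Z.card : ℝ) ≤ B.d n ^ (-(h + ε / 8)) * (Zs n).card := by
          have h6 : B.d n ^ (-(h + ε / 8)) * B.d n ^ (h + ε / 8) = 1 := by
            rw [← rpow_add']; simp
          calc ((G n).Z.card : ℝ) =
              B.d n ^ (-(h + ε / 8)) * (B.d n ^ (h + ε / 8) * (G n).Z.card) := by
                rw [← mul_assoc, h6, one_mul]
            _ ≤ _ := mul_le_mul_of_nonneg_left hdens (hpow _).le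
        calc B.d n ^ (σ * (y / 64) - ε / 8) * ((G n).Z.card : ℝ)
            ≤ B.d n ^ (σ * (y / 64) - ε / 8) * (B.d n ^ (-(h + ε / 8)) * (Zs n).card) :=
              mul_le_mul_of_nonneg_left b2 (hpow _).le
          _ = B.d n ^ (σ * (y / 64) - ε / 8 - (h + ε / 8)) * (Zs n).card := by
              rw [← mul_assoc, ← rpow_add']; congr 2
          _ ≤ _ := by
              refine mul_le_mul_of_nonneg_right ?_ (Nat.cast_nonneg _)
              have e3 : (B.d n ^ (ε / 8) / 2) ^ 2 / 4 = B.d n ^ (2 * (ε / 8)) / 16 := by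
                rw [e2]; ring
              rw [e3]
              linarith)
    obtain ⟨k, hk, k', hk', hu, hWc⟩ := hfar
    set W := (G n).L.filter fun i => (i, k) ∈ (((G n).I.filter fun q => q.2 ∈ Zs n).filter
      fun q => Hv B G ν pb μ y δ g εH n q.1 q.2) ∧ (i, k') ∈ (((G n).I.filter fun q =>
        q.2 ∈ Zs n).filter fun q => Hv B G ν pb μ y δ g εH n q.1 q.2) with hWdef
    have hWk : ∀ i ∈ W, (i, k) ∈ (G n).I ∧ Hv B G ν pb μ y δ g εH n i k := fun i hi => by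
      have b1 := (mem_filter.1 hi).2.1
      exact ⟨(mem_filter.1 (mem_filter.1 b1).1).1, (mem_filter.1 b1).2⟩
    have hWk' : ∀ i ∈ W, (i, k') ∈ (G n).I ∧ Hv B G ν pb μ y δ g εH n i k' := fun i hi => by
      have b1 := (mem_filter.1 hi).2.2
      exact ⟨(mem_filter.1 (mem_filter.1 b1).1).1, (mem_filter.1 b1).2⟩
    have hWs : W ⊆ (G n).slice k := fun i hi => C.hH.toRUnif.memSlice.2 (hWk i hi).1
    have hWs' : W ⊆ (G n).slice k' := fun i hi => C.hH.toRUnif.memSlice.2 (hWk' i hi).1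
    have hWL : B.d n ^ ε * ((G n).L.card : ℝ) ≤ (W.card : ℝ) := by
      refine le_trans ?_ hWc
      refine mul_le_mul_of_nonneg_right ?_ hLc.le
      have e3 : (B.d n ^ (ε / 8) / 2) ^ 2 / 2 = B.d n ^ (2 * (ε / 8)) / 8 := by
        rw [e2]; ring
      rw [e3]
      linarith
    have hWne : W.Nonempty := by
      rw [← Finset.card_pos]
      have : (0 : ℝ) < (W.card : ℝ) := (mul_pos (hpow _) hLc).trans_le hWL
      exact_mod_cast this
    have hdk : ∀ k0, B.d n ^ ε * (((G n).slice k0).card : ℝ) ≤ (W.card : ℝ) := by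
      intro k0
      refine le_trans (mul_le_mul_of_nonneg_left ?_ (hpow _).le) hWL
      exact_mod_cast card_le_card (filter_subset _ _)
    rcases le_total (|μ n|) (B.d n ^ (y / 64)) with hμ | hμ
    · obtain ⟨i, hi⟩ := hWne
      exact hC hμ i k (hWk i hi).1 (hWk i hi).2
    rcases le_total (|e n k' - e n k|) (B.d n ^ (y / 8)) with hδe | hδe
    · exact hA hμ k hk k' hk' hu.le hδe W hWs hWs' hWne (fun i hi => (hWk' i hi).2) (hdk k)
    obtain ⟨m1, m2, m3, m4⟩ := hmot k (C.sub n hk) k' (C.sub n hk')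
    have hor := lam_B (u := (G n).z k' - (G n).z k) (δ := e n k' - e n k)
      (b := fb n k' - fb n k) (μ := μ n) (a := fa n k' - fa n k + e n k * (fb n k' - fb n k))
      (a' := fa n k - fa n k' + e n k' * (fb n k - fb n k')) (t := B.d n ^ (5 / 32 * y))
      (haff k hk k' hk') m2 (by ring) (by
        have e3 : B.d n ^ (5 / 32 * y) = B.d n ^ (y / 64) * B.d n ^ (y / 64) * B.d n ^ (y / 8) := by
          rw [← rpow_add', ← rpow_add']; congr 1; ring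
        rw [e3]
        refine mul_le_mul (mul_le_mul hμ hu.le (hpow _).le (abs_nonneg _)) hδe (hpow _).le
          (by positivity)) h2K
    rcases hor with h3 | h3
    · exact hB k hk k' hk' h3 W hWs hWs' hWne (fun i hi => (hWk' i hi).2) (hdk k)
    · refine hB k' hk' k hk ?_ W hWs' hWs hWne (fun i hi => (hWk i hi).2) (hdk k')
      have e3 : μ n * (e n k - e n k') * ((G n).z k - (G n).z k') -
          (fa n k - fa n k' + e n k' * (fb n k - fb n k')) =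
          μ n * (e n k' - e n k) * ((G n).z k' - (G n).z k) -
          (fa n k - fa n k' + e n k' * (fb n k - fb n k')) := by ring
      rw [e3]
      exact h3
  obtain ⟨n, hn⟩ := key.exists
  exact hn

/-- **the crossed window (κ₃₂ = 1)** -/
theorem crossed (H : RModel B G σ R Leg ν D) (hW : LinWin B G x K pb e fa fb)
    (hν : SplitD Leg ν pb R0 a m α β) (hx : 0 < x) (hxR : x ≤ R) (hxR0 : x ≤ R0) {γ s : ℝ}
    (hγ : 0 < γ) (hγm : γ ≤ m) (hα : ∀ t, 0 ≤ t → t ≤ R0 → γ * t ≤ α 0 t)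
    (hβ : ∀ t, 0 ≤ t → t ≤ R0 → γ * t ≤ β 0 t) (ha : 0 ≤ a) (has : a < s)
    (hs : ∀ t, 0 ≤ t → t ≤ R0 → s * t ≤ β t t) : σ ≤ a := by
  by_contra hcon
  rw [not_le] at hcon
  have hσ1 := H.σ_le
  have hσ0 : 0 < σ := ha.trans_lt hcon
  have hD := H.D1
  have hD0 : 0 < D := by linarith
  obtain ⟨γ', hγ'0, hγ'1, hγ'γ⟩ : ∃ γ' : ℝ, 0 < γ' ∧ γ' ≤ 1 ∧ γ' ≤ γ :=
    ⟨min γ 1, lt_min hγ one_pos, min_le_right _ _, min_le_left _ _⟩
  obtain ⟨δ, hδ⟩ : ∃ δ : ℝ, δ = γ' / 2048 := ⟨_, rfl⟩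
  have hδ0 : 0 < δ := by rw [hδ]; positivity
  have hδ1 : δ ≤ 1 / 2048 := by rw [hδ]; linarith
  have hsa : 0 < σ - a := sub_pos.2 hcon
  have hsa1 : σ - a ≤ 1 := by linarith
  obtain ⟨η, hη⟩ : ∃ η : ℝ, η = (σ - a) * (σ * δ) / 16 := ⟨_, rfl⟩
  have hσδ : 0 < σ * δ := mul_pos hσ0 hδ0
  have hη0 : 0 < η := by
    rw [hη]
    have := mul_pos hsa hσδ
    linarith
  have hσδ1 : σ * δ ≤ δ := mul_le_of_le_one_left hδ0.le hσ1
  have hη1 : η ≤ σ * δ / 16 := by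
    rw [hη]
    have := mul_le_of_le_one_left hσδ.le hsa1
    linarith
  have hη2 : η < (σ - a) * δ / 8 := by
    rw [hη]
    have h1 : (σ - a) * (σ * δ) ≤ (σ - a) * δ := mul_le_mul_of_nonneg_left hσδ1 hsa.le
    have h2 : 0 < (σ - a) * δ := mul_pos hsa hδ0
    linarith
  have hησ : 2 * η ≤ σ := by
    have : σ * δ ≤ σ * (1 / 2048) := mul_le_mul_of_nonneg_left hδ1 hσ0.le
    linarith
  obtain ⟨y, μ, Zs, hy, hyx, S⟩ := strip_L H hW hν hx hxR hxR0 ha hcon has hs hη0 hησ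
  have hyR : y ≤ R := hyx.trans hxR
  have hyR0 : y ≤ R0 := hyx.trans hxR0
  have hδy : 0 < δ * y := mul_pos hδ0 hy
  have hA0 : 0 < D ^ 6 + D ^ 2 + 1 := by positivity
  have hA1 : 0 < D ^ 6 + 3 := by positivity
  have hA2 : 1 ≤ D ^ 6 := one_le_pow₀ hD
  obtain ⟨εH, hεH⟩ : ∃ εH : ℝ, εH = δ * y / 4 / (D ^ 6 + D ^ 2 + 1) := ⟨_, rfl⟩
  obtain ⟨ε, hε⟩ : ∃ ε : ℝ, ε = σ * δ * y / 256 / (D ^ 6 + 3) := ⟨_, rfl⟩
  have hεH0 : 0 < εH := by rw [hεH]; positivity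
  have hε0 : 0 < ε := by rw [hε]; positivity
  have hε1 : (D ^ 6 + 3) * ε = σ * δ * y / 256 := by rw [hε]; field_simp
  have hσδy : σ * δ * y ≤ δ * y := mul_le_mul_of_nonneg_right hσδ1 hy.le
  have hc : 3 * η / σ ≤ δ / 4 := by
    rw [div_le_iff₀ hσ0]
    linarith
  have C : Cr B G Leg ν σ R D x K pb e fa fb R0 a m α β Zs μ y (3 * η / σ) δ (2 * δ) εH ε :=
    { hH := H
      hW := hW
      hV := hν
      sub := S.sub
      mu := S.mu
      aff := S.aff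
      y0 := hy
      yx := hyx
      yR0 := hyR0
      c0 := by positivity
      cδ := hc
      δ0 := hδ0
      δ1 := hδ1
      g0 := by linarith
      εH0 := hεH0
      εH1 := by
        rw [hεH]
        refine le_of_eq ?_
        field_simp
      ε0 := hε0
      ε1 := by rw [hε1]; linarith }
  have h64 : 0 ≤ y / 64 := by linarith
  have h64R : y / 64 ≤ R0 := by linarith
  have hγy : δ * y = γ' * y / 2048 := by rw [hδ]; ring
  have hγ'y : γ' * (y / 64) ≤ γ * (y / 64) := mul_le_mul_of_nonneg_right hγ'γ h64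
  refine C.false hyR (h := η * y) S.dens ?_ ?_ ?_ ?_
    (heavy_L H hW hν S hy hyx hyR hyR0 (by positivity) ha hcon hδ0 (by linarith) ?_ ?_ hεH0)
  · -- Frostman
    have h1 : η * y ≤ σ * δ / 16 * y := mul_le_mul_of_nonneg_right hη1 hy.le
    have h2 : ε ≤ (D ^ 6 + 3) * ε := le_mul_of_one_le_left hε0.le (by linarith)
    rw [hε1] at h2
    have h3 : σ * y * δ ≤ σ * y * (1 / 2048) :=
      mul_le_mul_of_nonneg_left hδ1 (mul_pos hσ0 hy).le
    have h4 : 0 < σ * y := mul_pos hσ0 hy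
    have e1 : σ * δ / 16 * y = σ * y * δ / 16 := by ring
    have e2 : σ * δ * y / 256 = σ * y * δ / 256 := by ring
    have e3 : σ * (y / 64) = σ * y / 64 := by ring
    rw [e1] at h1
    rw [e2] at h2
    rw [e3]
    linarith
  · have h1 := hα _ h64 h64R
    have h2 : 0 < γ' * y := mul_pos hγ'0 hy
    have e1 : 2 * δ * y = 2 * (δ * y) := by ring
    rw [e1, hγy]
    linarith
  · have h1 : γ' * (y / 4) ≤ m * (y / 4) :=
      mul_le_mul_of_nonneg_right (hγ'γ.trans hγm) (by linarith)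
    have h2 : 0 < γ' * y := mul_pos hγ'0 hy
    have e1 : 2 * δ * y = 2 * (δ * y) := by ring
    rw [e1, hγy]
    linarith
  · have h1 := hβ _ h64 h64R
    have h2 : 0 < γ' * y := mul_pos hγ'0 hy
    have e1 : 2 * δ * y = 2 * (δ * y) := by ring
    rw [e1, hγy]
    linarith
  · have h1 : η * y < (σ - a) * δ / 8 * y := mul_lt_mul_of_pos_right hη2 hy
    have e1 : (σ - a) * δ / 8 * y = (σ - a) * δ * y / 8 := by ring
    rwa [e1] at h1
  · refine mul_lt_mul_of_pos_right ?_ hy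
    have h1 : a * δ ≤ 1 * δ := mul_le_mul_of_nonneg_right (by linarith) hδ0.le
    linarith

end Crest.Agent.R136.Xd272
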